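import Crest.Agent.R276.PVt_159
import Crest.Agent.R276.Ann_696

/-!
# Row 276, part D1 (helper159): `B` is log-psh on the total space, given slices

`lpsh_B`: `T` a Riemann domain, `f : T → M` continuous, `u i : T → ℂ` continuous; if every disc of
`T` in a chart is, on every smaller disc, a section of a family `Dsc L r` lying over `f`, then
`y ↦ L.B (f y) (u · y)` is log-psh.
-/

set_option autoImplicit false
set_option linter.unusedSectionVars false

noncomputable section

open Set Filter Topology Complex MeasureTheory Metric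
open scoped ENNReal ComplexConjugate Matrix Real ComplexOrder

namespace Crest.Agent.R276.PV_159

open Crest.Agent.R271 Crest.Agent.R271.Ho51
open Crest.Agent.R276
open Crest.Agent.R276.EngU_29 (LPsh)
open Crest.Agent.R276.LN_999 (LN)
open Crest.Agent.R273.Reg_844 (ush LocB)

variable {M Y : Type*} [TopologicalSpace M] [MeasurableSpace Y] {s N : ℕ} {L : LN M Y s N}

/-- integrability of usc locally bounded functions along curves -/
lemma int_usc {T : Type*} [TopologicalSpace T] {u : T → ℝ} (hu : UpperSemicontinuous u)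
    (hL : LocB u) {g : ℂ → T} {r1 r2 : ℝ} (hg : ContinuousOn g (closedBall 0 r2)) :
    IntegrableOn (fun t => u (g t)) (Ann r1 r2) ∧ ∃ K : ℝ, ∀ t ∈ Ann r1 r2, |u (g t)| ≤ K := by
  let _ : MeasurableSpace T := borel T
  have _ : BorelSpace T := ⟨rfl⟩
  obtain ⟨K, hK⟩ := hL.exists_bound ((isCompact_closedBall (0 : ℂ) r2).image_of_continuousOn hg)
  have hK' : ∀ t ∈ Ann r1 r2, |u (g t)| ≤ K := fun t ht =>
    hK _ (mem_image_of_mem _ (Ann_sub r1 r2 ht))
  refine ⟨?_, K, hK'⟩
  have hAm : MeasurableSet (Ann r1 r2) := measurableSet_Ann r1 r2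
  have h1 : AEMeasurable g (volume.restrict (Ann r1 r2)) :=
    (hg.mono (Ann_sub r1 r2)).aemeasurable hAm
  have h2 : AEStronglyMeasurable (fun t => u (g t)) (volume.restrict (Ann r1 r2)) :=
    (hu.measurable.comp_aemeasurable h1).aestronglyMeasurable
  refine IntegrableOn.of_bound (vol_Ann_lt r1 r2) h2 K ?_
  filter_upwards [ae_restrict_mem hAm] with t ht
  rw [Real.norm_eq_abs]
  exact hK' t ht

/-- **`B` is log-psh on the total space** -/
theorem lpsh_B {n : ℕ} {T : Type} [TopologicalSpace T] [RDom n T] (hN : 2 ≤ N) (hs : 0 < s)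
    {f : T → M} (hf : Continuous f) {u : Fin s → T → ℂ} (hu : ∀ i, Continuous (u i))
    (hsl : ∀ e : OpenPartialHomeomorph T (Fin n → ℂ), IsCh e → ∀ (z v : Fin n → ℂ) (R : ℝ), 1 < R →
      (∀ t : ℂ, ‖t‖ < R → z + t • v ∈ e.target) → ∀ r, 0 < r → r < R →
      ∃ (X : Dsc L r) (σ : Sec X.D) (C : ℝ),
        (∀ t, ‖t‖ < r → ∀ i, L.Phi (X.x t) (Pi.single i 1) ≤ C) ∧
        (∀ t, ‖t‖ < r → X.x t = f (e.symm (z + t • v))) ∧
        (∀ t, ‖t‖ < r → ∀ i, X.u i (σ.x t) = u i (e.symm (z + t • v)))) :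
    LPsh (fun y => L.B (f y) (fun i => u i y)) := by
  set b : T → ℝ := fun y => L.B (f y) (fun i => u i y) with hb
  have hbc : Continuous b := (LNb_333.B_cont L hN hs).comp (hf.prodMk (continuous_pi hu))
  have hb0 : ∀ y, 0 ≤ b y := fun y => LNb_333.B_nonneg L _ _
  have hush : ush b = b := by
    funext x
    refine le_antisymm (Crest.Agent.R273.Reg_844.ush_le_of_le hbc.upperSemicontinuous
      (fun _ => le_rfl) x) ?_
    have hLb : LocB b := fun y => ⟨|b y| + 1, by
      have := hbc.abs.continuousAt.eventually (gt_mem_nhds (show |b y| < |b y| + 1 by linarith))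
      exact this.mono fun _ h => h.le⟩
    exact hLb.le_ush x
  rw [← hush]
  refine Ann_696.lpsh_ush hb0 (fun x => ⟨b x + 1, ?_⟩) ?_
  · have := hbc.continuousAt.eventually (gt_mem_nhds (show b x < b x + 1 by linarith))
    exact this.mono fun _ h => h.le
  intro e he z v R hR hdisc w husc hL hle r1 r2 hr1 hr hrR
  set r : ℝ := (r2 + R) / 2 with hrd
  have hr2r : r2 < r := by rw [hrd]; linarith
  have hrR' : r < R := by rw [hrd]; linarith
  have hr0 : 0 < r := by linarith
  obtain ⟨X, σ, C, hC, hx, hxu⟩ := hsl e he z v R hR hdisc r hr0 hrR'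
  set g : ℂ → T := fun t => e.symm (z + t • v) with hg
  have hgc : ContinuousOn g (closedBall 0 r2) := by
    refine e.continuousOn_symm.comp (by fun_prop) fun t ht => hdisc t ?_
    have : ‖t‖ ≤ r2 := by simpa using ht
    linarith
  set κ : ℂ → ℝ := fun t => if ‖t‖ < r then Real.exp (w (g t)) else 1 with hκd
  have hκ : ∀ t, 0 < κ t := by
    intro t
    simp only [hκd]
    split_ifs
    · exact Real.exp_pos _
    · exact one_pos
  have hlog : ∀ t ∈ Ann r1 r2, Real.log (κ t) = w (g t) := by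
    intro t ht
    simp only [hκd]
    rw [if_pos (ht.2.trans hr2r), Real.log_exp]
  obtain ⟨hint, K, hK⟩ := int_usc husc hL (r1 := r1) hgc
  have hAm : MeasurableSet (Ann r1 r2) := measurableSet_Ann r1 r2
  have h1 := X.subB hN hC σ κ hκ (fun t ht => by
    have h2 : (fun i => X.u i (σ.x t)) = fun i => u i (g t) := funext (hxu t ht)
    rw [h2, hx t ht]
    simp only [hκd]
    rw [if_pos ht]
    exact hle (g t)) hr1 hr hr2r (hint.congr_fun (fun t ht => (hlog t ht).symm) hAm)
    (c0 := -K) (fun t ht => by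
      rw [hlog t ht]
      exact (abs_le.1 (hK t ht)).1)
  have h0 : ‖(0 : ℂ)‖ < r := by rwa [norm_zero]
  have h2 : (fun i => X.u i (σ.x 0)) = fun i => u i (g 0) := funext (hxu 0 h0)
  have h3 : ⨍ t in Ann r1 r2, Real.log (κ t) = ⨍ t in Ann r1 r2, w (g t) := by
    rw [setAverage_eq, setAverage_eq, setIntegral_congr_fun hAm hlog]
  rw [h2, hx 0 h0, h3] at h1
  have h4 : e.symm (z + (0 : ℂ) • v) = e.symm z := by rw [zero_smul, add_zero]
  rw [h4] at h1
  have h5 : g 0 = e.symm z := h4
  rw [h5] at h1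
  exact h1

end Crest.Agent.R276.PV_159
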