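import Crest.Agent.R276.PVu_159
import Crest.Agent.R276.LNx_333
import Crest.Agent.R276.LNz_333

/-!
# Row 276, part D1 (helper159): PVH and PVG of LEMMA N from slices

`Slc S` : over every lifted disc of the base there is a family `Dsc (lnF S) ρ`.
-/

set_option autoImplicit false
set_option linter.unusedSectionVars false

noncomputable section

open Set Filter Topology Complex MeasureTheory Metric
open scoped ENNReal ComplexConjugate Matrix ComplexOrder

namespace Crest.Agent.R276.PV_159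

open Crest.Agent.R271 Crest.Agent.R271.Ho51
open Crest.Agent.R276
open Crest.Agent.R276.EngU_29 (LPsh)
open Crest.Agent.R276.LN_999 (LN)
open Crest.Agent.R276.PshB_29 (HolMap)
open Crest.Agent.R276.FlatDefs_236 (SatFam)
open Crest.Agent.R276.LNf_333 (lnF)
open Crest.Agent.R276.Mod1_987

variable {L K : Type} [Field L] [Field K] [Algebra ℂ L] [Algebra ℂ K] [Algebra L K]
  [IsScalarTower ℂ L K] {m r : ℕ} {R : RMdl L K m r} {N s : ℕ} {u : Fin s → R.MK.B}

/-- slices over lifted discs -/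
def Slc (S : SatFam R N u) : Prop :=
  ∀ (c : ℂ → R.ML.Pts) (z0 v : Fin m → ℂ) (ρ : ℝ), 0 < ρ → ContinuousOn c (ball 0 ρ) →
    (∀ l : ℂ, ‖l‖ < ρ → cp (c l) = z0 + l • v) →
    ∃ X : Dsc (lnF S) ρ, X.x = c ∧ ∃ pj : X.D.P → R.MK.Pts, HolMap pj ∧
      (∀ p, R.q (pj p) = c (tc p)) ∧
      (∀ i p, X.u i p = (pj p : R.MK.B →ₐ[ℂ] ℂ) (u i)) ∧
      ∀ g : ℂ → R.MK.Pts, ContinuousOn g (ball 0 ρ) → (∀ l : ℂ, ‖l‖ < ρ → R.q (g l) = c l) →
        DifferentiableOn ℂ (fun l => (cp (g l) : Fin (m + r) → ℂ)) (ball 0 ρ) →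
        ∃ σ : Sec X.D, ∀ l : ℂ, ‖l‖ < ρ → pj (σ.x l) = g l

variable {S : SatFam R N u}

/-- `B` is log-psh on `MK` -/
theorem lpsh_BK (h : Slc S) :
    LPsh (fun y : R.MK.Pts => (lnF S).B (R.q y) (fun i => (y : R.MK.B →ₐ[ℂ] ℂ) (u i))) := by
  have hN := LNf_333.two_le S
  have hcont : ∀ b : R.MK.B, Continuous fun y : R.MK.Pts => (y : R.MK.B →ₐ[ℂ] ℂ) b := fun b =>
    T7a297.Hol.continuous (Mod1_987.Mdl.hol51_ev R.MK b)
  refine lpsh_B hN S.s_pos (f := R.q) (u := fun i y => (y : R.MK.B →ₐ[ℂ] ℂ) (u i))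
    R.continuous_q (fun i => hcont (u i)) ?_
  intro e he z v ρ hρ hdisc ρ' hρ' hρρ
  set g : ℂ → R.MK.Pts := fun l => e.symm (z + l • v) with hg
  have hgc : ContinuousOn g (ball 0 ρ) := by
    refine e.continuousOn_symm.comp (by fun_prop) fun t ht => hdisc t ?_
    rwa [mem_ball_zero_iff] at ht
  have hgcp : ∀ l : ℂ, ‖l‖ < ρ → (cp (g l) : Fin (m + r) → ℂ) = z + l • v := fun l hl =>
    he.cp_symm (hdisc l hl)
  have hcc : ContinuousOn (fun l => R.q (g l)) (ball 0 ρ) := R.continuous_q.comp_continuousOn hgc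
  have hsub : ball (0 : ℂ) ρ' ⊆ ball 0 ρ := ball_subset_ball hρρ.le
  obtain ⟨X, hX, pj, hpj, hq, hu, hsec⟩ := h (fun l => R.q (g l))
    (fun i => z (Fin.castAdd r i)) (fun i => v (Fin.castAdd r i)) ρ' hρ' (hcc.mono hsub)
    (fun l hl => by
      funext i
      have h1 := R.pz_q (g l) i
      have h2 := congrFun (hgcp l (hl.trans hρρ)) (Fin.castAdd r i)
      exact h1.trans h2)
  obtain ⟨σ, hσ⟩ := hsec g (hgc.mono hsub) (fun l _ => rfl) (by
    have h1 : DifferentiableOn ℂ (fun l : ℂ => z + l • v) (ball 0 ρ') := by fun_prop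
    refine h1.congr fun l hl => hgcp l ?_
    rw [mem_ball_zero_iff] at hl
    exact hl.trans hρρ)
  obtain ⟨C, hC⟩ := LNx_333.bdF S hcc hρρ
  refine ⟨X, σ, C, ?_, ?_, ?_⟩
  · intro t ht i
    rw [hX]
    exact hC t ht i
  · intro t _
    rw [hX]
  · intro t ht i
    rw [hu, hσ t ht]

theorem pvh (h : Slc S) : LNz_333.PVH S := by
  intro x v ρ hρ hD
  have hN := LNf_333.two_le S
  obtain ⟨X, hX, pj, hpj, hq, hu, -⟩ := h (Liou_739.ln x v) (cp x) v ρ (by linarith)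
    (LNg_999.dk_cont hD.dk) (fun l hl => (isCh_ch x).cp_symm (hD l (by rwa [mem_ball_zero_iff])))
  have hB : LPsh (fun p : X.D.P => (lnF S).B (X.x (tc p)) (fun i => X.u i p)) := by
    have h1 := EngU_29.LPsh.comp_hol hpj (lpsh_BK h)
    have h2 : (fun p : X.D.P => (lnF S).B (X.x (tc p)) (fun i => X.u i p)) =
        fun p => (lnF S).B (R.q (pj p)) (fun i => (pj p : R.MK.B →ₐ[ℂ] ℂ) (u i)) := by
      funext p
      rw [hq p, hX]
      congr 1
      funext i
      exact hu i p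
    rw [h2]
    exact h1
  have h3 := (X.metH hN S.s_pos hB).pv hρ.le
  rw [X.metH_G, hX] at h3
  exact h3

theorem pvg (h : Slc S) : LNz_333.PVG S := by
  intro x v ρ hρ hD k w hw hsp
  have hN := LNf_333.two_le S
  obtain ⟨X, hX, -⟩ := h (Liou_739.ln x v) (cp x) v ρ (by linarith)
    (LNg_999.dk_cont hD.dk) (fun l hl => (isCh_ch x).cp_symm (hD l (by rwa [mem_ball_zero_iff])))
  have h3 : Fdc_999.PV (fun t => (lnF S).G (X.x t) (w t)) :=
    (X.metG hN w hw (fun t ht => hsp t (by rwa [mem_ball_zero_iff]))).pv hρ.le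
  rw [hX] at h3
  exact h3

end Crest.Agent.R276.PV_159
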