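import Crest.Agent.R276.PVd_159
import Crest.Agent.R271.Montel_868

/-!
# Row 276, W2 (helper748), part a: functions holomorphic on a fibre `{tc = l}` of a Riemann domain,
fibre products, weights.
-/

set_option autoImplicit false
set_option linter.unusedSectionVars false

noncomputable section

open Set Filter Topology Complex MeasureTheory Metric
open scoped ENNReal

namespace Crest.Agent.R276.P_748

open Crest.Agent.R271 Crest.Agent.R271.Ho51 Crest.Agent.R271.W792 Crest.Agent.R276.PV_159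

/-! ### functions holomorphic on one fibre -/

section fh

variable {a : ℕ} {P : Type} [TopologicalSpace P] [RDom (a + 1) P]

/-- `f` is holomorphic on the fibre `{tc = l}` -/
def FH1 (l : ℂ) (f : P → ℂ) : Prop :=
  ∀ y : P, tc y = l → DifferentiableAt ℂ
    (fun u : Fin a → ℂ => f ((ch y).symm (Fin.cons l u))) (Fin.tail (cp y))

lemma cons_tail {y : P} {l : ℂ} (h : tc y = l) :
    (Fin.cons l (Fin.tail (cp y)) : Fin (a + 1) → ℂ) = cp y := by
  rw [← h]
  exact Fin.cons_self_tail (cp y)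

lemma cont_cons (l : ℂ) : Continuous fun u : Fin a → ℂ => (Fin.cons l u : Fin (a + 1) → ℂ) := by
  refine continuous_pi fun i => ?_
  refine Fin.cases ?_ (fun j => ?_) i
  · simp only [Fin.cons_zero]; exact continuous_const
  · simp only [Fin.cons_succ]; exact continuous_apply j

lemma diff_cons (l : ℂ) : Differentiable ℂ fun u : Fin a → ℂ => (Fin.cons l u : Fin (a + 1) → ℂ) := by
  rw [differentiable_pi]
  intro i
  refine Fin.cases ?_ (fun j => ?_) i
  · simp only [Fin.cons_zero]; exact differentiable_const l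
  · simp only [Fin.cons_succ]; exact differentiable_apply j

lemma germ_cons {e e' : OpenPartialHomeomorph P (Fin (a + 1) → ℂ)} (he : IsCh e) (he' : IsCh e')
    {y : P} (hy : y ∈ e.source) (hy' : y ∈ e'.source) {l : ℂ} (hl : tc y = l) (f : P → ℂ) :
    (fun u : Fin a → ℂ => f (e.symm (Fin.cons l u))) =ᶠ[𝓝 (Fin.tail (cp y))]
      fun u => f (e'.symm (Fin.cons l u)) := by
  have h1 := he.germ he' hy hy'
  have h2 : Tendsto (fun u : Fin a → ℂ => (Fin.cons l u : Fin (a + 1) → ℂ)) (𝓝 (Fin.tail (cp y)))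
      (𝓝 (cp y)) := by
    have := (cont_cons l).tendsto (Fin.tail (cp y))
    rwa [cons_tail hl] at this
  filter_upwards [h2.eventually h1] with u hu
  rw [hu]

lemma FH1.at {l : ℂ} {f : P → ℂ} (hf : FH1 l f) {e : OpenPartialHomeomorph P (Fin (a + 1) → ℂ)}
    (he : IsCh e) {y : P} (hy : y ∈ e.source) (hl : tc y = l) :
    DifferentiableAt ℂ (fun u : Fin a → ℂ => f (e.symm (Fin.cons l u))) (Fin.tail (cp y)) :=
  (hf y hl).congr_of_eventuallyEq (germ_cons he (isCh_ch y) hy (mem_ch y) hl f)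

lemma FH1.of_at {l : ℂ} {f : P → ℂ} (h : ∀ y : P, tc y = l →
    ∃ e : OpenPartialHomeomorph P (Fin (a + 1) → ℂ), IsCh e ∧ y ∈ e.source ∧
      DifferentiableAt ℂ (fun u : Fin a → ℂ => f (e.symm (Fin.cons l u))) (Fin.tail (cp y))) :
    FH1 l f := by
  intro y hl
  obtain ⟨e, he, hy, hd⟩ := h y hl
  exact hd.congr_of_eventuallyEq (germ_cons (isCh_ch y) he (mem_ch y) hy hl f)

lemma FH1.diffOn {l : ℂ} {f : P → ℂ} (hf : FH1 l f)
    {e : OpenPartialHomeomorph P (Fin (a + 1) → ℂ)} (he : IsCh e) :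
    DifferentiableOn ℂ (fun u : Fin a → ℂ => f (e.symm (Fin.cons l u)))
      {u | (Fin.cons l u : Fin (a + 1) → ℂ) ∈ e.target} := by
  intro u hu
  have h1 : cp (e.symm (Fin.cons l u)) = (Fin.cons l u : Fin (a + 1) → ℂ) := he.cp_symm hu
  have h2 : tc (e.symm (Fin.cons l u)) = l := by
    unfold tc
    rw [h1]; rfl
  have h3 := hf.at he (e.map_target hu) h2
  rw [h1, Fin.tail_cons] at h3
  exact h3.differentiableWithinAt

lemma FH1.congr {l : ℂ} {f g : P → ℂ} (hf : FH1 l f) (h : ∀ y, tc y = l → g y = f y) :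
    FH1 l g := by
  intro y hl
  refine (hf y hl).congr_of_eventuallyEq ?_
  have h2 : ∀ᶠ u : Fin a → ℂ in 𝓝 (Fin.tail (cp y)),
      (Fin.cons l u : Fin (a + 1) → ℂ) ∈ (ch y).target := by
    refine (cont_cons l).continuousAt.eventually_mem ?_
    rw [cons_tail hl]
    exact (ch y).open_target.mem_nhds ((isCh_ch y).cp_mem (mem_ch y))
  filter_upwards [h2] with u hu
  apply h
  unfold tc
  rw [(isCh_ch y).cp_symm hu]; rfl

lemma FH1.mul {l : ℂ} {f g : P → ℂ} (hf : FH1 l f) (hg : FH1 l g) :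
    FH1 l (fun y => f y * g y) := fun y hl => (hf y hl).mul (hg y hl)

lemma FH1.const_mul {l : ℂ} {f : P → ℂ} (c : ℂ) (hf : FH1 l f) :
    FH1 l (fun y => c * f y) := fun y hl => (hf y hl).const_mul c

lemma FH1.of_hol {l : ℂ} {f : P → ℂ} (hf : Ho51.Hol f) : FH1 l f := by
  intro y hl
  have h1 : DifferentiableAt ℂ (f ∘ (ch y).symm) (Fin.cons l (Fin.tail (cp y))) := by
    rw [cons_tail hl]
    exact (hf _ (isCh_ch y)).differentiableAt
      ((ch y).open_target.mem_nhds ((isCh_ch y).cp_mem (mem_ch y)))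
  exact h1.comp _ (diff_cons l _)

lemma FH1.continuousOn {l : ℂ} {f : P → ℂ} (hf : FH1 l f) : ContinuousOn f {y | tc y = l} := by
  intro y hl
  have hl' : tc y = l := hl
  have h1 : ContinuousAt (fun y' : P => (fun u : Fin a → ℂ => f ((ch y).symm (Fin.cons l u)))
      (Fin.tail (cp y'))) y := by
    refine ContinuousAt.comp (g := fun u : Fin a → ℂ => f ((ch y).symm (Fin.cons l u)))
      (hf y hl').continuousAt ?_
    have : Continuous fun y' : P => (Fin.tail (cp y') : Fin a → ℂ) :=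
      continuous_pi fun j => (continuous_apply j.succ).comp cp_cont
    exact this.continuousAt
  refine (h1.continuousWithinAt).congr_of_eventuallyEq ?_ ?_
  · have h2 : ∀ᶠ y' in 𝓝[{y | tc y = l}] y, y' ∈ (ch y).source :=
      mem_nhdsWithin_of_mem_nhds ((ch y).open_source.mem_nhds (mem_ch y))
    filter_upwards [h2, self_mem_nhdsWithin] with y' hy' hl''
    have h3 : tc y' = l := hl''
    rw [cons_tail h3, (isCh_ch y).symm_cp hy']
  · show f y = f ((ch y).symm (Fin.cons l (Fin.tail (cp y))))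
    rw [cons_tail hl', (isCh_ch y).symm_cp (mem_ch y)]

lemma isClosed_fib (l : ℂ) : IsClosed {y : P | tc y = l} :=
  isClosed_eq cont_tc continuous_const

variable [MeasurableSpace P] [BorelSpace P]

lemma FH1.measurable {l : ℂ} {f : P → ℂ} (hf : FH1 l f) :
    Measurable ({y : P | tc y = l}.indicator f) := by
  classical
  rw [← Set.piecewise_eq_indicator]
  exact ContinuousOn.measurable_piecewise hf.continuousOn continuousOn_const
    (isClosed_fib l).measurableSet

/-- fibre integrals, constants -/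
lemma fi_const_mul' [SecondCountableTopology P] {g : P → ℝ≥0∞} (hg : Measurable g) (t : ℂ)
    (k : ℝ≥0∞) : fi (fun y => k * g y) t = k * fi g t := by
  have hm : Measurable fun x : Fin a → ℂ => fsum g (Fin.cons t x) :=
    (measurable_cons (measurable_fsum hg)).comp (measurable_const.prodMk measurable_id)
  unfold fi
  rw [← lintegral_const_mul k hm]
  refine lintegral_congr fun x => ?_
  unfold fsum
  rw [ENNReal.tsum_mul_left]

end fh

/-! ### bounded below -/

lemma exists_lb {X : Type} [TopologicalSpace X] {ρ : X → ℝ} (hc : Continuous ρ)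
    (hk : ∀ c : ℝ, IsCompact {x | ρ x ≤ c}) : ∃ m : ℝ, ∀ x, m ≤ ρ x := by
  rcases isEmpty_or_nonempty X with h | ⟨⟨x0⟩⟩
  · exact ⟨0, fun x => (h.false x).elim⟩
  · obtain ⟨y, -, hy⟩ := (hk (ρ x0)).exists_isMinOn ⟨x0, le_refl (ρ x0)⟩ hc.continuousOn
    refine ⟨ρ y, fun x => ?_⟩
    rcases le_total (ρ x) (ρ x0) with h | h
    · exact hy h
    · exact (hy (le_refl (ρ x0) : x0 ∈ {x | ρ x ≤ ρ x0})).trans h

section fp

variable {a b : ℕ} {M N : Type} [TopologicalSpace M] [TopologicalSpace N]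
  [RDom (a + 1) M] [RDom (b + 1) N]

lemma isClosedEmbedding_fp [T2Space M] [T2Space N] :
    IsClosedEmbedding (Subtype.val : FP M N → M × N) := by
  refine IsClosed.isClosedEmbedding_subtypeVal ?_
  refine isClosed_eq ?_ ?_
  · exact (continuous_apply 0).comp (cp_cont.comp continuous_fst)
  · exact (continuous_apply 0).comp (cp_cont.comp continuous_snd)

lemma fp_cpt [T2Space M] [T2Space N] {ρ : M → ℝ} {σ : N → ℝ} (hρ : Continuous ρ)
    (hσ : Continuous σ) (h1 : ∀ c : ℝ, IsCompact {x | ρ x ≤ c})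
    (h2 : ∀ c : ℝ, IsCompact {x | σ x ≤ c}) (c : ℝ) :
    IsCompact {p : FP M N | ρ p.fst + σ p.snd ≤ c} := by
  obtain ⟨m1, hm1⟩ := exists_lb hρ h1
  obtain ⟨m2, hm2⟩ := exists_lb hσ h2
  have h3 : IsCompact ((Subtype.val : FP M N → M × N) ⁻¹'
      ({x | ρ x ≤ c - m2} ×ˢ {y | σ y ≤ c - m1})) :=
    isClosedEmbedding_fp.isCompact_preimage ((h1 _).prod (h2 _))
  refine h3.of_isClosed_subset ?_ ?_
  · exact isClosed_le ((hρ.comp FP.cont_fst).add (hσ.comp FP.cont_snd)) continuous_const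
  · intro (p : FP M N) hp
    have hp' : ρ p.fst + σ p.snd ≤ c := hp
    refine ⟨?_, ?_⟩
    · show ρ p.fst ≤ c - m2
      have := hm2 p.snd
      linarith
    · show σ p.snd ≤ c - m1
      have := hm1 p.fst
      linarith

lemma nsq_L (w : Fin (a + b + 1) → ℂ) : nsq w ≤ nsq (L1 a b w) + nsq (L2 a b w) := by
  unfold nsq
  rw [Fin.sum_univ_succ, Fin.sum_univ_add, Fin.sum_univ_succ, Fin.sum_univ_succ]
  simp only [L1_zero, L2_zero, L1_succ, L2_succ]
  have : 0 ≤ ‖w 0‖ ^ 2 := by positivity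
  linarith

lemma lev_fp {ρ : M → ℝ} {σ : N → ℝ} (hρ : Sm ρ) (hσ : Sm σ) (p : FP M N)
    (w : Fin (a + b + 1) → ℂ) : lev (fun p : FP M N => ρ p.fst + σ p.snd) p w =
      lev ρ p.fst (L1 a b w) + lev σ p.snd (L2 a b w) := by
  rw [lev_add (FP.mor_fst.sm hρ) (FP.mor_snd.sm hσ), FP.mor_fst.lev_eq hρ, FP.mor_snd.lev_eq hσ]

lemma sm_fp {ρ : M → ℝ} {σ : N → ℝ} (hρ : Sm ρ) (hσ : Sm σ) :
    Sm (fun p : FP M N => ρ p.fst + σ p.snd) := (FP.mor_fst.sm hρ).add (FP.mor_snd.sm hσ)

/-! ### fibre-holomorphic functions on the fibre product -/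

lemma tc_fst (p : FP M N) : tc p.fst = tc p := rfl
lemma tc_snd (p : FP M N) : tc p.snd = tc p := p.cond.symm

lemma tail_fst (p : FP M N) : (Fin.tail (cp p.fst) : Fin a → ℂ) =
    fun i => Fin.tail (cp p) (Fin.castAdd b i) := by
  funext i
  have h : L1 a b (cp p) = cp p.fst := FP.L1_crd p
  simp only [Fin.tail, ← h, L1_succ]

lemma tail_snd (p : FP M N) : (Fin.tail (cp p.snd) : Fin b → ℂ) =
    fun i => Fin.tail (cp p) (Fin.natAdd a i) := by
  funext i
  have h : L2 a b (cp p) = cp p.snd := FP.L2_crd p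
  simp only [Fin.tail, ← h, L2_succ]

lemma L1_cons (l : ℂ) (u : Fin (a + b) → ℂ) :
    L1 a b (Fin.cons l u) = (Fin.cons l (fun i => u (Fin.castAdd b i)) : Fin (a + 1) → ℂ) := by
  funext i
  refine Fin.cases ?_ (fun j => ?_) i
  · rfl
  · simp

lemma L2_cons (l : ℂ) (u : Fin (a + b) → ℂ) :
    L2 a b (Fin.cons l u) = (Fin.cons l (fun i => u (Fin.natAdd a i)) : Fin (b + 1) → ℂ) := by
  funext i
  refine Fin.cases ?_ (fun j => ?_) i
  · rfl
  · simp

lemma chart_symm_fst {e : OpenPartialHomeomorph M (Fin (a + 1) → ℂ)}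
    {d : OpenPartialHomeomorph N (Fin (b + 1) → ℂ)} (he : IsCh e) (hd : IsCh d) (p0 : FP M N)
    {z : Fin (a + b + 1) → ℂ} (h : L1 a b z ∈ e.target ∧ L2 a b z ∈ d.target) :
    (FP.chart e d he hd p0).symm z =
      FP.mk' (e.symm (L1 a b z)) (d.symm (L2 a b z)) (FP.compat he hd h) := dif_pos h

lemma mem_chart (p : FP M N) (l : ℂ) (hl : tc p = l) : ∀ᶠ u : Fin (a + b) → ℂ in
    𝓝 (Fin.tail (cp p)), L1 a b (Fin.cons l u) ∈ (ch p.fst).target ∧
      L2 a b (Fin.cons l u) ∈ (ch p.snd).target := by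
  have h1 : Tendsto (fun u : Fin (a + b) → ℂ => (Fin.cons l u : Fin (a + b + 1) → ℂ))
      (𝓝 (Fin.tail (cp p))) (𝓝 (cp p)) := by
    have := (cont_cons l).tendsto (Fin.tail (cp p))
    rwa [cons_tail hl] at this
  have h2 := (FP.chart (ch p.fst) (ch p.snd) (isCh_ch _) (isCh_ch _) p).open_target.mem_nhds
    ((FP.isCh_chart (isCh_ch _) (isCh_ch _) p).cp_mem
      (show p ∈ (FP.chart (ch p.fst) (ch p.snd) (isCh_ch _) (isCh_ch _) p).source from
        ⟨mem_ch _, mem_ch _⟩))
  exact h1.eventually h2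

lemma FH1.fst {l : ℂ} {f : M → ℂ} (hf : FH1 l f) : FH1 l (fun p : FP M N => f p.fst) := by
  refine FH1.of_at fun p hl => ⟨FP.chart (ch p.fst) (ch p.snd) (isCh_ch _) (isCh_ch _) p,
    FP.isCh_chart _ _ p, ⟨mem_ch _, mem_ch _⟩, ?_⟩
  have h1 : DifferentiableAt ℂ (fun u : Fin (a + b) → ℂ =>
      (fun v : Fin a → ℂ => f ((ch p.fst).symm (Fin.cons l v))) (fun i => u (Fin.castAdd b i)))
      (Fin.tail (cp p)) := by
    refine DifferentiableAt.comp (g := fun v : Fin a → ℂ => f ((ch p.fst).symm (Fin.cons l v)))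
      (Fin.tail (cp p)) ?_ ?_
    · have := hf p.fst ((tc_fst p).trans hl)
      rw [tail_fst p] at this
      exact this
    · exact differentiableAt_pi.2 fun i => differentiableAt_apply _ _
  refine h1.congr_of_eventuallyEq ?_
  filter_upwards [mem_chart p l hl] with u hu
  rw [chart_symm_fst (isCh_ch _) (isCh_ch _) p hu]
  show f ((ch p.fst).symm (L1 a b (Fin.cons l u))) = _
  rw [L1_cons]

lemma FH1.snd {l : ℂ} {f : N → ℂ} (hf : FH1 l f) : FH1 l (fun p : FP M N => f p.snd) := by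
  refine FH1.of_at fun p hl => ⟨FP.chart (ch p.fst) (ch p.snd) (isCh_ch _) (isCh_ch _) p,
    FP.isCh_chart _ _ p, ⟨mem_ch _, mem_ch _⟩, ?_⟩
  have h1 : DifferentiableAt ℂ (fun u : Fin (a + b) → ℂ =>
      (fun v : Fin b → ℂ => f ((ch p.snd).symm (Fin.cons l v))) (fun i => u (Fin.natAdd a i)))
      (Fin.tail (cp p)) := by
    refine DifferentiableAt.comp (g := fun v : Fin b → ℂ => f ((ch p.snd).symm (Fin.cons l v)))
      (Fin.tail (cp p)) ?_ ?_
    · have := hf p.snd ((tc_snd p).trans hl)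
      rw [tail_snd p] at this
      exact this
    · exact differentiableAt_pi.2 fun i => differentiableAt_apply _ _
  refine h1.congr_of_eventuallyEq ?_
  filter_upwards [mem_chart p l hl] with u hu
  rw [chart_symm_fst (isCh_ch _) (isCh_ch _) p hu]
  show f ((ch p.snd).symm (L2 a b (Fin.cons l u))) = _
  rw [L2_cons]

lemma cp_mk' (x : M) (y : N) (h : (cp x : Fin (a + 1) → ℂ) 0 = (cp y : Fin (b + 1) → ℂ) 0) :
    (Fin.tail (cp (FP.mk' x y h)) : Fin (a + b) → ℂ) =
      Fin.append (Fin.tail (cp x)) (Fin.tail (cp y)) := rfl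

lemma diff_append_left (v : Fin b → ℂ) :
    Differentiable ℂ fun u : Fin a → ℂ => (Fin.append u v : Fin (a + b) → ℂ) := by
  rw [differentiable_pi]
  intro i
  refine Fin.addCases (fun j => ?_) (fun j => ?_) i
  · simp only [Fin.append_left]; exact differentiable_apply j
  · simp only [Fin.append_right]; exact differentiable_const _

lemma diff_append_right (u : Fin a → ℂ) :
    Differentiable ℂ fun v : Fin b → ℂ => (Fin.append u v : Fin (a + b) → ℂ) := by
  rw [differentiable_pi]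
  intro i
  refine Fin.addCases (fun j => ?_) (fun j => ?_) i
  · simp only [Fin.append_left]; exact differentiable_const _
  · simp only [Fin.append_right]; exact differentiable_apply j

lemma L1_ca (l : ℂ) (u : Fin a → ℂ) (v : Fin b → ℂ) :
    L1 a b (Fin.cons l (Fin.append u v)) = (Fin.cons l u : Fin (a + 1) → ℂ) := by
  rw [L1_cons]; simp

lemma L2_ca (l : ℂ) (u : Fin a → ℂ) (v : Fin b → ℂ) :
    L2 a b (Fin.cons l (Fin.append u v)) = (Fin.cons l v : Fin (b + 1) → ℂ) := by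
  rw [L2_cons]; simp

lemma ev_target {y : M} {l : ℂ} (hl : tc y = l) : ∀ᶠ u : Fin a → ℂ in 𝓝 (Fin.tail (cp y)),
    (Fin.cons l u : Fin (a + 1) → ℂ) ∈ (ch y).target := by
  refine (cont_cons l).continuousAt.eventually_mem ?_
  rw [cons_tail hl]
  exact (ch y).open_target.mem_nhds ((isCh_ch y).cp_mem (mem_ch y))

/-- restriction to the first factor -/
lemma FH1.ext2_left {l : ℂ} {f : FP M N → ℂ} (hf : FH1 l f) {y : N} (hy : tc y = l) :
    FH1 l (fun x => ext2 f x y) := by
  intro x hx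
  have hc : (cp x : Fin (a + 1) → ℂ) 0 = (cp y : Fin (b + 1) → ℂ) 0 := hx.trans hy.symm
  set p : FP M N := FP.mk' x y hc with hp
  have hpl : tc p = l := hx
  have hch := FP.isCh_chart (isCh_ch p.fst) (isCh_ch p.snd) p
  have h1 := hf.at hch (show p ∈ (FP.chart (ch p.fst) (ch p.snd) (isCh_ch _) (isCh_ch _) p).source
    from ⟨mem_ch _, mem_ch _⟩) hpl
  have h2 : DifferentiableAt ℂ (fun u : Fin a → ℂ =>
      (fun v : Fin (a + b) → ℂ => f ((FP.chart (ch p.fst) (ch p.snd) (isCh_ch _) (isCh_ch _) p).symm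
        (Fin.cons l v))) (Fin.append u (Fin.tail (cp y)))) (Fin.tail (cp x)) := by
    refine DifferentiableAt.comp (g := fun v : Fin (a + b) → ℂ =>
      f ((FP.chart (ch p.fst) (ch p.snd) (isCh_ch _) (isCh_ch _) p).symm
        (Fin.cons l v))) (Fin.tail (cp x)) ?_ (diff_append_left _ _)
    rw [← cp_mk' x y hc]
    exact h1
  refine h2.congr_of_eventuallyEq ?_
  filter_upwards [ev_target hx] with u hu
  have hyt : (Fin.cons l (Fin.tail (cp y)) : Fin (b + 1) → ℂ) = cp y := cons_tail hy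
  have h3 : L1 a b (Fin.cons l (Fin.append u (Fin.tail (cp y)))) ∈ (ch p.fst).target ∧
      L2 a b (Fin.cons l (Fin.append u (Fin.tail (cp y)))) ∈ (ch p.snd).target := by
    rw [L1_ca, L2_ca, hyt]
    exact ⟨hu, (isCh_ch y).cp_mem (mem_ch y)⟩
  have h4 : (cp ((ch x).symm (Fin.cons l u)) : Fin (a + 1) → ℂ) 0 =
      (cp y : Fin (b + 1) → ℂ) 0 := by
    rw [(isCh_ch x).cp_symm hu]
    exact hy.symm
  rw [ext2_of f h4, chart_symm_fst (isCh_ch _) (isCh_ch _) p h3]
  congr 1
  apply FP.ext'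
  · show (ch x).symm (Fin.cons l u) = (ch x).symm _
    rw [L1_ca]
  · show y = (ch y).symm _
    rw [L2_ca, hyt, (isCh_ch y).symm_cp (mem_ch y)]

/-- restriction to the second factor -/
lemma FH1.ext2_right {l : ℂ} {f : FP M N → ℂ} (hf : FH1 l f) {x : M} (hx : tc x = l) :
    FH1 l (fun y => ext2 f x y) := by
  intro y hy
  have hc : (cp x : Fin (a + 1) → ℂ) 0 = (cp y : Fin (b + 1) → ℂ) 0 := hx.trans hy.symm
  set p : FP M N := FP.mk' x y hc with hp
  have hpl : tc p = l := hx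
  have hch := FP.isCh_chart (isCh_ch p.fst) (isCh_ch p.snd) p
  have h1 := hf.at hch (show p ∈ (FP.chart (ch p.fst) (ch p.snd) (isCh_ch _) (isCh_ch _) p).source
    from ⟨mem_ch _, mem_ch _⟩) hpl
  have h2 : DifferentiableAt ℂ (fun u : Fin b → ℂ =>
      (fun v : Fin (a + b) → ℂ => f ((FP.chart (ch p.fst) (ch p.snd) (isCh_ch _) (isCh_ch _) p).symm
        (Fin.cons l v))) (Fin.append (Fin.tail (cp x)) u)) (Fin.tail (cp y)) := by
    refine DifferentiableAt.comp (g := fun v : Fin (a + b) → ℂ =>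
      f ((FP.chart (ch p.fst) (ch p.snd) (isCh_ch _) (isCh_ch _) p).symm
        (Fin.cons l v))) (Fin.tail (cp y)) ?_ (diff_append_right _ _)
    rw [← cp_mk' x y hc]
    exact h1
  refine h2.congr_of_eventuallyEq ?_
  filter_upwards [ev_target hy] with u hu
  have hxt : (Fin.cons l (Fin.tail (cp x)) : Fin (a + 1) → ℂ) = cp x := cons_tail hx
  have h3 : L1 a b (Fin.cons l (Fin.append (Fin.tail (cp x)) u)) ∈ (ch p.fst).target ∧
      L2 a b (Fin.cons l (Fin.append (Fin.tail (cp x)) u)) ∈ (ch p.snd).target := by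
    rw [L1_ca, L2_ca, hxt]
    exact ⟨(isCh_ch x).cp_mem (mem_ch x), hu⟩
  have h4 : (cp x : Fin (a + 1) → ℂ) 0 =
      (cp ((ch y).symm (Fin.cons l u)) : Fin (b + 1) → ℂ) 0 := by
    rw [(isCh_ch y).cp_symm hu]
    exact hx
  rw [ext2_of f h4, chart_symm_fst (isCh_ch _) (isCh_ch _) p h3]
  congr 1
  apply FP.ext'
  · show x = (ch x).symm _
    rw [L1_ca, hxt, (isCh_ch x).symm_cp (mem_ch x)]
  · show (ch y).symm (Fin.cons l u) = (ch y).symm _
    rw [L2_ca]

end fp

end Crest.Agent.R276.P_748
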