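import Crest.Agent.R276.FlagB_454
import Crest.Agent.R276.StepDefs_454
import Crest.Agent.R276.IpcBasic_735

/-!
# R276, IPC-STEP (helper454): PACK, part A: bases, transition matrices, forms
-/

set_option autoImplicit false

noncomputable section

open Set Filter Topology MeasureTheory Matrix
open scoped ContDiff
open Crest.Agent.R271.Ho51
open Crest.Agent.R276.Ipc735 Crest.Agent.R276.Lat_348 Crest.Agent.R276.Flag_454

namespace Crest.Agent.R276.Step_454

/-! ### conjugation of gradings -/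

section conj

variable {N n : ℕ} {S S' E : Matrix (Fin N) (Fin N) ℂ} {F : ℕ → Submodule ℂ (Fin N → ℂ)}
  {g g' : Matrix (Fin N) (Fin N) ℂ}

lemma sf_conj (hS : S = gᴴ * S' * g) (u v : Fin N → ℂ) :
    sf S' (g *ᵥ u) (g *ᵥ v) = sf S u v := by
  unfold sf
  rw [hS, star_mulVec, ← dotProduct_mulVec, mulVec_mulVec, mulVec_mulVec]

lemma isPrj_conj (h1 : g * g' = 1) (h2 : g' * g = 1) (hS : S = gᴴ * S' * g)
    {G : Submodule ℂ (Fin N → ℂ)} {J : Matrix (Fin N) (Fin N) ℂ} (hJ : IsPrj S G J) :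
    IsPrj S' (G.map (Matrix.toLin' g)) (g * J * g') where
  mem v := by
    rw [← mulVec_mulVec, ← mulVec_mulVec]
    exact ⟨J *ᵥ (g' *ᵥ v), hJ.mem _, by simp⟩
  fix := by
    rintro _ ⟨v, hv, rfl⟩
    rw [Matrix.toLin'_apply, mulVec_mulVec]
    have : g * J * g' * g = g * J := by rw [Matrix.mul_assoc, h2, Matrix.mul_one]
    rw [this, ← mulVec_mulVec, hJ.fix v hv]
  adj := by
    have h3 : S' = g'ᴴ * S * g' := by
      rw [hS]
      have : g'ᴴ * (gᴴ * S' * g) * g' = (g * g')ᴴ * S' * (g * g') := by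
        rw [conjTranspose_mul]; simp only [Matrix.mul_assoc]
      rw [this, h1]; simp
    have h4 : (g' * g) = 1 := h2
    calc S' * (g * J * g') = g'ᴴ * S * (g' * g) * J * g' := by
          rw [h3]; simp only [Matrix.mul_assoc]
      _ = g'ᴴ * (S * J) * g' := by rw [h4, Matrix.mul_one]; simp only [Matrix.mul_assoc]
      _ = g'ᴴ * Jᴴ * S * g' := by rw [hJ.adj]; simp only [Matrix.mul_assoc]
      _ = g'ᴴ * Jᴴ * (g' * g)ᴴ * S * g' := by rw [h4]; simp
      _ = (g * J * g')ᴴ * S' := by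
          rw [h3]
          simp only [conjTranspose_mul, Matrix.mul_assoc]

lemma isGr_conj (h1 : g * g' = 1) (h2 : g' * g = 1) (hS : S = gᴴ * S' * g)
    (hE : IsGr n S F E) : IsGr n S' (fun p => (F p).map (Matrix.toLin' g)) (g * E * g') := by
  obtain ⟨J, hJ, rfl⟩ := hE
  refine ⟨fun p => g * J p * g', fun p => isPrj_conj h1 h2 hS (hJ p), ?_⟩
  rw [Finset.mul_sum, Finset.sum_mul]

end conj

namespace HFam

variable {m n : ℕ} {S : Type} [TopologicalSpace S] [RDom m S] (H : HFam m S n)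

lemma inv_near (z : S) : ∃ U ∈ 𝓝 z, ∀ s ∈ U, ∀ s' ∈ U, ∀ v, H.τ s s' (H.τ s' s v) = v := by
  obtain ⟨U, hU, h⟩ := H.coc z
  exact ⟨U, hU, fun s hs s' hs' v => by rw [h s hs s' hs' s hs, H.idt]⟩

instance (s : S) : FiniteDimensional ℂ (H.W s) := (H.lat s).finiteDimensional

lemma finrank_near (z : S) : ∃ U ∈ 𝓝 z, ∀ s ∈ U,
    Module.finrank ℂ (H.W s) = Module.finrank ℂ (H.W z) := by
  obtain ⟨U, hU, h⟩ := H.inv_near z
  refine ⟨U, hU, fun s hs => ?_⟩
  have hz := mem_of_mem_nhds hU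
  exact LinearEquiv.finrank_eq (LinearEquiv.ofLinearMap (H.τ z s) (H.τ s z)
    (LinearMap.ext fun v => h z hz s hs v) (LinearMap.ext fun v => h s hs z hz v))

lemma finrank_const [PreconnectedSpace S] (s s' : S) :
    Module.finrank ℂ (H.W s) = Module.finrank ℂ (H.W s') := by
  have : IsLocallyConstant (fun s => Module.finrank ℂ (H.W s)) := by
    rw [IsLocallyConstant.iff_eventually_eq]
    intro z
    obtain ⟨U, hU, h⟩ := H.finrank_near z
    exact Filter.eventually_of_mem hU fun s hs => h s hs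
  exact this.apply_eq_of_preconnectedSpace s s'

/-- lattice bases with a constant index set -/
lemma exists_bases [PreconnectedSpace S] : ∃ N : ℕ, ∀ s, ∃ b : Module.Basis (Fin N) ℂ (H.W s),
    H.L s = (Submodule.span ℤ (Set.range b)).toAddSubgroup := by
  by_cases hne : Nonempty S
  · obtain ⟨s₀⟩ := hne
    refine ⟨Module.finrank ℂ (H.W s₀), fun s => ?_⟩
    obtain ⟨N, b, hb⟩ := H.lat s
    have hN : N = Module.finrank ℂ (H.W s₀) := by
      rw [← H.finrank_const s s₀, Module.finrank_eq_card_basis b, Fintype.card_fin]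
    subst hN
    exact ⟨b, hb⟩
  · exact ⟨0, fun s => absurd ⟨s⟩ hne⟩

end HFam

/-- choice of lattice bases -/
structure Bas {m n : ℕ} {S : Type} [TopologicalSpace S] [RDom m S] (H : HFam m S n) where
  N : ℕ
  b : ∀ s, Module.Basis (Fin N) ℂ (H.W s)
  hb : ∀ s, H.L s = (Submodule.span ℤ (Set.range (b s))).toAddSubgroup

namespace HFam

variable {m n : ℕ} {S : Type} [TopologicalSpace S] [RDom m S] (H : HFam m S n)

lemma exists_bas [PreconnectedSpace S] : Nonempty (Bas H) := by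
  obtain ⟨N, h⟩ := H.exists_bases
  choose b hb using h
  exact ⟨⟨N, b, hb⟩⟩

end HFam

namespace Bas

variable {m n : ℕ} {S : Type} [TopologicalSpace S] [RDom m S] {H : HFam m S n} (D : Bas H)

/-- coordinates -/
def e (s : S) : H.W s ≃ₗ[ℂ] (Fin D.N → ℂ) := (D.b s).equivFun

/-- transition matrices -/
def T (s s' : S) : Matrix (Fin D.N) (Fin D.N) ℂ := LinearMap.toMatrix (D.b s') (D.b s) (H.τ s s')

lemma e_τ (s s' : S) (v : H.W s') : D.e s (H.τ s s' v) = D.T s s' *ᵥ D.e s' v := by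
  unfold e T
  simp only [Module.Basis.equivFun_apply]
  exact (LinearMap.toMatrix_mulVec_repr (D.b s') (D.b s) (H.τ s s') v).symm

lemma T_self (s : S) : D.T s s = 1 := by
  have : H.τ s s = LinearMap.id := LinearMap.ext (H.idt s)
  rw [T, this, LinearMap.toMatrix_id]

lemma T_mul (z : S) : ∃ U ∈ 𝓝 z, ∀ s ∈ U, ∀ s' ∈ U, ∀ s'' ∈ U,
    D.T s s' * D.T s' s'' = D.T s s'' := by
  obtain ⟨U, hU, h⟩ := H.coc z
  refine ⟨U, hU, fun s hs s' hs' s'' hs'' => ?_⟩
  unfold T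
  rw [← LinearMap.toMatrix_comp]
  congr 1
  exact LinearMap.ext fun v => h s hs s' hs' s'' hs'' v

lemma mem_L_iff (s : S) (v : H.W s) : v ∈ H.L s ↔ v ∈ Submodule.span ℤ (Set.range (D.b s)) := by
  rw [D.hb s]; rfl

lemma exists_GL (z : S) : ∃ U ∈ 𝓝 z, ∀ s ∈ U, ∀ s' ∈ U, ∃ g : GL (Fin D.N) ℤ,
    cm g = D.T s s' := by
  obtain ⟨U, hU, h⟩ := H.inv_near z
  obtain ⟨U', hU', h'⟩ := H.int z
  refine ⟨U ∩ U', inter_mem hU hU', fun s hs s' hs' => ?_⟩
  let eq : H.W s' ≃ₗ[ℂ] H.W s := LinearEquiv.ofLinearMap (H.τ s s') (H.τ s' s)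
    (LinearMap.ext fun v => h s hs.1 s' hs'.1 v) (LinearMap.ext fun v => h s' hs'.1 s hs.1 v)
  obtain ⟨g, hg, -⟩ := exists_GL_int (D.b s') (D.b s) eq (by
    intro l
    rw [← D.mem_L_iff, ← D.mem_L_iff]
    constructor
    · intro hl
      exact h' s hs.2 s' hs'.2 l hl
    · intro hl
      have h3 : H.τ s' s (H.τ s s' l) ∈ H.L s' := h' s' hs'.2 s hs.2 _ hl
      rwa [h s' hs'.1 s hs.1] at h3)
  exact ⟨g, hg.symm⟩

lemma cm_injective {N : ℕ} : Function.Injective (cm : GL (Fin N) ℤ → _) := by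
  intro g h hgh
  apply Units.ext
  ext i j
  have := congrFun (congrFun hgh i) j
  simpa [cm] using this

open Classical in
/-- the near-diagonal cocycle -/
def P (s s' : S) : GL (Fin D.N) ℤ := if h : ∃ g : GL (Fin D.N) ℤ, cm g = D.T s s' then h.choose else 1

lemma cm_P {s s' : S} (h : ∃ g : GL (Fin D.N) ℤ, cm g = D.T s s') : cm (D.P s s') = D.T s s' := by
  unfold P
  rw [dif_pos h]
  exact h.choose_spec

lemma cm_P_near (z : S) : ∃ U ∈ 𝓝 z, ∀ s ∈ U, ∀ s' ∈ U, cm (D.P s s') = D.T s s' := by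
  obtain ⟨U, hU, h⟩ := D.exists_GL z
  exact ⟨U, hU, fun s hs s' hs' => D.cm_P (h s hs s' hs')⟩

lemma ndc : NDC D.P := by
  intro z
  obtain ⟨U, hU, h⟩ := D.cm_P_near z
  obtain ⟨U', hU', h'⟩ := D.T_mul z
  refine ⟨U ∩ U', inter_mem hU hU', fun x hx y hy w hw => ?_⟩
  apply cm_injective
  rw [cm_mul, h x hx.1 y hy.1, h y hy.1 w hw.1, h x hx.1 w hw.1]
  exact h' x hx.2 y hy.2 w hw.2

lemma P_self (s : S) : D.P s s = 1 := by
  apply cm_injective
  rw [D.cm_P ⟨1, by rw [cm_one, D.T_self]⟩, D.T_self, cm_one]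

/-- Gram matrix -/
def Sm (s : S) : Matrix (Fin D.N) (Fin D.N) ℂ := Matrix.of fun i j => H.B s (D.b s i) (D.b s j)

lemma sf_e (s : S) (u v : H.W s) : sf (D.Sm s) (D.e s u) (D.e s v) = H.B s u v := by
  have hu : u = ∑ i, (D.e s u) i • D.b s i := ((D.b s).sum_equivFun u).symm
  have hv : v = ∑ i, (D.e s v) i • D.b s i := ((D.b s).sum_equivFun v).symm
  conv_rhs => rw [hu, hv]
  simp only [map_sum, LinearMap.sum_apply, map_smul, LinearMap.map_smulₛₗ, LinearMap.smul_apply,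
    sf, dotProduct, mulVec, Sm, Matrix.of_apply, Pi.star_apply, smul_eq_mul, Finset.mul_sum]
  rw [Finset.sum_comm]
  refine Finset.sum_congr rfl fun j _ => Finset.sum_congr rfl fun i _ => ?_
  show star (D.e s u i) * (H.B s (D.b s i) (D.b s j) * D.e s v j) =
    D.e s v j * (starRingEnd ℂ (D.e s u i) * H.B s (D.b s i) (D.b s j))
  rw [starRingEnd_apply]
  ring

lemma herm (s : S) : (D.Sm s).IsHermitian := by
  ext i j
  rw [conjTranspose_apply, Sm, Matrix.of_apply, Matrix.of_apply]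
  exact (H.herm s (D.b s j) (D.b s i)).symm

lemma T_form (z : S) : ∃ U ∈ 𝓝 z, ∀ s ∈ U, ∀ s' ∈ U,
    D.Sm s' = (D.T s s')ᴴ * D.Sm s * D.T s s' := by
  obtain ⟨U, hU, h⟩ := H.flat z
  refine ⟨U, hU, fun s hs s' hs' => ?_⟩
  have key : ∀ u v : Fin D.N → ℂ, sf (D.Sm s') u v =
      sf ((D.T s s')ᴴ * D.Sm s * D.T s s') u v := by
    intro u v
    obtain ⟨u, rfl⟩ := (D.e s').surjective u
    obtain ⟨v, rfl⟩ := (D.e s').surjective v
    rw [sf_e, ← sf_conj (S' := D.Sm s) (g := D.T s s') rfl, ← e_τ, ← e_τ, sf_e, h s hs s' hs']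
  ext i j
  have := key (Pi.single i 1) (Pi.single j 1)
  simpa [sf] using this

/-- the filtration in coordinates -/
def Fm (s : S) (p : ℕ) : Submodule ℂ (Fin D.N → ℂ) := (H.F s p).map (D.e s).toLinearMap

lemma mem_Fm {s : S} {p : ℕ} {v : H.W s} : D.e s v ∈ D.Fm s p ↔ v ∈ H.F s p := by
  unfold Fm
  constructor
  · rintro ⟨w, hw, hwv⟩
    have := (D.e s).injective hwv
    rwa [← this]
  · intro hv
    exact ⟨v, hv, rfl⟩

lemma isFl (s : S) : IsFl n (D.Sm s) (D.Fm s) where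
  herm := D.herm s
  top := by
    rw [Fm, H.top, Submodule.map_top, LinearEquiv.range]
  bot := by
    rw [Fm, H.bot, Submodule.map_bot]
  anti p := Submodule.map_mono (H.anti s p)
  pos p v hv h0 hne := by
    obtain ⟨v, hv, rfl⟩ := hv
    have h1 : sf (D.Sm s) ((D.e s).toLinearMap v) ((D.e s).toLinearMap v) = H.B s v v :=
      D.sf_e s v v
    rw [h1]
    refine H.pos s p v hv (fun u hu => ?_) ?_
    · rw [← D.sf_e]
      exact h0 _ ⟨u, hu, rfl⟩
    · rintro rfl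
      exact hne (map_zero _)

/-- the grading operator -/
def Em (s : S) : Matrix (Fin D.N) (Fin D.N) ℂ := (D.isFl s).exists_gr.choose

lemma isGr (s : S) : IsGr n (D.Sm s) (D.Fm s) (D.Em s) := (D.isFl s).exists_gr.choose_spec

end Bas

end Crest.Agent.R276.Step_454
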