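import Crest.Agent.R276.PackA_454

/-!
# R276, IPC-STEP (helper454): PACK, part B: the variation of Hodge structure of an `HFam`
-/

set_option autoImplicit false

noncomputable section

open Set Filter Topology MeasureTheory Matrix
open scoped ContDiff
open Crest.Agent.R271.Ho51
open Crest.Agent.R276.Ipc735 Crest.Agent.R276.Lat_348 Crest.Agent.R276.Flag_454
open Crest.Agent.R276.VCalc_442

namespace Crest.Agent.R276.Step_454

section conj

variable {N n : ℕ} {S S' E : Matrix (Fin N) (Fin N) ℂ} {F : ℕ → Submodule ℂ (Fin N → ℂ)}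
  {g g' : Matrix (Fin N) (Fin N) ℂ}

lemma isFl_conj (h1 : g * g' = 1) (hS : S = gᴴ * S' * g) (hS' : S'.IsHermitian)
    (hF : IsFl n S F) : IsFl n S' (fun p => (F p).map (Matrix.toLin' g)) where
  herm := hS'
  top := by
    rw [hF.top, Submodule.map_top, LinearMap.range_eq_top]
    intro v
    exact ⟨g' *ᵥ v, by rw [Matrix.toLin'_apply, mulVec_mulVec, h1, one_mulVec]⟩
  bot := by rw [hF.bot, Submodule.map_bot]
  anti p := Submodule.map_mono (hF.anti p)
  pos p v hv h0 hne := by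
    obtain ⟨v, hv, rfl⟩ := hv
    rw [Matrix.toLin'_apply] at h0 hne ⊢
    rw [sf_conj hS]
    refine hF.pos p v hv (fun u hu => ?_) ?_
    · rw [← sf_conj hS]
      exact h0 _ ⟨u, hu, by rw [Matrix.toLin'_apply]⟩
    · rintro rfl
      exact hne (mulVec_zero _)

end conj

section chart

variable {m : ℕ} {S : Type*} [TopologicalSpace S] [RDom m S]

/-- the inverse of the standard chart -/
lemma tendsto_symm (z : S) : Tendsto (ch z).symm (𝓝 (cp z)) (𝓝 z) := by
  have h1 : cp z ∈ (ch z).target := (isCh_ch z).cp_mem (mem_ch z)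
  have h2 := (ch z).symm.continuousAt (x := cp z) (by simpa using h1)
  have h3 : (ch z).symm (cp z) = z := (isCh_ch z).symm_cp (mem_ch z)
  have h4 : Tendsto (ch z).symm (𝓝 (cp z)) (𝓝 ((ch z).symm (cp z))) := h2
  rwa [h3] at h4

lemma symm_cp' (z : S) : (ch z).symm (cp z) = z := (isCh_ch z).symm_cp (mem_ch z)

lemma eventually_symm {p : S → Prop} {z : S} (h : ∀ᶠ s in 𝓝 z, p s) :
    ∀ᶠ x in 𝓝 (cp z), p ((ch z).symm x) := (tendsto_symm z).eventually h

lemma eventually_cp_symm (z : S) : ∀ᶠ x in 𝓝 (cp z), cp ((ch z).symm x) = x := by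
  have h1 : (ch z).target ∈ 𝓝 (cp z) := (ch z).open_target.mem_nhds ((isCh_ch z).cp_mem (mem_ch z))
  filter_upwards [h1] with x hx using (isCh_ch z).cp_symm hx

lemma eventually_symm_cp (z : S) : ∀ᶠ s in 𝓝 z, (ch z).symm (cp s) = s := by
  filter_upwards [(ch z).open_source.mem_nhds (mem_ch z)] with s hs using (isCh_ch z).symm_cp hs

lemma eventually_of_symm {p : S → Prop} {z : S} (h : ∀ᶠ x in 𝓝 (cp z), p ((ch z).symm x)) :
    ∀ᶠ s in 𝓝 z, p s := by
  have h1 : ∀ᶠ s in 𝓝 z, p ((ch z).symm (cp s)) := (cp_cont.continuousAt (x := z)).eventually h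
  filter_upwards [h1, eventually_symm_cp z] with s h2 h3
  rwa [h3] at h2

lemma mW_eq_dz {ι κ : Type*} (M : S → Matrix ι κ ℂ) (z : S) (j : Fin m) (i : ι) (k : κ) :
    mW (fun x => M ((ch z).symm x)) (Pi.single j 1) (cp z) i k = dz j (fun y => M y i k) z := by
  have h : (Complex.I • (Pi.single j 1 : Fin m → ℂ)) = Pi.single j Complex.I := by
    rw [← Pi.single_smul, smul_eq_mul, mul_one]
  simp only [mW, Matrix.of_apply, dW, dz, Crest.Agent.R271.Ho51.wz, D, h, smul_eq_mul]
  rfl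

lemma wz_of_complex {h : (Fin m → ℂ) → ℂ} {x : Fin m → ℂ} (hd : DifferentiableAt ℂ h x)
    (j : Fin m) : Crest.Agent.R271.Ho51.wz j (fderiv ℝ h x) = fderiv ℂ h x (Pi.single j 1) := by
  have h0 : (Pi.single j Complex.I : Fin m → ℂ) = Complex.I • Pi.single j 1 := by
    rw [← Pi.single_smul, smul_eq_mul, mul_one]
  have h1 : fderiv ℝ h x = (fderiv ℂ h x).restrictScalars ℝ :=
    (hd.hasFDerivAt.restrictScalars ℝ).fderiv
  rw [Crest.Agent.R271.Ho51.wz, h1, h0]
  simp only [ContinuousLinearMap.coe_restrictScalars', map_smul, smul_eq_mul]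
  rw [← mul_assoc, Complex.I_mul_I]
  ring

end chart

namespace Bas

variable {m n : ℕ} {S : Type} [TopologicalSpace S] [RDom m S] {H : HFam m S n} (D : Bas H)

/-- the filtration at `s` seen from `z` -/
def Fz (z s : S) (p : ℕ) : Submodule ℂ (Fin D.N → ℂ) :=
  ((H.F s p).map (H.τ z s)).map (D.e z).toLinearMap

lemma Fz_self (z : S) (p : ℕ) : D.Fz z z p = D.Fm z p := by
  have : H.τ z z = LinearMap.id := LinearMap.ext (H.idt z)
  rw [Fz, this, Submodule.map_id, Fm]

lemma map_Fm {z s : S} (h : cm (D.P z s) = D.T z s) (p : ℕ) :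
    (D.Fm s p).map (Matrix.toLin' (cm (D.P z s))) = D.Fz z s p := by
  unfold Fm Fz
  rw [← Submodule.map_comp, ← Submodule.map_comp]
  congr 1
  apply LinearMap.ext
  intro v
  simp only [LinearMap.comp_apply, LinearEquiv.coe_coe, Matrix.toLin'_apply]
  rw [h, e_τ]

lemma flatS (z : S) : ∀ᶠ y in 𝓝 z, D.Sm y = (cm (D.P z y))ᴴ * D.Sm z * cm (D.P z y) := by
  obtain ⟨U, hU, h⟩ := D.cm_P_near z
  obtain ⟨U', hU', h'⟩ := D.T_form z
  filter_upwards [inter_mem hU hU'] with y hy
  rw [h z (mem_of_mem_nhds hU) y hy.1]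
  exact h' z (mem_of_mem_nhds hU') y hy.2

lemma near (z : S) : ∀ᶠ s in 𝓝 z, IsFl n (D.Sm z) (D.Fz z s) ∧
    IsGr n (D.Sm z) (D.Fz z s) (lM D.P D.Em z s) := by
  obtain ⟨U, hU, h⟩ := D.cm_P_near z
  filter_upwards [D.flatS z, hU] with s hs hsU
  have hF : (fun p => (D.Fm s p).map (Matrix.toLin' (cm (D.P z s)))) = D.Fz z s :=
    funext fun p => D.map_Fm (h z (mem_of_mem_nhds hU) s hsU) p
  constructor
  · rw [← hF]
    exact isFl_conj (cm_mul_cm_inv _) hs (D.herm z) (D.isFl s)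
  · rw [← hF]
    exact isGr_conj (cm_mul_cm_inv _) (cm_inv_mul_cm _) hs (D.isGr s)

lemma hasFrame (z : S) (p : ℕ) : HasFrame (fun x => D.Fz z ((ch z).symm x) p) (cp z) := by
  obtain ⟨r, f, hf, hspan⟩ := H.hol z p
  refine ⟨r, fun x => Matrix.of fun i j => D.e z (f j ((ch z).symm x)) i, ?_, ?_⟩
  · intro i j
    exact hf j (LinearMap.proj i ∘ₗ (D.e z).toLinearMap)
  · filter_upwards [eventually_symm hspan] with x hx
    have key : ∀ c : Fin r → ℂ, (Matrix.of fun i j => D.e z (f j ((ch z).symm x)) i) *ᵥ c =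
        D.e z (∑ j, c j • f j ((ch z).symm x)) := by
      intro c
      ext i
      simp only [mulVec, dotProduct, Matrix.of_apply, map_sum, map_smul, Finset.sum_apply,
        Pi.smul_apply, smul_eq_mul]
      exact Finset.sum_congr rfl fun j _ => mul_comm _ _
    constructor
    · intro c hc
      rw [key] at hc
      have h1 : ∑ j, c j • f j ((ch z).symm x) = 0 := by
        apply (D.e z).injective
        rw [hc, map_zero]
      funext j
      exact Fintype.linearIndependent_iff.1 hx.1 c h1 j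
    · intro v
      rw [Fz, ← hx.2]
      constructor
      · rintro ⟨u, hu, rfl⟩
        obtain ⟨c, rfl⟩ := (Submodule.mem_span_range_iff_exists_fun ℂ).1 hu
        exact ⟨c, (key c).symm⟩
      · rintro ⟨c, rfl⟩
        rw [key]
        exact ⟨_, (Submodule.mem_span_range_iff_exists_fun ℂ).2 ⟨c, rfl⟩, rfl⟩

lemma transv (z : S) : Trans (fun x => D.Fz z ((ch z).symm x)) (cp z) := by
  intro p c hc hmem v
  -- the family with values in `W z`
  set c' : S → H.W z := fun s => (D.e z).symm (c (cp s)) with hc'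
  have hcomp : ∀ l : H.W z →ₗ[ℂ] ℂ, ((fun s => l (c' s)) ∘ (ch z).symm) =ᶠ[𝓝 (cp z)]
      fun x => (l ∘ₗ (D.e z).symm.toLinearMap) (c x) := by
    intro l
    filter_upwards [eventually_cp_symm z] with x hx
    simp only [Function.comp_apply, hc', hx, LinearMap.comp_apply, LinearEquiv.coe_coe]
  have hlin : ∀ l : H.W z →ₗ[ℂ] ℂ, AnalyticAt ℂ
      (fun x => (l ∘ₗ (D.e z).symm.toLinearMap) (c x)) (cp z) := by
    intro l
    exact ((LinearMap.toContinuousLinearMap
      (l ∘ₗ (D.e z).symm.toLinearMap)).analyticAt (c (cp z))).comp hc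
  have hhol : ∀ l : H.W z →ₗ[ℂ] ℂ, HolAt (fun s => l (c' s)) z := fun l =>
    (hlin l).congr (hcomp l).symm
  have hmem' : ∀ᶠ s in 𝓝 z, c' s ∈ (H.F s (p + 1)).map (H.τ z s) := by
    apply eventually_of_symm
    filter_upwards [hmem, eventually_cp_symm z] with x hx hx'
    obtain ⟨u, hu, hux⟩ := hx
    have : c' ((ch z).symm x) = u := by
      simp only [hc', hx']
      rw [← hux]
      simp
    rw [this]
    exact hu
  have key := H.trans z p c' hhol hmem'
  -- the derivative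
  have hF0 : (fun x => D.Fz z ((ch z).symm x)) (cp z) p = D.Fm z p := by
    show D.Fz z ((ch z).symm (cp z)) p = D.Fm z p
    rw [symm_cp', Fz_self]
  rw [hF0]
  by_contra hnot
  obtain ⟨l, hl1, hl2⟩ := Submodule.exists_dual_map_eq_bot_of_notMem hnot inferInstance
  have hl0 : ∀ u ∈ D.Fm z p, l u = 0 := by
    intro u hu
    have : l u ∈ Submodule.map l (D.Fm z p) := ⟨u, hu, rfl⟩
    rw [hl2] at this
    simpa using this
  apply hl1
  -- apply `key` to `l ∘ e`
  have h1 : ∀ j, fderiv ℂ (fun x => l (c x)) (cp z) (Pi.single j 1) = 0 := by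
    intro j
    have h2 := key j (l ∘ₗ (D.e z).toLinearMap) (fun u hu => hl0 _ (D.mem_Fm.2 hu))
    rw [dz, D_eq (isCh_ch z) (mem_ch z), (hcomp (l ∘ₗ (D.e z).toLinearMap)).fderiv_eq] at h2
    have h3 : (fun x => ((l ∘ₗ (D.e z).toLinearMap) ∘ₗ (D.e z).symm.toLinearMap) (c x)) =
        fun x => l (c x) := by
      funext x
      simp
    rw [h3] at h2
    rw [← h2]
    refine (wz_of_complex ?_ j).symm
    have h4 := (hlin (l ∘ₗ (D.e z).toLinearMap)).differentiableAt
    rwa [h3] at h4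
  have hcd : DifferentiableAt ℂ c (cp z) := hc.differentiableAt
  have h5 : fderiv ℂ (fun x => l (c x)) (cp z) v = l (fderiv ℂ c (cp z) v) := by
    have h6 : HasFDerivAt (fun x => (LinearMap.toContinuousLinearMap l) (c x))
        ((LinearMap.toContinuousLinearMap l).comp (fderiv ℂ c (cp z))) (cp z) :=
      (LinearMap.toContinuousLinearMap l).hasFDerivAt.comp (cp z) hcd.hasFDerivAt
    have h7 : (fun x => (LinearMap.toContinuousLinearMap l) (c x)) = fun x => l (c x) := rfl
    rw [h7] at h6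
    rw [h6.fderiv]
    rfl
  rw [← h5, ← Finset.univ_sum_single v, map_sum]
  apply Finset.sum_eq_zero
  intro j _
  have h8 : (Pi.single j (v j) : Fin m → ℂ) = v j • Pi.single j 1 := by
    rw [← Pi.single_smul, smul_eq_mul, mul_one]
  rw [h8, map_smul, h1, smul_zero]

theorem flag_at (z : S) : ESm (fun x => lM D.P D.Em z ((ch z).symm x)) (cp z) ∧
    ∀ v, lM D.P D.Em z ((ch z).symm (cp z)) *
        mW (fun x => lM D.P D.Em z ((ch z).symm x)) v (cp z) -
      mW (fun x => lM D.P D.Em z ((ch z).symm x)) v (cp z) *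
        lM D.P D.Em z ((ch z).symm (cp z)) =
      - mW (fun x => lM D.P D.Em z ((ch z).symm x)) v (cp z) :=
  flag (S := D.Sm z) (F := fun x => D.Fz z ((ch z).symm x))
    (eventually_symm ((D.near z).mono fun _ h => h.1)) (D.hasFrame z) (D.transv z)
    (eventually_symm ((D.near z).mono fun _ h => h.2))

lemma lM_self (z : S) : lM D.P D.Em z z = D.Em z := by
  unfold lM
  rw [D.P_self]
  simp

/-- **the packed variation** -/
def vhs : VHS m S D.N n where
  P := D.P
  S := D.Sm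
  E := D.Em
  ndc := D.ndc
  hs s := (D.isFl s).isHS (D.isGr s)
  flatS := D.flatS
  smE z i k := (D.flag_at z).1 i k
  tr z j := by
    have h := (D.flag_at z).2 (Pi.single j 1)
    rw [symm_cp', lM_self] at h
    have h1 : mW (fun x => lM D.P D.Em z ((ch z).symm x)) (Pi.single j 1) (cp z) =
        dM D.P D.Em j z := by
      ext i k
      rw [mW_eq_dz (fun y => lM D.P D.Em z y) z j i k]
      rfl
    rw [h1] at h
    exact h

@[simp] lemma vhs_P : D.vhs.P = D.P := rfl
@[simp] lemma vhs_S : D.vhs.S = D.Sm := rfl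
@[simp] lemma vhs_E : D.vhs.E = D.Em := rfl

/-- transport in coordinates -/
lemma e_τ_near (z : S) : ∃ U ∈ 𝓝 z, ∀ s ∈ U, ∀ s' ∈ U, ∀ v,
    D.e s (H.τ s s' v) = cm (D.P s s') *ᵥ D.e s' v := by
  obtain ⟨U, hU, h⟩ := D.cm_P_near z
  exact ⟨U, hU, fun s hs s' hs' v => by rw [h s hs s' hs', e_τ]⟩

/-- eigenvectors of the grading operator -/
lemma Em_iff {s : S} {p : ℕ} (hp : p ≤ n) (v : H.W s) :
    D.Em s *ᵥ D.e s v = (p : ℂ) • D.e s v ↔ v ∈ H.F s p ∧ ∀ u ∈ H.F s (p + 1), H.B s u v = 0 := by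
  rw [(D.isFl s).eig_iff (D.isGr s) hp, mem_Fm]
  refine and_congr_right fun _ => ?_
  constructor
  · intro h u hu
    rw [← D.sf_e]
    exact h _ (D.mem_Fm.2 hu)
  · rintro h u ⟨u, hu, rfl⟩
    have : sf (D.Sm s) ((D.e s).toLinearMap u) (D.e s v) = H.B s u v := D.sf_e s u v
    rw [this]
    exact h u hu

lemma Em_top_iff {s : S} (v : H.W s) :
    D.Em s *ᵥ D.e s v = (n : ℂ) • D.e s v ↔ v ∈ H.F s n := by
  rw [(D.isFl s).top_iff (D.isGr s), mem_Fm]

lemma mem_L_int {s : S} (v : H.W s) :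
    v ∈ H.L s ↔ ∃ a : Fin D.N → ℤ, D.e s v = fun i => (a i : ℂ) := by
  rw [D.mem_L_iff, mem_span_int_iff]
  constructor
  · intro h
    choose a ha using h
    exact ⟨a, funext fun i => ha i⟩
  · rintro ⟨a, ha⟩ i
    exact ⟨a i, congrFun ha i⟩

end Bas

end Crest.Agent.R276.Step_454
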