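import Crest.Agent.R276.Push_175

/-!
# Row 276, IPC (helper175): parabolic (= compactly supported) classes, integral classes

* `hpar ρ P` : classes in `H1` which vanish outside a compact set.
* `latt ρ P Λ` : classes represented by cocycles with values in the subgroup `Λ`.
* `trans_of_gauge` : formula for the transition maps of `Push_175` in terms of a gauge.
* `trans_mem_hpar`, `trans_mem_latt`.
-/

set_option autoImplicit false

open Set Topology unitInterval Filter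
open Crest.Agent.R276.Top1_175 Crest.Agent.R276.ASH1_175 Crest.Agent.R276.Push_175

namespace Crest.Agent.R276.Par_175

section defs

variable {X : Type*} [TopologicalSpace X] {G : Type*} [Group G]
  {R : Type*} [CommRing R] {V : Type*} [AddCommGroup V] [Module R V]
  (ρ : Representation R G V)

/-- `u` is the coboundary of `g` near the diagonal outside `K` -/
def OffCob (P : X → X → G) (u : X → X → V) (K : Set X) (g : X → V) : Prop :=
  ∀ z ∉ K, ∃ U ∈ 𝓝 z, ∀ x ∈ U, ∀ y ∈ U, u x y = cob ρ P g x y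

/-- parabolic classes: classes with compact support -/
def hpar (P : X → X → G) : Submodule R (H1 ρ P) where
  carrier := {c | ∃ u : cocSub ρ P, H1.mk ρ P u = c ∧ ∃ K : Set X, IsCompact K ∧
    ∃ g : X → V, OffCob ρ P (u : X → X → V) K g}
  add_mem' := by
    rintro _ _ ⟨u, rfl, K, hK, g, hg⟩ ⟨u', rfl, K', hK', g', hg'⟩
    refine ⟨u + u', map_add _ _ _, K ∪ K', hK.union hK', fun x => g x + g' x, fun z hz => ?_⟩
    obtain ⟨U, hU, h⟩ := hg z (fun h => hz (Or.inl h))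
    obtain ⟨U', hU', h'⟩ := hg' z (fun h => hz (Or.inr h))
    refine ⟨U ∩ U', inter_mem hU hU', fun x hx y hy => ?_⟩
    show (u : X → X → V) x y + (u' : X → X → V) x y = _
    rw [h x hx.1 y hy.1, h' x hx.2 y hy.2]
    simp only [cob, map_add]; abel
  zero_mem' := ⟨0, map_zero _, ∅, isCompact_empty, fun _ => 0, fun z _ =>
    ⟨univ, univ_mem, fun x _ y _ => by
      show (0 : V) = _
      simp [cob]⟩⟩
  smul_mem' := by
    rintro r _ ⟨u, rfl, K, hK, g, hg⟩
    refine ⟨r • u, map_smul _ _ _, K, hK, fun x => r • g x, fun z hz => ?_⟩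
    obtain ⟨U, hU, h⟩ := hg z hz
    refine ⟨U, hU, fun x hx y hy => ?_⟩
    show r • (u : X → X → V) x y = _
    rw [h x hx y hy]
    simp only [cob, map_smul, smul_sub]

theorem mem_hpar {P : X → X → G} {c : H1 ρ P} : c ∈ hpar ρ P ↔ ∃ u : cocSub ρ P,
    H1.mk ρ P u = c ∧ ∃ K : Set X, IsCompact K ∧ ∃ g : X → V, OffCob ρ P (u : X → X → V) K g :=
  Iff.rfl

variable {ρ} in
/-- the condition does not depend on the representative -/
theorem OffCob.of_mk_eq {P : X → X → G} {u u' : cocSub ρ P} (h : H1.mk ρ P u = H1.mk ρ P u')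
    {K : Set X} {g : X → V} (hg : OffCob ρ P (u : X → X → V) K g) :
    ∃ g', OffCob ρ P (u' : X → X → V) K g' := by
  rw [H1.mk_eq_mk_iff] at h
  obtain ⟨f, hf⟩ := h
  refine ⟨fun x => g x - f x, fun z hz => ?_⟩
  obtain ⟨U, hU, h1⟩ := hg z hz
  obtain ⟨U', hU', h2⟩ := hf z
  refine ⟨U ∩ U', inter_mem hU hU', fun x hx y hy => ?_⟩
  have e1 := h1 x hx.1 y hy.1
  have e2 := h2 x hx.2 y hy.2
  beta_reduce at e2
  have e3 : (u' : X → X → V) x y = (u : X → X → V) x y -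
    ((u : X → X → V) x y - (u' : X → X → V) x y) := by abel
  rw [e3, e2, e1]
  simp only [cob, map_sub]; abel

theorem mk_mem_hpar {P : X → X → G} {u : cocSub ρ P} : H1.mk ρ P u ∈ hpar ρ P ↔
    ∃ K : Set X, IsCompact K ∧ ∃ g : X → V, OffCob ρ P (u : X → X → V) K g := by
  constructor
  · rintro ⟨u', h, K, hK, g, hg⟩
    exact ⟨K, hK, hg.of_mk_eq h⟩
  · rintro ⟨K, hK, g, hg⟩
    exact ⟨u, rfl, K, hK, g, hg⟩

/-- classes with a representative with values in `Λ` -/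
def latt (P : X → X → G) (Λ : AddSubgroup V) : AddSubgroup (H1 ρ P) where
  carrier := {c | ∃ u : cocSub ρ P, H1.mk ρ P u = c ∧ ∀ x y, (u : X → X → V) x y ∈ Λ}
  add_mem' := by
    rintro _ _ ⟨u, rfl, h⟩ ⟨u', rfl, h'⟩
    exact ⟨u + u', map_add _ _ _, fun x y => Λ.add_mem (h x y) (h' x y)⟩
  zero_mem' := ⟨0, map_zero _, fun _ _ => Λ.zero_mem⟩
  neg_mem' := by
    rintro _ ⟨u, rfl, h⟩
    exact ⟨-u, map_neg _ _, fun x y => Λ.neg_mem (h x y)⟩

theorem mem_latt {P : X → X → G} {Λ : AddSubgroup V} {c : H1 ρ P} : c ∈ latt ρ P Λ ↔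
    ∃ u : cocSub ρ P, H1.mk ρ P u = c ∧ ∀ x y, (u : X → X → V) x y ∈ Λ := Iff.rfl

end defs

section gauge

variable {X S : Type*} [TopologicalSpace X] {G : Type*} [Group G]
  {R : Type*} [CommRing R] {V : Type*} [AddCommGroup V] [Module R V]
  {π : X → S} {ρ : Representation R G V} {P : X → X → G}

/-- a trivialisation of `π` over `B` -/
structure Trv [TopologicalSpace S] (π : X → S) (C : Type*) [TopologicalSpace C] (B : Set S) where
  F : C × B ≃ₜ Tot π B
  hF : ∀ p, π (F p : Tot π B).1 = p.2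

namespace Trv

variable [TopologicalSpace S] {C : Type*} [TopologicalSpace C] {B : Set S} (T : Trv π C B)

/-- the fibre over `s` is `C` -/
def e (s : S) (hs : s ∈ B) : C ≃ₜ Fib π s where
  toFun := fun c => ⟨(T.F (c, ⟨s, hs⟩)).1, T.hF _⟩
  invFun := fun x => (T.F.symm (inc π B s hs x)).1
  left_inv := fun c => by
    have : inc π B s hs ⟨(T.F (c, ⟨s, hs⟩)).1, T.hF _⟩ = T.F (c, ⟨s, hs⟩) := rfl
    show (T.F.symm (inc π B s hs ⟨(T.F (c, ⟨s, hs⟩)).1, T.hF _⟩)).1 = c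
    rw [this, T.F.symm_apply_apply]
  right_inv := fun x => by
    apply Subtype.ext
    show (T.F ((T.F.symm (inc π B s hs x)).1, ⟨s, hs⟩)).1 = x.1
    have h2 : (T.F.symm (inc π B s hs x)).2 = ⟨s, hs⟩ := by
      apply Subtype.ext
      rw [← T.hF, T.F.apply_symm_apply]
      exact x.2
    have h3 : ((T.F.symm (inc π B s hs x)).1, (⟨s, hs⟩ : B)) = T.F.symm (inc π B s hs x) := by
      rw [← h2]
    rw [h3, T.F.apply_symm_apply]
    rfl
  continuous_toFun := Continuous.subtype_mk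
    (continuous_subtype_val.comp (T.F.continuous.comp (by fun_prop))) _
  continuous_invFun := continuous_fst.comp (T.F.symm.continuous.comp (inc_continuous π B s hs))

theorem e_apply (s : S) (hs : s ∈ B) (c : C) : (T.e s hs c).1 = (T.F (c, ⟨s, hs⟩)).1 := rfl

/-- the identification of two fibres -/
def sg {s s' : S} (hs : s ∈ B) (hs' : s' ∈ B) : Fib π s ≃ₜ Fib π s' :=
  (T.e s hs).symm.trans (T.e s' hs')

/-- a gauge: it compares the cocycle with its restriction to the fibre over `s'` -/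
structure Gauge (P : X → X → G) (s' : S) (hs' : s' ∈ B) where
  a : C × B → G
  one : ∀ x, a (x, ⟨s', hs'⟩) = 1
  eq : ∀ z : C × B, ∃ U ∈ 𝓝 z, ∀ p ∈ U, ∀ q ∈ U, P (T.F p).1 (T.F q).1 =
    a p * P (T.F (p.1, ⟨s', hs'⟩)).1 (T.F (q.1, ⟨s', hs'⟩)).1 * (a q)⁻¹

/-- existence of a gauge -/
theorem exists_gauge (ρ : Representation R G V) (hP : IsNDC P) (s' : S) (hs' : s' ∈ B)
    (hc : ∃ H : B × I → B, Continuous H ∧ (∀ x, H (x, 0) = ⟨s', hs'⟩) ∧ (∀ x, H (x, 1) = x) ∧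
      ∀ t, H (⟨s', hs'⟩, t) = ⟨s', hs'⟩) : Nonempty (T.Gauge P s' hs') := by
  obtain ⟨H, hH, h0, h1, hb⟩ := hc
  have hQn : IsNDC (fun p q : C × B => P (T.F p).1 (T.F q).1) :=
    hP.comp (continuous_subtype_val.comp T.F.continuous)
  obtain ⟨a, ha1, ha2, -⟩ := IsNDC.contract (ρ := ρ) hQn H hH ⟨s', hs'⟩ h0 h1 hb
  exact ⟨⟨a, ha1, ha2⟩⟩

variable {T}

/-- the transported cocycle on the fibre over `s` -/
def Gauge.push {s' : S} {hs' : s' ∈ B} (g : T.Gauge P s' hs') (ρ : Representation R G V)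
    {s : S} (hs : s ∈ B) :
    cocSub ρ (rst P (fun x => π x = s')) →ₗ[R] cocSub ρ (rst P (fun x => π x = s)) where
  toFun w := ⟨fun x y => ρ (g.a ((T.e s hs).symm x, ⟨s, hs⟩))
      ((w : Fib π s' → Fib π s' → V) (T.sg hs hs' x) (T.sg hs hs' y)), by
    intro z
    -- near `z` the cocycle of the fibre over `s` is the gauge transform
    have hcont : Continuous (fun x : Fib π s => ((T.e s hs).symm x, (⟨s, hs⟩ : B))) := by fun_prop
    obtain ⟨U, hU, h⟩ := g.eq ((T.e s hs).symm z, ⟨s, hs⟩)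
    obtain ⟨U', hU', h'⟩ := w.2 (T.sg hs hs' z)
    refine ⟨(fun x => ((T.e s hs).symm x, (⟨s, hs⟩ : B))) ⁻¹' U ∩ (T.sg hs hs') ⁻¹' U',
      inter_mem (hcont.continuousAt.preimage_mem_nhds hU)
        ((T.sg hs hs').continuous.continuousAt.preimage_mem_nhds hU'), ?_⟩
    rintro x ⟨hx1, hx2⟩ y ⟨hy1, hy2⟩ t ⟨ht1, ht2⟩
    have e1 := h _ hx1 _ hy1
    have ex : (T.F ((T.e s hs).symm x, ⟨s, hs⟩)).1 = x.1 := by
      rw [← T.e_apply s hs, Homeomorph.apply_symm_apply]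
    have ey : (T.F ((T.e s hs).symm y, ⟨s, hs⟩)).1 = y.1 := by
      rw [← T.e_apply s hs, Homeomorph.apply_symm_apply]
    rw [ex, ey] at e1
    have e2 : P (T.F ((T.e s hs).symm x, ⟨s', hs'⟩)).1 (T.F ((T.e s hs).symm y, ⟨s', hs'⟩)).1 =
      rst P (fun x => π x = s') (T.sg hs hs' x) (T.sg hs hs' y) := rfl
    have e3 := h' _ hx2 _ hy2 _ ht2
    have e4 : rst P (fun x => π x = s) x y = P x.1 y.1 := rfl
    beta_reduce
    rw [e4, e1]
    simp only at e2 ⊢
    rw [e2, ← e3, map_add]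
    congr 1
    rw [← Module.End.mul_apply, ← Module.End.mul_apply, ← map_mul, ← map_mul]
    congr 2
    group⟩
  map_add' w w' := by
    apply Subtype.ext
    funext x y
    show ρ _ (_ + _) = _
    rw [map_add]; rfl
  map_smul' r w := by
    apply Subtype.ext
    funext x y
    show ρ _ (r • _) = _
    rw [map_smul]; rfl

theorem Gauge.push_apply {s' : S} {hs' : s' ∈ B} (g : T.Gauge P s' hs') {s : S}
    (hs : s ∈ B) (w : cocSub ρ (rst P (fun x => π x = s'))) (x y : Fib π s) :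
    ((g.push ρ hs w : cocSub ρ (rst P (fun x => π x = s))) : Fib π s → Fib π s → V) x y =
      ρ (g.a ((T.e s hs).symm x, ⟨s, hs⟩))
        ((w : Fib π s' → Fib π s' → V) (T.sg hs hs' x) (T.sg hs hs' y)) := rfl

/-- **Formula for the transition maps.** -/
theorem Gauge.trans_mk {s' : S} {hs' : s' ∈ B} (g : T.Gauge P s' hs')
    (hB : Good π ρ P B) {s : S} (hs : s ∈ B) (w : cocSub ρ (rst P (fun x => π x = s'))) :
    trans hB hs hs' (H1.mk ρ _ w) = H1.mk ρ _ (g.push ρ hs w) := by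
  -- the cocycle on the total space
  have hwt : ∀ x : Tot π B, (T.F.symm x).2.1 = π x.1 := by
    intro x
    rw [← T.hF, T.F.apply_symm_apply]
  let wt : Tot π B → Tot π B → V := fun x y => ρ (g.a (T.F.symm x))
    ((w : Fib π s' → Fib π s' → V) (T.e s' hs' (T.F.symm x).1) (T.e s' hs' (T.F.symm y).1))
  have hcoc : IsCoc ρ (rst P (fun x => π x ∈ B)) wt := by
    intro z
    obtain ⟨U, hU, h⟩ := g.eq (T.F.symm z)
    obtain ⟨U', hU', h'⟩ := w.2 (T.e s' hs' (T.F.symm z).1)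
    have hcont : Continuous (fun x : Tot π B => T.e s' hs' (T.F.symm x).1) := by fun_prop
    refine ⟨T.F.symm ⁻¹' U ∩ (fun x => T.e s' hs' (T.F.symm x).1) ⁻¹' U',
      inter_mem (T.F.symm.continuous.continuousAt.preimage_mem_nhds hU)
        (hcont.continuousAt.preimage_mem_nhds hU'), ?_⟩
    rintro x ⟨hx1, hx2⟩ y ⟨hy1, hy2⟩ t ⟨ht1, ht2⟩
    have e1 := h _ hx1 _ hy1
    rw [T.F.apply_symm_apply, T.F.apply_symm_apply] at e1
    have e3 := h' _ hx2 _ hy2 _ ht2
    have e2 : P (T.F ((T.F.symm x).1, ⟨s', hs'⟩)).1 (T.F ((T.F.symm y).1, ⟨s', hs'⟩)).1 =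
      rst P (fun x => π x = s') (T.e s' hs' (T.F.symm x).1) (T.e s' hs' (T.F.symm y).1) := rfl
    have e4 : rst P (fun x => π x ∈ B) x y = P x.1 y.1 := rfl
    simp only [wt]
    rw [e4, e1, e2, ← e3, map_add]
    congr 1
    rw [← Module.End.mul_apply, ← Module.End.mul_apply, ← map_mul, ← map_mul]
    congr 2
    group
  let c : HB π ρ P B := H1.mk ρ _ ⟨wt, hcoc⟩
  have h1 : res π ρ P B s' hs' c = H1.mk ρ _ w := by
    show H1.mk ρ _ _ = _
    congr 1
    apply Subtype.ext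
    funext x y
    show ρ (g.a (T.F.symm (inc π B s' hs' x))) ((w : Fib π s' → Fib π s' → V)
      (T.e s' hs' (T.F.symm (inc π B s' hs' x)).1) (T.e s' hs' (T.F.symm (inc π B s' hs' y)).1)) = _
    have hx : ∀ x : Fib π s', T.e s' hs' (T.F.symm (inc π B s' hs' x)).1 = x := fun x =>
      (T.e s' hs').apply_symm_apply x
    have hx2 : ∀ x : Fib π s', T.F.symm (inc π B s' hs' x) =
        ((T.F.symm (inc π B s' hs' x)).1, ⟨s', hs'⟩) := by
      intro x
      refine Prod.ext rfl (Subtype.ext ?_)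
      rw [hwt]
      exact x.2
    rw [hx, hx, hx2, g.one, map_one]
    rfl
  rw [← h1, trans_res]
  show H1.mk ρ _ _ = _
  congr 1
  apply Subtype.ext
  funext x y
  show ρ (g.a (T.F.symm (inc π B s hs x))) ((w : Fib π s' → Fib π s' → V)
      (T.e s' hs' (T.F.symm (inc π B s hs x)).1) (T.e s' hs' (T.F.symm (inc π B s hs y)).1)) =
    ρ (g.a ((T.e s hs).symm x, ⟨s, hs⟩)) ((w : Fib π s' → Fib π s' → V) (T.sg hs hs' x) (T.sg hs hs' y))
  have hx2 : T.F.symm (inc π B s hs x) = ((T.e s hs).symm x, ⟨s, hs⟩) := by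
    refine Prod.ext rfl (Subtype.ext ?_)
    rw [hwt]
    exact x.2
  rw [hx2]
  rfl

/-- transition maps preserve parabolic classes -/
theorem Gauge.trans_mem_hpar {s' : S} {hs' : s' ∈ B} (g : T.Gauge P s' hs')
    (hB : Good π ρ P B) {s : S} (hs : s ∈ B) {c : Hf π ρ P s'}
    (hc : c ∈ hpar ρ (rst P (fun x => π x = s'))) :
    trans hB hs hs' c ∈ hpar ρ (rst P (fun x => π x = s)) := by
  obtain ⟨w, rfl, K, hK, f, hf⟩ := hc
  rw [g.trans_mk hB hs, mk_mem_hpar]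
  refine ⟨(T.sg hs hs') ⁻¹' K, (T.sg hs hs').isCompact_preimage.2 hK,
    fun x => ρ (g.a ((T.e s hs).symm x, ⟨s, hs⟩)) (f (T.sg hs hs' x)), fun z hz => ?_⟩
  obtain ⟨U', hU', h'⟩ := hf (T.sg hs hs' z) hz
  have hcont : Continuous (fun x : Fib π s => ((T.e s hs).symm x, (⟨s, hs⟩ : B))) := by fun_prop
  obtain ⟨U, hU, h⟩ := g.eq ((T.e s hs).symm z, ⟨s, hs⟩)
  refine ⟨(fun x => ((T.e s hs).symm x, (⟨s, hs⟩ : B))) ⁻¹' U ∩ (T.sg hs hs') ⁻¹' U',
    inter_mem (hcont.continuousAt.preimage_mem_nhds hU)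
      ((T.sg hs hs').continuous.continuousAt.preimage_mem_nhds hU'), ?_⟩
  rintro x ⟨hx1, hx2⟩ y ⟨hy1, hy2⟩
  have e1 := h _ hx1 _ hy1
  have ex : (T.F ((T.e s hs).symm x, ⟨s, hs⟩)).1 = x.1 := by
    rw [← T.e_apply s hs, Homeomorph.apply_symm_apply]
  have ey : (T.F ((T.e s hs).symm y, ⟨s, hs⟩)).1 = y.1 := by
    rw [← T.e_apply s hs, Homeomorph.apply_symm_apply]
  rw [ex, ey] at e1
  have e2 : P (T.F ((T.e s hs).symm x, ⟨s', hs'⟩)).1 (T.F ((T.e s hs).symm y, ⟨s', hs'⟩)).1 =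
    rst P (fun x => π x = s') (T.sg hs hs' x) (T.sg hs hs' y) := rfl
  rw [e2] at e1
  have e4 : rst P (fun x => π x = s) x y = P x.1 y.1 := rfl
  rw [g.push_apply, h' _ hx2 _ hy2]
  simp only [cob]
  rw [e4, e1, map_sub]
  congr 1
  rw [← Module.End.mul_apply, ← Module.End.mul_apply, ← map_mul, ← map_mul]
  congr 2
  group

/-- transition maps preserve integral classes -/
theorem Gauge.trans_mem_latt {s' : S} {hs' : s' ∈ B} (g : T.Gauge P s' hs')
    (hB : Good π ρ P B) {s : S} (hs : s ∈ B) {Λ : AddSubgroup V} (hΛ : ∀ g, ∀ v ∈ Λ, ρ g v ∈ Λ)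
    {c : Hf π ρ P s'} (hc : c ∈ latt ρ (rst P (fun x => π x = s')) Λ) :
    trans hB hs hs' c ∈ latt ρ (rst P (fun x => π x = s)) Λ := by
  obtain ⟨w, rfl, h⟩ := hc
  rw [g.trans_mk hB hs]
  exact ⟨_, rfl, fun x y => hΛ _ _ (h _ _)⟩

end Trv

/-- `B` contracts to each of its points, relative to that point -/
def Ctr (B : Set S) [TopologicalSpace S] : Prop :=
  ∀ b : B, ∃ H : B × I → B, Continuous H ∧ (∀ x, H (x, 0) = b) ∧ (∀ x, H (x, 1) = x) ∧
    ∀ t, H (b, t) = b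

variable [TopologicalSpace S] {C : Type*} [TopologicalSpace C] {B : Set S}

theorem Trv.good (T : Trv π C B) (hP : IsNDC P) (hc : Ctr B) : Good π ρ P B :=
  good_of_product π ρ P hP B T.F T.hF hc

theorem trans_mem_hpar (T : Trv π C B) (hP : IsNDC P) (hc : Ctr B) (hB : Good π ρ P B) {s s' : S}
    (hs : s ∈ B) (hs' : s' ∈ B) {c : Hf π ρ P s'} (h : c ∈ hpar ρ (rst P (fun x => π x = s'))) :
    trans hB hs hs' c ∈ hpar ρ (rst P (fun x => π x = s)) := by
  obtain ⟨g⟩ := T.exists_gauge ρ hP s' hs' (hc ⟨s', hs'⟩)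
  exact g.trans_mem_hpar hB hs h

theorem trans_mem_latt (T : Trv π C B) (hP : IsNDC P) (hc : Ctr B) (hB : Good π ρ P B) {s s' : S}
    (hs : s ∈ B) (hs' : s' ∈ B) {Λ : AddSubgroup V} (hΛ : ∀ g, ∀ v ∈ Λ, ρ g v ∈ Λ)
    {c : Hf π ρ P s'} (h : c ∈ latt ρ (rst P (fun x => π x = s')) Λ) :
    trans hB hs hs' c ∈ latt ρ (rst P (fun x => π x = s)) Λ := by
  obtain ⟨g⟩ := T.exists_gauge ρ hP s' hs' (hc ⟨s', hs'⟩)
  exact g.trans_mem_latt hB hs hΛ h

/-- convex sets contract to each of their points -/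
theorem ctr_of_convex {E : Type*} [AddCommGroup E] [Module ℝ E] [TopologicalSpace E]
    [ContinuousAdd E] [ContinuousSMul ℝ E] {B : Set E} (hB : Convex ℝ B) : Ctr B := by
  intro b
  refine ⟨fun p => ⟨(1 - (p.2 : ℝ)) • (b : E) + (p.2 : ℝ) • (p.1 : E), ?_⟩, ?_, ?_, ?_, ?_⟩
  · exact hB b.2 p.1.2 (by linarith [p.2.2.2]) p.2.2.1 (by ring)
  · refine Continuous.subtype_mk ?_ _
    fun_prop
  · intro x; apply Subtype.ext; simp
  · intro x; apply Subtype.ext; simp
  · intro t; apply Subtype.ext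
    show (1 - (t : ℝ)) • (b : E) + (t : ℝ) • (b : E) = b
    rw [← add_smul]; simp

/-- contractibility is invariant under homeomorphisms -/
theorem Ctr.of_homeo {S' : Type*} [TopologicalSpace S'] {B' : Set S'} (e : B ≃ₜ B') (h : Ctr B') :
    Ctr B := by
  intro b
  obtain ⟨H, hH, h0, h1, hb⟩ := h (e b)
  refine ⟨fun p => e.symm (H (e p.1, p.2)), by fun_prop, fun x => ?_, fun x => ?_, fun t => ?_⟩
  · simp [h0]
  · simp [h1]
  · simp [hb]

end gauge

end Crest.Agent.R276.Par_175
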