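import Crest.Agent.R276.NbB_185
import Crest.Agent.R276.PVk_159

/-!
# Row 276 (helper159): the Bergman inequality on powers, for functions of finite norm

`prod_bound_fin` : as 185's `prod_bound`, but the inequality on the factor is only assumed for
functions of finite norm (at zeros of `κ` it fails for functions of infinite norm).
-/

set_option autoImplicit false
set_option linter.unusedSectionVars false

noncomputable section

open Set Filter Topology Complex MeasureTheory Metric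
open scoped ENNReal ComplexConjugate

namespace Crest.Agent.R276.PV_159

open Crest.Agent.R271 Crest.Agent.R271.Ho51 Crest.Agent.R271.W792 Crest.Agent.R276.NbB_185

variable {R : ℝ}

local instance instMFPb {a b : ℕ} {M N : Type} [TopologicalSpace M] [TopologicalSpace N]
    [RDom (a + 1) M] [RDom (b + 1) N] : MeasurableSpace (FP M N) := borel _
local instance instBFPb {a b : ℕ} {M N : Type} [TopologicalSpace M] [TopologicalSpace N]
    [RDom (a + 1) M] [RDom (b + 1) N] : BorelSpace (FP M N) := ⟨rfl⟩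

/-- slices of fibre-holomorphic functions with finite norm have finite norm -/
lemma ae_slice_fin' (Q D : Dom R) {F : (Q.mul D).P → ℂ} {t : ℂ} (hF : FHol t F)
    (h : (Q.mul D).nrm F t < ∞) :
    ∀ᵐ x : Fin Q.a → ℂ, ∀ q : Q.P, cp q = (Fin.cons t x : Fin (Q.a + 1) → ℂ) →
      D.nrm (fun x : D.P => ext2 (M := Q.P) (N := D.P) F q x) t < ∞ := by
  set F' : (Q.mul D).P → ℂ := {x : (Q.mul D).P | tc x = t}.indicator F with hF'
  have hmF : Measurable F' := FHol.measurable_ind hF
  have h0 : (Q.mul D).nrm F t = (Q.mul D).nrm F' t :=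
    Dom.nrm_congr _ fun x hx => (indicator_of_mem (s := {x : (Q.mul D).P | tc x = t}) hx F).symm
  rw [h0] at h
  have hm : Measurable ((Q.mul D).dens F') := by
    unfold Dom.dens
    exact ((hmF.norm.pow_const 2).ennreal_ofReal).mul (Q.mul D).wt_meas
  filter_upwards [ae_fin (M := Q.P) (N := D.P) hm h] with x hx q hq
  have h1 := hx q hq
  have h2 : Q.wt q * D.nrm (fun x : D.P => ext2 (M := Q.P) (N := D.P) F q x) t ≤
      fi (fun n : D.P => ext2 (M := Q.P) (N := D.P) ((Q.mul D).dens F') q n) t := by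
    refine (fi_const_mul_le _ t _).trans ?_
    refine fi_mono fun x' hx' => ?_
    have hqt : (cp q : Fin (Q.a + 1) → ℂ) 0 = t := by rw [hq]; rfl
    have hc : (cp q : Fin (Q.a + 1) → ℂ) 0 = (cp x' : Fin (D.a + 1) → ℂ) 0 := by rw [hqt, hx']
    have htq : tc (FP.mk' q x' hc : FP Q.P D.P) = t := hqt
    rw [ext2_of (M := Q.P) (N := D.P) _ hc]
    unfold Dom.dens
    beta_reduce
    rw [Dom.wt_mul, ext2_of (M := Q.P) (N := D.P) _ hc]
    have h3 : F' (FP.mk' q x' hc) = F (FP.mk' q x' hc) :=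
      indicator_of_mem (s := {x : (Q.mul D).P | tc x = t}) htq F
    rw [h3]
    show Q.wt q * (ENNReal.ofReal (‖F (FP.mk' q x' hc)‖ ^ 2) * D.wt x') ≤
      ENNReal.ofReal (‖F (FP.mk' q x' hc)‖ ^ 2) * (Q.wt q * D.wt x')
    exact le_of_eq (by ring)
  have h3 : Q.wt q * D.nrm (fun x : D.P => ext2 (M := Q.P) (N := D.P) F q x) t < ∞ :=
    lt_of_le_of_lt h2 h1
  have hw0 : Q.wt q ≠ 0 := by
    have h4 : ENNReal.ofReal (Real.exp (-Q.φ 0 q)) ≤ Q.wt q := le_iSup
      (fun k => ENNReal.ofReal (Real.exp (-Q.φ k q))) 0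
    intro h0
    rw [h0] at h4
    exact absurd h4 (not_le.2 (ENNReal.ofReal_pos.2 (Real.exp_pos _)))
  by_contra h5
  rw [not_lt, top_le_iff] at h5
  rw [h5, ENNReal.mul_top hw0] at h3
  exact absurd h3 (lt_irrefl _)

/-- **the Bergman inequality on powers**, finite norms only -/
theorem prod_bound_fin (D : Dom R) {t : ℂ} {κ : D.P → ℝ≥0∞} (hκ : ∀ x, κ x ≠ ∞)
    (hD : ∀ f : D.P → ℂ, FHol t f → D.nrm f t < ∞ → ∀ x, tc x = t →
      ENNReal.ofReal (‖f x‖ ^ 2) ≤ κ x * D.nrm f t) :
    ∀ (j : ℕ) (F : (D.pw j).P → ℂ), FHol t F → (D.pw j).nrm F t < ∞ → ∀ x, tc x = t →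
      ENNReal.ofReal (‖F x‖ ^ 2) ≤ tp D κ j x * (D.pw j).nrm F t
  | 0, F, hF, hfin, x, hx => hD F hF hfin x hx
  | j + 1, F, hF, hfin, x, hx => by
    set q0 : (D.pw j).P := FP.fst (M := (D.pw j).P) (N := D.P) x with hq0
    set y : D.P := FP.snd (M := (D.pw j).P) (N := D.P) x with hy0
    have hq0t : tc q0 = t := hx
    have hyt : tc y = t := by
      have := FP.cond (M := (D.pw j).P) (N := D.P) x
      show (cp y : Fin (D.a + 1) → ℂ) 0 = t
      rw [hy0, ← this]
      exact hx
    set G : (D.pw j).P → ℂ := fun q => ext2 (M := (D.pw j).P) (N := D.P) F q y with hG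
    have hGF : G q0 = F x := by
      have hc : (cp q0 : Fin ((D.pw j).a + 1) → ℂ) 0 = (cp y : Fin (D.a + 1) → ℂ) 0 :=
        FP.cond (M := (D.pw j).P) (N := D.P) x
      rw [hG]
      show ext2 (M := (D.pw j).P) (N := D.P) F q0 y = _
      rw [ext2_of (M := (D.pw j).P) (N := D.P) F hc]
      rfl
    have hGh : FHol t G := FHol.slice2 (M := (D.pw j).P) (N := D.P) hF y hyt
    have h2 : (D.pw j).nrm G t ≤ κ y * (D.pw (j + 1)).nrm F t := by
      refine le_trans ?_ (mul_le_mul_right (nrm_mul_ge' (D.pw j) D hF) (κ y))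
      rw [← fi_const_mul (hκ y)]
      refine fi_mono_ae ?_
      filter_upwards [ae_slice_fin' (D.pw j) D hF hfin] with z hz q hq
      have hq' : tc q = t := by unfold tc; rw [hq]; rfl
      have h3 := hD _ (FHol.slice1 (M := (D.pw j).P) (N := D.P) hF q hq') (hz q hq) y hyt
      unfold Dom.dens
      calc ENNReal.ofReal (‖G q‖ ^ 2) * (D.pw j).wt q
          ≤ (κ y * D.nrm (fun x => ext2 (M := (D.pw j).P) (N := D.P) F q x) t) *
            (D.pw j).wt q := mul_le_mul_left h3 _
        _ = _ := by ring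
    have hGfin : (D.pw j).nrm G t < ∞ :=
      lt_of_le_of_lt h2 (ENNReal.mul_lt_top (hκ y).lt_top hfin)
    have h1 := prod_bound_fin D hκ hD j G hGh hGfin q0 hq0t
    rw [hGF] at h1
    calc ENNReal.ofReal (‖F x‖ ^ 2) ≤ tp D κ j q0 * (D.pw j).nrm G t := h1
      _ ≤ tp D κ j q0 * (κ y * (D.pw (j + 1)).nrm F t) := mul_le_mul_right h2 _
      _ = _ := by
        show _ = (tp D κ j q0 * κ y) * _
        ring

end Crest.Agent.R276.PV_159
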