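import Crest.Agent.R271.H3_51

/-!
# Row 276, leaf IPC-PERM (helper840): the permutation local system of a finite covering

* `IsSC U` : schlicht convex open subsets of a Riemann domain; they are preconnected and (in a
  `T2` domain) stable under intersection;
* `Triv f U` : every point of `Y` over `U` lies on a section over `U`;
* `tp f x b` : transport of the point `b : Y` into the fibre over `x` (meaningful if `Adj f x (f b)`);
* `pp f e x y : Equiv.Perm (Fin N)` : near-diagonal cocycle of permutations;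
* `pm σ` : the permutation matrix; `P`-transport of functions on fibres.
-/

set_option autoImplicit false

noncomputable section

open Set Filter Topology
open Crest.Agent.R271.Ho51

namespace Crest.Agent.R276.Perm_840

/-! ### schlicht convex sets -/
section schlicht

variable {m : ℕ} {S : Type*} [TopologicalSpace S] [RDom m S]

/-- a schlicht convex open set of a Riemann domain -/
structure IsSC (U : Set S) : Prop where
  isOpen : IsOpen U
  inj : InjOn (cp : S → (Fin m → ℂ)) U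
  conv : Convex ℝ ((cp : S → (Fin m → ℂ)) '' U)

/-- the inverse of `cp` on `U` (with an arbitrary default value) -/
def sec (x0 : S) (U : Set S) : (Fin m → ℂ) → S :=
  haveI : Nonempty S := ⟨x0⟩
  Function.invFunOn (cp : S → (Fin m → ℂ)) U

lemma IsSC.sec_cp {U : Set S} (hU : IsSC U) (x0 : S) {u : S} (hu : u ∈ U) : sec x0 U (cp u) = u :=
  haveI : Nonempty S := ⟨x0⟩
  hU.inj.leftInvOn_invFunOn hu

lemma sec_mem {U : Set S} (x0 : S) {z : Fin m → ℂ} (hz : z ∈ (cp : S → (Fin m → ℂ)) '' U) :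
    sec x0 U z ∈ U :=
  haveI : Nonempty S := ⟨x0⟩
  Function.invFunOn_mem (by simpa using hz)

lemma cp_sec {U : Set S} (x0 : S) {z : Fin m → ℂ} (hz : z ∈ (cp : S → (Fin m → ℂ)) '' U) :
    cp (sec x0 U z) = z :=
  haveI : Nonempty S := ⟨x0⟩
  Function.invFunOn_eq (by simpa using hz)

lemma IsSC.isOpen_image {U : Set S} (hU : IsSC U) : IsOpen ((cp : S → (Fin m → ℂ)) '' U) :=
  cp_lh.isOpenMap _ hU.isOpen

lemma IsSC.continuousOn_sec {U : Set S} (hU : IsSC U) (x0 : S) :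
    ContinuousOn (sec x0 U) ((cp : S → (Fin m → ℂ)) '' U) := by
  rintro z ⟨u, hu, rfl⟩
  apply ContinuousAt.continuousWithinAt
  rw [ContinuousAt, hU.sec_cp x0 hu]
  intro V hV
  have h1 : (cp : S → (Fin m → ℂ)) '' (V ∩ U) ∈ 𝓝 (cp u) :=
    cp_lh.isOpenMap.image_mem_nhds (inter_mem hV (hU.isOpen.mem_nhds hu))
  refine Filter.mem_map.2 (mem_of_superset h1 ?_)
  rintro w ⟨v, ⟨hv1, hv2⟩, rfl⟩
  show sec x0 U (cp v) ∈ V
  rw [hU.sec_cp x0 hv2]
  exact hv1

lemma IsSC.isPreconnected {U : Set S} (hU : IsSC U) : IsPreconnected U := by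
  rcases U.eq_empty_or_nonempty with rfl | ⟨x0, hx0⟩
  · exact isPreconnected_empty
  have h1 : U = sec x0 U '' ((cp : S → (Fin m → ℂ)) '' U) := by
    ext u
    constructor
    · intro hu
      exact ⟨cp u, ⟨u, hu, rfl⟩, hU.sec_cp x0 hu⟩
    · rintro ⟨z, hz, rfl⟩
      exact sec_mem x0 hz
  rw [h1]
  exact hU.conv.isPreconnected.image _ (hU.continuousOn_sec x0)

lemma exists_isSC (x : S) {V : Set S} (hV : V ∈ 𝓝 x) : ∃ U : Set S, IsSC U ∧ x ∈ U ∧ U ⊆ V := by
  have he := isCh_ch x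
  have hx := mem_ch x
  have h1 : (ch x).symm ⁻¹' V ∈ 𝓝 (cp x) := by
    have := (ch x).symm.continuousAt (x := cp x) (by simpa using he.cp_mem hx)
    rw [ContinuousAt, he.symm_cp hx] at this
    exact this hV
  have h2 : (ch x).target ∩ (ch x).symm ⁻¹' V ∈ 𝓝 (cp x) :=
    inter_mem ((ch x).open_target.mem_nhds (he.cp_mem hx)) h1
  obtain ⟨r, hr, hball⟩ := Metric.mem_nhds_iff.1 h2
  refine ⟨(ch x).source ∩ cp ⁻¹' Metric.ball (cp x) r, ⟨?_, ?_, ?_⟩, ?_, ?_⟩
  · exact (ch x).open_source.inter (Metric.isOpen_ball.preimage cp_cont)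
  · exact he.injOn.mono inter_subset_left
  · have : (cp : S → (Fin m → ℂ)) '' ((ch x).source ∩ cp ⁻¹' Metric.ball (cp x) r)
        = Metric.ball (cp x) r := by
      ext z
      constructor
      · rintro ⟨u, ⟨_, hu⟩, rfl⟩
        exact hu
      · intro hz
        have hz2 := (hball hz).1
        exact ⟨(ch x).symm z, ⟨(ch x).map_target hz2, by
          simpa [he.cp_symm hz2] using hz⟩, he.cp_symm hz2⟩
    rw [this]
    exact convex_ball _ _
  · exact ⟨hx, Metric.mem_ball_self hr⟩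
  · rintro u ⟨hu1, hu2⟩
    have := (hball hu2).2
    simpa [he.symm_cp hu1] using this

lemma IsSC.sec_eq [T2Space S] {U V : Set S} (hU : IsSC U) (hV : IsSC V) (x0 : S) {p : S}
    (hpU : p ∈ U) (hpV : p ∈ V) {z : Fin m → ℂ} (hzU : z ∈ (cp : S → (Fin m → ℂ)) '' U)
    (hzV : z ∈ (cp : S → (Fin m → ℂ)) '' V) : sec x0 U z = sec x0 V z := by
  have hs : IsPreconnected (((cp : S → (Fin m → ℂ)) '' U) ∩ ((cp : S → (Fin m → ℂ)) '' V)) :=
    (hU.conv.inter hV.conv).isPreconnected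
  have h := (T2Space.isSeparatedMap (cp : S → (Fin m → ℂ))).eqOn_of_comp_eqOn
    (cp_lh (M := S)).isLocallyInjective hs
    ((hU.continuousOn_sec x0).mono inter_subset_left)
    ((hV.continuousOn_sec x0).mono inter_subset_right)
    (fun w hw => by simp [cp_sec x0 hw.1, cp_sec x0 hw.2])
    (a := cp p) ⟨⟨p, hpU, rfl⟩, ⟨p, hpV, rfl⟩⟩ (by rw [hU.sec_cp x0 hpU, hV.sec_cp x0 hpV])
  exact h ⟨hzU, hzV⟩

lemma IsSC.image_inter [T2Space S] {U V : Set S} (hU : IsSC U) (hV : IsSC V) {p : S}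
    (hpU : p ∈ U) (hpV : p ∈ V) :
    (cp : S → (Fin m → ℂ)) '' (U ∩ V) = (cp : S → (Fin m → ℂ)) '' U ∩ (cp : S → (Fin m → ℂ)) '' V := by
  apply Subset.antisymm (image_inter_subset _ _ _)
  rintro z ⟨hzU, hzV⟩
  refine ⟨sec p U z, ⟨sec_mem p hzU, ?_⟩, cp_sec p hzU⟩
  rw [hU.sec_eq hV p hpU hpV hzU hzV]
  exact sec_mem p hzV

lemma IsSC.inter [T2Space S] {U V : Set S} (hU : IsSC U) (hV : IsSC V) : IsSC (U ∩ V) := by
  refine ⟨hU.isOpen.inter hV.isOpen, hU.inj.mono inter_subset_left, ?_⟩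
  rcases (U ∩ V).eq_empty_or_nonempty with h | ⟨p, hpU, hpV⟩
  · rw [h, image_empty]
    exact convex_empty
  · rw [hU.image_inter hV hpU hpV]
    exact hU.conv.inter hV.conv

end schlicht

/-! ### sections and transport -/
section transport

variable {m : ℕ} {S : Type*} [TopologicalSpace S] [RDom m S] [T2Space S]
  {Y : Type*} [TopologicalSpace Y] {f : Y → S}

/-- `s` is a section of `f` over `U` -/
def IsSec (f : Y → S) (U : Set S) (s : S → Y) : Prop := ContinuousOn s U ∧ ∀ u ∈ U, f (s u) = u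

/-- every point of `Y` over `U` lies on a section over `U` -/
def Triv (f : Y → S) (U : Set S) : Prop := ∀ y, f y ∈ U → ∃ s : S → Y, IsSec f U s ∧ s (f y) = y

omit [RDom m S] [T2Space S] in
lemma IsSec.mono {U V : Set S} {s : S → Y} (h : IsSec f V s) (hUV : U ⊆ V) : IsSec f U s :=
  ⟨h.1.mono hUV, fun u hu => h.2 u (hUV hu)⟩

omit [RDom m S] [T2Space S] in
lemma Triv.mono {U V : Set S} (h : Triv f V) (hUV : U ⊆ V) : Triv f U := fun y hy => by
  obtain ⟨s, hs, h2⟩ := h y (hUV hy)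
  exact ⟨s, hs.mono hUV, h2⟩

omit [RDom m S] [T2Space S] in
lemma exists_triv (hf : IsCoveringMap f) (x : S) : ∃ U : Set S, IsOpen U ∧ x ∈ U ∧ Triv f U := by
  obtain ⟨_, U, hxU, hU, hfU, H, hH⟩ := hf x
  refine ⟨U, hU, hxU, fun y hy => ?_⟩
  classical
  refine ⟨fun u => if h : u ∈ U then (H.symm (⟨u, h⟩, (H ⟨y, hy⟩).2)).1 else y, ⟨?_, ?_⟩, ?_⟩
  · rw [continuousOn_iff_continuous_domRestrict]
    have : U.domRestrict (fun u => if h : u ∈ U then (H.symm (⟨u, h⟩, (H ⟨y, hy⟩).2)).1 else y)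
        = fun u : U => (H.symm (u, (H ⟨y, hy⟩).2)).1 := by
      funext u
      simp [Set.domRestrict, u.2]
    rw [this]
    fun_prop
  · intro u hu
    have := hH (H.symm (⟨u, hu⟩, (H ⟨y, hy⟩).2))
    rw [H.apply_symm_apply] at this
    simp only [hu, dif_pos]
    exact this.symm
  · have h1 : (⟨f y, hy⟩ : U) = (H ⟨y, hy⟩).1 := Subtype.ext (hH ⟨y, hy⟩).symm
    have hy' : f y ∈ U := hy
    simp only [hy', dif_pos]
    rw [h1]
    have : ((H ⟨y, hy⟩).1, (H ⟨y, hy⟩).2) = H ⟨y, hy⟩ := rfl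
    rw [this, H.symm_apply_apply]

/-- good sets -/
structure Good (f : Y → S) (U : Set S) : Prop where
  sc : IsSC U
  triv : Triv f U

lemma Good.inter {U V : Set S} (hU : Good f U) (hV : Good f V) : Good f (U ∩ V) :=
  ⟨hU.sc.inter hV.sc, hU.triv.mono inter_subset_left⟩

omit [T2Space S] in
lemma exists_good (hf : IsCoveringMap f) (x : S) {V : Set S} (hV : V ∈ 𝓝 x) :
    ∃ U : Set S, Good f U ∧ x ∈ U ∧ U ⊆ V := by
  obtain ⟨W, hW, hxW, hT⟩ := exists_triv hf x
  obtain ⟨U, hU, hxU, hUV⟩ := exists_isSC x (inter_mem hV (hW.mem_nhds hxW))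
  exact ⟨U, ⟨hU, hT.mono (hUV.trans inter_subset_right)⟩, hxU, hUV.trans inter_subset_left⟩

omit [RDom m S] [T2Space S] in
/-- uniqueness of sections -/
lemma IsSec.eq (hf : IsCoveringMap f) {U : Set S} (hU : IsPreconnected U) {s t : S → Y}
    (hs : IsSec f U s) (ht : IsSec f U t) {a : S} (ha : a ∈ U) (h : s a = t a) {u : S}
    (hu : u ∈ U) : s u = t u :=
  hf.eqOn_of_comp_eqOn hU hs.1 ht.1 (fun w hw => by simp [hs.2 w hw, ht.2 w hw]) ha h hu

/-- `x` and `y` lie in a common good set -/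
def Adj (f : Y → S) (x y : S) : Prop := ∃ U : Set S, Good f U ∧ x ∈ U ∧ y ∈ U

omit [T2Space S] in
lemma Adj.symm {x y : S} (h : Adj f x y) : Adj f y x := by
  obtain ⟨U, hU, hx, hy⟩ := h
  exact ⟨U, hU, hy, hx⟩

omit [T2Space S] in
lemma Adj.refl (hf : IsCoveringMap f) (x : S) : Adj f x x := by
  obtain ⟨U, hU, hx, _⟩ := exists_good hf x univ_mem
  exact ⟨U, hU, hx, hx⟩

omit [T2Space S] in
lemma exists_tp {x : S} {b : Y} (h : Adj f x (f b)) :
    ∃ c : Y, ∃ (U : Set S) (s : S → Y), Good f U ∧ x ∈ U ∧ f b ∈ U ∧ IsSec f U s ∧ s (f b) = b ∧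
      s x = c := by
  obtain ⟨U, hU, hx, hy⟩ := h
  obtain ⟨s, hs, h2⟩ := hU.triv b hy
  exact ⟨s x, U, s, hU, hx, hy, hs, h2, rfl⟩

open Classical in
/-- transport of `b` into the fibre over `x` -/
def tp (f : Y → S) (x : S) (b : Y) : Y := if h : Adj f x (f b) then (exists_tp h).choose else b

lemma tp_eq (hf : IsCoveringMap f) {U : Set S} (hU : Good f U) {x : S} {b : Y} (hx : x ∈ U)
    (hb : f b ∈ U) {s : S → Y} (hs : IsSec f U s) (h : s (f b) = b) : tp f x b = s x := by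
  have hA : Adj f x (f b) := ⟨U, hU, hx, hb⟩
  rw [tp, dif_pos hA]
  obtain ⟨V, t, hV, hxV, hbV, ht, h2, h3⟩ := (exists_tp hA).choose_spec
  rw [← h3]
  exact IsSec.eq hf (hV.inter hU).sc.isPreconnected (ht.mono inter_subset_left)
    (hs.mono inter_subset_right) (a := f b) ⟨hbV, hb⟩ (by rw [h2, h]) ⟨hxV, hx⟩

lemma f_tp (hf : IsCoveringMap f) {x : S} {b : Y} (h : Adj f x (f b)) : f (tp f x b) = x := by
  obtain ⟨U, hU, hx, hb⟩ := h
  obtain ⟨s, hs, h2⟩ := hU.triv b hb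
  rw [tp_eq hf hU hx hb hs h2, hs.2 x hx]

lemma tp_self (hf : IsCoveringMap f) (b : Y) : tp f (f b) b = b := by
  obtain ⟨U, hU, hx, _⟩ := exists_good hf (f b) univ_mem
  obtain ⟨s, hs, h2⟩ := hU.triv b hx
  rw [tp_eq hf hU hx hx hs h2, h2]

lemma tp_self' (hf : IsCoveringMap f) {x : S} {b : Y} (h : f b = x) : tp f x b = b := by
  subst h
  exact tp_self hf b

lemma tp_tp (hf : IsCoveringMap f) {U : Set S} (hU : Good f U) {x y : S} {b : Y} (hx : x ∈ U)
    (hy : y ∈ U) (hb : f b ∈ U) : tp f x (tp f y b) = tp f x b := by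
  obtain ⟨s, hs, h2⟩ := hU.triv b hb
  have h3 := tp_eq hf hU hy hb hs h2
  have h4 : f (s y) = y := hs.2 y hy
  rw [h3, tp_eq hf hU hx hb hs h2, tp_eq hf hU hx (by rw [h4]; exact hy) hs (by rw [h4])]

/-- `u ↦ tp f u b` is a section over a good set -/
lemma isSec_tp (hf : IsCoveringMap f) {U : Set S} (hU : Good f U) {b : Y} (hb : f b ∈ U) :
    IsSec f U (fun u => tp f u b) := by
  obtain ⟨s, hs, h2⟩ := hU.triv b hb
  refine ⟨hs.1.congr fun u hu => tp_eq hf hU hu hb hs h2, fun u hu => ?_⟩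
  exact f_tp hf ⟨U, hU, hu, hb⟩

/-- transport commutes with fibre preserving continuous maps -/
lemma tp_map (hf : IsCoveringMap f) {g : Y → Y} (hg : Continuous g) (hfg : ∀ y, f (g y) = f y)
    {x : S} {b : Y} (h : Adj f x (f b)) : tp f x (g b) = g (tp f x b) := by
  obtain ⟨U, hU, hx, hb⟩ := h
  obtain ⟨s, hs, h2⟩ := hU.triv b hb
  rw [tp_eq hf hU hx hb hs h2]
  have hs' : IsSec f U (fun u => g (s u)) :=
    ⟨hg.comp_continuousOn hs.1, fun u hu => by rw [hfg, hs.2 u hu]⟩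
  exact tp_eq hf hU hx (by rw [hfg]; exact hb) hs' (by rw [hfg, h2])

/-- transport commutes with morphisms of coverings -/
lemma tp_map' {Y' : Type*} [TopologicalSpace Y'] {f' : Y' → S} (hf : IsCoveringMap f)
    (hf' : IsCoveringMap f') {g : Y → Y'} (hg : Continuous g) (hfg : ∀ y, f' (g y) = f y)
    {U : Set S} (hU : Good f U) (hU' : Good f' U)
    {x : S} {b : Y} (hx : x ∈ U) (hb : f b ∈ U) : tp f' x (g b) = g (tp f x b) := by
  obtain ⟨s, hs, h2⟩ := hU.triv b hb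
  rw [tp_eq hf hU hx hb hs h2]
  have hs' : IsSec f' U (fun u => g (s u)) :=
    ⟨hg.comp_continuousOn hs.1, fun u hu => by rw [hfg, hs.2 u hu]⟩
  exact tp_eq hf' hU' hx (by rw [hfg]; exact hb) hs' (by rw [hfg, h2])

/-- transport between fibres -/
def tpE (hf : IsCoveringMap f) {x y : S} (h : Adj f x y) : f ⁻¹' {y} ≃ f ⁻¹' {x} where
  toFun a := ⟨tp f x a, f_tp hf (by rw [show f a = y from a.2]; exact h)⟩
  invFun a := ⟨tp f y a, f_tp hf (by rw [show f a = x from a.2]; exact h.symm)⟩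
  left_inv a := by
    obtain ⟨U, hU, hx, hy⟩ := h
    have ha : f a = y := a.2
    apply Subtype.ext
    show tp f y (tp f x a) = a
    rw [tp_tp hf hU hy hx (by rw [ha]; exact hy), tp_self' hf ha]
  right_inv a := by
    obtain ⟨U, hU, hx, hy⟩ := h
    have ha : f a = x := a.2
    apply Subtype.ext
    show tp f x (tp f y a) = a
    rw [tp_tp hf hU hx hy (by rw [ha]; exact hx), tp_self' hf ha]

end transport

/-! ### the permutation cocycle -/
section cocycle

variable {m : ℕ} {S : Type*} [TopologicalSpace S] [RDom m S] [T2Space S]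
  {Y : Type*} [TopologicalSpace Y] {f : Y → S} {N : ℕ}

open Classical in
/-- the permutation describing the transport from the fibre over `y` to the fibre over `x` -/
def pp (hf : IsCoveringMap f) (e : ∀ s : S, Fin N ≃ f ⁻¹' {s}) (x y : S) : Equiv.Perm (Fin N) :=
  if h : Adj f x y then ((e y).trans (tpE hf h)).trans (e x).symm else 1

lemma e_pp (hf : IsCoveringMap f) (e : ∀ s : S, Fin N ≃ f ⁻¹' {s}) {x y : S} (h : Adj f x y)
    (i : Fin N) : (e x (pp hf e x y i) : Y) = tp f x (e y i) := by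
  rw [pp, dif_pos h]
  simp [tpE]

lemma e_pp_inv (hf : IsCoveringMap f) (e : ∀ s : S, Fin N ≃ f ⁻¹' {s}) {x y : S} (h : Adj f x y)
    (i : Fin N) : (e y ((pp hf e x y)⁻¹ i) : Y) = tp f y (e x i) := by
  have h1 := e_pp hf e h ((pp hf e x y)⁻¹ i)
  have h0 : (pp hf e x y) ((pp hf e x y)⁻¹ i) = i := by simp
  rw [h0] at h1
  rw [h1]
  obtain ⟨U, hU, hx, hy⟩ := h
  have h2 : f (e y ((pp hf e x y)⁻¹ i)) = y := (e y ((pp hf e x y)⁻¹ i)).2
  rw [tp_tp hf hU hy hx (by rw [h2]; exact hy), tp_self' hf h2]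

/-- near-diagonal cocycle property -/
theorem pp_cocycle (hf : IsCoveringMap f) (e : ∀ s : S, Fin N ≃ f ⁻¹' {s}) (z : S) :
    ∃ U ∈ 𝓝 z, ∀ x ∈ U, ∀ y ∈ U, ∀ w ∈ U,
      pp hf e x y * pp hf e y w = pp hf e x w := by
  obtain ⟨U, hU, hz, _⟩ := exists_good hf z univ_mem
  refine ⟨U, hU.sc.isOpen.mem_nhds hz, fun x hx y hy w hw => ?_⟩
  ext i
  congr 1
  apply (e x).injective
  apply Subtype.ext
  have h1 : Adj f x y := ⟨U, hU, hx, hy⟩
  have h2 : Adj f y w := ⟨U, hU, hy, hw⟩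
  have h3 : Adj f x w := ⟨U, hU, hx, hw⟩
  have h4 : f (e w i) = w := (e w i).2
  show (e x (pp hf e x y (pp hf e y w i)) : Y) = _
  rw [e_pp hf e h1, e_pp hf e h2, e_pp hf e h3, tp_tp hf hU hx hy (by rw [h4]; exact hw)]

lemma pp_self (hf : IsCoveringMap f) (e : ∀ s : S, Fin N ≃ f ⁻¹' {s}) (z : S) :
    pp hf e z z = 1 := by
  obtain ⟨U, hU, h⟩ := pp_cocycle hf e z
  have hz := mem_of_mem_nhds hU
  simpa using h z hz z hz z hz

omit [T2Space S] in
/-- adjacency holds near the diagonal -/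
lemma adj_nhds (hf : IsCoveringMap f) (z : S) : ∃ U ∈ 𝓝 z, ∀ x ∈ U, ∀ y ∈ U, Adj f x y := by
  obtain ⟨U, hU, hz, _⟩ := exists_good hf z univ_mem
  exact ⟨U, hU.sc.isOpen.mem_nhds hz, fun x hx y hy => ⟨U, hU, hx, hy⟩⟩

/-- the permutation induced by a fibre preserving bijection -/
def ag (e : ∀ s : S, Fin N ≃ f ⁻¹' {s}) (g : Y ≃ Y) (hfg : ∀ y, f (g y) = f y) (x : S) :
    Equiv.Perm (Fin N) where
  toFun i := (e x).symm ⟨g (e x i), by rw [mem_preimage, hfg]; exact (e x i).2⟩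
  invFun i := (e x).symm ⟨g.symm (e x i), by
    rw [mem_preimage, ← hfg, g.apply_symm_apply]; exact (e x i).2⟩
  left_inv i := by simp
  right_inv i := by simp

omit [TopologicalSpace S] [RDom m S] [T2Space S] [TopologicalSpace Y] in
lemma e_ag (e : ∀ s : S, Fin N ≃ f ⁻¹' {s}) (g : Y ≃ Y) (hfg : ∀ y, f (g y) = f y) (x : S)
    (i : Fin N) : (e x (ag e g hfg x i) : Y) = g (e x i) := by
  simp [ag]

omit [TopologicalSpace S] [RDom m S] [T2Space S] [TopologicalSpace Y] in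
lemma ag_mul (e : ∀ s : S, Fin N ≃ f ⁻¹' {s}) (g g' : Y ≃ Y) (hfg : ∀ y, f (g y) = f y)
    (hfg' : ∀ y, f (g' y) = f y) (x : S) :
    ag e (g'.trans g) (fun y => by simp [hfg, hfg']) x = ag e g hfg x * ag e g' hfg' x := by
  ext i
  congr 1
  apply (e x).injective
  apply Subtype.ext
  rw [e_ag]
  show _ = (e x (ag e g hfg x (ag e g' hfg' x i)) : Y)
  rw [e_ag, e_ag]
  rfl

/-- the group action commutes with transport near the diagonal -/
lemma ag_pp (hf : IsCoveringMap f) (e : ∀ s : S, Fin N ≃ f ⁻¹' {s}) (g : Y ≃ Y)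
    (hg : Continuous g) (hfg : ∀ y, f (g y) = f y) {x y : S} (h : Adj f x y) :
    ag e g hfg x * pp hf e x y = pp hf e x y * ag e g hfg y := by
  ext i
  congr 1
  apply (e x).injective
  apply Subtype.ext
  show (e x (ag e g hfg x (pp hf e x y i)) : Y) = (e x (pp hf e x y (ag e g hfg y i)) : Y)
  rw [e_ag, e_pp hf e h, e_pp hf e h, e_ag, tp_map hf hg hfg]
  rw [show f (e y i) = y from (e y i).2]
  exact h

end cocycle

/-! ### permutation matrices -/
section matrices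

variable {N : ℕ} (R : Type*) [CommRing R]

/-- the permutation matrix with `(pm σ *ᵥ v) (σ i) = v i` -/
def pm (σ : Equiv.Perm (Fin N)) : Matrix (Fin N) (Fin N) R :=
  Matrix.of fun i j => if i = σ j then 1 else 0

variable {R}

lemma pm_apply (σ : Equiv.Perm (Fin N)) (i j : Fin N) : pm R σ i j = if i = σ j then 1 else 0 := rfl

@[simp] lemma pm_one : pm R (1 : Equiv.Perm (Fin N)) = 1 := by
  ext i j
  by_cases h : i = j
  · subst h
    rw [Matrix.one_apply_eq, pm_apply]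
    simp
  · rw [Matrix.one_apply_ne h, pm_apply]
    simp [h]

lemma pm_mul (σ τ : Equiv.Perm (Fin N)) : pm R (σ * τ) = pm R σ * pm R τ := by
  ext i j
  rw [Matrix.mul_apply, Finset.sum_eq_single (τ j)]
  · by_cases h : i = σ (τ j) <;> simp [pm_apply, h]
  · intro b _ hb
    simp [pm_apply, hb]
  · simp

lemma pm_mulVec (σ : Equiv.Perm (Fin N)) (v : Fin N → R) (i : Fin N) :
    (pm R σ).mulVec v i = v (σ⁻¹ i) := by
  simp only [Matrix.mulVec, dotProduct, pm_apply]
  rw [Finset.sum_eq_single (σ⁻¹ i)]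
  · simp
  · intro b _ hb
    have : i ≠ σ b := by
      rintro rfl
      simp at hb
    simp [this]
  · simp

lemma pm_transpose (σ : Equiv.Perm (Fin N)) : (pm R σ).transpose = pm R σ⁻¹ := by
  ext i j
  simp only [Matrix.transpose_apply, pm_apply]
  congr 1
  rw [eq_iff_iff]
  constructor
  · rintro rfl; simp
  · rintro rfl; simp

lemma pm_transpose_mul (σ : Equiv.Perm (Fin N)) : (pm R σ).transpose * pm R σ = 1 := by
  rw [pm_transpose, ← pm_mul]
  simp

lemma pm_conjTranspose [StarRing R] (σ : Equiv.Perm (Fin N)) :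
    (pm R σ).conjTranspose = pm R σ⁻¹ := by
  rw [Matrix.conjTranspose, pm_transpose]
  ext i j
  simp only [Matrix.map_apply, pm_apply]
  split_ifs <;> simp

lemma pm_conjTranspose_mul [StarRing R] (σ : Equiv.Perm (Fin N)) :
    (pm R σ).conjTranspose * pm R σ = 1 := by
  rw [pm_conjTranspose, ← pm_mul]
  simp

/-- permutation matrices as a homomorphism into the units -/
def pmU : Equiv.Perm (Fin N) →* (Matrix (Fin N) (Fin N) R)ˣ where
  toFun σ := ⟨pm R σ, pm R σ⁻¹, by rw [← pm_mul]; simp, by rw [← pm_mul]; simp⟩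
  map_one' := by ext1; simp
  map_mul' σ τ := by ext1; simp [pm_mul]

@[simp] lemma coe_pmU (σ : Equiv.Perm (Fin N)) :
    ((pmU σ : (Matrix (Fin N) (Fin N) R)ˣ) : Matrix (Fin N) (Fin N) R) = pm R σ := rfl

lemma pm_map {R' : Type*} [CommRing R'] (φ : R →+* R') (σ : Equiv.Perm (Fin N)) :
    (pm R σ).map φ = pm R' σ := by
  ext i j
  simp only [Matrix.map_apply, pm_apply]
  split_ifs <;> simp

end matrices

end Crest.Agent.R276.Perm_840
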