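import Crest.Agent.R276.Cur_409
import Crest.Agent.R276.Der_409
import Crest.Agent.R276.LsC_450
import Crest.Agent.R276.Mod4_987
import Crest.Agent.R276.Coa3_375
import Crest.Agent.R276.SardB_450
import Crest.Agent.R271.G3a_792

/-!
# Period fibres are algebraic, part 1 (helper409, row 276)

`M : Mdl K n`, `ι : A → M.Pts` a closed integral curve of a regular vector field, of finite
Fubini-Study area: the jets of order `≤ C (d+1)` along the vector field, at a point of the curve,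
of the polynomials of degree `≤ d` in `z`, determine all the jets.
-/

set_option autoImplicit false

noncomputable section

open Set Filter Topology MeasureTheory Complex

namespace Crest.Agent.R276.Pf1_409

open Crest.Agent.R271.Ho51 hiding Hol
open Crest.Agent.R271.W792
open Crest.Agent.R276.Cur_409
open Crest.Agent.R276.Mod1_987

/-! ### iterated derivatives on a Riemann surface -/

section iter

variable {A : Type*} [TopologicalSpace A] [RDom 1 A]

theorem single_eq (c : ℂ) : (Pi.single 0 c : Fin 1 → ℂ) = fun _ => c := by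
  funext i; rw [Subsingleton.elim i 0]; simp

theorem dz_of_hol {f : A → ℂ} (hf : Hol f) (y : A) : dz 0 f y = D f y e1 := by
  rw [dz_eq, single_eq, single_eq]
  have h1 : (fun _ : Fin 1 => I) = I • e1 := by
    funext i; simp [e1]
  have h2 : (fun _ : Fin 1 => (1 : ℂ)) = e1 := rfl
  rw [h1, h2, hf.cl]
  have : I * (I * D f y e1) = - D f y e1 := by rw [← mul_assoc, I_mul_I]; ring
  rw [this]; ring

theorem hol_dz {f : A → ℂ} (hf : Hol f) : Hol (dz 0 f) := by
  have h1 : dz 0 f = fun y => D f y e1 := by funext y; exact dz_of_hol hf y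
  rw [h1]
  refine ⟨hf.sm.D.apply e1, fun x w => ?_⟩
  rw [D_D_comm hf.sm x e1 (I • w)]
  have h2 : (fun y => D f y (I • w)) = fun y => I * D f y w := by
    funext y; exact hf.cl y w
  rw [h2, D_const_mulC (hf.sm.D.apply w), D_D_comm hf.sm x w e1]

theorem deriv_loc {f : A → ℂ} (hf : Hol f) (p : A) {t : ℂ} (ht : cst t ∈ (ch p).target) :
    deriv (loc f p) t = loc (dz 0 f) p t := by
  have h1 : HasFDerivAt (f ∘ (ch p).symm) (D f ((ch p).symm (cst t))) (cst t) := by
    rw [D_symm (isCh_ch p) ht]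
    exact ((hf.sm.contDiffAt' (isCh_ch p) ht).differentiableAt (by simp)).hasFDerivAt
  let cL : ℂ →L[ℝ] (Fin 1 → ℂ) := ContinuousLinearMap.pi fun _ => ContinuousLinearMap.id ℝ ℂ
  have h2 : HasFDerivAt cst cL t := cL.hasFDerivAt
  have h3 : HasFDerivAt (loc f p) ((D f ((ch p).symm (cst t))).comp cL) t := h1.comp t h2
  have h4 := (loc_differentiableAt hf p ht).hasDerivAt.hasFDerivAt.restrictScalars ℝ
  have h5 := h3.unique h4
  have h6 := congrArg (fun L : ℂ →L[ℝ] ℂ => L 1) h5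
  simp only [ContinuousLinearMap.comp_apply, ContinuousLinearMap.coe_restrictScalars',
    ContinuousLinearMap.toSpanSingleton_apply, one_smul] at h6
  rw [← h6]
  have h7 : cL 1 = e1 := by funext i; rfl
  rw [h7, loc, dz_of_hol hf]

theorem iteratedDeriv_loc {f : A → ℂ} (hf : Hol f) (p : A) (j : ℕ) :
    ∀ᶠ t in 𝓝 (cp p 0), iteratedDeriv j (loc f p) t = loc ((dz 0)^[j] f) p t := by
  induction j generalizing f with
  | zero => exact Eventually.of_forall fun t => by simp
  | succ j ih =>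
    have htar : ∀ᶠ t in 𝓝 (cp p 0), cst t ∈ (ch p).target := by
      apply continuous_cst.continuousAt.eventually
      rw [cst_apply]
      exact (ch p).open_target.mem_nhds ((isCh_ch p).cp_mem (mem_ch p))
    have h1 : ∀ᶠ t in 𝓝 (cp p 0), deriv (loc f p) t = loc (dz 0 f) p t := by
      filter_upwards [htar] with t ht
      exact deriv_loc hf p ht
    filter_upwards [ih (hol_dz hf), eventually_eventually_nhds.2 h1] with t h2 h3
    rw [iteratedDeriv_succ', Function.iterate_succ_apply, ← h2]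
    exact Filter.EventuallyEq.iteratedDeriv_eq j h3

theorem iteratedDeriv_loc_self {f : A → ℂ} (hf : Hol f) (p : A) (j : ℕ) :
    iteratedDeriv j (loc f p) (cp p 0) = ((dz 0)^[j] f) p := by
  rw [(iteratedDeriv_loc hf p j).self_of_nhds, loc, cst_apply, symm_cp]

end iter

/-! ### the exhaustion of a model -/

section exh

variable {K : Type} [Field K] [Algebra ℂ K] {n : ℕ} (M : Mdl K n)

/-- the coordinate functions -/
def zc (i : Fin n) (y : M.B →ₐ[ℂ] ℂ) : ℂ := y (M.z i)

theorem hol_zc (i : Fin n) : Hol (zc M i) := M.hol792_ev (M.z i)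

/-- the boundary function -/
def hc (y : M.B →ₐ[ℂ] ℂ) : ℂ := MvPolynomial.eval (M.pz y) M.h

theorem hc_eq : hc M = fun y => y (MvPolynomial.aeval M.z M.h) := by
  funext y
  unfold hc
  rw [← M.apply_az' y M.h]
  rfl

theorem hol_hc : Hol (hc M) := by
  rw [hc_eq]; exact M.hol792_ev _

theorem hc_ne (y : M.B →ₐ[ℂ] ℂ) : hc M y ≠ 0 := M.eval_h_ne y

theorem hc_aeval (y : M.B →ₐ[ℂ] ℂ) : hc M y = MvPolynomial.aeval (fun i => zc M i y) M.h := rfl

theorem sm_hlg : Sm (lg (fun _ : Unit => hc M) 0) := by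
  refine sm_lg (fun _ => (hol_hc M).sm) fun y => ?_
  have := norm_pos_iff.2 (hc_ne M y)
  simp only [nS, Finset.univ_unique, Finset.sum_const, Finset.card_singleton, one_smul, add_zero]
  positivity

theorem exists_u : ∃ (u : (M.B →ₐ[ℂ] ℂ) → ℝ) (C : ℝ), Sm u ∧ 0 ≤ C ∧ (∀ y, 0 ≤ u y) ∧
    (∀ R : ℝ, IsCompact {y | u y ≤ R}) ∧ ∀ y w, lev u y w = C * lev (lg (zc M) 1) y w := by
  set d := M.h.totalDegree with hd
  obtain ⟨A, hA0, hA⟩ := norm_aeval_le (zc M) M.h (d := d) le_rfl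
  have hlgs : Sm (lg (zc M) 1) := sm_lg (fun i => (hol_zc M i).sm) fun y => by
    have := nS_nonneg (zc M) y
    linarith
  set u : (M.B →ₐ[ℂ] ℂ) → ℝ := fun y =>
    (((d : ℝ) + 1) * lg (zc M) 1 y + (-1) * lg (fun _ : Unit => hc M) 0 y) + Real.log (A + 1)
    with hu
  have hus : Sm u := (((Sm.const _).mulR hlgs).add ((Sm.const _).mulR (sm_hlg M))).add (Sm.const _)
  have hl0 : ∀ y, 0 ≤ lg (zc M) 1 y := fun y => Real.log_nonneg (one_le_sx (zc M) y)
  have hlA : 0 ≤ Real.log (A + 1) := Real.log_nonneg (by linarith)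
  have hlh : ∀ y, lg (fun _ : Unit => hc M) 0 y = Real.log (‖hc M y‖ ^ 2) := by
    intro y; simp [lg, nS]
  have hup : ∀ y, Real.log (‖hc M y‖ ^ 2) ≤ Real.log (A + 1) + d * lg (zc M) 1 y := by
    intro y
    have h1 := hA y
    rw [← hc_aeval] at h1
    have h2 : (d : ℝ) * lg (zc M) 1 y = Real.log (sx (zc M) y ^ d) := by
      rw [Real.log_pow]; rfl
    have h3 := one_le_sx (zc M) y
    have h4 := norm_pos_iff.2 (hc_ne M y)
    rw [h2, ← Real.log_mul (by positivity) (by positivity)]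
    refine Real.log_le_log (by positivity) (h1.trans ?_)
    gcongr
    linarith
  have hu1 : ∀ y, lg (zc M) 1 y ≤ u y := by
    intro y
    have h1 := hup y
    rw [hu]
    simp only [hlh]
    linarith
  refine ⟨u, (d : ℝ) + 1, hus, by positivity, fun y => (hl0 y).trans (hu1 y), ?_, ?_⟩
  · intro R
    set S : Set (Fin n → ℂ) := {ζ | ∑ i, ‖ζ i‖ ^ 2 ≤ Real.exp R ∧
      Real.exp (-R) ≤ ‖MvPolynomial.eval ζ M.h‖ ^ 2} with hS
    have hSc : IsCompact S := by
      refine Metric.isCompact_of_isClosed_isBounded ?_ ?_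
      · exact (isClosed_le (f := fun ζ : Fin n → ℂ => ∑ i, ‖ζ i‖ ^ 2) (by fun_prop)
          continuous_const).inter
          (isClosed_le continuous_const ((MvPolynomial.continuous_eval M.h).norm.pow 2))
      · refine (Metric.isBounded_closedBall (x := (0 : Fin n → ℂ))
          (r := Real.sqrt (Real.exp R))).subset ?_
        intro ζ hζ
        rw [mem_closedBall_zero_iff, pi_norm_le_iff_of_nonneg (Real.sqrt_nonneg _)]
        intro i
        apply Real.le_sqrt_of_sq_le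
        refine le_trans ?_ hζ.1
        exact Finset.single_le_sum (f := fun i => ‖ζ i‖ ^ 2) (fun j _ => by positivity)
          (Finset.mem_univ i)
    have hSh : ∀ ζ ∈ S, MvPolynomial.eval ζ M.h ≠ 0 := by
      intro ζ hζ h0
      have h1 := hζ.2
      rw [h0, norm_zero] at h1
      have := Real.exp_pos (-R)
      norm_num at h1
      linarith
    refine (M.isCompact_preimage hSc hSh).of_isClosed_subset
      (isClosed_le hus.continuous continuous_const) ?_
    intro y hy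
    have hyR : u y ≤ R := hy
    refine ⟨?_, ?_⟩
    · have h1 : lg (zc M) 1 y ≤ R := (hu1 y).trans hyR
      have h2 : sx (zc M) y ≤ Real.exp R := by
        have h3 := Real.exp_le_exp.2 h1
        have h4 : Real.exp (lg (zc M) 1 y) = sx (zc M) y := by
          unfold lg
          rw [Real.exp_log]
          · rfl
          · have := one_le_sx (zc M) y
            unfold sx at this
            linarith
        rwa [h4] at h3
      have h5 : ∑ i, ‖M.pz y i‖ ^ 2 = nS (zc M) y := rfl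
      rw [h5]
      unfold sx at h2
      linarith
    · have h1 : -R ≤ Real.log (‖hc M y‖ ^ 2) := by
        have h2 : u y = (((d : ℝ) + 1) * lg (zc M) 1 y + (-1) * Real.log (‖hc M y‖ ^ 2)) +
            Real.log (A + 1) := by rw [hu]; simp only [hlh]
        have h3 : 0 ≤ ((d : ℝ) + 1) * lg (zc M) 1 y := mul_nonneg (by positivity) (hl0 y)
        linarith
      have h4 := norm_pos_iff.2 (hc_ne M y)
      have h5 := (Real.le_log_iff_exp_le (by positivity)).1 h1
      exact h5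
  · intro y w
    have h1 : lev u y w = lev (fun y => (((d : ℝ) + 1) * lg (zc M) 1 y +
      (-1) * lg (fun _ : Unit => hc M) 0 y) + Real.log (A + 1)) y w := rfl
    rw [h1, lev_add (((Sm.const _).mulR hlgs).add ((Sm.const _).mulR (sm_hlg M))) (Sm.const _),
      lev_const, lev_add ((Sm.const _).mulR hlgs) ((Sm.const _).mulR (sm_hlg M)),
      lev_const_mul hlgs, lev_const_mul (sm_hlg M),
      Crest.Agent.R271.G792.lev_lg_unit (hol_hc M) (hc_ne M)]
    ring

end exh

/-! ### the curve -/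

section curve

open Crest.Agent.R276.LsC_450

variable {K : Type} [Field K] [Algebra ℂ K] {n : ℕ} (M : Mdl K n)
  {A : Type*} [TopologicalSpace A] [RDom 1 A] {X : (M.B →ₐ[ℂ] ℂ) → Fin n → ℂ}
  {ι : A → (M.B →ₐ[ℂ] ℂ)}

theorem hol_comp (hi : Integral X ι) {f : (M.B →ₐ[ℂ] ℂ) → ℂ} (hf : Hol f) :
    Hol (fun q => f (ι q)) where
  sm := hi.sm hf.sm
  cl := fun q w => by
    rw [hi.D_sm hf.sm, hi.D_sm hf.sm, ← hf.cl]
    congr 1
    funext j
    simp [mul_assoc]

theorem dz_comp_ev (hi : Integral X ι) (DB : Derivation ℂ M.B M.B)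
    (hDB : ∀ (b : M.B) (y : M.B →ₐ[ℂ] ℂ), D (fun y : M.B →ₐ[ℂ] ℂ => y b) y (X y) = y (DB b))
    (b : M.B) : dz 0 (fun q : A => ι q b) = fun q => ι q (DB b) := by
  funext q
  rw [dz_of_hol (hol_comp M hi (M.hol792_ev b)), hi.D_sm (M.hol792_ev b).sm]
  rw [← hDB b (ι q)]
  congr 1
  funext j
  simp [e1]

theorem iterate_dz_comp (hi : Integral X ι) (DB : Derivation ℂ M.B M.B)
    (hDB : ∀ (b : M.B) (y : M.B →ₐ[ℂ] ℂ), D (fun y : M.B →ₐ[ℂ] ℂ => y b) y (X y) = y (DB b))
    (b : M.B) (j : ℕ) : (dz 0)^[j] (fun q : A => ι q b) = fun q => ι q ((⇑DB)^[j] b) := by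
  induction j generalizing b with
  | zero => rfl
  | succ j ih =>
    rw [Function.iterate_succ_apply, dz_comp_ev M hi DB hDB b, ih (DB b),
      ← Function.iterate_succ_apply]

/-- **Theorem (curve).** -/
theorem jets_curve [T2Space A] [MeasurableSpace A] [BorelSpace A] {ν : Measure A}
    (hν : IsLeb ν) (hX : ∀ j, Crest.Agent.R271.Ho51.Hol (fun y => X y j)) (hi : Integral X ι)
    (hcl : IsClosedEmbedding ι) (DB : Derivation ℂ M.B M.B)
    (hDB : ∀ (b : M.B) (y : M.B →ₐ[ℂ] ℂ), D (fun y : M.B →ₐ[ℂ] ℂ => y b) y (X y) = y (DB b))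
    (harea : ∫⁻ q, ENNReal.ofReal (lev (lg (zc M) 1) (ι q) (X (ι q))) ∂ν ≠ ⊤) (q0 : A) :
    ∃ C' : ℕ, ∀ (d : ℕ) (P : MvPolynomial (Fin n) ℂ), P.totalDegree ≤ d →
      (∀ j ≤ C' * (d + 1), ι q0 ((⇑DB)^[j] (MvPolynomial.aeval M.z P)) = 0) →
      ∀ j, ι q0 ((⇑DB)^[j] (MvPolynomial.aeval M.z P)) = 0 := by
  obtain ⟨u, C, hus, hC0, hu0, huc, huL⟩ := exists_u M
  set x : Fin n → A → ℂ := fun i q => zc M i (ι q) with hx
  have hxh : ∀ i, Hol (x i) := fun i => hol_comp M hi (hol_zc M i)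
  have hlgs : Sm (lg (zc M) 1) := sm_lg (fun i => (hol_zc M i).sm) fun y => by
    have := nS_nonneg (zc M) y
    linarith
  -- Levi forms of restrictions
  have hlev : ∀ f : (M.B →ₐ[ℂ] ℂ) → ℝ, Sm f → ∀ q : A,
      lev (fun q => f (ι q)) q e1 = lev f (ι q) (X (ι q)) := by
    intro f hf q
    rw [← Levi_eq_lev (hi.sm hf), ← Levi_eq_lev hf, hi.levi hX hf q e1]
    congr 1
    funext j
    simp [e1]
  have hlgx : ∀ q, lev (lg x 1) q e1 = lev (lg (zc M) 1) (ι q) (X (ι q)) := fun q =>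
    hlev _ hlgs q
  have hω0 : ∀ q, 0 ≤ lev (lg x 1) q e1 := fun q =>
    lev_lg_nonneg hxh zero_le_one (fun z => by
      have := nS_nonneg x z
      linarith) q e1
  have hint : Integrable (fun q => lev (lg x 1) q e1) ν := by
    refine ⟨(sm_lev (sm_lg1 hxh) e1).continuous.aestronglyMeasurable, ?_⟩
    rw [hasFiniteIntegral_iff_ofReal (Eventually.of_forall hω0)]
    simp only [hlgx]
    exact lt_top_iff_ne_top.2 harea
  obtain ⟨C', hC'⟩ := jets_determine hν hxh hint (u := fun q => u (ι q)) (hi.sm hus)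
    (fun q => hu0 _) (fun R => hcl.isCompact_preimage (huc R)) hC0
    (fun q => by rw [hlev u hus q, huL, hlgx]) q0
  have hfun : ∀ P : MvPolynomial (Fin n) ℂ,
      (fun q : A => (MvPolynomial.aeval (fun i => x i q) P : ℂ)) =
        fun q => ι q (MvPolynomial.aeval M.z P) := by
    intro P
    funext q
    exact (M.apply_az' (ι q) P).symm
  have hiter : ∀ (P : MvPolynomial (Fin n) ℂ) (j : ℕ),
      iteratedDeriv j (loc (fun q : A => (MvPolynomial.aeval (fun i => x i q) P : ℂ)) q0)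
        (cp q0 0) = ι q0 ((⇑DB)^[j] (MvPolynomial.aeval M.z P)) := by
    intro P j
    rw [iteratedDeriv_loc_self (hol_aeval hxh P), hfun P, iterate_dz_comp M hi DB hDB]
  refine ⟨C', fun d P hP hj j => ?_⟩
  rw [← hiter]
  refine hC' d P hP (fun j hj' => ?_) j
  rw [hiter]
  exact hj j hj'

end curve

/-! ### Theorem A -/

section main

open Crest.Agent.R276.LsDefs_450 Crest.Agent.R276.LsB_450 Crest.Agent.R276.LsC_450
open Crest.Agent.R276.Coa2_375 Crest.Agent.R276.Der_409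
open scoped ENNReal

variable {K : Type} [Field K] [Algebra ℂ K] {n : ℕ} (M : Mdl K n)

theorem isAlgebraic_adjoin :
    Algebra.IsAlgebraic (Algebra.adjoin ℂ (Set.range fun i => algebraMap M.B K (M.z i))) K := by
  classical
  set Aa := Algebra.adjoin ℂ (Set.range fun i => algebraMap M.B K (M.z i)) with hAa
  let g : MvPolynomial (Fin n) ℂ →ₐ[ℂ] Aa := MvPolynomial.aeval fun i =>
    ⟨algebraMap M.B K (M.z i), Algebra.subset_adjoin ⟨i, rfl⟩⟩
  have hg : ∀ p, ((g p : Aa) : K) = M.aK p := by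
    intro p
    have h1 := MvPolynomial.comp_aeval_apply (fun i => (⟨algebraMap M.B K (M.z i),
      Algebra.subset_adjoin ⟨i, rfl⟩⟩ : Aa)) Aa.val p
    exact h1
  have hginj : Function.Injective g := fun p q h => M.aK_injective (by
    rw [← hg, ← hg, h])
  -- transport of integrality
  have hint : IsIntegral Aa (M.θ : K) := by
    refine ⟨M.μ.map (g : MvPolynomial (Fin n) ℂ →+* Aa), M.monic.map _, ?_⟩
    rw [Polynomial.eval₂_map]
    have h1 : (algebraMap Aa K).comp (g : MvPolynomial (Fin n) ℂ →+* Aa) = M.aK :=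
      RingHom.ext hg
    rw [h1]
    have h2 := Mod1_987.eval₂_az_val M.z M.θ M.μ
    rw [M.root] at h2
    exact h2.symm
  refine ⟨fun a => ?_⟩
  obtain ⟨r, hr, q, hq⟩ := M.gen_frac a
  have h3 : IsIntegral Aa (M.aK r * a) := by
    rw [hq]
    have h4 : Mod1_987.ev2 M.zK M.θ q =
        Polynomial.aeval (M.θ : K) (q.map (g : MvPolynomial (Fin n) ℂ →+* Aa)) := by
      rw [Polynomial.aeval_def, Polynomial.eval₂_map]
      have h1 : (algebraMap Aa K).comp (g : MvPolynomial (Fin n) ℂ →+* Aa) = M.aK :=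
        RingHom.ext hg
      rw [h1]
    rw [h4]
    have h5 : Polynomial.aeval (M.θ : K) (q.map (g : MvPolynomial (Fin n) ℂ →+* Aa)) ∈
        Algebra.adjoin Aa {(M.θ : K)} := Polynomial.aeval_mem_adjoin_singleton _ _
    exact (adjoin_le_integralClosure hint) h5
  have h6 : algebraMap Aa K (g r) = M.aK r := hg r
  have h7 : g r ≠ 0 := fun h => hr (hginj (by rw [h, map_zero]))
  rw [← h6, ← Algebra.smul_def] at h3
  exact IsAlgebraic.iff_exists_smul_integral.2 ⟨g r, h7, h3⟩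

theorem null_zero {μ : Measure (M.B →ₐ[ℂ] ℂ)} (hμ : IsLeb μ) {b : M.B} (hb : b ≠ 0) :
    μ {y | y b = 0} = 0 := by
  have hm : MeasurableSet {y : M.B →ₐ[ℂ] ℂ | y b = 0} :=
    (isClosed_eq (M.hol792_ev b).sm.continuous continuous_const).measurableSet
  have h1 := M.lintM_eq hμ (g := indicator {y : M.B →ₐ[ℂ] ℂ | y b = 0} (fun _ => (1 : ℝ≥0∞)))
    (measurable_const.indicator hm)
  have h2 := AB2_590.lintM_congr_off M.het hb
    (f := indicator {y : M.B →ₐ[ℂ] ℂ | y b = 0} (fun _ => (1 : ℝ≥0∞))) (g := fun _ => 0)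
    (fun y hy => by rw [indicator_of_notMem]; exact hy)
  rw [h2, M.lintM_eq hμ measurable_const, lintegral_indicator hm] at h1
  simpa using h1.symm

theorem continuous_Levi {f : (M.B →ₐ[ℂ] ℂ) → ℝ} (hf : Sm f) {X : (M.B →ₐ[ℂ] ℂ) → Fin n → ℂ}
    (hX : ∀ j, Crest.Agent.R271.Ho51.Hol (fun y => X y j)) :
    Continuous (fun y => Levi f y (X y)) := by
  unfold Levi
  refine Complex.continuous_re.comp ?_
  refine continuous_finsetSum _ fun j _ => continuous_finsetSum _ fun k _ => ?_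
  have hXc : ∀ j, Continuous (fun y => X y j) := fun j => hol_continuous (hX j)
  have h1 : Continuous (fun y => Lv f y j k) := (hf.ofReal.db k |>.dz j).continuous
  exact (h1.mul (hXc j)).mul (Complex.continuous_conj.comp (hXc k))

theorem leb_ne_zero {N : Type*} [TopologicalSpace N] {n : ℕ} [RDom n N] [MeasurableSpace N]
    [BorelSpace N] [Nonempty N] {μ : Measure N} (hμ : IsLeb μ) : μ ≠ 0 := by
  rintro rfl
  obtain ⟨x⟩ := ‹Nonempty N›
  have h1 := hμ (ch x) (isCh_ch x)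
  rw [Measure.restrict_zero] at h1
  have h2 := congrArg (fun ν : Measure N => ν univ) h1
  simp only [Measure.coe_zero, Pi.zero_apply] at h2
  rw [Measure.map_apply_of_aemeasurable ((ch x).continuousOn_symm.aemeasurable
    (ch x).open_target.measurableSet) MeasurableSet.univ, preimage_univ,
    Measure.restrict_apply_univ] at h2
  exact ((ch x).open_target.measure_pos volume ⟨cp x, (isCh_ch x).cp_mem (mem_ch x)⟩).ne h2

/-- **Theorem A.** -/
theorem trdeg_le_one {K : Type} [Field K] [Algebra ℂ K] {m' : ℕ} (M : Mdl K (m' + 1))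
    {i₀ : Fin (m' + 1)} {V : Type*} [NormedAddCommGroup V] [NormedSpace ℝ V]
    [FiniteDimensional ℝ V] {G : Type*} [Group G] [Countable G]
    (J : Inv (M.B →ₐ[ℂ] ℂ) i₀ V G) {μ : Measure (M.B →ₐ[ℂ] ℂ)} (hμ : IsLeb μ)
    (w : (M.B →ₐ[ℂ] ℂ) → ℝ≥0∞) (hwm : Measurable w)
    (hw : ∀ x y γ, J.e y = J.ρ γ (J.e x) → ∀ L : (Fin m' → ℂ) →L[ℝ] (Fin m' → ℂ),
      (∀ v, D (J.F y) y (ins i₀ (0, L v)) = J.ρ γ (D (J.F x) x (ins i₀ (0, v)))) →
        w x = ENNReal.ofReal |L.det| * w y)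
    (hmass : ∫⁻ x, ENNReal.ofReal (Levi (lg (zc M) 1) x (J.X x)) * w x ∂μ ≠ ⊤)
    (hMst : ∀ᵐ x ∂μ, x ∈ J.Mst) (hw0 : ∀ᵐ x ∂μ, w x ≠ 0)
    (DB : Derivation ℂ M.B M.B)
    (hDB : ∀ (b : M.B) (y : M.B →ₐ[ℂ] ℂ), D (fun y : M.B →ₐ[ℂ] ℂ => y b) y (J.X y) = y (DB b))
    (DK : Derivation ℂ K K) (hDK : ∀ b : M.B, DK b = DB b) :
    Algebra.trdeg (Kc DK) K ≤ 1 := by
  have hlgs : Sm (lg (zc M) 1) := sm_lg (fun i => (hol_zc M i).sm) fun y => by
    have := nS_nonneg (zc M) y
    linarith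
  have ha : Measurable fun x => ENNReal.ofReal (Levi (lg (zc M) 1) x (J.X x)) :=
    (continuous_Levi M hlgs J.holX).measurable.ennreal_ofReal
  have hcoa := Coa3_375.coa_curve J hμ w hwm hw _ ha hmass
  have hsard : ∀ᵐ p ∂μ, ¬ (p ∈ J.Mst ∧ ¬ J.S p ⊆ J.Mst) := by
    rw [ae_iff]
    simpa only [not_not] using SardB_450.sard J hμ
  refine trdeg_Kc_le_one (B := M.B) Subtype.val_injective DK DB (fun b => hDK b) M.z
    (isAlgebraic_adjoin M) ?_
  intro b hb
  have hall : ∀ᵐ p ∂μ, ∀ n, p (b n) ≠ 0 := by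
    rw [ae_all_iff]
    intro n
    rw [ae_iff]
    simpa only [ne_eq, not_not] using null_zero M hμ (hb n)
  have hne : (ae μ).NeBot := ae_neBot.2 (leb_ne_zero hμ)
  obtain ⟨p, hp1, hp2, hp3, hp4, hp5⟩ :=
    (hall.and (hcoa.and (hsard.and (hMst.and hw0)))).exists
  refine ⟨p, hp1, ?_⟩
  have hS : J.S p ⊆ J.Mst := by
    by_contra h
    exact hp3 ⟨hp4, h⟩
  let := rdomS J hS
  have hi : LsC_450.Integral J.X (fun q : J.S p => (q : (M.B →ₐ[ℂ] ℂ))) := integral_S J hS
  have hcl : IsClosedEmbedding (fun q : J.S p => (q : (M.B →ₐ[ℂ] ℂ))) :=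
    (isClosed_S J p).isClosedEmbedding_subtypeVal
  obtain ⟨ν, hν⟩ := Crest.Agent.R271.Ho51.exists_leb (M := J.S p)
  have h1 := hp2 hp4 hp5 hS ν hν
  obtain ⟨C', hC'⟩ := jets_curve M hν J.holX hi hcl DB hDB (by
    refine ne_of_lt (lt_of_le_of_lt (le_of_eq ?_) h1)
    refine lintegral_congr fun q => ?_
    rw [Levi_eq_lev hlgs]) ⟨p, mem_S_self J p⟩
  exact ⟨C', hC'⟩

end main

end Crest.Agent.R276.Pf1_409
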