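import Crest.Agent.R276.Pf1_409
import Crest.Agent.R276.InvV_450
import Crest.Agent.R276.PdW_571
import Crest.Agent.R276.PfDer_676
import Crest.Agent.R276.MassH_137

/-!
# Period fibres are algebraic, part 2 (helper409, row 276)

`M : Mdl K (n+1)`, `V` a VHS on `M.Pts`, `e : Fin (n+1) ≃ α ⊕ β`, `f : α → Fin (n+1) → M.B` a frame of the
kernel of the period metric, `f i (e.symm (inl j)) = δ_ij`, and `det (gP_ββ) > 0` everywhere.

* `mdata` the data of 137's finite mass theorem;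
* `trdeg_slope` every derivation `D_{f i}` has constants of corank `≤ 1`;
* `comm` the `D_{f i}` commute.
-/

set_option autoImplicit false
set_option linter.unusedSectionVars false

noncomputable section

open Set Filter Topology MeasureTheory Complex Matrix
open scoped ENNReal ComplexConjugate ComplexOrder

namespace Crest.Agent.R276.Pf2_409

open Crest.Agent.R271.Ho51
open Crest.Agent.R276.Mod1_987
open Crest.Agent.R276.Pd571 Crest.Agent.R276.PdL571

/-! ### polynomials -/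

section poly

variable {n : ℕ} (p : MvPolynomial (Fin n) ℂ)

theorem differentiable_eval : Differentiable ℂ fun z : Fin n → ℂ => MvPolynomial.eval z p := by
  induction p using MvPolynomial.induction_on with
  | C a => simp
  | add p q hp hq =>
    simp only [map_add]
    exact hp.add hq
  | mul_X p i hp =>
    have h : (fun z : Fin n → ℂ => MvPolynomial.eval z (p * MvPolynomial.X i)) =
        fun z => MvPolynomial.eval z p * z i := by
      funext z; simp
    rw [h]
    exact hp.mul (differentiable_apply i)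

theorem contDiff_eval : ContDiff ℝ (⊤ : ℕ∞) fun z : Fin n → ℂ => MvPolynomial.eval z p := by
  induction p using MvPolynomial.induction_on with
  | C a => simpa using contDiff_const
  | add p q hp hq =>
    simp only [map_add]
    exact hp.add hq
  | mul_X p i hp =>
    have h : (fun z : Fin n → ℂ => MvPolynomial.eval z (p * MvPolynomial.X i)) =
        fun z => MvPolynomial.eval z p * z i := by
      funext z; simp
    rw [h]
    exact hp.mul (contDiff_apply ℝ ℂ i)

end poly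

/-! ### the data of the mass theorem -/

section data

open Crest.Agent.R276.NL_137

variable {K : Type} [Field K] [Algebra ℂ K] {m : ℕ} (M : Mdl K m)

theorem encard_fib (z : Fin m → ℂ) :
    ((cp : (M.B →ₐ[ℂ] ℂ) → (Fin m → ℂ)) ⁻¹' {z}).encard ≤ M.deg := by
  by_cases hz : MvPolynomial.eval z M.h = 0
  · have h1 : ((cp : (M.B →ₐ[ℂ] ℂ) → (Fin m → ℂ)) ⁻¹' {z}) = ∅ := by
      rw [Set.eq_empty_iff_forall_notMem]
      intro y hy
      have h2 : M.pz y = z := hy
      exact M.eval_h_ne y (by rw [h2, hz])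
    rw [h1]; simp
  · obtain ⟨h1, h2⟩ := M.card_fib hz
    have h3 : ((cp : (M.B →ₐ[ℂ] ℂ) → (Fin m → ℂ)) ⁻¹' {z}).encard = M.deg := by
      have h4 : ((cp : (M.B →ₐ[ℂ] ℂ) → (Fin m → ℂ)) ⁻¹' {z}) = {y | M.pz y = z} := rfl
      have h5 : Finite {y : M.B →ₐ[ℂ] ℂ | M.pz y = z} := h2
      rw [h4, Set.encard, ENat.card_eq_coe_natCard]
      exact_mod_cast h1
    exact h3.le

theorem isCompact_sub (R δ : ℝ) (hδ : 0 < δ) :
    IsCompact {x : M.B →ₐ[ℂ] ℂ | nsq (cp x) ≤ R ∧ δ ≤ ‖MvPolynomial.eval (cp x) M.h‖} := by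
  set S : Set (Fin m → ℂ) := {ζ | nsq ζ ≤ R ∧ δ ≤ ‖MvPolynomial.eval ζ M.h‖} with hS
  have hSc : IsCompact S := by
    refine Metric.isCompact_of_isClosed_isBounded ?_ ?_
    · exact (isClosed_le nsq_contDiff.continuous continuous_const).inter
        (isClosed_le continuous_const (MvPolynomial.continuous_eval M.h).norm)
    · refine (Metric.isBounded_closedBall (x := (0 : Fin m → ℂ))
        (r := Real.sqrt R)).subset ?_
      intro ζ hζ
      rw [mem_closedBall_zero_iff, pi_norm_le_iff_of_nonneg (Real.sqrt_nonneg _)]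
      intro i
      apply Real.le_sqrt_of_sq_le
      refine le_trans ?_ hζ.1
      exact Finset.single_le_sum (f := fun i => ‖ζ i‖ ^ 2) (fun j _ => by positivity)
        (Finset.mem_univ i)
  exact M.isCompact_preimage hSc fun ζ hζ h0 => by
    have h1 := hζ.2
    rw [h0, norm_zero] at h1
    linarith

theorem log_h_le : ∃ C : ℝ, 0 ≤ C ∧ ∀ x : M.B →ₐ[ℂ] ℂ,
    Real.log ‖MvPolynomial.eval (cp x) M.h‖ ≤ C + C * Lg (cp x) := by
  obtain ⟨A, hA0, hA⟩ := Cur_409.norm_aeval_le (Pf1_409.zc M) M.h (d := M.h.totalDegree) le_rfl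
  set d := M.h.totalDegree
  refine ⟨Real.log (A + 1) + d, add_nonneg (Real.log_nonneg (by linarith)) (by positivity),
    fun x => ?_⟩
  have h1 := hA x
  have h2 : MvPolynomial.eval (cp x) M.h = Pf1_409.hc M x := rfl
  rw [h2]
  rw [← Pf1_409.hc_aeval] at h1
  have h3 : 0 < ‖Pf1_409.hc M x‖ := norm_pos_iff.2 (Pf1_409.hc_ne M x)
  have hsx : Cur_409.sx (Pf1_409.zc M) x = 1 + nsq (cp x) := by
    unfold Cur_409.sx
    rw [add_comm]
    rfl
  rw [hsx] at h1
  have hL := Lg_nonneg (cp x)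
  have hn := nsq_nonneg (cp x)
  have h4 : Real.log (‖Pf1_409.hc M x‖ ^ 2) ≤ Real.log ((A + 1) * (1 + nsq (cp x)) ^ d) := by
    refine Real.log_le_log (by positivity) (h1.trans ?_)
    gcongr
    linarith
  rw [Real.log_mul (by positivity) (by positivity), Real.log_pow, Real.log_pow] at h4
  have h5 : Real.log (1 + nsq (cp x)) = Lg (cp x) := rfl
  rw [h5] at h4
  have hlA : 0 ≤ Real.log (A + 1) := Real.log_nonneg (by linarith)
  by_cases hneg : Real.log ‖Pf1_409.hc M x‖ ≤ 0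
  · have : 0 ≤ Real.log (A + 1) + d + (Real.log (A + 1) + d) * Lg (cp x) := by positivity
    linarith
  · push Not at hneg
    have h6 : Real.log ‖Pf1_409.hc M x‖ ≤ Real.log (A + 1) + d * Lg (cp x) := by
      have : ((2 : ℕ) : ℝ) * Real.log ‖Pf1_409.hc M x‖ ≤ Real.log (A + 1) + d * Lg (cp x) := h4
      push_cast at this
      linarith
    have h7 : 0 ≤ (d : ℝ) + Real.log (A + 1) * Lg (cp x) := by positivity
    linarith

variable {n N w : ℕ} {K : Type} [Field K] [Algebra ℂ K] (M : Mdl K (n + 1))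
  (V : Ipc735.VHS (n + 1) (M.B →ₐ[ℂ] ℂ) N w)
  {α β : Type} [Fintype α] [DecidableEq α] [Fintype β] [DecidableEq β]
  (e : Fin (n + 1) ≃ α ⊕ β)

/-- the Gram determinant in the directions `β` -/
def dd (y : M.B →ₐ[ℂ] ℂ) : ℝ :=
  ((gP V y).submatrix (e.symm ∘ Sum.inr) (e.symm ∘ Sum.inr)).det.re

theorem sm_dd : Sm (dd M V e) :=
  (sm_det (G := fun x : (M.B →ₐ[ℂ] ℂ) =>
    (gP V x).submatrix (e.symm ∘ Sum.inr) (e.symm ∘ Sum.inr)) fun _ _ => sm_gP V _ _).clm
      Complex.reCLM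

/-- the data of the finite mass theorem, `d = (det gP_ββ)^k` -/
theorem exists_mdata (k : ℕ) (hpos : ∀ y, 0 < dd M V e y)
    (hpsh : ∀ y v, 0 ≤ Levi (fun y => Real.log (dd M V e y)) y v)
    (hgr : ∃ (C : ℝ) (l a : ℕ), 0 ≤ C ∧ ∀ y, dd M V e y * ‖MvPolynomial.eval (M.pz y) M.h‖ ^ l ≤
      C * (1 + ∑ i, ‖M.pz y i‖ ^ 2) ^ a) :
    ∃ P : MData (n := n + 1) (M.B →ₐ[ℂ] ℂ), P.d = fun y => dd M V e y ^ k := by
  obtain ⟨C1, hC1, h1⟩ := log_h_le M
  obtain ⟨C2, l, a, hC2, h2⟩ := hgr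
  have hsl : Sm (fun y => Real.log (dd M V e y)) := Sm_log (sm_dd M V e) hpos
  have hlog : (fun y => Real.log (dd M V e y ^ k)) = fun y => k * Real.log (dd M V e y) := by
    funext y; rw [Real.log_pow]
  set C3 : ℝ := C1 + k * (Real.log (C2 + 1) + l + a) with hC3
  have hlC2 : 0 ≤ Real.log (C2 + 1) := Real.log_nonneg (by linarith)
  have hC30 : 0 ≤ C3 := by positivity
  refine ⟨⟨M.deg, encard_fib M, fun z => MvPolynomial.eval z M.h, differentiable_eval _,
    contDiff_eval _, M.eval_h_ne, C3, hC30, fun x => ?_, fun R δ hδ => isCompact_sub M R δ hδ,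
    fun y => dd M V e y ^ k, Sm.comp (contDiff_id.pow k) (sm_dd M V e), fun x _ v => ?_,
    fun x _ => ?_⟩, rfl⟩
  · refine (h1 x).trans ?_
    have hL := Lg_nonneg (cp x)
    have h3 : C1 ≤ C3 := by
      rw [hC3]
      have : 0 ≤ k * (Real.log (C2 + 1) + l + a) := by positivity
      linarith
    gcongr
  · simp only [hlog]
    rw [Levi_const_mul hsl]
    exact mul_nonneg (by positivity) (hpsh x v)
  · show Real.log (dd M V e x ^ k) ≤ _
    rw [Real.log_pow]
    have hh : 0 < ‖MvPolynomial.eval (M.pz x) M.h‖ := norm_pos_iff.2 (M.eval_h_ne x)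
    have hL := Lg_nonneg (cp x)
    have hx := hpos x
    have hn : (0 : ℝ) ≤ ∑ i, ‖M.pz x i‖ ^ 2 := Finset.sum_nonneg fun i _ => by positivity
    have h4 : Real.log (dd M V e x * ‖MvPolynomial.eval (M.pz x) M.h‖ ^ l) ≤
        Real.log ((C2 + 1) * (1 + ∑ i, ‖M.pz x i‖ ^ 2) ^ a) := by
      refine Real.log_le_log (by positivity) ((h2 x).trans ?_)
      gcongr
      linarith
    rw [Real.log_mul hx.ne' (by positivity), Real.log_mul (by positivity) (by positivity),
      Real.log_pow, Real.log_pow] at h4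
    have h5 : Real.log (1 + ∑ i, ‖M.pz x i‖ ^ 2) = Lg (cp x) := rfl
    rw [h5] at h4
    have h6 : -Real.log ‖MvPolynomial.eval (M.pz x) M.h‖ ≤
        Real.posLog ‖MvPolynomial.eval (M.pz x) M.h‖⁻¹ := by
      rw [← Real.log_inv]
      exact le_max_right _ _
    have h7 : 0 ≤ Real.posLog ‖MvPolynomial.eval (M.pz x) M.h‖⁻¹ := Real.posLog_nonneg
    set q := Real.posLog ‖MvPolynomial.eval (M.pz x) M.h‖⁻¹ with hq
    have hqe : Real.posLog ‖MvPolynomial.eval (cp x) M.h‖⁻¹ = q := rfl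
    rw [hqe]
    have h8 : Real.log (dd M V e x) ≤ Real.log (C2 + 1) + a * Lg (cp x) + l * q := by
      have : -(l * Real.log ‖MvPolynomial.eval (M.pz x) M.h‖) ≤ l * q := by
        rw [← mul_neg]
        exact mul_le_mul_of_nonneg_left h6 (by positivity)
      linarith
    have hk : (0 : ℝ) ≤ k := by positivity
    have h9 := mul_le_mul_of_nonneg_left h8 hk
    refine h9.trans ?_
    have e1 : (k : ℝ) * Real.log (C2 + 1) ≤ C3 := by
      rw [hC3]
      have : 0 ≤ (k : ℝ) * (l + a) := by positivity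
      nlinarith
    have e2 : (k : ℝ) * a ≤ C3 := by
      rw [hC3]
      have : 0 ≤ (k : ℝ) * (Real.log (C2 + 1) + l) := by positivity
      nlinarith
    have e3 : (k : ℝ) * l ≤ C3 := by
      rw [hC3]
      have : 0 ≤ (k : ℝ) * (Real.log (C2 + 1) + a) := by positivity
      nlinarith
    have e4 := mul_le_mul_of_nonneg_right e2 hL
    have e5 := mul_le_mul_of_nonneg_right e3 h7
    nlinarith

theorem posSemidef_sub {X : Type*} [TopologicalSpace X] [RDom m X] {φ : X → ℝ} (hφ : Sm φ) {x : X}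
    {G : Matrix (Fin m) (Fin m) ℂ} (hG : G.IsHermitian)
    (h : ∀ v : Fin m → ℂ, (∑ j, ∑ k, G j k * v j * conj (v k)).re ≤ Levi φ x v) :
    (LvM φ x - G).PosSemidef := by
  have hL : (LvM φ x).IsHermitian := by
    ext j k
    rw [Matrix.conjTranspose_apply]
    exact Lv_conj hφ x k j
  have hGr : ∀ v : Fin m → ℂ, ((∑ j, ∑ k, G j k * v j * conj (v k)).re : ℂ) =
      ∑ j, ∑ k, G j k * v j * conj (v k) := by
    intro v
    rw [← Complex.conj_eq_iff_re]
    simp only [map_sum, map_mul, Complex.conj_conj]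
    rw [Finset.sum_comm]
    refine Finset.sum_congr rfl fun k _ => Finset.sum_congr rfl fun j _ => ?_
    have : conj (G j k) = G k j := by
      have := congrFun (congrFun hG k) j
      rw [Matrix.conjTranspose_apply] at this
      exact this
    rw [this]
    ring
  refine Matrix.PosSemidef.of_dotProduct_mulVec_nonneg (hL.sub hG) fun v => ?_
  have h1 : star v ⬝ᵥ ((LvM φ x - G) *ᵥ v) = ((Levi φ x (fun j => conj (v j)) -
      (∑ j, ∑ k, G j k * (conj (v j)) * conj (conj (v k))).re : ℝ) : ℂ) := by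
    rw [Complex.ofReal_sub, Levi_eq hφ, hGr]
    rw [← Finset.sum_sub_distrib]
    simp only [dotProduct, Matrix.mulVec, Finset.mul_sum, Matrix.sub_apply, LvM, Matrix.of_apply,
      Pi.star_apply]
    refine Finset.sum_congr rfl fun j _ => ?_
    rw [← Finset.sum_sub_distrib]
    refine Finset.sum_congr rfl fun k _ => ?_
    simp only [Complex.conj_conj, RCLike.star_def]
    ring
  rw [h1]
  have h2 := h (fun j => conj (v j))
  have h3 : 0 ≤ Levi φ x (fun j => conj (v j)) -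
      (∑ j, ∑ k, G j k * (conj (v j)) * conj (conj (v k))).re := by linarith
  exact_mod_cast h3

variable (f : α → Fin (n + 1) → M.B)

/-- the hypotheses on the slopes and on the period metric -/
structure Slopes : Prop where
  f1 : ∀ i j, f i (e.symm (Sum.inl j)) = if i = j then 1 else 0
  f0 : ∀ (y : M.B →ₐ[ℂ] ℂ) i k, ∑ j, y (f i j) * gP V y j k = 0
  pos : ∀ y, 0 < dd M V e y
  psh : ∀ y v, 0 ≤ Levi (fun y => Real.log (dd M V e y)) y v
  gr : ∃ (C : ℝ) (l a : ℕ), 0 ≤ C ∧ ∀ y, dd M V e y * ‖MvPolynomial.eval (M.pz y) M.h‖ ^ l ≤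
      C * (1 + ∑ i, ‖M.pz y i‖ ^ 2) ^ a
  lev : ∃ c : ℝ, 0 < c ∧ ∀ y (v b : Fin (n + 1) → ℂ), (∀ i, b (e.symm (Sum.inl i)) = 0) →
    (∀ k, ∑ j, (v - b) j * gP V y j k = 0) →
      c * (∑ j, ∑ k, gP V y j k * v j * conj (v k)).re ≤
        Levi (fun y => Real.log (dd M V e y)) y v

variable {M V e f}

/-- subtracting the kernel part -/
theorem Slopes.split (H : Slopes M V e f) (y : M.B →ₐ[ℂ] ℂ) (v : Fin (n + 1) → ℂ) :
    ∃ b : Fin (n + 1) → ℂ, (∀ i, b (e.symm (Sum.inl i)) = 0) ∧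
      (∀ k, ∑ j, (v - b) j * gP V y j k = 0) ∧
      v - b = fun j => ∑ i, v (e.symm (Sum.inl i)) * y (f i j) := by
  refine ⟨fun j => v j - ∑ i, v (e.symm (Sum.inl i)) * y (f i j), fun i => ?_, fun k => ?_, ?_⟩
  · simp only
    rw [Finset.sum_eq_single i]
    · rw [H.f1, if_pos rfl, map_one, mul_one, sub_self]
    · intro j _ hj
      rw [H.f1, if_neg hj, map_zero, mul_zero]
    · intro h; exact absurd (Finset.mem_univ _) h
  · simp only [Pi.sub_apply, sub_sub_cancel, Finset.sum_mul]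
    rw [Finset.sum_comm]
    refine Finset.sum_eq_zero fun i _ => ?_
    simp only [mul_assoc]
    rw [← Finset.mul_sum, H.f0, mul_zero]
  · funext j
    simp only [Pi.sub_apply, sub_sub_cancel]

section mass

attribute [local instance] flat

theorem Levi_lg (x : M.B →ₐ[ℂ] ℂ) (w : Fin (n + 1) → ℂ) :
    Levi (Crest.Agent.R271.W792.lg (Pf1_409.zc M) 1) x w = Levi Lg (cp x) w := by
  have h1 : Crest.Agent.R271.W792.lg (Pf1_409.zc M) 1 = fun y => Lg (cp y) := by
    funext y
    unfold Crest.Agent.R271.W792.lg Lg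
    rw [add_comm]
    rfl
  rw [h1, Levi_coord]

theorem Levi_lg_nonneg (x : M.B →ₐ[ℂ] ℂ) (w : Fin (n + 1) → ℂ) :
    0 ≤ Levi (Crest.Agent.R271.W792.lg (Pf1_409.zc M) 1) x w := by
  rw [Levi_lg]; exact Levi_Lg_nonneg _ _

theorem mass_slope (H : Slopes M V e f) {μ : Measure (M.B →ₐ[ℂ] ℂ)} (hμ : IsLeb μ) (i₀ : α) :
    ∫⁻ x : M.B →ₐ[ℂ] ℂ, ENNReal.ofReal (Levi Lg (cp x) (fun j => x (f i₀ j)) *
      (∏ i ∈ Finset.univ.erase i₀, ((1 + ‖cp x (e.symm (Sum.inl i))‖ ^ 2)⁻¹) ^ 2) *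
      dd M V e x) ∂μ < ∞ := by
  obtain ⟨c, hc, hlev⟩ := H.lev
  obtain ⟨k, hk⟩ := exists_nat_ge (c⁻¹)
  have hkc : 1 ≤ k * c := by
    have := mul_le_mul_of_nonneg_right hk hc.le
    rwa [inv_mul_cancel₀ hc.ne'] at this
  obtain ⟨P, hP⟩ := exists_mdata M V e k H.pos H.psh H.gr
  have hset : {x | 0 < P.d x} = univ := by
    rw [Set.eq_univ_iff_forall]
    intro x
    show 0 < P.d x
    rw [hP]
    exact pow_pos (H.pos x) k
  have hsl : Sm (fun y => Real.log (dd M V e y)) := Sm_log (sm_dd M V e) H.pos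
  have hlog : (fun y => Real.log (P.d y)) = fun y => k * Real.log (dd M V e y) := by
    funext y; rw [hP]; simp only; rw [Real.log_pow]
  have key := mass_frame hμ P e i₀ (fun x => gP V x)
    (fun x => Matrix.of fun i j => x (f i j)) (fun x _ => gP_posSemidef V x)
    (fun x _ => by
      rw [hlog]
      refine posSemidef_sub ((Sm.const _).mulR hsl) (gP_herm V x) fun v => ?_
      rw [Levi_const_mul hsl]
      obtain ⟨b, hb1, hb2, -⟩ := H.split x v
      have h1 := hlev x v b hb1 hb2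
      have h2 : 0 ≤ (∑ j, ∑ k, gP V x j k * v j * conj (v k)).re := by
        have h3 := (gP_posSemidef V x).dotProduct_mulVec_nonneg (fun j => conj (v j))
        have h4 := (Complex.le_def.1 h3).1
        have h5 : star (fun j => conj (v j)) ⬝ᵥ (gP V x *ᵥ fun j => conj (v j)) =
            ∑ j, ∑ k, gP V x j k * v j * conj (v k) := by
          simp only [dotProduct, Matrix.mulVec, Finset.mul_sum, Pi.star_apply, RCLike.star_def,
            Complex.conj_conj]
          refine Finset.sum_congr rfl fun j _ => Finset.sum_congr rfl fun k _ => ?_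
          ring
        rw [h5] at h4
        exact h4
      have h3 : (∑ j, ∑ k, gP V x j k * v j * conj (v k)).re ≤
          k * (c * (∑ j, ∑ k, gP V x j k * v j * conj (v k)).re) := by
        rw [← mul_assoc]
        exact le_mul_of_one_le_left h2 hkc
      exact h3.trans (mul_le_mul_of_nonneg_left h1 (by positivity)))
    (fun x i j => by
      rw [Matrix.of_apply, H.f1]
      split_ifs
      · exact map_one x
      · exact map_zero x)
    (fun x _ => by
      ext i k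
      rw [Matrix.mul_apply, Matrix.zero_apply]
      exact H.f0 x i k)
  rw [hset, Measure.restrict_univ] at key
  exact key

end mass

variable (e) in
/-- the slice coordinates which are invariants -/
def AA (i₀ : α) : Finset (Fin n) :=
  Finset.univ.filter fun k => (e ((e.symm (Sum.inl i₀)).succAbove k)).isLeft = true

theorem mem_AA {i₀ : α} {k : Fin n} :
    k ∈ AA e i₀ ↔ ∃ i, i ≠ i₀ ∧ (e.symm (Sum.inl i₀)).succAbove k = e.symm (Sum.inl i) := by
  rw [AA, Finset.mem_filter, Sum.isLeft_iff]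
  constructor
  · rintro ⟨-, i, hi⟩
    have h1 : (e.symm (Sum.inl i₀)).succAbove k = e.symm (Sum.inl i) := by
      rw [← hi, e.symm_apply_apply]
    refine ⟨i, ?_, h1⟩
    rintro rfl
    exact Fin.succAbove_ne _ _ h1
  · rintro ⟨i, -, hi⟩
    exact ⟨Finset.mem_univ _, i, by rw [hi, e.apply_symm_apply]⟩

theorem notMem_AA {i₀ : α} {k : Fin n} :
    k ∉ AA e i₀ ↔ ∃ b, (e.symm (Sum.inl i₀)).succAbove k = e.symm (Sum.inr b) := by
  rw [AA, Finset.mem_filter]
  constructor
  · intro h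
    rcases h1 : e ((e.symm (Sum.inl i₀)).succAbove k) with i | b
    · exact absurd ⟨Finset.mem_univ _, by rw [h1]; rfl⟩ h
    · exact ⟨b, by rw [← h1, e.symm_apply_apply]⟩
  · rintro ⟨b, hb⟩ ⟨-, h⟩
    rw [hb, e.apply_symm_apply] at h
    simp at h

/-- the complement of the invariants is `β` -/
theorem exists_EE (i₀ : α) : ∃ E : Cm (AA e i₀) ≃ β,
    ∀ k, e.symm (Sum.inr (E k)) = (e.symm (Sum.inl i₀)).succAbove k.1 := by
  classical
  choose g hg using fun k : Cm (AA e i₀) => notMem_AA.1 k.2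
  have hb : Function.Bijective g := by
    constructor
    · intro k k' h
      have h1 := hg k
      rw [h, ← hg k'] at h1
      exact Subtype.ext (Fin.succAbove_right_injective h1)
    · intro b
      obtain ⟨k, hk⟩ := Fin.exists_succAbove_eq (x := e.symm (Sum.inr b))
        (y := e.symm (Sum.inl i₀)) (by rw [Ne, e.symm.injective.eq_iff]; simp)
      refine ⟨⟨k, notMem_AA.2 ⟨b, hk⟩⟩, ?_⟩
      have h1 := hk.symm.trans (hg ⟨k, notMem_AA.2 ⟨b, hk⟩⟩)
      exact (Sum.inr_injective (e.symm.injective h1)).symm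
  exact ⟨Equiv.ofBijective g hb, fun k => (hg k).symm⟩

theorem prod_AA (i₀ : α) (F : Fin (n + 1) → ℝ) :
    ∏ k ∈ AA e i₀, F ((e.symm (Sum.inl i₀)).succAbove k) =
      ∏ i ∈ Finset.univ.erase i₀, F (e.symm (Sum.inl i)) := by
  classical
  have h1 : ∏ k ∈ AA e i₀, F ((e.symm (Sum.inl i₀)).succAbove k) =
      ∏ j ∈ (AA e i₀).map (e.symm (Sum.inl i₀)).succAboveEmb, F j := by
    rw [Finset.prod_map]; rfl
  have h2 : ∏ i ∈ Finset.univ.erase i₀, F (e.symm (Sum.inl i)) =
      ∏ j ∈ (Finset.univ.erase i₀).map ⟨fun i => e.symm (Sum.inl i),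
        e.symm.injective.comp Sum.inl_injective⟩, F j := by
    rw [Finset.prod_map]; rfl
  rw [h1, h2]
  congr 1
  ext j
  simp only [Finset.mem_map, Finset.mem_erase, Finset.mem_univ, and_true,
    Function.Embedding.coeFn_mk]
  constructor
  · rintro ⟨k, hk, rfl⟩
    obtain ⟨i, hi, hi'⟩ := mem_AA.1 hk
    exact ⟨i, hi, hi'.symm⟩
  · rintro ⟨i, hi, rfl⟩
    obtain ⟨k, hk⟩ := Fin.exists_succAbove_eq (x := e.symm (Sum.inl i))
      (y := e.symm (Sum.inl i₀)) (by
        rw [Ne, e.symm.injective.eq_iff, Sum.inl_injective.eq_iff]; exact hi)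
    exact ⟨k, mem_AA.2 ⟨i, hi, hk⟩, hk⟩

theorem det_AA (i₀ : α) (x : M.B →ₐ[ℂ] ℂ) :
    (sub (AA e i₀) (gS V (e.symm (Sum.inl i₀)) x)).det.re = dd M V e x := by
  obtain ⟨E, hE⟩ := exists_EE (e := e) i₀
  have h1 : sub (AA e i₀) (gS V (e.symm (Sum.inl i₀)) x) =
      ((gP V x).submatrix (e.symm ∘ Sum.inr) (e.symm ∘ Sum.inr)).submatrix E E := by
    ext j k
    show gP V x _ _ = gP V x _ _
    simp only [Function.comp_apply]
    rw [hE, hE]
  rw [h1, Matrix.det_submatrix_equiv_self]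
  rfl

theorem wS_AA (i₀ : α) (x : M.B →ₐ[ℂ] ℂ) : wS V (e.symm (Sum.inl i₀)) (AA e i₀) x =
    (∏ i ∈ Finset.univ.erase i₀, ((1 + ‖cp x (e.symm (Sum.inl i))‖ ^ 2)⁻¹) ^ 2) *
      dd M V e x := by
  unfold wS
  rw [det_AA, prod_AA i₀ (fun j => ((1 + ‖cp x j‖ ^ 2) ^ 2)⁻¹), mul_comm]
  congr 1
  exact Finset.prod_congr rfl fun i _ => by rw [inv_pow]

theorem countable_GL (N : ℕ) : Countable (GL (Fin N) ℤ) := by
  have h1 : Countable (Matrix (Fin N) (Fin N) ℤ) := by
    unfold Matrix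
    infer_instance
  exact (Units.val_injective (α := Matrix (Fin N) (Fin N) ℤ)).countable

section main

open Crest.Agent.R276.InvV_450 Crest.Agent.R276.LsDefs_450 Crest.Agent.R276.Coa2_375
open Crest.Agent.R276.PfDer_676 Crest.Agent.R276.Der_409

/-- the invariance of the weight for the instance of 450 -/
theorem hw_inst {X : (M.B →ₐ[ℂ] ℂ) → Fin (n + 1) → ℂ} (i₀ : Fin (n + 1)) (A : Finset (Fin n))
    (hX1 : ∀ x, X x i₀ = 1) (hXA : ∀ x, ∀ i ∈ A, X x (i₀.succAbove i) = 0)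
    (hXh : ∀ j, Crest.Agent.R271.Ho51.Hol (fun y => X y j))
    (hXg : ∀ x k, ∑ j, X x j * gP V x j k = 0) :
    ∀ x y γ, (mkInv V i₀ A X hX1 hXA hXh hXg).e y =
      (mkInv V i₀ A X hX1 hXA hXh hXg).ρ γ ((mkInv V i₀ A X hX1 hXA hXh hXg).e x) →
      ∀ L : (Fin n → ℂ) →L[ℝ] (Fin n → ℂ),
      (∀ v, D ((mkInv V i₀ A X hX1 hXA hXh hXg).F y) y (ins i₀ (0, L v)) =
        (mkInv V i₀ A X hX1 hXA hXh hXg).ρ γ
          (D ((mkInv V i₀ A X hX1 hXA hXh hXg).F x) x (ins i₀ (0, v)))) →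
        ENNReal.ofReal (wS V i₀ A x) = ENNReal.ofReal |L.det| * ENNReal.ofReal (wS V i₀ A y) := by
  intro x y γ h L hL
  have h1 : vt (ev V y) (fun i : A => cp y (i₀.succAbove i.1)) =
      vt (act γ (ev V x)) (fun i : A => cp x (i₀.succAbove i.1)) := h
  have hcp : ∀ i ∈ A, (cp y : Fin (n + 1) → ℂ) (i₀.succAbove i) =
      (cp x : Fin (n + 1) → ℂ) (i₀.succAbove i) := fun i hi =>
    congrFun (vt_inj h1).2 ⟨i, hi⟩
  have h2 : ∀ v, (fun i k => TE V y (i₀.insertNth 0 (L v)) i k, fun _ _ => 0,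
      fun i : A => (i₀.insertNth 0 (L v) : Fin (n + 1) → ℂ) (i₀.succAbove i.1)) =
      rho γ ((fun i k => TE V x (i₀.insertNth 0 v) i k, fun _ _ => 0,
        fun i : A => (i₀.insertNth 0 v : Fin (n + 1) → ℂ) (i₀.succAbove i.1)) : Vt N A) := by
    intro v
    have h3 := hL v
    rw [ins_apply, ins_apply] at h3
    have h4 : D ((mkInv V i₀ A X hX1 hXA hXh hXg).F y) y (i₀.insertNth 0 (L v)) = _ :=
      D_FI V i₀ A y _
    have h5 : D ((mkInv V i₀ A X hX1 hXA hXh hXg).F x) x (i₀.insertNth 0 v) = _ :=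
      D_FI V i₀ A x _
    simp only at h3
    rw [h4, h5] at h3
    exact h3
  have hT : ∀ v, TE V y (i₀.insertNth 0 (L v)) =
      Ipc735.cm γ * TE V x (i₀.insertNth 0 v) * Ipc735.cm γ⁻¹ := by
    intro v
    have h3 := congrArg (fun q : Vt N A => Matrix.of q.1) (h2 v)
    simp only [rho_fst] at h3
    exact h3
  have hLA : ∀ v, ∀ i ∈ A, L v i = v i := by
    intro v i hi
    have h3 := congrFun (congrArg (fun q : Vt N A => q.2.2) (h2 v)) ⟨i, hi⟩
    simp only [rho_snd, Fin.insertNth_apply_succAbove] at h3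
    exact h3
  rw [← ENNReal.ofReal_mul (abs_nonneg _), inv_pt γ hcp L hT hLA]

theorem trdeg_slope (H : Slopes M V e f) (i₀ : α) :
    Algebra.trdeg (Kc (Df M (fun j => (f i₀ j : K)))) K ≤ 1 := by
  obtain ⟨μ, hμ⟩ := M.exists_leb
  have hc := countable_GL N
  set i' : Fin (n + 1) := e.symm (Sum.inl i₀) with hi'
  set X : (M.B →ₐ[ℂ] ℂ) → Fin (n + 1) → ℂ := fun x j => x (f i₀ j) with hX
  have hX1 : ∀ x, X x i' = 1 := fun x => by
    show x (f i₀ (e.symm (Sum.inl i₀))) = 1
    rw [H.f1, if_pos rfl, map_one]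
  have hXA : ∀ x, ∀ i ∈ AA e i₀, X x (i'.succAbove i) = 0 := fun x k hk => by
    obtain ⟨i, hi, hk'⟩ := mem_AA.1 hk
    show x (f i₀ (i'.succAbove k)) = 0
    rw [hi', hk', H.f1, if_neg (Ne.symm hi), map_zero]
  have hXh : ∀ j, Crest.Agent.R271.Ho51.Hol (fun y => X y j) := fun j => M.hol51_ev _
  have hXg : ∀ x k, ∑ j, X x j * gP V x j k = 0 := fun x k => H.f0 x i₀ k
  refine Pf1_409.trdeg_le_one M (mkInv V i' (AA e i₀) X hX1 hXA hXh hXg) hμ
    (fun x => ENNReal.ofReal (wS V i' (AA e i₀) x))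
    (sm_wS V i' (AA e i₀)).continuous.measurable.ennreal_ofReal
    (hw_inst i' (AA e i₀) hX1 hXA hXh hXg) ?_ ?_ ?_ (DfB M (f i₀)) (fun b y => ?_) _
    (fun b => Df_coe M (f i₀) b)
  · have h1 := (mass_slope H hμ i₀).ne
    refine ne_of_eq_of_ne (lintegral_congr fun x => ?_) h1
    rw [wS_AA, ← ENNReal.ofReal_mul]
    · rw [mul_assoc, Levi_lg]
      rfl
    · exact Levi_lg_nonneg x _
  · refine Eventually.of_forall fun x => ?_
    rw [mem_Mst_iff, imm_iff, det_AA]
    exact H.pos x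
  · refine Eventually.of_forall fun x => ?_
    have : 0 < wS V i' (AA e i₀) x := by
      rw [wS_pos_iff, det_AA]
      exact H.pos x
    simpa using this
  · exact D_ev_field M (f i₀) b y

end main

end data

end Crest.Agent.R276.Pf2_409
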