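import Mathlib
import Crest.Agent.R276.PfDer_676
import Crest.Agent.R276.Cur_409
import Crest.Agent.R276.LsDefs_450

/-!
Row 276 (S0419), PF-DER part 2 (helper676).

* `iteratedDeriv_loc` : on a Riemann surface `A` over `ℂ`, if `dz 0 (F k) = F (k+1)` then the iterated
  derivatives of `F 0` are the values `F k p`;
* `jets_leaf` : on a leaf, `iteratedDeriv k (loc (ev b) p) (cp p 0) = p ((DfB M f)^[k] b)`;
* `bracket_tan` : the bracket of two fields annihilated by `D F` is annihilated by `D F`;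
* `comm_of_ker` : a frame of algebraic fields whose pointwise span is an involutive kernel commutes.
-/

set_option autoImplicit false

open Topology Filter Set

noncomputable section

namespace Crest.Agent.R276.PfDer_676

open Crest.Agent.R271.Defs710 Crest.Agent.R271.Rd692 Crest.Agent.R271.Ho51
open Crest.Agent.R271
open Crest.Agent.R276.Mod1_987 Crest.Agent.R276.Cur_409
open Crest.Agent.R276.Ipc735 (SmAt)

/-! ### jets on a Riemann surface -/

section jets

variable {A : Type*} [TopologicalSpace A] [RDom 1 A]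

/-- for holomorphic `f` the complex derivative is `dz` -/
theorem hasDerivAt_loc {f : A → ℂ} (hf : W792.Hol f) (p : A) {t : ℂ}
    (ht : cst t ∈ (ch p).target) :
    HasDerivAt (loc f p) (dz 0 f ((ch p).symm (cst t))) t := by
  have hd := (loc_differentiableAt hf p ht)
  have h1 : HasFDerivAt (f ∘ (ch p).symm) (D f ((ch p).symm (cst t))) (cst t) := by
    rw [D_symm (isCh_ch p) ht]
    exact ((hf.sm.contDiffAt' (isCh_ch p) ht).differentiableAt (by simp)).hasFDerivAt
  let cL : ℂ →L[ℝ] (Fin 1 → ℂ) := ContinuousLinearMap.pi fun _ => ContinuousLinearMap.id ℝ ℂ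
  have h2 : HasFDerivAt cst cL t := cL.hasFDerivAt
  have h3 : HasFDerivAt (loc f p) ((D f ((ch p).symm (cst t))).comp cL) t := h1.comp t h2
  have h4 : HasFDerivAt (loc f p) ((fderiv ℂ (loc f p) t).restrictScalars ℝ) t :=
    hd.hasFDerivAt.restrictScalars ℝ
  have h5 := h3.unique h4
  have h6 : deriv (loc f p) t = D f ((ch p).symm (cst t)) (cL 1) := by
    rw [← fderiv_apply_one_eq_deriv]
    exact (congrArg (fun L : ℂ →L[ℝ] ℂ => L 1) h5).symm
  have h7 : cL 1 = Pi.single (M := fun _ : Fin 1 => ℂ) 0 (1 : ℂ) := by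
    funext i; rw [Subsingleton.elim i 0]; simp [cL]
  have h8 : Pi.single (M := fun _ : Fin 1 => ℂ) 0 Complex.I = Complex.I • cL 1 := by
    funext i; rw [Subsingleton.elim i 0]; simp [cL]
  have h9 : dz 0 f ((ch p).symm (cst t)) = deriv (loc f p) t := by
    rw [dz_eq, h8, hf.cl, ← h7, h6, ← mul_assoc, Complex.I_mul_I]
    ring
  rw [h9]
  exact hd.hasDerivAt

theorem deriv_loc_eventually {f g : A → ℂ} (hf : W792.Hol f) (hg : ∀ q, dz 0 f q = g q) (p : A) :
    deriv (loc f p) =ᶠ[𝓝 (cp p 0)] loc g p := by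
  have h1 : {t : ℂ | cst t ∈ (ch p).target} ∈ 𝓝 (cp p 0) := by
    apply continuous_cst.continuousAt.preimage_mem_nhds
    rw [cst_apply]
    exact (ch p).open_target.mem_nhds ((isCh_ch p).cp_mem (mem_ch p))
  filter_upwards [h1] with t ht
  rw [(hasDerivAt_loc hf p ht).deriv, hg]
  rfl

/-- **jets** -/
theorem iteratedDeriv_loc {F : ℕ → A → ℂ} (hF : ∀ k, W792.Hol (F k))
    (hd : ∀ k q, dz 0 (F k) q = F (k + 1) q) (p : A) (k : ℕ) :
    iteratedDeriv k (loc (F 0) p) (cp p 0) = F k p := by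
  have key : ∀ k j, iteratedDeriv k (loc (F j) p) (cp p 0) = F (j + k) p := by
    intro k
    induction k with
    | zero => intro j; rw [iteratedDeriv_zero, loc_cp p (mem_ch p), add_zero]
    | succ k ih =>
      intro j
      rw [iteratedDeriv_succ']
      have h1 := (deriv_loc_eventually (hF j) (hd j) p).iteratedDeriv_eq k
      rw [h1, ih (j + 1)]
      congr 1
      omega
  have := key k 0
  rwa [zero_add] at this

end jets

/-! ### jets on a leaf -/

section leaf

variable {K : Type} [Field K] [Algebra ℂ K] {m : ℕ} (M : Mdl K m)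

/-- jets of regular functions along a leaf `S` of the vector field `(y (f_j))_j` -/
theorem jets_leaf (f : Fin m → M.B) {S : Set M.Pts} [RDom 1 S]
    (hol : ∀ g : M.Pts → ℂ, Ho51.Hol g → Ho51.Hol (fun q : S => g q))
    (hdz : ∀ g : M.Pts → ℂ, Sm g → ∀ q : S, dz 0 (fun q : S => g q) q =
      ∑ j, (q : M.Pts) (f j) * dz j g q) (p : S) (b : M.B) (k : ℕ) :
    iteratedDeriv k (loc (fun q : S => (q : M.Pts) b) p) (cp p 0) =
      (p : M.Pts) ((⇑(DfB M f))^[k] b) := by
  refine iteratedDeriv_loc (F := fun k (q : S) => (q : M.Pts) ((⇑(DfB M f))^[k] b)) ?_ ?_ p k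
  · intro k
    rw [AB2_590.hol792_iff, ← AB2_590.hol51_iff]
    exact hol _ (M.hol51_ev _)
  · intro k q
    rw [hdz (fun y => y ((⇑(DfB M f))^[k] b)) (M.hol792_ev _).sm q, Function.iterate_succ_apply',
      DfB_apply, map_sum]
    refine Finset.sum_congr rfl fun j _ => ?_
    rw [dz_ev, map_mul]

end leaf

/-! ### brackets of fields annihilated by `D F` -/

section bracket

variable {m : ℕ} {X : Type*} [TopologicalSpace X] [RDom m X] {V : Type*} [NormedAddCommGroup V]
  [NormedSpace ℝ V]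

/-- `D F` annihilates the bracket -/
theorem bracket_tan {F : X → V} {y : X} (hF : SmAt F y) {U W : X → Fin m → ℂ}
    (hU : SmAt U y) (hW : SmAt W y) (hUt : ∀ᶠ z in 𝓝 y, D F z (U z) = 0)
    (hWt : ∀ᶠ z in 𝓝 y, D F z (W z) = 0) :
    D F y (D W y (U y) - D U y (W y)) = 0 := by
  set G : (Fin m → ℂ) → V := F ∘ (ch y).symm with hG
  set u : (Fin m → ℂ) → Fin m → ℂ := U ∘ (ch y).symm with hu
  set v : (Fin m → ℂ) → Fin m → ℂ := W ∘ (ch y).symm with hv
  have hF' : ContDiffAt ℝ (⊤ : ℕ∞) G (cp y) := hF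
  have hsymm : Tendsto (ch y).symm (𝓝 (cp y)) (𝓝 y) := by
    have := (ch y).symm.continuousAt (x := cp y) (by simpa using (isCh_ch y).cp_mem (mem_ch y))
    rwa [ContinuousAt, (isCh_ch y).symm_cp (mem_ch y)] at this
  have htgt : ∀ᶠ w in 𝓝 (cp y), w ∈ (ch y).target :=
    (ch y).open_target.mem_nhds ((isCh_ch y).cp_mem (mem_ch y))
  have key : ∀ {u' : (Fin m → ℂ) → Fin m → ℂ} {U' : X → Fin m → ℂ}, u' = U' ∘ (ch y).symm →
      SmAt U' y → (∀ᶠ z in 𝓝 y, D F z (U' z) = 0) → ∀ w' : Fin m → ℂ,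
      fderiv ℝ (fderiv ℝ G) (cp y) w' (u' (cp y)) + fderiv ℝ G (cp y) (fderiv ℝ u' (cp y) w') = 0 := by
    intro u' U' hu' hU' hUt' w'
    have h1 : (fun w => fderiv ℝ G w (u' w)) =ᶠ[𝓝 (cp y)] fun _ => 0 := by
      filter_upwards [hsymm.eventually hUt', htgt] with w h1 h2
      rw [D_symm (isCh_ch y) h2] at h1
      rw [hu']
      exact h1
    have h2 : DifferentiableAt ℝ (fderiv ℝ G) (cp y) :=
      (hF'.fderiv_right (m := 1) one_add_one_le_top').differentiableAt (by simp)
    have h3 : DifferentiableAt ℝ u' (cp y) := by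
      rw [hu']
      exact ContDiffAt.differentiableAt hU' (by simp)
    have h4 := h1.fderiv_eq (𝕜 := ℝ)
    rw [fderiv_clm_apply h2 h3] at h4
    rw [fderiv_const_apply] at h4
    have h5 := congrArg (fun L : (Fin m → ℂ) →L[ℝ] V => L w') h4
    simp only [_root_.add_apply, ContinuousLinearMap.comp_apply, ContinuousLinearMap.flip_apply,
      _root_.zero_apply] at h5
    rw [add_comm]
    exact h5
  have h1 := key hu hU hUt (W y)
  have h2 := key hv hW hWt (U y)
  have h3 := (hF'.isSymmSndFDerivAt (by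
    simp only [minSmoothness_of_isRCLikeNormedField]
    exact two_le_top')) (W y) (U y)
  have hu0 : u (cp y) = U y := by simp [hu, symm_cp]
  have hv0 : v (cp y) = W y := by simp [hv, symm_cp]
  rw [hu0] at h1
  rw [hv0] at h2
  have h3' : fderiv ℝ (fderiv ℝ G) (cp y) (W y) (U y) = fderiv ℝ (fderiv ℝ G) (cp y) (U y) (W y) := h3
  change fderiv ℝ G (cp y) (fderiv ℝ v (cp y) (U y) - fderiv ℝ u (cp y) (W y)) = 0
  rw [(fderiv ℝ G (cp y)).map_sub]
  rw [h3'] at h1
  have h4 : fderiv ℝ G (cp y) (fderiv ℝ v (cp y) (U y)) =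
      - fderiv ℝ (fderiv ℝ G) (cp y) (U y) (W y) := by
    rw [eq_neg_iff_add_eq_zero, add_comm]; exact h2
  have h5 : fderiv ℝ G (cp y) (fderiv ℝ u (cp y) (W y)) =
      - fderiv ℝ (fderiv ℝ G) (cp y) (U y) (W y) := by
    rw [eq_neg_iff_add_eq_zero, add_comm]; exact h1
  rw [h4, h5, sub_self]

end bracket

/-! ### algebraic frames of an involutive kernel -/

section comm

variable {K : Type} [Field K] [Algebra ℂ K] {m : ℕ} (M : Mdl K m)

/-- the components of the bracket of `D_f` and `D_g` -/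
def brB (f g : Fin m → M.B) (j : Fin m) : M.B := DfB M f (g j) - DfB M g (f j)

lemma brB_coe (f g : Fin m → M.B) (j : Fin m) :
    ((brB M f g j : M.B) : K) =
      Df M (fun j => (f j : K)) (g j) - Df M (fun j => (g j : K)) (f j) := by
  unfold brB
  rw [Df_coe, Df_coe]
  rfl

theorem lie_Df_coe (f g : Fin m → M.B) :
    ⁅Df M (fun j => (f j : K)), Df M (fun j => (g j : K))⁆ = Df M (fun j => (brB M f g j : K)) := by
  rw [lie_Df]
  congr 1
  funext j
  rw [brB_coe]

/-- the vector field `(y (f_j))_j` is smooth -/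
lemma smAt_field (f : Fin m → M.B) (y : M.Pts) : SmAt (fun x : M.Pts => fun j => x (f j)) y := by
  unfold SmAt
  rw [contDiffAt_pi]
  intro j
  exact (M.hol792_ev (f j)).sm y

/-- derivative of the vector field -/
lemma D_field (f : Fin m → M.B) (y : M.Pts) (w : Fin m → ℂ) (j : Fin m) :
    D (fun x : M.Pts => fun j => x (f j)) y w j = ∑ l, w l * y (dB M l (f j)) := by
  rw [← D_ev]
  unfold D
  have h1 : DifferentiableAt ℝ ((fun x : M.Pts => fun j => x (f j)) ∘ (ch y).symm) (cp y) :=
    ContDiffAt.differentiableAt (smAt_field M f y) (by simp)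
  have h2 := fderiv_pi (𝕜 := ℝ) (φ := fun j => (fun x : M.Pts => x (f j)) ∘ (ch y).symm)
    (x := cp y) (fun j => (M.hol792_ev (f j)).sm.differentiableAt y)
  have h3 : ((fun x : M.Pts => fun j => x (f j)) ∘ (ch y).symm) =
      fun w j => ((fun x : M.Pts => x (f j)) ∘ (ch y).symm) w := rfl
  rw [h3, h2]
  rfl

/-- the bracket of the algebraic fields is the bracket of the analytic fields -/
theorem bracket_field (f g : Fin m → M.B) (y : M.Pts) :
    D (fun x : M.Pts => fun j => x (g j)) y (fun j => y (f j)) -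
      D (fun x : M.Pts => fun j => x (f j)) y (fun j => y (g j)) = fun j => y (brB M f g j) := by
  funext j
  rw [Pi.sub_apply, D_field, D_field]
  unfold brB
  rw [map_sub, DfB_apply, DfB_apply, map_sum, map_sum]
  simp only [map_mul]

variable {V : Type*} [NormedAddCommGroup V] [NormedSpace ℝ V]

/-- fields annihilated by `D F` near `y`: the algebraic bracket is annihilated at `y` -/
theorem D_bracket_eq_zero {F : M.Pts → V} {y : M.Pts} (hF : SmAt F y) (f g : Fin m → M.B)
    (hf : ∀ᶠ z in 𝓝 y, D F z (fun j => z (f j)) = 0)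
    (hg : ∀ᶠ z in 𝓝 y, D F z (fun j => z (g j)) = 0) :
    D F y (fun j => y (brB M f g j)) = 0 := by
  rw [← bracket_field]
  exact bracket_tan hF (smAt_field M f y) (smAt_field M g y) hf hg

lemma DfB_smul (c : ℂ) (f : Fin m → M.B) (b : M.B) : DfB M (c • f) b = c • DfB M f b := by
  rw [DfB_apply, DfB_apply, Finset.smul_sum]
  refine Finset.sum_congr rfl fun j _ => ?_
  rw [Pi.smul_apply, smul_mul_assoc]

lemma brB_smul (c : ℂ) (f g : Fin m → M.B) (j : Fin m) :
    brB M f (c • g) j = c • brB M f g j := by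
  unfold brB
  rw [DfB_smul, Pi.smul_apply, Derivation.map_smul, smul_sub]

/-- the same with all complex multiples -/
theorem D_smul_bracket_eq_zero {F : M.Pts → V} {y : M.Pts} (hF : SmAt F y) (f g : Fin m → M.B)
    (hf : ∀ᶠ z in 𝓝 y, D F z (fun j => z (f j)) = 0)
    (hg : ∀ c : ℂ, ∀ᶠ z in 𝓝 y, D F z (c • fun j => z (g j)) = 0) (c : ℂ) :
    D F y (c • fun j => y (brB M f g j)) = 0 := by
  have h1 := D_bracket_eq_zero M hF f (c • g) hf (by
    filter_upwards [hg c] with z hz
    have h2 : (fun j => z ((c • g) j)) = c • fun j => z (g j) := by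
      funext j
      rw [Pi.smul_apply, Pi.smul_apply, map_smul]
    rw [h2]
    exact hz)
  have h2 : (fun j => y (brB M f (c • g) j)) = c • fun j => y (brB M f g j) := by
    funext j
    rw [brB_smul, Pi.smul_apply, map_smul]
  rw [h2] at h1
  exact h1

/-- **commuting frames of an involutive kernel** -/
theorem comm_of_ker {a : Type*} [DecidableEq a] (i₀ : a → Fin m) (f : a → Fin m → M.B)
    (hδ : ∀ i l, f i (i₀ l) = if i = l then 1 else 0)
    (ker : M.Pts → (Fin m → ℂ) → Prop)
    (hker : ∀ x v, ker x v → (∀ l, v (i₀ l) = 0) → v = 0)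
    (hbr : ∀ x i k, ker x (fun j => x (brB M (f i) (f k) j))) (i k : a) :
    ⁅Df M (fun j => (f i j : K)), Df M (fun j => (f k j : K))⁆ = 0 := by
  rw [lie_Df_coe, Df_zero_iff]
  have h1 : ∀ (D : Derivation ℂ M.B M.B) (p : Prop) [Decidable p],
      D (if p then 1 else 0) = 0 := by
    intro D p _
    split_ifs
    · exact D.map_one_eq_zero
    · exact map_zero D
  have h0 : ∀ l, brB M (f i) (f k) (i₀ l) = 0 := by
    intro l
    unfold brB
    rw [hδ, hδ, h1, h1, sub_zero]
  funext j
  have h2 : brB M (f i) (f k) j = 0 := by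
    apply M.ext_of_pts
    intro x
    have h3 := hker x _ (hbr x i k) (fun l => by rw [h0, map_zero])
    rw [congrFun h3 j, map_zero]
    rfl
  rw [h2]
  rfl

end comm

end Crest.Agent.R276.PfDer_676
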