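import Crest.Agent.R276.Pf2_409
import Crest.Agent.R276.PdI_571
import Crest.Agent.R276.PfDer2_676
import Crest.Agent.R276.Vert_595

/-!
# Period fibres are algebraic, part 3 (helper409, row 276): the period field

`M : Mdl K (n+1)`, `V` a VHS on `M.Pts`, `e : Fin (n+1) ≃ α ⊕ β`, `f : α → Fin (n+1) → M.B` a frame of the
kernel of the period metric, `f i (e.symm (inl j)) = δ_ij`, and `det (gP_ββ) > 0` everywhere.

**Theorem B** (`period_field`): the field `K0` of the elements of `K` killed by all `D_{f i}` is
algebraically closed in `K`, of transcendence degree `card β`.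
-/

set_option autoImplicit false
set_option linter.unusedSectionVars false

noncomputable section

open Set Filter Topology MeasureTheory Complex Matrix
open scoped ENNReal ComplexConjugate ComplexOrder

namespace Crest.Agent.R276.Pf3_409

open Crest.Agent.R271.Ho51
open Crest.Agent.R276.Mod1_987
open Crest.Agent.R276.Pd571 Crest.Agent.R276.PdL571
open Crest.Agent.R276.Pf2_409 Crest.Agent.R276.PfDer_676 Crest.Agent.R276.Der_409
open Crest.Agent.R276.InvV_450 Crest.Agent.R276.LsDefs_450

/-! ### transcendence degree -/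

section tr

variable {K : Type} [Field K] [Algebra ℂ K] {m : ℕ} (M : Mdl K m)

theorem algInd : AlgebraicIndependent ℂ M.zK := by
  have h1 := M.aK_injective
  exact h1

theorem isAlgebraic_zK : Algebra.IsAlgebraic (Algebra.adjoin ℂ (Set.range M.zK)) K :=
  Pf1_409.isAlgebraic_adjoin M

theorem isTranscendenceBasis : IsTranscendenceBasis ℂ M.zK := by
  have := isAlgebraic_zK M
  exact (algInd M).isTranscendenceBasis_iff_isAlgebraic.2 this

include M in
theorem trdeg_eq : Algebra.trdeg ℂ K = m := by
  rw [← (isTranscendenceBasis M).cardinalMk_eq_trdeg]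
  simp

theorem eq_zero_of_basis {D : Derivation ℂ K K} {u : Set K}
    (hu : Algebra.IsAlgebraic (Algebra.adjoin ℂ u) K) (hD : ∀ x ∈ u, D x = 0) (x : K) : D x = 0 := by
  have h1 : Algebra.adjoin ℂ u ≤ (Kc D).toSubalgebra := Algebra.adjoin_le hD
  have h2 : IsAlgebraic (Kc D) x := by
    obtain ⟨p, hp, hpx⟩ := hu.isAlgebraic x
    refine ⟨p.map (Subalgebra.inclusion h1).toRingHom, ?_, ?_⟩
    · exact (Polynomial.map_ne_zero_iff (Subalgebra.inclusion_injective h1)).2 hp
    · rw [Polynomial.aeval_def, Polynomial.eval₂_map]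
      rw [Polynomial.aeval_def] at hpx
      exact hpx
  exact mem_Kc_of_isAlgebraic D h2


/-- the field of constants of a frame of derivations has transcendence degree `≤ m - card α` -/
theorem card_le {α β : Type} [Fintype α] [DecidableEq α] [Fintype β]
    (e : Fin m ≃ α ⊕ β) (f : α → Fin m → K)
    (hf1 : ∀ i j, f i (e.symm (Sum.inl j)) = if i = j then 1 else 0) (S : Set K)
    (hS : AlgebraicIndepOn ℂ id S) (h0 : ∀ b ∈ S, ∀ i, Df M (f i) b = 0) :
    Cardinal.mk S ≤ Fintype.card β := by
  classical
  have halg : Algebra.IsAlgebraic (Algebra.adjoin ℂ (S ∪ Set.range M.zK)) K := by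
    have h1 := isAlgebraic_zK M
    have h2 : Algebra.adjoin ℂ (Set.range M.zK) ≤ Algebra.adjoin ℂ (S ∪ Set.range M.zK) :=
      Algebra.adjoin_mono Set.subset_union_right
    refine ⟨fun x => ?_⟩
    obtain ⟨p, hp, hpx⟩ := h1.isAlgebraic x
    refine ⟨p.map (Subalgebra.inclusion h2).toRingHom, ?_, ?_⟩
    · exact (Polynomial.map_ne_zero_iff (Subalgebra.inclusion_injective h2)).2 hp
    · rw [Polynomial.aeval_def, Polynomial.eval₂_map]
      rw [Polynomial.aeval_def] at hpx
      exact hpx
  obtain ⟨u, hSu, hut, hu⟩ := exists_isTranscendenceBasis_between (R := ℂ) S (S ∪ Set.range M.zK)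
    Set.subset_union_left hS
  have hcu : Cardinal.mk u = m := by
    rw [hu.cardinalMk_eq_trdeg, trdeg_eq M]
  have hfin : u.Finite := by
    rw [← Cardinal.lt_aleph0_iff_set_finite, hcu]
    exact Cardinal.natCast_lt_aleph0
  have hSfin : S.Finite := hfin.subset hSu
  set J : Set K := u \ S with hJ
  have hJfin : J.Finite := hfin.sdiff
  have hFJ : Fintype J := hJfin.fintype
  have hFS : Fintype S := hSfin.fintype
  have hFu : Fintype u := hfin.fintype
  have hcard : Fintype.card S + Fintype.card J = Fintype.card α + Fintype.card β := by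
    have h1 : Fintype.card u = m := by
      have := Cardinal.mk_fintype u
      rw [hcu] at this
      exact_mod_cast this.symm
    have h2 : Fintype.card α + Fintype.card β = m := by
      have := Fintype.card_congr e
      rw [Fintype.card_fin, Fintype.card_sum] at this
      exact this.symm
    have h3 : Fintype.card S + Fintype.card J = Fintype.card u := by
      rw [← Nat.card_eq_fintype_card, ← Nat.card_eq_fintype_card, ← Nat.card_eq_fintype_card,
        Nat.card_coe_set_eq, Nat.card_coe_set_eq, Nat.card_coe_set_eq, hJ, add_comm]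
      exact Set.ncard_sdiff_add_ncard_of_subset hSu hfin
    omega
  -- the linear map
  let Φ : (α → K) →ₗ[K] (J → K) :=
    { toFun := fun c x => ∑ i, c i * Df M (f i) (x : K)
      map_add' := fun c c' => by
        funext x
        simp only [Pi.add_apply, add_mul, Finset.sum_add_distrib]
      map_smul' := fun a c => by
        funext x
        simp only [Pi.smul_apply, smul_eq_mul, mul_assoc, Finset.mul_sum, RingHom.id_apply] }
  have hinj : Function.Injective Φ := by
    rw [injective_iff_map_eq_zero]
    intro c hc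
    set g : Fin m → K := fun j => ∑ i, c i * f i j with hg
    have hD : ∀ x, Df M g x = ∑ i, c i * Df M (f i) x := by
      intro x
      simp only [Df_apply, hg, Finset.sum_mul, Finset.mul_sum]
      rw [Finset.sum_comm]
      refine Finset.sum_congr rfl fun i _ => Finset.sum_congr rfl fun j _ => ?_
      ring
    have h1 : ∀ x ∈ u, Df M g x = 0 := by
      intro x hx
      rw [hD]
      by_cases hxS : x ∈ S
      · exact Finset.sum_eq_zero fun i _ => by rw [h0 x hxS i, mul_zero]
      · exact congrFun hc ⟨x, hx, hxS⟩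
    have hua : Algebra.IsAlgebraic (Algebra.adjoin ℂ u) K := by
      have := hu.isAlgebraic
      rwa [Subtype.range_coe] at this
    have h2 := eq_zero_of_basis hua h1
    funext i
    have h3 := h2 (M.zK (e.symm (Sum.inl i)))
    rw [Df_z, hg] at h3
    simp only [hf1, mul_ite, mul_one, mul_zero, Finset.sum_ite_eq', Finset.mem_univ,
      if_true] at h3
    exact h3
  have h4 := LinearMap.finrank_le_finrank_of_injective hinj
  rw [Module.finrank_fintype_fun_eq_card, Module.finrank_fintype_fun_eq_card] at h4
  rw [Cardinal.mk_fintype]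
  have h5 : Fintype.card S ≤ Fintype.card β := by omega
  exact_mod_cast h5

end tr

/-! ### commuting slopes -/

section comm

variable {n N w : ℕ} {K : Type} [Field K] [Algebra ℂ K] {M : Mdl K (n + 1)}
  {V : Ipc735.VHS (n + 1) (M.B →ₐ[ℂ] ℂ) N w}
  {α β : Type} [Fintype α] [DecidableEq α] [Fintype β] [DecidableEq β]
  {e : Fin (n + 1) ≃ α ⊕ β} {f : α → Fin (n + 1) → M.B}

/-- the hypotheses of growth and positivity are always satisfied -/
theorem mkSlopes (hf1 : ∀ i j, f i (e.symm (Sum.inl j)) = if i = j then 1 else 0)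
    (hf0 : ∀ (y : M.B →ₐ[ℂ] ℂ) i k, ∑ j, y (f i j) * gP V y j k = 0)
    (hpos : ∀ y, 0 < dd M V e y) : Slopes M V e f where
  f1 := hf1
  f0 := hf0
  pos := hpos
  psh := fun y v => Levi_log_minor_nonneg V (e.symm ∘ Sum.inr) (hpos y) v
  gr := by
    obtain ⟨C, a, l, hC, h⟩ := det_growth_sum M V (e.symm ∘ Sum.inr)
    exact ⟨C, l, a, hC, h⟩
  lev := by
    obtain ⟨c, hc, h⟩ := exists_levi N
    refine ⟨c, hc, fun y v b hb h0 => h _ _ _ V β (e.symm ∘ Sum.inr) y (hpos y) v b (fun j hj => ?_) h0⟩
    rcases hej : e j with i | b'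
    · have : j = e.symm (Sum.inl i) := by rw [← hej, e.symm_apply_apply]
      rw [this]; exact hb i
    · exact absurd ⟨b', by rw [Function.comp_apply, ← hej, e.symm_apply_apply]⟩ hj

/-- real directions which do not move the Hodge structure are killed by the period metric -/
theorem ker_of_TE {X : Type*} [TopologicalSpace X] {m : ℕ} [RDom m X] (V : Ipc735.VHS m X N w) {x : X}
    {v : Fin m → ℂ} (h : TE V x v = 0) (k : Fin m) : ∑ j, v j * gP V x j k = 0 := by
  rw [TE_eq_zero_iff, bf_apply] at h
  have hG := gP_transpose_posSemidef V x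
  have h2 := hG.dotProduct_mulVec_nonneg v
  have h3 : star v ⬝ᵥ ((gP V x)ᵀ *ᵥ v) = 0 := Complex.ext h ((Complex.le_def.1 h2).2).symm
  have h4 := congrFun ((hG.dotProduct_mulVec_zero_iff v).1 h3) k
  simp only [Matrix.mulVec, dotProduct, Matrix.transpose_apply, Pi.zero_apply] at h4
  rw [← h4]
  exact Finset.sum_congr rfl fun j _ => mul_comm _ _

theorem FI_empty (i₀ i₁ : Fin (n + 1)) (z : M.B →ₐ[ℂ] ℂ) :
    FI V i₀ ∅ z = FI V i₁ ∅ z := by
  funext y
  unfold FI
  congr 1
  funext i
  exact absurd i.2 (Finset.notMem_empty _)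

theorem slopes_comm (H : Slopes M V e f) (i k : α) :
    ⁅Df M (fun j => (f i j : K)), Df M (fun j => (f k j : K))⁆ = 0 := by
  refine comm_of_ker M (fun l => e.symm (Sum.inl l)) f H.f1
    (fun x v => ∀ k, ∑ j, v j * gP V x j k = 0) (fun x v hv h0 => ?_) (fun x i k => ?_) i k
  · have h1 := (Vert_595.left_ker e (gP V x) (fun i j => x (f i j))
      (fun i j => by
        rw [H.f1]
        split_ifs
        · exact map_one x
        · exact map_zero x) (H.f0 x) (fun h => by
          have := H.pos x
          unfold dd at this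
          rw [h] at this
          simp at this) v).1 hv
    rw [h1]
    exact Finset.sum_eq_zero fun i _ => by rw [h0, zero_smul]
  · have hd : ∀ i : α, ∀ᶠ z in 𝓝 x, ∀ c : ℂ,
        D (FI V (e.symm (Sum.inl i)) ∅ x) z (c • fun j => z (f i j)) = 0 := fun i =>
      LsB_450.tan_near (mkInv V (e.symm (Sum.inl i)) ∅ (fun z j => z (f i j))
        (fun z => by rw [H.f1, if_pos rfl, map_one])
        (fun z i hi => absurd hi (Finset.notMem_empty _)) (fun j => M.hol51_ev _)
        (fun z k => H.f0 z i k)) x
    have h1 := D_smul_bracket_eq_zero M (FI_sm V (e.symm (Sum.inl i)) ∅ x) (f i) (f k)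
      (by
        filter_upwards [hd i] with z hz
        have := hz 1
        rwa [one_smul] at this)
      (fun c => by
        filter_upwards [hd k] with z hz
        have := hz c
        rwa [FI_empty (e.symm (Sum.inl k)) (e.symm (Sum.inl i)) x] at this) 1
    rw [one_smul, D_FI] at h1
    have h2 := congrArg (fun q : Vt N (∅ : Finset (Fin n)) => q.1) h1
    apply ker_of_TE
    ext i k
    exact congrFun (congrFun h2 i) k

/-- **Theorem B.** the period field -/
theorem period_field (H : Slopes M V e f) : ∃ K0 : IntermediateField ℂ K,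
    (∀ x, IsAlgebraic K0 x → x ∈ K0) ∧ Algebra.trdeg ℂ K0 = Fintype.card β ∧
    ∀ b, b ∈ K0 ↔ ∀ i, Df M (fun j => (f i j : K)) b = 0 := by
  classical
  set Dd : α → Derivation ℂ K K := fun i => Df M (fun j => (f i j : K)) with hDd
  have h1 := trdeg_iInf_le Dd (fun i j x => comm_apply (slopes_comm H i j) x)
    (fun i => trdeg_slope H i) Finset.univ
  set K0 : IntermediateField ℂ K := ⨅ i ∈ (Finset.univ : Finset α), Kc (Dd i) with hK0
  have hmem : ∀ b, b ∈ K0 ↔ ∀ i, Dd i b = 0 := by
    intro b
    rw [hK0, ← SetLike.mem_coe, IntermediateField.coe_iInf, Set.mem_iInter]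
    refine forall_congr' fun i => ?_
    rw [IntermediateField.coe_iInf, Set.mem_iInter]
    exact ⟨fun h => h (Finset.mem_univ i), fun h _ => h⟩
  refine ⟨K0, fun x hx => ?_, ?_, hmem⟩
  · rw [hmem]
    intro i
    have hle : K0 ≤ Kc (Dd i) := fun b hb => (hmem b).1 hb i
    have h2 : IsAlgebraic (Kc (Dd i)) x := by
      obtain ⟨p, hp, hpx⟩ := hx
      refine ⟨p.map (IntermediateField.inclusion hle).toRingHom, ?_, ?_⟩
      · exact (Polynomial.map_ne_zero_iff (IntermediateField.inclusion_injective hle)).2 hp
      · rw [Polynomial.aeval_def, Polynomial.eval₂_map]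
        rw [Polynomial.aeval_def] at hpx
        exact hpx
    exact mem_Kc_of_isAlgebraic (Dd i) h2
  · obtain ⟨ι, x, hx⟩ := exists_isTranscendenceBasis' ℂ K0
    have hxK : AlgebraicIndependent ℂ (fun i => (x i : K)) := hx.1.map' (f := K0.val)
      Subtype.val_injective
    have h2 := card_le M e (fun i j => (f i j : K)) (fun i j => by
      rw [H.f1]; split_ifs <;> rfl) (Set.range fun i => (x i : K))
      hxK.coe_range (by
        rintro _ ⟨i, rfl⟩ k
        exact (hmem _).1 (x i).2 k)
    rw [Cardinal.mk_range_eq _ hxK.injective, hx.cardinalMk_eq_trdeg] at h2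
    refine le_antisymm h2 ?_
    rw [trdeg_eq M] at h1
    have h3 : Fintype.card α + Fintype.card β = n + 1 := by
      have := Fintype.card_congr e
      rw [Fintype.card_fin, Fintype.card_sum] at this
      exact this.symm
    have h4 : Algebra.trdeg ℂ K0 < Cardinal.aleph0 := lt_of_le_of_lt h2 Cardinal.natCast_lt_aleph0
    obtain ⟨t, ht⟩ := Cardinal.lt_aleph0.1 h4
    rw [ht] at h1 ⊢
    rw [Finset.card_univ] at h1
    have h5 : n + 1 ≤ t + Fintype.card α := by exact_mod_cast h1
    have h6 : Fintype.card β ≤ t := by omega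
    exact_mod_cast h6

end comm

end Crest.Agent.R276.Pf3_409
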