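import Mathlib
import Crest.Agent.R271.H3_51

/-!
Row 276, leaf PF-AREA (c) (helper833): the integral of a function on a Riemann domain with respect
to the pull back of the Lebesgue measure is the integral over the base of the sum over the fibres.
-/

set_option autoImplicit false
set_option linter.unusedSectionVars false

noncomputable section

open Set Filter Topology MeasureTheory
open scoped ENNReal NNReal
open Crest.Agent.R271.Ho51

namespace Crest.Agent.R276.PfArea1_833

variable {n : ℕ} {M : Type*} [TopologicalSpace M] [RDom n M]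

/-- a countable partition into pieces of charts -/
lemma exists_pieces [SecondCountableTopology M] [MeasurableSpace M] [BorelSpace M] :
    ∃ (e : ℕ → Option (OpenPartialHomeomorph M (Fin n → ℂ))) (A : ℕ → Set M),
      (∀ k, MeasurableSet (A k)) ∧ Pairwise (Function.onFun Disjoint A) ∧ (⋃ k, A k = univ) ∧
      (∀ k f, e k = some f → IsCh f ∧ A k ⊆ f.source) ∧ (∀ k, e k = none → A k = ∅) := by
  classical
  rcases isEmpty_or_nonempty M with hM | hM
  · refine ⟨fun _ => none, fun _ => ∅, fun _ => MeasurableSet.empty, ?_, ?_, ?_, fun _ _ => rfl⟩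
    · intro i j _
      exact disjoint_empty _
    · exact (Set.eq_empty_of_isEmpty _).trans (Set.eq_empty_of_isEmpty _).symm
    · intro k f h
      cases h
  obtain ⟨S, hSc, hSu⟩ := TopologicalSpace.countable_cover_nhds
    (f := fun x : M => (ch x).source) (fun x => (ch x).open_source.mem_nhds (mem_ch x))
  have hSne : S.Nonempty := by
    by_contra hcon
    rw [Set.not_nonempty_iff_eq_empty] at hcon
    rw [hcon] at hSu
    simp at hSu
    exact (Set.univ_nonempty (α := M)).ne_empty hSu.symm
  obtain ⟨xs, hxs⟩ := hSc.exists_eq_range hSne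
  refine ⟨fun k => some (ch (xs k)), disjointed (fun k => (ch (xs k)).source), fun k =>
    MeasurableSet.disjointed (fun i => (ch (xs i)).open_source.measurableSet) k,
    disjoint_disjointed _, ?_, ?_, fun k h => by cases h⟩
  · show ⋃ k, disjointed _ k = univ
    rw [iUnion_disjointed]
    rw [hxs] at hSu
    simpa using hSu
  · intro k f h
    cases h
    exact ⟨isCh_ch _, disjointed_subset _ k⟩

section

variable [MeasurableSpace M] [BorelSpace M]

open Classical in
/-- a function on `M` in a chart -/
def pull (e : OpenPartialHomeomorph M (Fin n → ℂ)) (g : M → ℝ≥0∞) : (Fin n → ℂ) → ℝ≥0∞ :=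
  e.target.indicator fun z => g (e.symm z)

lemma measurable_pull (e : OpenPartialHomeomorph M (Fin n → ℂ)) {g : M → ℝ≥0∞}
    (hg : Measurable g) : Measurable (pull e g) := by
  classical
  have hO : MeasurableSet e.target := e.open_target.measurableSet
  rcases isEmpty_or_nonempty M with hM | ⟨⟨x0⟩⟩
  · have : pull e g = fun _ => 0 := by
      funext p
      exact (hM.false (e.symm p)).elim
    rw [this]
    exact measurable_const
  have h1 : Measurable (e.target.piecewise (fun p => e.symm p) (fun _ => x0)) :=
    ContinuousOn.measurable_piecewise e.symm.continuousOn continuousOn_const hO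
  have h2 : pull e g = e.target.indicator fun p =>
      g ((e.target.piecewise (fun p => e.symm p) (fun _ => x0)) p) := by
    funext p
    by_cases hp : p ∈ e.target
    · simp [pull, hp]
    · simp [pull, hp]
  rw [h2]
  exact (hg.comp h1).indicator hO

lemma lintegral_source {μ : Measure M} (hμ : IsLeb μ) {e : OpenPartialHomeomorph M (Fin n → ℂ)}
    (he : IsCh e) {g : M → ℝ≥0∞} (hg : Measurable g) :
    ∫⁻ x in e.source, g x ∂μ = ∫⁻ z, pull e g z := by
  rw [lintegral_chart hμ he hg.aemeasurable, pull, lintegral_indicator e.open_target.measurableSet]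

/-- sum over the fibre of a function supported in a chart -/
lemma tsum_fibre {e : OpenPartialHomeomorph M (Fin n → ℂ)} (he : IsCh e) {A : Set M}
    (hA : A ⊆ e.source) (g : M → ℝ≥0∞) (z : Fin n → ℂ) :
    ∑' q : {q : M // cp q = z}, A.indicator g q = pull e (A.indicator g) z := by
  classical
  by_cases hz : z ∈ e.target
  · rw [pull, indicator_of_mem hz]
    have hq : cp (e.symm z) = z := he.cp_symm hz
    rw [tsum_eq_single (⟨e.symm z, hq⟩ : {q : M // cp q = z})]
    intro q hne
    refine indicator_of_notMem (fun hqA => hne ?_) _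
    apply Subtype.ext
    refine he.injOn (hA hqA) (e.map_target hz) ?_
    rw [q.2, hq]
  · rw [pull, indicator_of_notMem hz, ENNReal.tsum_eq_zero]
    intro q
    refine indicator_of_notMem (fun hqA => hz ?_) _
    have := he.cp_mem (hA hqA)
    rwa [q.2] at this

theorem measurable_fibre_sum [SecondCountableTopology M] {g : M → ℝ≥0∞} (hg : Measurable g) :
    Measurable fun z : Fin n → ℂ => ∑' q : {q : M // cp q = z}, g q := by
  classical
  obtain ⟨e, A, hAm, hAd, hAu, he, he0⟩ := exists_pieces (n := n) (M := M)
  have h1 : (fun z : Fin n → ℂ => ∑' q : {q : M // cp q = z}, g q) =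
      fun z => ∑' k, ∑' q : {q : M // cp q = z}, (A k).indicator g q := by
    funext z
    rw [ENNReal.tsum_comm]
    refine tsum_congr fun q => ?_
    obtain ⟨k, hk⟩ := mem_iUnion.1 (hAu.ge (mem_univ (q : M)))
    rw [tsum_eq_single k, indicator_of_mem hk]
    intro j hj
    exact indicator_of_notMem (fun hjq => (hAd hj).le_bot ⟨hjq, hk⟩) _
  rw [h1]
  refine Measurable.tsum fun k => ?_
  rcases hk : e k with _ | f
  · rw [he0 k hk]
    simp
  · obtain ⟨hf, hfs⟩ := he k f hk
    simp only [tsum_fibre hf hfs]
    exact measurable_pull f (hg.indicator (hAm k))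

/-- **Integration over the fibres.** -/
theorem lintegral_fibre [SecondCountableTopology M] {μ : Measure M} (hμ : IsLeb μ)
    {g : M → ℝ≥0∞} (hg : Measurable g) :
    ∫⁻ x, g x ∂μ = ∫⁻ z : Fin n → ℂ, ∑' q : {q : M // cp q = z}, g q := by
  classical
  obtain ⟨e, A, hAm, hAd, hAu, he, he0⟩ := exists_pieces (n := n) (M := M)
  have h1 : (fun z : Fin n → ℂ => ∑' q : {q : M // cp q = z}, g q) =
      fun z => ∑' k, ∑' q : {q : M // cp q = z}, (A k).indicator g q := by
    funext z
    rw [ENNReal.tsum_comm]
    refine tsum_congr fun q => ?_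
    obtain ⟨k, hk⟩ := mem_iUnion.1 (hAu.ge (mem_univ (q : M)))
    rw [tsum_eq_single k, indicator_of_mem hk]
    intro j hj
    exact indicator_of_notMem (fun hjq => (hAd hj).le_bot ⟨hjq, hk⟩) _
  rw [h1, lintegral_tsum]
  · rw [← setLIntegral_univ, ← hAu, lintegral_iUnion hAm hAd]
    refine tsum_congr fun k => ?_
    rcases hk : e k with _ | f
    · rw [he0 k hk]
      simp
    · obtain ⟨hf, hfs⟩ := he k f hk
      simp only [tsum_fibre hf hfs]
      rw [← lintegral_source hμ hf (hg.indicator (hAm k)), lintegral_indicator (hAm k),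
        Measure.restrict_restrict (hAm k), inter_eq_left.2 hfs]
  · intro k
    rcases hk : e k with _ | f
    · rw [he0 k hk]
      simp
    · obtain ⟨hf, hfs⟩ := he k f hk
      simp only [tsum_fibre hf hfs]
      exact (measurable_pull f (hg.indicator (hAm k))).aemeasurable

end

section one

variable {A : Type*} [TopologicalSpace A] [RDom 1 A] [MeasurableSpace A] [BorelSpace A]
  [SecondCountableTopology A]

/-- the fibres over `ℂ` -/
lemma tsum_fibre_one (g : A → ℝ≥0∞) (z : Fin 1 → ℂ) :
    ∑' q : {q : A // cp q = z}, g q = ∑' q : {q : A // cp q 0 = z 0}, g q := by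
  have h : ∀ q : A, cp q = z ↔ cp q 0 = z 0 := by
    intro q
    constructor
    · intro h; rw [h]
    · intro h
      funext i
      rw [Subsingleton.elim i 0, h]
  exact (Equiv.subtypeEquivRight h).tsum_eq (fun q : {q : A // cp q 0 = z 0} => g q)

/-- **(c)** integration on a Riemann domain over `ℂ`. -/
theorem lintegral_one {ν : Measure A} (hν : IsLeb ν) {a : A → ℝ≥0∞} (ha : Measurable a) :
    ∫⁻ x, a x ∂ν = ∫⁻ ζ : ℂ, ∑' q : {q : A // cp q 0 = ζ}, a q := by
  rw [lintegral_fibre hν ha]
  simp only [tsum_fibre_one]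
  exact (volume_preserving_funUnique (Fin 1) ℂ).lintegral_comp_emb
    (MeasurableEquiv.funUnique (Fin 1) ℂ).measurableEmbedding
    (fun ζ : ℂ => ∑' q : {q : A // cp q 0 = ζ}, a q)

theorem measurable_fibre_one {a : A → ℝ≥0∞} (ha : Measurable a) :
    Measurable fun ζ : ℂ => ∑' q : {q : A // cp q 0 = ζ}, a q := by
  have h1 := measurable_fibre_sum (n := 1) ha
  have h2 : (fun ζ : ℂ => ∑' q : {q : A // cp q 0 = ζ}, a q) =
      (fun z : Fin 1 → ℂ => ∑' q : {q : A // cp q = z}, a q) ∘ fun ζ _ => ζ := by
    funext ζ
    simp only [Function.comp]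
    rw [tsum_fibre_one]
  rw [h2]
  exact h1.comp (measurable_pi_lambda _ fun _ => measurable_id)

end one

section sub

variable {M : Type*} [TopologicalSpace M] [MeasurableSpace M] [BorelSpace M]
  [SecondCountableTopology M] {S : Set M}

/-- **(c) on a subset.** If the subspace `S` of `M` is a Riemann domain over `ℂ` by means of the
function `c`, then the integral over `S` is the integral of the sum over the points of `S` with
given value of `c`. -/
theorem lintegral_sub (r : RDom 1 S) {c : M → ℂ} (hr : ∀ q : S, r.p q = fun _ => c q)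
    {ν : Measure S} (hν : letI := r; IsLeb ν) {a : M → ℝ≥0∞} (ha : Measurable a) :
    ∫⁻ q : S, a q ∂ν = ∫⁻ ζ : ℂ, ∑' q : {q : M // q ∈ S ∧ c q = ζ}, a q := by
  have h1 := lintegral_one hν (ha.comp measurable_subtype_coe)
  refine h1.trans (lintegral_congr fun ζ => ?_)
  have hc : ∀ q : S, cp q 0 = c q := fun q => congrFun (hr q) 0
  let E : {q : S // cp q 0 = ζ} ≃ {q : M // q ∈ S ∧ c q = ζ} :=
    { toFun := fun q => ⟨q.1.1, q.1.2, by rw [← hc q.1]; exact q.2⟩
      invFun := fun q => ⟨⟨q.1, q.2.1⟩, by rw [hc]; exact q.2.2⟩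
      left_inv := fun q => rfl
      right_inv := fun q => rfl }
  exact E.tsum_eq (fun q : {q : M // q ∈ S ∧ c q = ζ} => a q)

end sub

end Crest.Agent.R276.PfArea1_833
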