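import Mathlib
import Crest.Agent.R276.PdI_571
import Crest.Agent.R276.MassH_137
import Crest.Agent.R276.Pf1_409

/-!
# R276, leaf PF-MASS (helper450): finite total mass for the period foliation of a model

`M : Mdl K (n+1)`, `V` a VHS over `M.Pts`, `e : Fin (n+1) ≃ α ⊕ β` a splitting of the coordinates
such that `det gP_β > 0` everywhere, `X x i = (δ_i, *)` (`i : α`) the frame of the kernel of `gP`:
the integral of `Levi log(1+|z|²) (X x i₀) · det gP_β · ∏_{i ∈ α, i ≠ i₀} (1+|z_i|²)^{-2}` is finite.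

This is 137's `mass_frame` with `log d = k log det gP_β`, `k ≥ 1/c`, `c` the curvature constant.
-/

set_option autoImplicit false
set_option linter.unusedSectionVars false

noncomputable section

open Set Filter Topology MeasureTheory ComplexConjugate
open scoped Matrix ENNReal ComplexOrder

namespace Crest.Agent.R276.PfMass_450

open Crest.Agent.R271.Ho51 hiding Hol
open Crest.Agent.R271.W792 (lg nS nS_nonneg)
open Crest.Agent.R271.Defs710 Crest.Agent.R271.Alg255 Crest.Agent.R271.Rd692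
open Crest.Agent.R271.AlgB956
open Crest.Agent.R276.NL_137
open Crest.Agent.R276.Mod1_987
open Crest.Agent.R276.Ipc735
open Crest.Agent.R276.Pd571
open Crest.Agent.R276.PdL571
open Crest.Agent.R276.Pf1_409 (zc)

attribute [local instance] flat

section data

variable {K : Type} [Field K] [Algebra ℂ K] {n : ℕ} (M : Mdl K n)

lemma nsq_cp (y : M.Pts) : nsq (cp y : Fin n → ℂ) = ∑ i, ‖y (M.z i)‖ ^ 2 := rfl

lemma log_h_le : ∃ C : ℝ, 0 ≤ C ∧ ∀ y : M.Pts,
    Real.log ‖MvPolynomial.eval (cp y : Fin n → ℂ) M.h‖ ≤ C + C * Lg (cp y : Fin n → ℂ) := by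
  obtain ⟨C, k, l, hC, H⟩ := M.growth (az M.z M.h)
  refine ⟨max (Real.log (max C 1)) k, (Nat.cast_nonneg k).trans (le_max_right _ _), fun y => ?_⟩
  have h1 := H y
  have h2 : y (az M.z M.h) = MvPolynomial.eval (M.pz y) M.h := M.apply_az' y M.h
  rw [h2] at h1
  have ht : 0 < ‖MvPolynomial.eval (M.pz y) M.h‖ := norm_pos_iff.2 (M.eval_h_ne y)
  have hs : 0 < 1 + nsq (cp y : Fin n → ℂ) := rho_pos _
  have h3 : ‖MvPolynomial.eval (M.pz y) M.h‖ ^ (l + 1) ≤
      max C 1 * (1 + nsq (cp y : Fin n → ℂ)) ^ k := by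
    rw [pow_succ]
    refine h1.trans ?_
    exact mul_le_mul_of_nonneg_right (le_max_left _ _) (by positivity)
  have hm : 0 < max C 1 := lt_max_of_lt_right one_pos
  have h4 := Real.log_le_log (by positivity) h3
  rw [Real.log_pow, Real.log_mul hm.ne' (by positivity), Real.log_pow] at h4
  have hL : 0 ≤ Lg (cp y : Fin n → ℂ) := Lg_nonneg _
  have h5 : Real.log (max C 1) ≤ max (Real.log (max C 1)) k := le_max_left _ _
  have h6 : (k : ℝ) ≤ max (Real.log (max C 1)) k := le_max_right _ _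
  have h7 : (k : ℝ) * Lg (cp y : Fin n → ℂ) ≤ max (Real.log (max C 1)) k *
      Lg (cp y : Fin n → ℂ) := mul_le_mul_of_nonneg_right h6 hL
  have h0 : 0 ≤ Real.log (max C 1) := Real.log_nonneg (le_max_right _ _)
  show Real.log ‖MvPolynomial.eval (M.pz y) M.h‖ ≤ _
  have h8 : ((l + 1 : ℕ) : ℝ) * Real.log ‖MvPolynomial.eval (M.pz y) M.h‖ ≤
      Real.log (max C 1) + k * Lg (cp y : Fin n → ℂ) := h4
  rcases le_or_gt 0 (Real.log ‖MvPolynomial.eval (M.pz y) M.h‖) with hp | hp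
  · have h9 : Real.log ‖MvPolynomial.eval (M.pz y) M.h‖ ≤
        ((l + 1 : ℕ) : ℝ) * Real.log ‖MvPolynomial.eval (M.pz y) M.h‖ := by
      have : (1 : ℝ) ≤ ((l + 1 : ℕ) : ℝ) := by exact_mod_cast Nat.succ_le_succ (Nat.zero_le l)
      nlinarith
    linarith
  · have : 0 ≤ max (Real.log (max C 1)) k * Lg (cp y : Fin n → ℂ) :=
      mul_nonneg ((Nat.cast_nonneg k).trans h6) hL
    linarith

lemma encard_fib (z : Fin n → ℂ) :
    ((cp : M.Pts → (Fin n → ℂ)) ⁻¹' {z}).encard ≤ M.deg := by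
  by_cases hz : MvPolynomial.eval z M.h = 0
  · have h1 : ((cp : M.Pts → (Fin n → ℂ)) ⁻¹' {z}) = ∅ := by
      rw [Set.eq_empty_iff_forall_notMem]
      rintro y hy
      have h2 : M.pz y = z := hy
      exact M.eval_h_ne y (h2 ▸ hz)
    rw [h1, Set.encard_empty]
    exact zero_le
  · obtain ⟨h1, h2⟩ := M.card_fib hz
    have h3 : ((cp : M.Pts → (Fin n → ℂ)) ⁻¹' {z}) = {y : M.Pts | M.pz y = z} := rfl
    rw [h3]
    have h4 : {y : M.Pts | M.pz y = z}.Finite := h2
    rw [← h4.cast_ncard_eq]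
    have h5 : {y : M.Pts | M.pz y = z}.ncard = M.deg := h1
    rw [h5]

lemma isCompact_h (R δ : ℝ) (hδ : 0 < δ) : IsCompact {x : M.Pts |
    nsq (cp x : Fin n → ℂ) ≤ R ∧ δ ≤ ‖MvPolynomial.eval (cp x : Fin n → ℂ) M.h‖} := by
  have hc : Continuous fun z : Fin n → ℂ => MvPolynomial.eval z M.h := M.h.continuous_eval
  have h1 : IsCompact {z : Fin n → ℂ | nsq z ≤ R ∧ δ ≤ ‖MvPolynomial.eval z M.h‖} := by
    refine (isCompact_closedBall (0 : Fin n → ℂ) (Real.sqrt |R|)).of_isClosed_subset ?_ ?_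
    · exact (isClosed_le continuous_nsq continuous_const).inter
        (isClosed_le continuous_const hc.norm)
    · rintro z ⟨hz, -⟩
      rw [mem_closedBall_zero_iff, pi_norm_le_iff_of_nonneg (Real.sqrt_nonneg _)]
      intro i
      refine Real.le_sqrt_of_sq_le ?_
      have h2 : ‖z i‖ ^ 2 ≤ nsq z :=
        Finset.single_le_sum (f := fun i => ‖z i‖ ^ 2) (fun _ _ => by positivity)
          (Finset.mem_univ i)
      exact h2.trans (hz.trans (le_abs_self R))
  refine M.isCompact_preimage h1 ?_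
  rintro z ⟨-, hz⟩ h0
  rw [h0, norm_zero] at hz
  linarith

variable {N w : ℕ} (V : Ipc735.VHS n M.Pts N w) {κ : Type*} [Fintype κ] [DecidableEq κ]
  (ι : κ → Fin n)

/-- the Gram determinant -/
def dt (x : M.Pts) : ℝ := ((gP V x).submatrix ι ι).det.re

lemma sm_dt : Sm (dt M V ι) := sm_minor V ι

variable {M V ι} in
lemma sm_log_dt (hpos : ∀ x, 0 < dt M V ι x) : Sm (fun x => Real.log (dt M V ι x)) :=
  Sm.comp_at (sm_dt M V ι) fun x => Real.contDiffAt_log.mpr (hpos x).ne'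

lemma growth_log : ∃ C : ℝ, 0 ≤ C ∧ ∀ x : M.Pts, 0 < dt M V ι x →
    Real.log (dt M V ι x) ≤ C + C * Lg (cp x : Fin n → ℂ) +
      C * Real.posLog ‖MvPolynomial.eval (cp x : Fin n → ℂ) M.h‖⁻¹ := by
  obtain ⟨C, a, l, hC, H⟩ := det_growth_sum M V ι
  set B : ℝ := max (Real.log (max C 1)) (max a l) with hB
  have hm : 0 < max C 1 := lt_max_of_lt_right one_pos
  have hB0 : 0 ≤ B := (Nat.cast_nonneg a).trans ((le_max_left _ _).trans (le_max_right _ _))
  refine ⟨B, hB0, fun x hx => ?_⟩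
  have h1 : dt M V ι x * ‖MvPolynomial.eval (cp x : Fin n → ℂ) M.h‖ ^ l ≤
      max C 1 * (1 + nsq (cp x : Fin n → ℂ)) ^ a := by
    refine (H x).trans ?_
    have hs : 0 < 1 + nsq (cp x : Fin n → ℂ) := rho_pos _
    exact mul_le_mul_of_nonneg_right (le_max_left _ _) (by
      have : (1 + ∑ i, ‖M.pz x i‖ ^ 2) = 1 + nsq (cp x : Fin n → ℂ) := rfl
      rw [this]; positivity)
  have ht : 0 < ‖MvPolynomial.eval (cp x : Fin n → ℂ) M.h‖ := norm_pos_iff.2 (M.eval_h_ne x)
  have hs : 0 < 1 + nsq (cp x : Fin n → ℂ) := rho_pos _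
  have h4 := Real.log_le_log (by positivity) h1
  rw [Real.log_mul hx.ne' (by positivity), Real.log_pow, Real.log_mul hm.ne' (by positivity),
    Real.log_pow] at h4
  have hL : 0 ≤ Lg (cp x : Fin n → ℂ) := Lg_nonneg _
  have h5 : Real.log (max C 1) ≤ B := le_max_left _ _
  have h6 : (a : ℝ) ≤ B := (le_max_left _ _).trans (le_max_right _ _)
  have h7 : (l : ℝ) ≤ B := (le_max_right _ _).trans (le_max_right _ _)
  have h8 : (a : ℝ) * Lg (cp x : Fin n → ℂ) ≤ B * Lg (cp x : Fin n → ℂ) :=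
    mul_le_mul_of_nonneg_right h6 hL
  have h9 : - Real.log ‖MvPolynomial.eval (cp x : Fin n → ℂ) M.h‖ ≤
      Real.posLog ‖MvPolynomial.eval (cp x : Fin n → ℂ) M.h‖⁻¹ := by
    rw [← Real.log_inv]; exact le_max_right _ _
  have h10 : 0 ≤ Real.posLog ‖MvPolynomial.eval (cp x : Fin n → ℂ) M.h‖⁻¹ :=
    le_max_left _ _
  have h11 : -((l : ℝ) * Real.log ‖MvPolynomial.eval (cp x : Fin n → ℂ) M.h‖) ≤
      B * Real.posLog ‖MvPolynomial.eval (cp x : Fin n → ℂ) M.h‖⁻¹ := by
    have h12 : (l : ℝ) * (- Real.log ‖MvPolynomial.eval (cp x : Fin n → ℂ) M.h‖) ≤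
        l * Real.posLog ‖MvPolynomial.eval (cp x : Fin n → ℂ) M.h‖⁻¹ :=
      mul_le_mul_of_nonneg_left h9 (Nat.cast_nonneg _)
    have h13 := mul_le_mul_of_nonneg_right h7 h10
    linarith
  have h14 : Real.log (dt M V ι x) + l * Real.log ‖MvPolynomial.eval (cp x : Fin n → ℂ) M.h‖ ≤
      Real.log (max C 1) + a * Lg (cp x : Fin n → ℂ) := h4
  linarith

/-- the data of 137's theorem -/
theorem exists_mdata (hpos : ∀ x, 0 < dt M V ι x) (k : ℕ) : ∃ P : MData (n := n) M.Pts,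
    P.d = fun x => dt M V ι x ^ k := by
  obtain ⟨C1, hC1, H1⟩ := log_h_le M
  obtain ⟨C2, hC2, H2⟩ := growth_log M V ι
  have hk : (0 : ℝ) ≤ k := Nat.cast_nonneg k
  refine ⟨{ N := M.deg
            hN := encard_fib M
            h := fun z => MvPolynomial.eval z M.h
            hh := ?_
            hs := ?_
            h0 := fun x => M.eval_h_ne x
            C := C1 + k * C2
            hC := by positivity
            hgh := fun x => ?_
            hprop := isCompact_h M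
            d := fun x => dt M V ι x ^ k
            sd := ?_
            hpsh := fun x _ v => ?_
            hgr := fun x _ => ?_ }, rfl⟩
  · have h1 : AnalyticOnNhd ℂ (fun z : Fin n → ℂ => MvPolynomial.eval z M.h) Set.univ :=
      AnalyticOnNhd.eval_mvPolynomial M.h
    exact fun z => (h1 z (Set.mem_univ z)).differentiableAt
  · have h1 : AnalyticOnNhd ℂ (fun z : Fin n → ℂ => MvPolynomial.eval z M.h) Set.univ :=
      AnalyticOnNhd.eval_mvPolynomial M.h
    rw [contDiff_iff_contDiffAt]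
    intro z
    exact ((h1 z (Set.mem_univ z)).contDiffAt).restrict_scalars ℝ
  · refine (H1 x).trans ?_
    have hL : 0 ≤ Lg (cp x : Fin n → ℂ) := Lg_nonneg _
    have : 0 ≤ (k : ℝ) * C2 := by positivity
    nlinarith
  · exact Sm.comp (g := fun t : ℝ => t ^ k) (contDiff_id.pow k) (sm_dt M V ι)
  · have h1 : (fun y => Real.log (dt M V ι y ^ k)) = fun y => (k : ℝ) * Real.log (dt M V ι y) := by
      funext y; exact Real.log_pow _ _
    rw [h1, Levi_const_mul (sm_log_dt hpos)]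
    exact mul_nonneg hk (Levi_log_minor_nonneg V ι (hpos x) v)
  · show Real.log (dt M V ι x ^ k) ≤ _
    rw [Real.log_pow]
    have h1 := mul_le_mul_of_nonneg_left (H2 x (hpos x)) hk
    have hL : 0 ≤ Lg (cp x : Fin n → ℂ) := Lg_nonneg _
    have h10 : 0 ≤ Real.posLog ‖MvPolynomial.eval (cp x : Fin n → ℂ) M.h‖⁻¹ := le_max_left _ _
    have h2 : 0 ≤ C1 * Lg (cp x : Fin n → ℂ) := mul_nonneg hC1 hL
    have h3 : 0 ≤ C1 * Real.posLog ‖MvPolynomial.eval (cp x : Fin n → ℂ) M.h‖⁻¹ :=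
      mul_nonneg hC1 h10
    linarith

end data

section main

variable {K : Type} [Field K] [Algebra ℂ K] {n N w : ℕ} (M : Mdl K n)
  (V : Ipc735.VHS n M.Pts N w)
  {α β : Type} [Fintype α] [DecidableEq α] [Fintype β] [DecidableEq β]

/-- the Levi form of `log d` dominates `gP` -/
lemma levi_sub_psd {c : ℝ} (hc : ∀ (K a a' : Matrix (Fin N) (Fin N) ℂ), K.PosDef →
    VCalc_442.Adj K a a' → IsNilpotent a →
    c * (a * a').trace.re ^ 2 ≤ ((a' * a - a * a') * (a' * a - a * a')).trace.re)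
    {k : ℕ} (hk : 1 ≤ k * c) (e : Fin n ≃ α ⊕ β) (X : M.Pts → Matrix α (Fin n) ℂ)
    (hX : ∀ x i j, X x i (e.symm (Sum.inl j)) = if i = j then 1 else 0)
    (hker : ∀ x i k, ∑ j, X x i j * gP V x j k = 0)
    (hdet : ∀ x, 0 < dt M V (e.symm ∘ Sum.inr) x) (x : M.Pts) :
    (LvM (fun y => Real.log (dt M V (e.symm ∘ Sum.inr) y ^ k)) x - gP V x).PosSemidef := by
  have h1 : (fun y => Real.log (dt M V (e.symm ∘ Sum.inr) y ^ k)) =
      fun y => (k : ℝ) * Real.log (dt M V (e.symm ∘ Sum.inr) y) := by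
    funext y; exact Real.log_pow _ _
  have hsm : Sm (fun y => (k : ℝ) * Real.log (dt M V (e.symm ∘ Sum.inr) y)) :=
    (Sm.const (k : ℝ)).mulR (sm_log_dt hdet)
  have hG := gP_posSemidef V x
  have hmain : ∀ v : Fin n → ℂ, (∑ i, ∑ j, gP V x i j * v i * conj (v j)).re ≤
      Levi (fun y => (k : ℝ) * Real.log (dt M V (e.symm ∘ Sum.inr) y)) x v := by
    intro v
    rw [Levi_const_mul (sm_log_dt hdet)]
    set u : Fin n → ℂ := fun j => ∑ i, v (e.symm (Sum.inl i)) * X x i j with hu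
    have h2 := Levi_log_minor_ker V hc (e.symm ∘ Sum.inr : β → Fin n) (hdet x) (v := v)
      (b := v - u) (fun j hj => ?_) (fun l => ?_)
    · set q : ℝ := (∑ i, ∑ j, gP V x i j * v i * conj (v j)).re with hq
      have hq0 : 0 ≤ q := by
        have h3 : star (fun j => conj (v j)) ⬝ᵥ (gP V x *ᵥ fun j => conj (v j)) =
            ∑ i, ∑ j, gP V x i j * v i * conj (v j) := by
          simp only [dotProduct, Matrix.mulVec, Finset.mul_sum, Pi.star_apply]
          refine Finset.sum_congr rfl fun i _ => Finset.sum_congr rfl fun j _ => ?_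
          simp only [Complex.conj_conj, RCLike.star_def]
          ring
        rw [hq, ← h3]
        exact (Complex.le_def.1 (hG.dotProduct_mulVec_nonneg _)).1
      have h3 := mul_le_mul_of_nonneg_left h2 (Nat.cast_nonneg (α := ℝ) k)
      calc q = 1 * q := (one_mul q).symm
        _ ≤ (k * c) * q := mul_le_mul_of_nonneg_right hk hq0
        _ = k * (c * q) := by ring
        _ ≤ _ := h3
    · rcases hj' : e j with i | i
      · have h3 : j = e.symm (Sum.inl i) := by rw [← hj', Equiv.symm_apply_apply]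
        rw [Pi.sub_apply, hu, h3]
        simp only [hX]
        simp
      · exact absurd ⟨i, by rw [Function.comp_apply, ← hj', Equiv.symm_apply_apply]⟩ hj
    · rw [sub_sub_cancel, hu]
      simp only [Finset.sum_mul]
      rw [Finset.sum_comm]
      refine Finset.sum_eq_zero fun i _ => ?_
      simp only [mul_assoc]
      rw [← Finset.mul_sum, hker, mul_zero]
  rw [h1]
  refine Matrix.PosSemidef.of_dotProduct_mulVec_nonneg ?_ fun v => ?_
  · refine Matrix.IsHermitian.sub ?_ hG.1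
    ext j l
    rw [Matrix.conjTranspose_apply]
    exact Lv_conj hsm x l j
  · have h3 : star v ⬝ᵥ ((LvM (fun y => (k : ℝ) * Real.log (dt M V (e.symm ∘ Sum.inr) y)) x -
        gP V x) *ᵥ v) =
        ((Levi (fun y => (k : ℝ) * Real.log (dt M V (e.symm ∘ Sum.inr) y)) x
          (fun j => conj (v j)) : ℝ) : ℂ) - star v ⬝ᵥ (gP V x *ᵥ v) := by
      rw [Matrix.sub_mulVec, dotProduct_sub, Levi_eq hsm]
      congr 1
      simp only [dotProduct, Matrix.mulVec, Finset.mul_sum, LvM, Matrix.of_apply, Pi.star_apply]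
      refine Finset.sum_congr rfl fun j _ => Finset.sum_congr rfl fun l _ => ?_
      simp only [Complex.conj_conj, RCLike.star_def]
      ring
    have h4 : star v ⬝ᵥ (gP V x *ᵥ v) =
        ∑ i, ∑ j, gP V x i j * conj (v i) * conj (conj (v j)) := by
      simp only [dotProduct, Matrix.mulVec, Finset.mul_sum, Pi.star_apply]
      refine Finset.sum_congr rfl fun i _ => Finset.sum_congr rfl fun j _ => ?_
      simp only [Complex.conj_conj, RCLike.star_def]
      ring
    have h5 := hmain fun j => conj (v j)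
    rw [← h4] at h5
    have h6 := hG.dotProduct_mulVec_nonneg v
    have h7 : star v ⬝ᵥ (gP V x *ᵥ v) = (((star v ⬝ᵥ (gP V x *ᵥ v)).re : ℝ) : ℂ) :=
      Complex.ext (by simp) (by simpa using (Complex.le_def.1 h6).2.symm)
    rw [h3, h7, ← Complex.ofReal_sub]
    exact_mod_cast sub_nonneg.2 h5

/-- finite total mass, in 137's coordinates -/
theorem mass_lt_top [MeasurableSpace M.Pts] [BorelSpace M.Pts] {μ : Measure M.Pts} (hμ : IsLeb μ)
    (e : Fin n ≃ α ⊕ β) (i₀' : α) (X : M.Pts → Matrix α (Fin n) ℂ)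
    (hX : ∀ x i j, X x i (e.symm (Sum.inl j)) = if i = j then 1 else 0)
    (hker : ∀ x i k, ∑ j, X x i j * gP V x j k = 0)
    (hdet : ∀ x, 0 < ((gP V x).submatrix (e.symm ∘ Sum.inr) (e.symm ∘ Sum.inr)).det.re) :
    ∫⁻ x, ENNReal.ofReal (Levi Lg (cp x : Fin n → ℂ) (X x i₀') *
      (∏ i ∈ Finset.univ.erase i₀', ((1 + ‖(cp x : Fin n → ℂ) (e.symm (Sum.inl i))‖ ^ 2)⁻¹) ^ 2) *
      ((gP V x).submatrix (e.symm ∘ Sum.inr) (e.symm ∘ Sum.inr)).det.re) ∂μ < ∞ := by
  obtain ⟨c, hc0, hc⟩ := VLevi_327.exists_cN N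
  obtain ⟨k, hk⟩ := exists_nat_ge (1 / c)
  have hkc : 1 ≤ (k : ℝ) * c := by
    rw [div_le_iff₀ hc0] at hk; exact hk
  obtain ⟨P, hP⟩ := exists_mdata M V (e.symm ∘ Sum.inr) hdet k
  have hPd : ∀ x, 0 < P.d x := fun x => by
    rw [hP]; exact pow_pos (hdet x) k
  have h1 := mass_frame hμ P e i₀' (fun x => gP V x) X (fun x _ => gP_posSemidef V x)
    (fun x _ => by
      rw [hP]
      exact levi_sub_psd M V hc hkc e X hX hker hdet x) hX
    (fun x _ => by
      ext i j
      rw [Matrix.mul_apply]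
      exact hker x i j)
  have h2 : {x | 0 < P.d x} = Set.univ := Set.eq_univ_of_forall hPd
  rw [h2, Measure.restrict_univ] at h1
  exact h1

end main

section final

variable {K : Type} [Field K] [Algebra ℂ K] {n N w : ℕ} (M : Mdl K (n + 1))
  (V : Ipc735.VHS (n + 1) M.Pts N w)
  {α β : Type} [Fintype α] [DecidableEq α] [Fintype β] [DecidableEq β]

variable (e : Fin (n + 1) ≃ α ⊕ β) (i₀' : α) {i₀ : Fin (n + 1)} (hi₀ : i₀ = e.symm (Sum.inl i₀'))
  {A : Finset (Fin n)} (hA : ∀ i, i ∈ A ↔ i₀.succAbove i ∈ Set.range (e.symm ∘ Sum.inl))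

include hi₀ hA

lemma prod_reindex (f : Fin (n + 1) → ℝ) :
    ∏ i ∈ A, f (i₀.succAbove i) = ∏ i ∈ Finset.univ.erase i₀', f (e.symm (Sum.inl i)) := by
  have h1 : ∏ i ∈ A, f (i₀.succAbove i) = ∏ j ∈ A.image i₀.succAbove, f j := by
    rw [Finset.prod_image]
    exact fun i _ j _ h => Fin.succAbove_right_injective h
  have h2 : ∏ i ∈ Finset.univ.erase i₀', f (e.symm (Sum.inl i)) =
      ∏ j ∈ (Finset.univ.erase i₀').image (fun i => e.symm (Sum.inl i)), f j := by
    rw [Finset.prod_image]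
    exact fun i _ j _ h => Sum.inl_injective (e.symm.injective h)
  rw [h1, h2]
  refine Finset.prod_congr ?_ fun _ _ => rfl
  ext j
  simp only [Finset.mem_image, Finset.mem_erase, Finset.mem_univ, and_true]
  constructor
  · rintro ⟨i, hi, rfl⟩
    obtain ⟨a, ha⟩ := (hA i).1 hi
    refine ⟨a, ?_, ha⟩
    rintro rfl
    have : i₀.succAbove i = i₀ := by rw [← ha, hi₀]; rfl
    exact Fin.succAbove_ne _ _ this
  · rintro ⟨a, ha, rfl⟩
    have h3 : e.symm (Sum.inl a) ≠ i₀ := by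
      intro h
      rw [hi₀] at h
      exact ha (Sum.inl_injective (e.symm.injective h))
    obtain ⟨i, hi⟩ := Fin.exists_succAbove_eq h3
    exact ⟨i, (hA i).2 ⟨a, hi.symm⟩, hi⟩

lemma det_reindex (G : Matrix (Fin (n + 1)) (Fin (n + 1)) ℂ) :
    (sub A (G.submatrix i₀.succAbove i₀.succAbove)).det =
      (G.submatrix (e.symm ∘ Sum.inr) (e.symm ∘ Sum.inr)).det := by
  have h1 : ∀ i : Cm A, ∃ b : β, e.symm (Sum.inr b) = i₀.succAbove i.1 := by
    intro i
    rcases hj : e (i₀.succAbove i.1) with a | b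
    · refine absurd ((hA i.1).2 ⟨a, ?_⟩) i.2
      rw [Function.comp_apply, ← hj, Equiv.symm_apply_apply]
    · exact ⟨b, by rw [← hj, Equiv.symm_apply_apply]⟩
  choose φ hφ using h1
  have hbij : Function.Bijective φ := by
    constructor
    · intro i j h
      have h2 := (hφ i).symm.trans ((congrArg (fun b => e.symm (Sum.inr b)) h).trans (hφ j))
      exact Subtype.ext (Fin.succAbove_right_injective h2)
    · intro b
      have h3 : e.symm (Sum.inr b) ≠ i₀ := by
        intro h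
        rw [hi₀] at h
        exact Sum.inr_ne_inl (e.symm.injective h)
      obtain ⟨i, hi⟩ := Fin.exists_succAbove_eq h3
      have hiA : i ∉ A := by
        intro h
        obtain ⟨a, ha⟩ := (hA i).1 h
        rw [hi] at ha
        exact Sum.inl_ne_inr (e.symm.injective ha)
      refine ⟨⟨i, hiA⟩, ?_⟩
      have h4 := hφ ⟨i, hiA⟩
      exact Sum.inr_injective (e.symm.injective (h4.trans hi))
  rw [← Matrix.det_submatrix_equiv_self (Equiv.ofBijective φ hbij)]
  congr 1
  ext i j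
  show G (i₀.succAbove i.1) (i₀.succAbove j.1) = G (e.symm (Sum.inr (φ i))) (e.symm (Sum.inr (φ j)))
  rw [hφ, hφ]

/-- **PF-MASS**: the hypothesis `hmass` of 409's Theorem A. -/
theorem hmass [MeasurableSpace M.Pts] [BorelSpace M.Pts] {μ : Measure M.Pts} (hμ : IsLeb μ)
    (X : M.Pts → Matrix α (Fin (n + 1)) ℂ)
    (hX : ∀ x i j, X x i (e.symm (Sum.inl j)) = if i = j then 1 else 0)
    (hker : ∀ x i k, ∑ j, X x i j * gP V x j k = 0)
    (hdet : ∀ x, 0 < ((gP V x).submatrix (e.symm ∘ Sum.inr) (e.symm ∘ Sum.inr)).det.re) :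
    ∫⁻ x, ENNReal.ofReal (Levi (lg (zc M) 1) x (X x i₀')) *
      ENNReal.ofReal (wS V i₀ A x) ∂μ ≠ ⊤ := by
  refine ne_of_lt (lt_of_le_of_lt (le_of_eq ?_) (mass_lt_top M V hμ e i₀' X hX hker hdet))
  refine lintegral_congr fun x => ?_
  have h1 : Levi (lg (zc M) 1) x (X x i₀') = Levi Lg (cp x : Fin (n + 1) → ℂ) (X x i₀') := by
    have h2 : lg (zc M) 1 = fun y : M.Pts => Lg (cp y : Fin (n + 1) → ℂ) := by
      funext y
      show Real.log (nS (zc M) y + 1) = Real.log (1 + nsq (cp y : Fin (n + 1) → ℂ))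
      rw [add_comm]
      rfl
    rw [h2]
    exact Levi_coord _ _ _
  have h3 : wS V i₀ A x =
      (∏ i ∈ Finset.univ.erase i₀', ((1 + ‖(cp x : Fin (n + 1) → ℂ) (e.symm (Sum.inl i))‖ ^ 2)⁻¹) ^ 2) *
      ((gP V x).submatrix (e.symm ∘ Sum.inr) (e.symm ∘ Sum.inr)).det.re := by
    unfold wS gS
    rw [det_reindex e i₀' hi₀ hA, mul_comm]
    congr 1
    rw [← prod_reindex e i₀' hi₀ hA (fun j => ((1 + ‖(cp x : Fin (n + 1) → ℂ) j‖ ^ 2)⁻¹) ^ 2)]
    refine Finset.prod_congr rfl fun i _ => ?_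
    rw [inv_pow]
  rw [h1, h3, ← ENNReal.ofReal_mul (Levi_Lg_nonneg _ _)]
  congr 1
  ring

end final

end Crest.Agent.R276.PfMass_450
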