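import Crest.Agent.R273.RegC_844

/-!
# Row 276 (helper29): closure properties of psh functions on Riemann domains, part A

`SM_loc` : plurisubharmonicity is a local property (flat form); `PSH.of_local`;
composition with convex increasing functions; limits; suprema.
-/

set_option autoImplicit false
set_option linter.unusedSectionVars false

open MeasureTheory Set Metric Filter Topology
open scoped ENNReal ContDiff

noncomputable section

namespace Crest.Agent.R276.PshA_29

open Crest.Agent.R275.FL606 Crest.Agent.R271.Ho51 Crest.Agent.R273.Reg_844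

section flat

variable {n : ℕ}

lemma exists_unif {f : (Fin n → ℂ) → ℝ} {B D : Set (Fin n → ℂ)} (hB : IsOpen B)
    (hD : IsCompact D) (hDB : D ⊆ B)
    (husc : ∀ z ∈ B, ∀ c, f z < c → ∀ᶠ y in 𝓝 z, f y < c)
    (hbdd : ∀ z ∈ B, ∃ c : ℝ, ∀ᶠ y in 𝓝 z, c ≤ f y)
    (hloc : ∀ z ∈ B, ∃ r : ℝ, 0 < r ∧ SM 0 f (ball z r)) :
    ∃ r K : ℝ, 0 < r ∧ ∀ y ∈ D, ball y r ⊆ B ∧ SM 0 f (ball y r) ∧ ∀ x ∈ ball y r, |f x| ≤ K := by
  refine hD.induction_on (p := fun S => ∃ r K : ℝ, 0 < r ∧ ∀ y ∈ S, ball y r ⊆ B ∧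
    SM 0 f (ball y r) ∧ ∀ x ∈ ball y r, |f x| ≤ K) ⟨1, 1, one_pos, by simp⟩ ?_ ?_ ?_
  · rintro s t hst ⟨r, K, hr, h⟩
    exact ⟨r, K, hr, fun y hy => h y (hst hy)⟩
  · rintro s t ⟨r, K, hr, h⟩ ⟨r', K', hr', h'⟩
    refine ⟨min r r', max K K', lt_min hr hr', ?_⟩
    rintro y (hy | hy)
    · obtain ⟨h1, h2, h3⟩ := h y hy
      have hs := ball_subset_ball (x := y) (min_le_left r r')
      exact ⟨hs.trans h1, h2.mono hs, fun x hx => (h3 x (hs hx)).trans (le_max_left _ _)⟩
    · obtain ⟨h1, h2, h3⟩ := h' y hy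
      have hs := ball_subset_ball (x := y) (min_le_right r r')
      exact ⟨hs.trans h1, h2.mono hs, fun x hx => (h3 x (hs hx)).trans (le_max_right _ _)⟩
  · intro z hz
    have hzB := hDB hz
    obtain ⟨r₂, hr₂, hS⟩ := hloc z hzB
    obtain ⟨c, hc⟩ := hbdd z hzB
    have h1 : ∀ᶠ y in 𝓝 z, y ∈ B ∧ c ≤ f y ∧ f y < f z + 1 :=
      (hB.eventually_mem hzB).and (hc.and (husc z hzB _ (by linarith)))
    obtain ⟨r₁, hr₁, hb⟩ := Metric.eventually_nhds_iff_ball.1 h1
    set r := min r₁ r₂ / 2 with hr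
    have hr0 : 0 < r := by positivity
    refine ⟨ball z r, mem_nhdsWithin_of_mem_nhds (ball_mem_nhds _ hr0), r,
      max |c| |f z + 1|, hr0, ?_⟩
    intro y hy
    have hs : ball y r ⊆ ball z (min r₁ r₂) := by
      apply ball_subset_ball'
      rw [mem_ball] at hy
      linarith
    have hs1 : ball y r ⊆ ball z r₁ := hs.trans (ball_subset_ball (min_le_left _ _))
    have hs2 : ball y r ⊆ ball z r₂ := hs.trans (ball_subset_ball (min_le_right _ _))
    refine ⟨fun x hx => (hb x (hs1 hx)).1, hS.mono hs2, fun x hx => ?_⟩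
    obtain ⟨-, h2, h3⟩ := hb x (hs1 hx)
    rw [abs_le]
    constructor
    · have := neg_abs_le c
      have := le_max_left |c| |f z + 1|
      linarith
    · have := le_abs_self (f z + 1)
      have := le_max_right |c| |f z + 1|
      linarith

/-- plurisubharmonicity is local (flat version) -/
theorem SM_loc {f : (Fin n → ℂ) → ℝ} {B : Set (Fin n → ℂ)} (hB : IsOpen B)
    (husc : ∀ z ∈ B, ∀ c, f z < c → ∀ᶠ y in 𝓝 z, f y < c)
    (hbdd : ∀ z ∈ B, ∃ c : ℝ, ∀ᶠ y in 𝓝 z, c ≤ f y)
    (hloc : ∀ z ∈ B, ∃ r : ℝ, 0 < r ∧ SM 0 f (ball z r)) : SM 0 f B := by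
  apply SM.of_le
  intro z v hd
  set D : Set (Fin n → ℂ) := (fun w : ℂ => z + w • v) '' closedBall 0 1 with hD
  have hDc : IsCompact D := (isCompact_closedBall (0 : ℂ) 1).image (by fun_prop)
  have hmD : ∀ w : ℂ, ‖w‖ ≤ 1 → z + w • v ∈ D := fun w hw =>
    ⟨w, by rw [mem_closedBall, dist_zero_right]; exact hw, rfl⟩
  have hDB : D ⊆ B := by
    rintro _ ⟨w, hw, rfl⟩
    rw [mem_closedBall, dist_zero_right] at hw
    exact hd w hw
  obtain ⟨r, K₀, hr, hu⟩ := exists_unif hB hDc hDB husc hbdd hloc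
  set K := max K₀ 0 with hK
  set N : Set (Fin n → ℂ) := thickening r D with hN
  have hNo : IsOpen N := isOpen_thickening
  have hNB : N ⊆ B := by
    intro y hy
    obtain ⟨y0, hy0, hd0⟩ := mem_thickening_iff.1 hy
    exact (hu y0 hy0).1 (mem_ball.2 hd0)
  have hbN : ∀ y ∈ D, ball y r ⊆ N := fun y hy x hx => mem_thickening_iff.2 ⟨y, hy, mem_ball.1 hx⟩
  set g : (Fin n → ℂ) → ℝ := N.indicator f with hg
  have hgm : Measurable g := by
    apply measurable_of_Iio
    intro c
    have h1 : IsOpen {y | y ∈ N ∧ f y < c} := by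
      rw [isOpen_iff_mem_nhds]
      rintro y ⟨hy1, hy2⟩
      exact (hNo.eventually_mem hy1).and (husc y (hNB hy1) c hy2)
    have h2 : g ⁻¹' Iio c = {y | y ∈ N ∧ f y < c} ∪ (Nᶜ ∩ {_y | (0 : ℝ) < c}) := by
      ext y
      by_cases hy : y ∈ N
      · simp [hg, hy]
      · simp [hg, hy]
    rw [h2]
    exact h1.measurableSet.union (hNo.measurableSet.compl.inter (MeasurableSet.const _))
  have hgK : ∀ y, |g y| ≤ K := by
    intro y
    by_cases hy : y ∈ N
    · simp only [hg, indicator_of_mem hy]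
      obtain ⟨y0, hy0, hd0⟩ := mem_thickening_iff.1 hy
      exact ((hu y0 hy0).2.2 y (mem_ball.2 hd0)).trans (le_max_left _ _)
    · simp only [hg, indicator_of_notMem hy, abs_zero]; exact le_max_right _ _
  have hgf : ∀ y ∈ N, g y = f y := fun y hy => indicator_of_mem hy _
  have hgS : ∀ y ∈ D, SM 0 g (ball y r) := by
    intro y hy x v' hd'
    have h1 := (hu y hy).2.1 x v' hd'
    have h2 : x ∈ ball y r := by simpa using hd' 0 (by simp)
    rw [hgf x (hbN y hy h2)]
    refine h1.trans (le_of_eq ?_)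
    congr 1
    apply Real.circleAverage_congr_sphere
    intro w hw
    rw [abs_one, mem_sphere, dist_zero_right] at hw
    exact (hgf _ (hbN y hy (hd' w hw.le))).symm
  obtain ⟨κ, hκ, hs⟩ := exists_ker_pi n
  have hsm : ∀ {ε : ℝ}, 0 < ε → ∀ y, ContDiffAt ℝ ∞ (regF volume κ ε g) y := fun hε y =>
    contDiffAt_regF volume hκ hs hgm hε one_pos (fun x _ => hgK x)
  -- the regularised functions
  have hstep : ∀ {ε : ℝ}, 0 < ε → ε < r / 2 →
      regF volume κ ε g z ≤ av (regF volume κ ε g) z v := by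
    intro ε hε hεr
    have h2 : ∀ y, ContDiffAt ℝ 2 (regF volume κ ε g) y := fun y =>
      (hsm hε y).of_le (by norm_cast)
    rw [av_eq_circleAverage]
    have hlap : ∀ y ∈ D, 0 ≤ fderiv ℝ (fderiv ℝ (regF volume κ ε g)) y v v +
        fderiv ℝ (fderiv ℝ (regF volume κ ε g)) y (Complex.I • v) (Complex.I • v) := by
      intro y hy
      apply lap_nonneg (h2 y)
      have hr1 : ∀ᶠ s : ℝ in 𝓝[>] 0, s < r / (2 * (‖v‖ + 1)) :=
        nhdsWithin_le_nhds (gt_mem_nhds (by positivity))
      filter_upwards [hr1, self_mem_nhdsWithin] with s hs2 hs0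
      have hs0 : 0 < s := hs0
      apply regF_le_av volume hκ hgm (B := ball y r) (fun x _ => hgK x) (hgS y hy) hε
      intro t ht
      have h5 : s * (2 * (‖v‖ + 1)) < r := (lt_div_iff₀ (by positivity)).1 hs2
      have h6 : ‖t • (s • v)‖ < r / 2 := by
        rw [norm_smul, norm_smul, Real.norm_eq_abs, abs_of_pos hs0]
        calc ‖t‖ * (s * ‖v‖) ≤ 1 * (s * ‖v‖) := by gcongr
          _ < r / 2 := by nlinarith [norm_nonneg v]
      apply ball_subset_ball'
      rw [dist_eq_norm, add_sub_cancel_left]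
      linarith
    have h1 := Crest.Agent.R275.FL884.le_circleAverage_of_contDiffAt
      (ψ := fun w : ℂ => regF volume κ ε g (z + w • v)) (c := 0) (fun w hw => by
        have h1 : ContDiff ℝ 2 (fun w : ℂ => z + w • v) := by fun_prop
        exact ContDiffAt.comp (g := regF volume κ ε g) w (h2 _) h1.contDiffAt)
      (fun w hw => by
        rw [mem_closedBall, dist_zero_right] at hw
        rw [snd_line_at (h2 _), snd_line_at (h2 _), one_smul, mul_zero, neg_zero]
        exact hlap _ (hmD w hw))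
    simpa using h1
  -- pointwise limit
  set ε : ℕ → ℝ := fun k => r / 4 * (1 / ((k : ℝ) + 1)) with hε
  have hε0 : ∀ k, 0 < ε k := fun k => by simp only [hε]; positivity
  have hεr : ∀ k, ε k < r / 2 := by
    intro k
    have h1 : 1 / ((k : ℝ) + 1) ≤ 1 := by
      rw [div_le_one (by positivity)]
      have : (0 : ℝ) ≤ k := by positivity
      linarith
    simp only [hε]
    nlinarith
  have hεt : Tendsto ε atTop (𝓝 0) := by
    have := tendsto_one_div_add_atTop_nhds_zero_nat.const_mul (r / 4)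
    simpa only [mul_zero] using this
  have hle : ∀ k, ∀ y ∈ D, g y ≤ regF volume κ (ε k) g y := fun k y hy =>
    le_regF volume hκ hgm (B := ball y r) (fun x _ => hgK x) (hgS y hy) (hε0 k)
      (ball_subset_ball (by linarith [hεr k]))
  have hup : ∀ k y, regF volume κ (ε k) g y ≤ K := fun k y =>
    regF_le volume hκ hgm (B := univ) (fun x _ => hgK x) (hε0 k) (subset_univ _)
      fun x _ => (abs_le.1 (hgK x)).2
  have hlim : ∀ y ∈ D, Tendsto (fun k => regF volume κ (ε k) g y) atTop (𝓝 (g y)) := by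
    intro y hy
    have hyN : y ∈ N := hbN y hy (mem_ball_self hr)
    rw [tendsto_order]
    constructor
    · intro a ha
      exact Eventually.of_forall fun k => ha.trans_le (hle k y hy)
    · intro a ha
      obtain ⟨c, hc1, hc2⟩ := exists_between ha
      rw [hgf y hyN] at hc1
      have h1 : ∀ᶠ x in 𝓝 y, g x < c := by
        filter_upwards [hNo.mem_nhds hyN, husc y (hNB hyN) c hc1] with x hx1 hx2
        rwa [hgf x hx1]
      obtain ⟨δ, hδ, hb⟩ := Metric.eventually_nhds_iff_ball.1 h1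
      filter_upwards [hεt.eventually (gt_mem_nhds hδ)] with k hk
      refine lt_of_le_of_lt ?_ hc2
      exact regF_le volume hκ hgm (B := univ) (fun x _ => hgK x) (hε0 k) (subset_univ _)
        fun x hx => (hb x (ball_subset_ball hk.le hx)).le
  have hav : Tendsto (fun k => av (regF volume κ (ε k) g) z v) atTop (𝓝 (av g z v)) := by
    unfold av
    refine tendsto_integral_of_dominated_convergence (fun _ => K) (fun k => ?_)
      (integrable_const K) (fun k => ?_) ?_
    · have h1 : Continuous (regF volume κ (ε k) g) :=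
        continuous_iff_continuousAt.2 fun y => (hsm (hε0 k) y).continuousAt
      have h2 : Continuous (fun θ : ℝ => z + ang θ • v) := by
        have := continuous_ang
        fun_prop
      exact (h1.comp h2).aestronglyMeasurable
    · refine Eventually.of_forall fun θ => ?_
      rw [Real.norm_eq_abs, abs_le]
      have hθ : z + ang θ • v ∈ D := hmD _ (norm_ang θ).le
      exact ⟨((abs_le.1 (hgK _)).1).trans (hle k _ hθ), hup k _⟩
    · exact Eventually.of_forall fun θ => hlim _ (hmD _ (norm_ang θ).le)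
  have hzD : z ∈ D := by simpa using hmD 0 (by simp)
  have hzN : z ∈ N := hbN z hzD (mem_ball_self hr)
  have hfin : g z ≤ av g z v := by
    refine ge_of_tendsto' hav fun k => ?_
    exact (hle k z hzD).trans (hstep (hε0 k) (hεr k))
  have h3 : av g z v = av f z v := by
    unfold av
    refine integral_congr_ae (Eventually.of_forall fun θ => ?_)
    exact hgf _ (hbN _ (hmD _ (norm_ang θ).le) (mem_ball_self hr))
  rw [zero_mul, add_zero, ← h3, ← hgf z hzN]
  exact hfin

lemma SM_congr {f g : (Fin n → ℂ) → ℝ} {B : Set (Fin n → ℂ)} (h : EqOn f g B) (hf : SM 0 f B) :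
    SM 0 g B := by
  intro z v hd
  have h1 := hf z v hd
  have h2 : z ∈ B := by simpa using hd 0 (by simp)
  rw [← h h2]
  refine h1.trans (le_of_eq ?_)
  congr 1
  apply Real.circleAverage_congr_sphere
  intro w hw
  rw [abs_one, mem_sphere, dist_zero_right] at hw
  exact h (hd w hw.le)

end flat

section mani

variable {n : ℕ} {M : Type*} [TopologicalSpace M] [RDom n M]

/-- **local criterion** -/
theorem psh_of_local {ψ : M → ℝ} (husc : UpperSemicontinuous ψ)
    (hbdd : ∀ x, ∃ c : ℝ, ∀ᶠ y in 𝓝 x, c ≤ ψ y)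
    (hloc : ∀ x, ∃ r : ℝ, 0 < r ∧ SM 0 (ψ ∘ (ch x).symm) (ball (cp x) r)) : PSH ψ := by
  refine ⟨husc, hbdd, fun e he => SM_loc e.open_target ?_ ?_ ?_⟩
  · intro z hz c hc
    have h1 : Tendsto e.symm (𝓝 z) (𝓝 (e.symm z)) := e.symm.continuousAt (by simpa using hz)
    exact h1.eventually (husc (e.symm z) c hc)
  · intro z hz
    obtain ⟨c, hc⟩ := hbdd (e.symm z)
    have h1 : Tendsto e.symm (𝓝 z) (𝓝 (e.symm z)) := e.symm.continuousAt (by simpa using hz)
    exact ⟨c, h1.eventually hc⟩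
  · intro z hz
    have hx : e.symm z ∈ e.source := e.map_target hz
    have hcp : cp (e.symm z) = z := he.cp_symm hz
    obtain ⟨r, hr, hS⟩ := hloc (e.symm z)
    have h1 := (isCh_ch (e.symm z)).germ he (mem_ch (e.symm z)) hx
    rw [hcp] at h1 hS
    obtain ⟨r', hr', hb⟩ := Metric.eventually_nhds_iff_ball.1 h1
    refine ⟨min r r', lt_min hr hr', ?_⟩
    refine SM_congr (f := ψ ∘ (ch (e.symm z)).symm) (fun y hy => ?_)
      (hS.mono (ball_subset_ball (min_le_left _ _)))
    simp only [Function.comp_apply]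
    rw [hb y (ball_subset_ball (min_le_right _ _) hy)]

lemma exists_bound_compact {ι : Type*} {φ : ι → M → ℝ}
    (h : ∀ x, ∃ K, ∀ᶠ y in 𝓝 x, ∀ k, |φ k y| ≤ K) {C : Set M} (hC : IsCompact C) :
    ∃ K, ∀ x ∈ C, ∀ k, |φ k x| ≤ K := by
  refine hC.induction_on (p := fun s => ∃ K : ℝ, ∀ x ∈ s, ∀ k, |φ k x| ≤ K) ⟨1, by simp⟩ ?_ ?_ ?_
  · rintro s t hst ⟨r, h⟩
    exact ⟨r, fun x hx => h x (hst hx)⟩
  · rintro s t ⟨r, h⟩ ⟨r', h'⟩
    refine ⟨max r r', fun x hx k => ?_⟩
    rcases hx with hx | hx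
    · exact (h x hx k).trans (le_max_left _ _)
    · exact (h' x hx k).trans (le_max_right _ _)
  · intro x _
    obtain ⟨K, hK⟩ := h x
    exact ⟨_, mem_nhdsWithin_of_mem_nhds hK, K, fun y hy => hy⟩

/-- bounded pointwise limits -/
theorem psh_of_tendsto {ψ : M → ℝ} {φ : ℕ → M → ℝ} (husc : UpperSemicontinuous ψ)
    (hφ : ∀ k, PSH (φ k)) (hlim : ∀ x, Tendsto (fun k => φ k x) atTop (𝓝 (ψ x)))
    (hbd : ∀ x, ∃ K, ∀ᶠ y in 𝓝 x, ∀ k, |φ k y| ≤ K) : PSH ψ := by
  refine PSH.mk' husc (fun x => ?_) (fun e he z v hd => ?_)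
  · obtain ⟨K, hK⟩ := hbd x
    refine ⟨-K, hK.mono fun y hy => ?_⟩
    exact ge_of_tendsto' (hlim y) fun k => (abs_le.1 (hy k)).1
  · obtain ⟨K, hK⟩ := exists_bound_compact hbd (isCompact_disc_chart hd)
    have hav : Tendsto (fun k => av (φ k ∘ e.symm) z v) atTop (𝓝 (av (ψ ∘ e.symm) z v)) := by
      unfold av
      refine tendsto_integral_of_dominated_convergence (fun _ => K) (fun k => ?_)
        (integrable_const K) (fun k => ?_) ?_
      · exact ((hφ k).integrable_circ hd).aestronglyMeasurable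
      · refine Eventually.of_forall fun θ => ?_
        rw [Real.norm_eq_abs]
        exact hK _ (mem_disc_chart θ) k
      · exact Eventually.of_forall fun θ => hlim _
    exact le_of_tendsto_of_tendsto' (hlim _) hav fun k => (hφ k).le_av he hd

/-- decreasing limits -/
theorem psh_of_antitone {ψ : M → ℝ} {φ : ℕ → M → ℝ} (hφ : ∀ k, PSH (φ k))
    (hanti : ∀ x, Antitone fun k => φ k x)
    (hlim : ∀ x, Tendsto (fun k => φ k x) atTop (𝓝 (ψ x)))
    (hbd : ∀ x, ∃ c : ℝ, ∀ᶠ y in 𝓝 x, c ≤ ψ y) : PSH ψ := by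
  have hle : ∀ k x, ψ x ≤ φ k x := fun k x => (hanti x).le_of_tendsto (hlim x) k
  refine psh_of_tendsto ?_ hφ hlim ?_
  · intro x c hc
    obtain ⟨k, hk⟩ := ((hlim x).eventually (gt_mem_nhds hc)).exists
    filter_upwards [(hφ k).usc x c hk] with y hy
    exact (hle k y).trans_lt hy
  · intro x
    obtain ⟨c, hc⟩ := hbd x
    refine ⟨max |c| |φ 0 x + 1|, ?_⟩
    filter_upwards [hc, (hφ 0).usc x (φ 0 x + 1) (by linarith)] with y h1 h2 k
    have h3 := hle k y
    have h4 : φ k y ≤ φ 0 y := hanti y (Nat.zero_le k)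
    rw [abs_le]
    constructor
    · have := neg_abs_le c
      have := le_max_left |c| |φ 0 x + 1|
      linarith
    · have := le_abs_self (φ 0 x + 1)
      have := le_max_right |c| |φ 0 x + 1|
      linarith

lemma usc_bdd {ψ : M → ℝ} (h : UpperSemicontinuous ψ) {C : Set M} (hC : IsCompact C) :
    ∃ K, ∀ x ∈ C, ψ x ≤ K := by
  obtain ⟨K, hK⟩ := (h.upperSemicontinuousOn C).bddAbove_of_isCompact hC
  exact ⟨K, fun x hx => hK (mem_image_of_mem _ hx)⟩

/-- suprema -/
theorem psh_of_sup {ι : Type*} {ψ : M → ℝ} {φ : ι → M → ℝ} (hφ : ∀ i, PSH (φ i))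
    (husc : UpperSemicontinuous ψ) (hle : ∀ i x, φ i x ≤ ψ x)
    (happ : ∀ x, ∀ c < ψ x, ∃ i, c < φ i x) : PSH ψ := by
  refine PSH.mk' husc (fun x => ?_) (fun e he z v hd => ?_)
  · obtain ⟨i, -⟩ := happ x (ψ x - 1) (by linarith)
    obtain ⟨c, hc⟩ := (hφ i).bdd x
    exact ⟨c, hc.mono fun y hy => hy.trans (hle i y)⟩
  · refine le_of_forall_lt fun c hc => ?_
    obtain ⟨i, hi⟩ := happ _ c hc
    obtain ⟨K, hK⟩ := usc_bdd husc (isCompact_disc_chart hd)
    obtain ⟨K', hK'⟩ := (hφ i).exists_bound (isCompact_disc_chart hd)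
    have hint := integrable_circ_usc husc hd (K := max |K| |K'|) (fun x hx => by
      rw [abs_le]
      constructor
      · have h1 := (abs_le.1 (hK' x hx)).1
        have h2 := hle i x
        have h3 := le_max_right |K| |K'|
        have h4 := le_abs_self K'
        linarith
      · exact (hK x hx).trans ((le_abs_self K).trans (le_max_left _ _)))
    refine hi.trans_le (((hφ i).le_av he hd).trans ?_)
    exact integral_mono ((hφ i).integrable_circ hd) hint fun θ => hle i _

/-- composition with a convex increasing function of several variables -/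
theorem psh_comp_pi {ι : Type*} [Fintype ι] {ψ : ι → M → ℝ} (h : ∀ i, PSH (ψ i))
    {g : (ι → ℝ) → ℝ} (hg : ConvexOn ℝ univ g) (hm : Monotone g) (hc : Continuous g) :
    PSH (fun x => g (fun i => ψ i x)) := by
  have husc : UpperSemicontinuous (fun x => g (fun i => ψ i x)) := by
    intro x c hx
    have h1 : ∀ᶠ t : ι → ℝ in 𝓝 (fun i => ψ i x), g t < c :=
      hc.continuousAt.eventually (gt_mem_nhds hx)
    obtain ⟨δ, hδ, hb⟩ := Metric.eventually_nhds_iff_ball.1 h1
    have h2 : ∀ᶠ y in 𝓝 x, ∀ i, ψ i y < ψ i x + δ / 2 :=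
      eventually_all.2 fun i => (h i).usc x _ (by linarith)
    filter_upwards [h2] with y hy
    refine lt_of_le_of_lt (hm (fun i => (hy i).le)) (hb _ ?_)
    rw [mem_ball, dist_pi_lt_iff hδ]
    intro i
    rw [Real.dist_eq, add_sub_cancel_left, abs_of_pos (by positivity)]
    linarith
  refine PSH.mk' husc (fun x => ?_) (fun e he z v hd => ?_)
  · choose c hc' using fun i => (h i).bdd x
    refine ⟨g c, (eventually_all.2 hc').mono fun y hy => hm fun i => hy i⟩
  · set F : ℝ → (ι → ℝ) := fun θ i => ψ i (e.symm (z + ang θ • v)) with hF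
    have hFi : ∀ i, Integrable (fun θ => F θ i) circ := fun i => (h i).integrable_circ hd
    have hFI : Integrable F circ := Integrable.of_eval hFi
    have hbd : ∃ K : ℝ, ∀ x ∈ (fun w : ℂ => e.symm (z + w • v)) '' closedBall 0 1,
        |g (fun i => ψ i x)| ≤ K := by
      choose K hK using fun i => (h i).exists_bound (isCompact_disc_chart hd)
      have hcpt : IsCompact (Set.pi univ fun i => Icc (-K i) (K i)) :=
        isCompact_univ_pi fun i => isCompact_Icc
      obtain ⟨B, hB⟩ := hcpt.exists_bound_of_continuousOn hc.continuousOn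
      refine ⟨B, fun x hx => ?_⟩
      have := hB (fun i => ψ i x) (fun i _ => abs_le.1 (hK i x hx))
      rwa [Real.norm_eq_abs] at this
    obtain ⟨K, hK⟩ := hbd
    have hgi : Integrable (g ∘ F) circ := integrable_circ_usc husc hd hK
    have h1 : g (∫ θ, F θ ∂circ) ≤ ∫ θ, g (F θ) ∂circ :=
      hg.map_integral_le hc.continuousOn isClosed_univ (Eventually.of_forall fun _ => mem_univ _)
        hFI hgi
    refine le_trans (hm fun i => ?_) h1
    rw [eval_integral hFi]
    exact (h i).le_av he hd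

/-- composition with a convex increasing function -/
theorem psh_comp {ψ : M → ℝ} (h : PSH ψ) {g : ℝ → ℝ} (hg : ConvexOn ℝ univ g) (hm : Monotone g)
    (hc : Continuous g) : PSH (fun x => g (ψ x)) := by
  have := psh_comp_pi (ι := Unit) (ψ := fun _ => ψ) (fun _ => h) (g := fun t => g (t ()))
    ⟨convex_univ, fun x _ y _ a b ha hb hab => hg.2 (mem_univ (x ())) (mem_univ (y ())) ha hb hab⟩
    (fun s t hst => hm (hst ())) (hc.comp (continuous_apply ()))
  exact this

theorem psh_sum {ι : Type*} (s : Finset ι) {ψ : ι → M → ℝ} (h : ∀ i ∈ s, PSH (ψ i)) :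
    PSH (fun x => ∑ i ∈ s, ψ i x) := by
  classical
  induction s using Finset.induction_on with
  | empty => simpa using PSH.const 0
  | insert a s ha ih =>
    simp only [Finset.sum_insert ha]
    exact (h a (Finset.mem_insert_self _ _)).add
      (ih fun i hi => h i (Finset.mem_insert_of_mem hi))

end mani

end Crest.Agent.R276.PshA_29
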