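import Crest.Agent.R276.ASH1_175

/-!
# The local system `R^1 π_* V` (row 276, IPC)

`π : X → S` continuous, `P` a near-diagonal cocycle on `X`.  `Hf π ρ P s` is `H1` of the fibre
over `s`, `HB π ρ P B` is `H1` of `π ⁻¹ B`.  `B` is good if the restriction
`HB B → Hf s` is bijective for all `s ∈ B`.  Products with sets which contract to each of their
points are good.  Given good neighbourhoods `Bs s`, the maps
`tau s s' = res (Bs s) s ∘ (res (Bs s) s')⁻¹` form a near-diagonal cocycle.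
-/

set_option autoImplicit false

open Set Topology unitInterval Filter
open Crest.Agent.R276.Top1_175 Crest.Agent.R276.ASH1_175

namespace Crest.Agent.R276.Push_175

section homeo
variable {X Y : Type*} [TopologicalSpace X] [TopologicalSpace Y] {G : Type*} [Group G]
  {R : Type*} [CommRing R] {V : Type*} [AddCommGroup V] [Module R V]
  (ρ : Representation R G V)

/-- pull back along a homeomorphism is bijective -/
theorem pull_homeo_bijective (P : X → X → G) (Q : Y → Y → G) (e : Y ≃ₜ X)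
    (hQ : ∀ a b, Q a b = P (e a) (e b)) :
    Function.Bijective (pull ρ P Q e.continuous hQ) := by
  constructor
  · rw [← LinearMap.ker_eq_bot, LinearMap.ker_eq_bot']
    intro c hc
    obtain ⟨u, rfl⟩ := H1.mk_surjective ρ P c
    rw [pull_mk, H1.mk_eq_zero_iff] at hc
    rw [H1.mk_eq_zero_iff]
    have h := hc.comp e.symm.continuous
    refine h.congr ?_ ?_
    · intro z
      refine ⟨univ, univ_mem, fun x _ y _ => ?_⟩
      show (u : X → X → V) (e (e.symm x)) (e (e.symm y)) = (u : X → X → V) x y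
      rw [e.apply_symm_apply, e.apply_symm_apply]
    · intro z
      refine ⟨univ, univ_mem, fun x _ y _ => ?_⟩
      beta_reduce
      rw [hQ, e.apply_symm_apply, e.apply_symm_apply]
  · intro c
    obtain ⟨u, rfl⟩ := H1.mk_surjective ρ _ c
    have h := IsCoc.comp u.2 e.symm.continuous
    have h' : IsCoc ρ P (fun a b => (u : Y → Y → V) (e.symm a) (e.symm b)) := by
      refine h.congr (NEq.refl _) ?_
      intro z
      refine ⟨univ, univ_mem, fun x _ y _ => ?_⟩
      beta_reduce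
      rw [hQ, e.apply_symm_apply, e.apply_symm_apply]
    refine ⟨H1.mk ρ P ⟨_, h'⟩, ?_⟩
    rw [pull_mk]
    congr 1
    apply Subtype.ext
    funext x y
    show (u : Y → Y → V) (e.symm (e x)) (e.symm (e y)) = (u : Y → Y → V) x y
    rw [e.symm_apply_apply, e.symm_apply_apply]

end homeo

section push
variable {X S : Type*} [TopologicalSpace X] {G : Type*} [Group G]
  {R : Type*} [CommRing R] {V : Type*} [AddCommGroup V] [Module R V]
  (π : X → S) (ρ : Representation R G V) (P : X → X → G)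

/-- restriction of a cocycle to a subset -/
def rst {X G : Type*} (P : X → X → G) (p : X → Prop) : {x // p x} → {x // p x} → G :=
  fun a b => P a b

/-- fibre over `s` -/
abbrev Fib (s : S) : Type _ := {x : X // π x = s}

/-- total space over `B` -/
abbrev Tot (B : Set S) : Type _ := {x : X // π x ∈ B}

/-- `H1` of the fibre -/
abbrev Hf (s : S) : Type _ := H1 ρ (rst P (fun x => π x = s))

/-- `H1` of the total space over `B` -/
abbrev HB (B : Set S) : Type _ := H1 ρ (rst P (fun x => π x ∈ B))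

/-- inclusion of the fibre -/
def inc (B : Set S) (s : S) (hs : s ∈ B) : Fib π s → Tot π B := fun x => ⟨x.1, by rw [x.2]; exact hs⟩

theorem inc_continuous (B : Set S) (s : S) (hs : s ∈ B) : Continuous (inc π B s hs) :=
  Continuous.subtype_mk continuous_subtype_val _

/-- inclusion of total spaces -/
def incB (A B : Set S) (h : A ⊆ B) : Tot π A → Tot π B := fun x => ⟨x.1, h x.2⟩

theorem incB_continuous (A B : Set S) (h : A ⊆ B) : Continuous (incB π A B h) :=
  Continuous.subtype_mk continuous_subtype_val _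

/-- restriction to the fibre -/
def res (B : Set S) (s : S) (hs : s ∈ B) : HB π ρ P B →ₗ[R] Hf π ρ P s :=
  pull ρ _ _ (inc_continuous π B s hs) (fun _ _ => rfl)

/-- restriction to a smaller set -/
def resB (A B : Set S) (h : A ⊆ B) : HB π ρ P B →ₗ[R] HB π ρ P A :=
  pull ρ _ _ (incB_continuous π A B h) (fun _ _ => rfl)

theorem res_resB (A B : Set S) (h : A ⊆ B) (s : S) (hs : s ∈ A) (c : HB π ρ P B) :
    res π ρ P A s hs (resB π ρ P A B h c) = res π ρ P B s (h hs) c := by
  obtain ⟨u, rfl⟩ := H1.mk_surjective ρ _ c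
  rfl

/-- `B` is good: restriction to every fibre is bijective -/
def Good (B : Set S) : Prop := ∀ s (hs : s ∈ B), Function.Bijective (res π ρ P B s hs)

variable {π ρ P} in
theorem Good.resB_bijective {A B : Set S} (hA : Good π ρ P A) (hB : Good π ρ P B) (h : A ⊆ B)
    (hne : A.Nonempty) : Function.Bijective (resB π ρ P A B h) := by
  obtain ⟨s, hs⟩ := hne
  have h1 : ⇑(res π ρ P B s (h hs)) = ⇑(res π ρ P A s hs) ∘ ⇑(resB π ρ P A B h) := by
    funext c
    exact (res_resB π ρ P A B h s hs c).symm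
  have h2 := hB s (h hs)
  rw [h1] at h2
  exact (hA s hs).of_comp_iff' _ |>.1 h2

/-- **Products are good.** `B` must contract to each of its points. -/
theorem good_of_product [TopologicalSpace S] (hP : IsNDC P) {C : Type*} [TopologicalSpace C]
    (B : Set S) (F : C × B ≃ₜ Tot π B) (hF : ∀ p, π (F p : Tot π B).1 = p.2)
    (hc : ∀ b : B, ∃ H : B × I → B, Continuous H ∧ (∀ x, H (x, 0) = b) ∧ (∀ x, H (x, 1) = x) ∧
      ∀ t, H (b, t) = b) : Good π ρ P B := by
  intro s hs
  obtain ⟨H, hH, h0, h1, hb⟩ := hc ⟨s, hs⟩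
  set Q : C × B → C × B → G := fun p q => P (F p).1 (F q).1 with hQ
  have hQn : IsNDC Q := hP.comp (continuous_subtype_val.comp F.continuous)
  -- the slice
  have hsl : Continuous (fun c : C => (c, (⟨s, hs⟩ : B))) := by fun_prop
  set Q' : C → C → G := fun c d => Q (c, ⟨s, hs⟩) (d, ⟨s, hs⟩) with hQ'
  have hbij := pull_bijective_of_contract ρ hQn H hH ⟨s, hs⟩ h0 h1 hb hsl (fun _ => rfl) Q'
    (fun _ _ => rfl)
  -- homeomorphism `C ≃ Fib s`
  let e : C ≃ₜ Fib π s :=
    { toFun := fun c => ⟨(F (c, ⟨s, hs⟩)).1, hF _⟩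
      invFun := fun x => (F.symm (inc π B s hs x)).1
      left_inv := fun c => by
        have : inc π B s hs ⟨(F (c, ⟨s, hs⟩)).1, hF _⟩ = F (c, ⟨s, hs⟩) := rfl
        show (F.symm (inc π B s hs ⟨(F (c, ⟨s, hs⟩)).1, hF _⟩)).1 = c
        rw [this, F.symm_apply_apply]
      right_inv := fun x => by
        apply Subtype.ext
        show (F ((F.symm (inc π B s hs x)).1, ⟨s, hs⟩)).1 = x.1
        have h2 : (F.symm (inc π B s hs x)).2 = ⟨s, hs⟩ := by
          apply Subtype.ext
          rw [← hF, F.apply_symm_apply]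
          exact x.2
        have h3 : ((F.symm (inc π B s hs x)).1, (⟨s, hs⟩ : B)) = F.symm (inc π B s hs x) := by
          rw [← h2]
        rw [h3, F.apply_symm_apply]
        rfl
      continuous_toFun := Continuous.subtype_mk
        (continuous_subtype_val.comp (F.continuous.comp hsl)) _
      continuous_invFun := continuous_fst.comp (F.symm.continuous.comp (inc_continuous π B s hs)) }
  have he := pull_homeo_bijective ρ (rst P (fun x => π x = s)) Q' e (fun _ _ => rfl)
  have hFb := pull_homeo_bijective ρ (rst P (fun x => π x ∈ B)) Q F (fun _ _ => rfl)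
  -- `pull e ∘ res = pull slice ∘ pull F`
  have hcomm : ⇑(pull ρ (rst P (fun x => π x = s)) Q' e.continuous (fun _ _ => rfl)) ∘
      ⇑(res π ρ P B s hs) = ⇑(pull ρ Q Q' hsl (fun _ _ => rfl)) ∘
        ⇑(pull ρ (rst P (fun x => π x ∈ B)) Q F.continuous (fun _ _ => rfl)) := by
    funext c
    obtain ⟨u, rfl⟩ := H1.mk_surjective ρ _ c
    rfl
  have hb2 : Function.Bijective (⇑(pull ρ (rst P (fun x => π x = s)) Q' e.continuous
      (fun _ _ => rfl)) ∘ ⇑(res π ρ P B s hs)) := by
    rw [hcomm]; exact hbij.comp hFb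
  exact (he.of_comp_iff' _).1 hb2

/-! ### the transition maps -/

variable {π ρ P}

/-- transition maps along a good set -/
noncomputable def trans {B : Set S} (hB : Good π ρ P B) {s s' : S} (hs : s ∈ B) (hs' : s' ∈ B) :
    Hf π ρ P s' ≃ₗ[R] Hf π ρ P s :=
  (LinearEquiv.ofBijective _ (hB s' hs')).symm.trans (LinearEquiv.ofBijective _ (hB s hs))

theorem trans_res {B : Set S} (hB : Good π ρ P B) {s s' : S} (hs : s ∈ B) (hs' : s' ∈ B)
    (c : HB π ρ P B) : trans hB hs hs' (res π ρ P B s' hs' c) = res π ρ P B s hs c := by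
  simp only [trans, LinearEquiv.trans_apply]
  have : (LinearEquiv.ofBijective _ (hB s' hs')).symm (res π ρ P B s' hs' c) = c := by
    rw [LinearEquiv.symm_apply_eq]; rfl
  rw [this]; rfl

theorem trans_self {B : Set S} (hB : Good π ρ P B) {s : S} (hs : s ∈ B) (v : Hf π ρ P s) :
    trans hB hs hs v = v := by
  obtain ⟨c, rfl⟩ := (hB s hs).2 v
  rw [trans_res]

theorem trans_trans {B : Set S} (hB : Good π ρ P B) {s s' s'' : S} (hs : s ∈ B) (hs' : s' ∈ B)
    (hs'' : s'' ∈ B) (v : Hf π ρ P s'') :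
    trans hB hs hs' (trans hB hs' hs'' v) = trans hB hs hs'' v := by
  obtain ⟨c, rfl⟩ := (hB s'' hs'').2 v
  rw [trans_res, trans_res, trans_res]

/-- independence of the good set -/
theorem trans_mono {A B : Set S} (hA : Good π ρ P A) (hB : Good π ρ P B) (h : A ⊆ B) {s s' : S}
    (hs : s ∈ A) (hs' : s' ∈ A) (v : Hf π ρ P s') :
    trans hB (h hs) (h hs') v = trans hA hs hs' v := by
  obtain ⟨c, rfl⟩ := (hB s' (h hs')).2 v
  rw [trans_res, ← res_resB π ρ P A B h s' hs' c, trans_res, res_resB]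

/-- a choice of good neighbourhoods, uniformly large near each point -/
structure GoodNhds [TopologicalSpace S] (π : X → S) (ρ : Representation R G V) (P : X → X → G) where
  Bs : S → Set S
  mem : ∀ s, s ∈ Bs s
  good : ∀ s, Good π ρ P (Bs s)
  unif : ∀ z, ∃ U ∈ 𝓝 z, Good π ρ P U ∧ ∀ s ∈ U, U ⊆ Bs s

variable [TopologicalSpace S]

open Classical in
/-- the transition maps `Hf s' → Hf s` (zero if `s'` is not in the chosen neighbourhood) -/
noncomputable def tau (𝓑 : GoodNhds π ρ P) (s s' : S) : Hf π ρ P s' →ₗ[R] Hf π ρ P s :=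
  if h : s' ∈ 𝓑.Bs s then (trans (𝓑.good s) (𝓑.mem s) h).toLinearMap else 0

theorem tau_eq_trans (𝓑 : GoodNhds π ρ P) {U : Set S} (hU : Good π ρ P U)
    (hUB : ∀ s ∈ U, U ⊆ 𝓑.Bs s) {s s' : S} (hs : s ∈ U) (hs' : s' ∈ U) (v : Hf π ρ P s') :
    tau 𝓑 s s' v = trans hU hs hs' v := by
  have h : s' ∈ 𝓑.Bs s := hUB s hs hs'
  rw [tau, dif_pos h]
  exact trans_mono hU (𝓑.good s) (hUB s hs) hs hs' v

theorem tau_cocycle (𝓑 : GoodNhds π ρ P) (z : S) : ∃ U ∈ 𝓝 z, ∀ s ∈ U, ∀ s' ∈ U, ∀ s'' ∈ U,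
    ∀ v, tau 𝓑 s s' (tau 𝓑 s' s'' v) = tau 𝓑 s s'' v := by
  obtain ⟨U, hU, hg, hUB⟩ := 𝓑.unif z
  refine ⟨U, hU, fun s hs s' hs' s'' hs'' v => ?_⟩
  rw [tau_eq_trans 𝓑 hg hUB hs hs', tau_eq_trans 𝓑 hg hUB hs' hs'', tau_eq_trans 𝓑 hg hUB hs hs'',
    trans_trans]

theorem tau_self (𝓑 : GoodNhds π ρ P) (s : S) (v : Hf π ρ P s) : tau 𝓑 s s v = v := by
  obtain ⟨U, hU, hg, hUB⟩ := 𝓑.unif s
  rw [tau_eq_trans 𝓑 hg hUB (mem_of_mem_nhds hU) (mem_of_mem_nhds hU), trans_self]

end push

/-! ### frames -/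

section frames
variable {S : Type*} [TopologicalSpace S] {R : Type*} [CommRing R] {n : Type*} [Fintype n]
  [DecidableEq n] {M : S → Type*} [∀ s, AddCommGroup (M s)] [∀ s, Module R (M s)]

open Matrix

/-- A near-diagonal cocycle of linear maps gives a near-diagonal cocycle of invertible matrices
once bases are chosen at every point. -/
theorem exists_ndc_of_tau (τ : ∀ s s', M s' →ₗ[R] M s)
    (hτ : ∀ z, ∃ U ∈ 𝓝 z, ∀ s ∈ U, ∀ s' ∈ U, ∀ s'' ∈ U, ∀ v, τ s s' (τ s' s'' v) = τ s s'' v)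
    (hid : ∀ s v, τ s s v = v) (b : ∀ s, Module.Basis n R (M s)) :
    ∃ Q : S → S → GL n R, IsNDC Q ∧ ∀ z, ∃ U ∈ 𝓝 z, ∀ s ∈ U, ∀ s' ∈ U, ∀ v : M s',
      ((b s).repr (τ s s' v) : n → R) = (Q s s' : Matrix n n R) *ᵥ ((b s').repr v : n → R) := by
  classical
  set m : S → S → Matrix n n R := fun s s' => LinearMap.toMatrix (b s') (b s) (τ s s') with hm
  have hmul : ∀ z, ∃ U ∈ 𝓝 z, ∀ s ∈ U, ∀ s' ∈ U, ∀ s'' ∈ U, m s s' * m s' s'' = m s s'' := by
    intro z
    obtain ⟨U, hU, hc⟩ := hτ z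
    refine ⟨U, hU, fun s hs s' hs' s'' hs'' => ?_⟩
    simp only [hm]
    rw [← LinearMap.toMatrix_comp]
    congr 1
    ext v
    exact hc s hs s' hs' s'' hs'' v
  have hone : ∀ s, m s s = 1 := by
    intro s
    simp only [hm]
    have : τ s s = LinearMap.id := LinearMap.ext (hid s)
    rw [this, LinearMap.toMatrix_id]
  refine ⟨fun s s' => if h : m s s' * m s' s = 1 ∧ m s' s * m s s' = 1 then
    ⟨m s s', m s' s, h.1, h.2⟩ else 1, ?_, ?_⟩
  · intro z
    obtain ⟨U, hU, hc⟩ := hmul z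
    refine ⟨U, hU, fun s hs s' hs' s'' hs'' => ?_⟩
    have key : ∀ a ∈ U, ∀ c ∈ U, m a c * m c a = 1 ∧ m c a * m a c = 1 := fun a ha c hc' =>
      ⟨by rw [hc a ha c hc' a ha, hone], by rw [hc c hc' a ha c hc', hone]⟩
    apply Units.ext
    beta_reduce
    rw [dif_pos (key s hs s' hs'), dif_pos (key s' hs' s'' hs''), dif_pos (key s hs s'' hs'')]
    exact hc s hs s' hs' s'' hs''
  · intro z
    obtain ⟨U, hU, hc⟩ := hmul z
    refine ⟨U, hU, fun s hs s' hs' v => ?_⟩
    have key : m s s' * m s' s = 1 ∧ m s' s * m s s' = 1 :=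
      ⟨by rw [hc s hs s' hs' s hs, hone], by rw [hc s' hs' s hs s' hs', hone]⟩
    beta_reduce
    rw [dif_pos key]
    show _ = m s s' *ᵥ _
    simp only [hm]
    rw [LinearMap.toMatrix_mulVec_repr]

end frames

/-! ### change of coefficients -/

section coeff
variable {X : Type*} [TopologicalSpace X] {G : Type*} [Group G]
  {R : Type*} [CommRing R] {V : Type*} [AddCommGroup V] [Module R V]
  {V' : Type*} [AddCommGroup V'] [Module R V']
  (ρ : Representation R G V) (ρ' : Representation R G V')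

/-- an equivariant linear map induces a map on `H1` -/
def coeffCoc (P : X → X → G) (j : V →ₗ[R] V') (hj : ∀ g v, j (ρ g v) = ρ' g (j v)) :
    cocSub ρ P →ₗ[R] cocSub ρ' P where
  toFun u := ⟨fun a b => j ((u : X → X → V) a b), by
    intro z
    obtain ⟨U, hU, hc⟩ := u.2 z
    refine ⟨U, hU, fun x hx y hy w hw => ?_⟩
    beta_reduce
    rw [← hc x hx y hy w hw, map_add, hj]⟩
  map_add' u v := by
    apply Subtype.ext
    funext a b
    show j ((u : X → X → V) a b + (v : X → X → V) a b) = _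
    rw [map_add]; rfl
  map_smul' r u := by
    apply Subtype.ext
    funext a b
    show j (r • (u : X → X → V) a b) = _
    rw [map_smul]; rfl

/-- change of coefficients on `H1` -/
def coeff (P : X → X → G) (j : V →ₗ[R] V') (hj : ∀ g v, j (ρ g v) = ρ' g (j v)) :
    H1 ρ P →ₗ[R] H1 ρ' P :=
  Submodule.mapQ ((cobSub ρ P).submoduleOf (cocSub ρ P)) ((cobSub ρ' P).submoduleOf (cocSub ρ' P))
    (coeffCoc ρ ρ' P j hj) (fun u hu => by
    obtain ⟨v, hv⟩ : IsCob ρ P (u : X → X → V) := hu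
    refine ⟨fun x => j (v x), fun z => ?_⟩
    obtain ⟨U, hU, hc⟩ := hv z
    refine ⟨U, hU, fun x hx y hy => ?_⟩
    show j ((u : X → X → V) x y) = _
    rw [hc x hx y hy]
    simp only [cob, map_sub, hj])

@[simp] theorem coeff_mk (P : X → X → G) (j : V →ₗ[R] V') (hj : ∀ g v, j (ρ g v) = ρ' g (j v))
    (u : cocSub ρ P) : coeff ρ ρ' P j hj (H1.mk ρ P u) = H1.mk ρ' P (coeffCoc ρ ρ' P j hj u) := rfl

end coeff

end Crest.Agent.R276.Push_175
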