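import Crest.Agent.R276.NbB_185
import Crest.Agent.R266.Osgood

/-!
# Row 276, task W1 (helper201): tuples and the points of the fibre powers `D.pw j`

`D : Dom R` (159's families over a disc).

* `tup D j : (D.pw j).P → (Fin (j+1) → D.P)`, a closed embedding onto the tuples with equal `t`;
  inverse `mk D j y h`; `tl (tup D j p i) = unc D j (tl p) i`, `tl (mk ..) = cat D j ..`;
* `fi_tup`: the fibre integral on `D.pw j` as an integral over tuples of fibre points (`fi_mk`);
* `fhol_iff`: `FHol t` on `D.pw j` = analyticity in the tuple coordinates.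
-/

set_option autoImplicit false
set_option linter.unusedSectionVars false

noncomputable section

open Set Filter Topology Complex MeasureTheory Metric
open scoped ENNReal

namespace Crest.Agent.R276.Pws_201

open Crest.Agent.R271 Crest.Agent.R271.Ho51 Crest.Agent.R271.W792 Crest.Agent.R276.PV_159
  Crest.Agent.R276.NbB_185

variable {R : ℝ} (D : Dom R)

/-! ### tuples -/

/-- the tuple of a point of the fibre power -/
def tup : ∀ j : ℕ, (D.pw j).P → Fin (j + 1) → D.P
  | 0, x => fun _ => x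
  | j + 1, p => Fin.snoc (α := fun _ => D.P)
      (tup j (FP.fst (M := (D.pw j).P) (N := D.P) p)) (FP.snd (M := (D.pw j).P) (N := D.P) p)

lemma tup_zero (x : (D.pw 0).P) : tup D 0 x = fun _ => x := rfl

lemma tup_succ (j : ℕ) (p : (D.pw (j + 1)).P) : tup D (j + 1) p = Fin.snoc (α := fun _ => D.P)
    (tup D j (FP.fst (M := (D.pw j).P) (N := D.P) p)) (FP.snd (M := (D.pw j).P) (N := D.P) p) := rfl

lemma tc_tup : ∀ (j : ℕ) (p : (D.pw j).P) (i : Fin (j + 1)), tc (tup D j p i) = tc p
  | 0, _, _ => rfl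
  | j + 1, p, i => by
    rw [tup_succ]
    refine Fin.lastCases ?_ (fun i => ?_) i
    · rw [Fin.snoc_last]
      exact (FP.cond (M := (D.pw j).P) (N := D.P) p).symm
    · rw [Fin.snoc_castSucc]
      exact tc_tup j _ i

/-- the point with a given tuple -/
def mkA (t : ℂ) : ∀ (j : ℕ) (y : Fin (j + 1) → D.P), (∀ i, tc (y i) = t) →
    {p : (D.pw j).P // tc p = t}
  | 0, y, h => ⟨y 0, h 0⟩
  | j + 1, y, h => ⟨FP.mk' (M := (D.pw j).P) (N := D.P)
      (mkA t j (fun i => y i.castSucc) fun i => h i.castSucc).1 (y (Fin.last _))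
      ((mkA t j (fun i => y i.castSucc) fun i => h i.castSucc).2.trans (h (Fin.last _)).symm),
      (mkA t j (fun i => y i.castSucc) fun i => h i.castSucc).2⟩

/-- the point with a given tuple -/
def mk (j : ℕ) (y : Fin (j + 1) → D.P) {t : ℂ} (h : ∀ i, tc (y i) = t) : (D.pw j).P :=
  (mkA D t j y h).1

lemma tc_mk (j : ℕ) (y : Fin (j + 1) → D.P) {t : ℂ} (h : ∀ i, tc (y i) = t) :
    tc (mk D j y h) = t := (mkA D t j y h).2

lemma tup_mk {t : ℂ} : ∀ (j : ℕ) (y : Fin (j + 1) → D.P) (h : ∀ i, tc (y i) = t),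
    tup D j (mk D j y h) = y
  | 0, y, _ => by
    funext i
    have hi : i = 0 := Subsingleton.elim (α := Fin 1) i 0
    rw [hi]
    rfl
  | j + 1, y, h => by
    rw [tup_succ]
    funext i
    refine Fin.lastCases ?_ (fun i => ?_) i
    · rw [Fin.snoc_last]; rfl
    · rw [Fin.snoc_castSucc]
      exact congrFun (tup_mk j (fun i => y i.castSucc) fun i => h i.castSucc) i

lemma tup_inj : ∀ j : ℕ, Function.Injective (tup D j)
  | 0, x, y, h => congrFun h 0
  | j + 1, p, q, h => by
    rw [tup_succ, tup_succ] at h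
    refine FP.ext' (M := (D.pw j).P) (N := D.P) (tup_inj j ?_) ?_
    · funext i
      have := congrFun h i.castSucc
      rwa [Fin.snoc_castSucc, Fin.snoc_castSucc] at this
    · have := congrFun h (Fin.last _)
      rwa [Fin.snoc_last, Fin.snoc_last] at this

lemma mk_tup (j : ℕ) (p : (D.pw j).P) {t : ℂ} (h : ∀ i, tc (tup D j p i) = t) :
    mk D j (tup D j p) h = p := tup_inj D j (tup_mk D j _ h)

lemma mk_congr (j : ℕ) {y y' : Fin (j + 1) → D.P} (hy : y = y') {t t' : ℂ}
    (h : ∀ i, tc (y i) = t) (h' : ∀ i, tc (y' i) = t') : mk D j y h = mk D j y' h' := by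
  apply tup_inj D j
  rw [tup_mk, tup_mk, hy]

lemma mem_range_tup {j : ℕ} {y : Fin (j + 1) → D.P} :
    y ∈ range (tup D j) ↔ ∀ i, tc (y i) = tc (y 0) := by
  constructor
  · rintro ⟨p, rfl⟩ i
    rw [tc_tup, tc_tup]
  · intro h
    exact ⟨mk D j y h, tup_mk D j y h⟩

/-- points over `t` of the power = tuples of points over `t` -/
def tupEquiv (t : ℂ) (j : ℕ) :
    {p : (D.pw j).P // tc p = t} ≃ {y : Fin (j + 1) → D.P // ∀ i, tc (y i) = t} where
  toFun p := ⟨tup D j p.1, fun i => (tc_tup D j p.1 i).trans p.2⟩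
  invFun y := ⟨mk D j y.1 y.2, tc_mk D j y.1 y.2⟩
  left_inv p := Subtype.ext (mk_tup D j p.1 _)
  right_inv y := Subtype.ext (tup_mk D j y.1 y.2)

/-! ### topology -/

lemma cont_tup : ∀ j : ℕ, Continuous (tup D j)
  | 0 => continuous_pi fun _ => continuous_id
  | j + 1 => by
    refine continuous_pi fun i => ?_
    refine Fin.lastCases ?_ (fun i => ?_) i
    · have : (fun p : (D.pw (j + 1)).P => tup D (j + 1) p (Fin.last (j + 1))) =
          FP.snd (M := (D.pw j).P) (N := D.P) := by
        funext p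
        rw [tup_succ, Fin.snoc_last]
      rw [this]
      exact FP.cont_snd
    · have : (fun p : (D.pw (j + 1)).P => tup D (j + 1) p i.castSucc) =
          fun p => tup D j (FP.fst (M := (D.pw j).P) (N := D.P) p) i := by
        funext p
        rw [tup_succ, Fin.snoc_castSucc]
      rw [this]
      exact (continuous_apply i).comp ((cont_tup j).comp FP.cont_fst)

lemma isEmbedding_tup : ∀ j : ℕ, IsEmbedding (tup D j)
  | 0 => by
    refine IsEmbedding.of_comp (g := fun y : Fin 1 → D.P => y 0) (cont_tup D 0)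
      (continuous_apply 0) ?_
    exact IsEmbedding.id
  | j + 1 => by
    refine IsEmbedding.of_comp
      (g := fun y : Fin (j + 2) → D.P => ((fun i : Fin (j + 1) => y i.castSucc), y (Fin.last _)))
      (cont_tup D (j + 1)) (by fun_prop) ?_
    have h1 : ((fun y : Fin (j + 2) → D.P => ((fun i : Fin (j + 1) => y i.castSucc),
        y (Fin.last _))) ∘ tup D (j + 1)) = Prod.map (tup D j) id ∘
        (Subtype.val : {p : (D.pw j).P × D.P // (cp p.1 : Fin ((D.pw j).a + 1) → ℂ) 0 =
          (cp p.2 : Fin (D.a + 1) → ℂ) 0} → (D.pw j).P × D.P) := by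
      funext p
      refine Prod.ext ?_ ?_
      · funext i
        show tup D (j + 1) p i.castSucc = tup D j _ i
        rw [tup_succ, Fin.snoc_castSucc]
        rfl
      · show tup D (j + 1) p (Fin.last _) = _
        rw [tup_succ, Fin.snoc_last]
        rfl
    rw [h1]
    exact ((isEmbedding_tup j).prodMap IsEmbedding.id).comp IsEmbedding.subtypeVal

lemma isClosedEmbedding_tup (j : ℕ) : IsClosedEmbedding (tup D j) where
  toIsEmbedding := isEmbedding_tup D j
  isClosed_range := by
    have : range (tup D j) = ⋂ i, {y : Fin (j + 1) → D.P | tc (y i) = tc (y 0)} := by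
      ext y
      rw [mem_range_tup, mem_iInter]
      rfl
    rw [this]
    exact isClosed_iInter fun i => isClosed_eq (cont_tc.comp (continuous_apply i))
      (cont_tc.comp (continuous_apply 0))

lemma continuousAt_iff {X : Type*} [TopologicalSpace X] {j : ℕ} {f : X → (D.pw j).P} {x : X} :
    ContinuousAt f x ↔ ∀ i, ContinuousAt (fun x => tup D j (f x) i) x := by
  rw [(isEmbedding_tup D j).continuousAt_iff, continuousAt_pi]
  rfl

lemma continuous_iff {X : Type*} [TopologicalSpace X] {j : ℕ} {f : X → (D.pw j).P} :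
    Continuous f ↔ ∀ i, Continuous (fun x => tup D j (f x) i) := by
  rw [(isEmbedding_tup D j).continuous_iff, continuous_pi_iff]
  rfl

lemma continuousOn_iff {X : Type*} [TopologicalSpace X] {j : ℕ} {f : X → (D.pw j).P} {s : Set X} :
    ContinuousOn f s ↔ ∀ i, ContinuousOn (fun x => tup D j (f x) i) s := by
  rw [(isEmbedding_tup D j).continuousOn_iff, continuousOn_pi]
  rfl

/-- continuity of `mk` along a family -/
lemma continuous_mk {X : Type*} [TopologicalSpace X] {j : ℕ} {y : X → Fin (j + 1) → D.P} {t : X → ℂ}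
    (h : ∀ x i, tc (y x i) = t x) (hy : ∀ i, Continuous fun x => y x i) :
    Continuous fun x => mk D j (y x) (h x) := by
  rw [continuous_iff]
  intro i
  simp only [tup_mk]
  exact hy i

lemma measurable_tup (j : ℕ) : Measurable (tup D j) := (cont_tup D j).measurable

lemma nhds_tup {j : ℕ} (p : (D.pw j).P) : 𝓝 p = comap (tup D j) (𝓝 (tup D j p)) :=
  (isEmbedding_tup D j).nhds_eq_comap p

/-- the diagonal -/
def diag (j : ℕ) (x : D.P) : (D.pw j).P := mk D j (fun _ => x) fun _ => rfl

lemma tup_diag (j : ℕ) (x : D.P) : tup D j (diag D j x) = fun _ => x := tup_mk D j _ _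
lemma tc_diag (j : ℕ) (x : D.P) : tc (diag D j x) = tc x := tc_mk D j _ _
lemma cont_diag (j : ℕ) : Continuous (diag D j) := continuous_mk D _ fun _ => continuous_id

/-! ### coordinates -/

/-- splitting the coordinates -/
def unc : ∀ j : ℕ, (Fin (D.pw j).a → ℂ) → Fin (j + 1) → Fin D.a → ℂ
  | 0, z => fun _ => z
  | j + 1, z => Fin.snoc (α := fun _ => Fin D.a → ℂ) (unc j fun i => z (Fin.castAdd D.a i))
      fun i => z (Fin.natAdd (D.pw j).a i)

/-- concatenating the coordinates -/
def cat : ∀ j : ℕ, (Fin (j + 1) → Fin D.a → ℂ) → Fin (D.pw j).a → ℂ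
  | 0, x => x 0
  | j + 1, x => Fin.append (cat j fun i => x i.castSucc) (x (Fin.last _))

lemma unc_succ (j : ℕ) (z : Fin (D.pw (j + 1)).a → ℂ) : unc D (j + 1) z =
    Fin.snoc (α := fun _ => Fin D.a → ℂ) (unc D j fun i => z (Fin.castAdd D.a i))
      fun i => z (Fin.natAdd (D.pw j).a i) := rfl

lemma cat_succ (j : ℕ) (x : Fin (j + 2) → Fin D.a → ℂ) : cat D (j + 1) x =
    Fin.append (cat D j fun i => x i.castSucc) (x (Fin.last _)) := rfl

lemma unc_cat : ∀ (j : ℕ) (x : Fin (j + 1) → Fin D.a → ℂ), unc D j (cat D j x) = x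
  | 0, x => by
    funext i
    have hi : i = 0 := Subsingleton.elim (α := Fin 1) i 0
    rw [hi]
    rfl
  | j + 1, x => by
    rw [unc_succ, cat_succ]
    funext i
    refine Fin.lastCases ?_ (fun i => ?_) i
    · rw [Fin.snoc_last]
      funext k
      exact Fin.append_right _ _ _
    · rw [Fin.snoc_castSucc]
      have : (fun i : Fin (D.pw j).a => (Fin.append (cat D j fun i => x i.castSucc)
          (x (Fin.last (j + 1))) : Fin ((D.pw j).a + D.a) → ℂ) (Fin.castAdd D.a i)) =
          cat D j fun i => x i.castSucc := by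
        funext k
        exact Fin.append_left _ _ _
      exact (congrFun (congrArg (unc D j) this) i).trans (congrFun (unc_cat j _) i)

lemma cat_unc : ∀ (j : ℕ) (z : Fin (D.pw j).a → ℂ), cat D j (unc D j z) = z
  | 0, _ => rfl
  | j + 1, z => by
    rw [cat_succ, unc_succ]
    simp only [Fin.snoc_castSucc, Fin.snoc_last]
    rw [cat_unc j]
    funext i
    refine Fin.addCases (fun i => ?_) (fun i => ?_) i
    · rw [Fin.append_left]
    · rw [Fin.append_right]

lemma differentiable_unc : ∀ j : ℕ, Differentiable ℂ (unc D j)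
  | 0 => by
    rw [differentiable_pi]
    intro _
    exact differentiable_id
  | j + 1 => by
    rw [differentiable_pi]
    intro i
    refine Fin.lastCases ?_ (fun i => ?_) i
    · have : (fun z => unc D (j + 1) z (Fin.last (j + 1))) =
          fun z : Fin ((D.pw j).a + D.a) → ℂ => fun i => z (Fin.natAdd (D.pw j).a i) := by
        funext z
        rw [unc_succ, Fin.snoc_last]
      rw [this, differentiable_pi]
      intro k
      exact differentiable_apply _
    · have : (fun z => unc D (j + 1) z i.castSucc) =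
          fun z : Fin ((D.pw j).a + D.a) → ℂ => unc D j (fun i => z (Fin.castAdd D.a i)) i := by
        funext z
        rw [unc_succ, Fin.snoc_castSucc]
      rw [this]
      have h1 := differentiable_unc j
      rw [differentiable_pi] at h1
      refine (h1 i).comp (f := fun z : Fin ((D.pw j).a + D.a) → ℂ =>
        fun i => z (Fin.castAdd D.a i)) ?_
      rw [differentiable_pi]
      intro k
      exact differentiable_apply _

lemma differentiable_cat : ∀ j : ℕ, Differentiable ℂ (cat D j)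
  | 0 => differentiable_apply (𝕜 := ℂ) (0 : Fin 1)
  | j + 1 => by
    have : Differentiable ℂ (fun x : Fin (j + 2) → Fin D.a → ℂ =>
        (Fin.append (cat D j fun i => x i.castSucc) (x (Fin.last _)) :
          Fin ((D.pw j).a + D.a) → ℂ)) := by
      rw [differentiable_pi]
      intro i
      refine Fin.addCases (fun i => ?_) (fun i => ?_) i
      · simp only [Fin.append_left]
        have h1 := differentiable_cat j
        rw [differentiable_pi] at h1
        refine (h1 i).comp (f := fun x : Fin (j + 2) → Fin D.a → ℂ =>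
          fun i : Fin (j + 1) => x i.castSucc) ?_
        rw [differentiable_pi]
        intro k
        exact differentiable_apply _
      · simp only [Fin.append_right]
        fun_prop
    exact this

lemma cont_unc (j : ℕ) : Continuous (unc D j) := (differentiable_unc D j).continuous
lemma cont_cat (j : ℕ) : Continuous (cat D j) := (differentiable_cat D j).continuous

/-- coordinates as a measurable equivalence -/
def eU (j : ℕ) : (Fin (D.pw j).a → ℂ) ≃ᵐ (Fin (j + 1) → Fin D.a → ℂ) where
  toFun := unc D j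
  invFun := cat D j
  left_inv := cat_unc D j
  right_inv := unc_cat D j
  measurable_toFun := (cont_unc D j).measurable
  measurable_invFun := (cont_cat D j).measurable

lemma unc_mp : ∀ j : ℕ, MeasurePreserving (unc D j) volume volume
  | 0 => (volume_preserving_funUnique (Fin 1) (Fin D.a → ℂ)).symm
  | j + 1 => by
    have h1 := (eApp_mp (D.pw j).a D.a).symm
    have h2 : MeasurePreserving (Prod.map (unc D j) (id : (Fin D.a → ℂ) → _))
        ((volume : Measure (Fin (D.pw j).a → ℂ)).prod volume)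
        ((volume : Measure (Fin (j + 1) → Fin D.a → ℂ)).prod volume) :=
      (unc_mp j).prod (MeasurePreserving.id _)
    have h3 := (volume_preserving_piFinSuccAbove (fun _ : Fin (j + 2) => Fin D.a → ℂ)
      (Fin.last _)).symm
    have h4 : MeasurePreserving (Prod.swap : (Fin (j + 1) → Fin D.a → ℂ) × (Fin D.a → ℂ) → _)
        (Measure.prod volume volume) (Measure.prod volume volume) := Measure.measurePreserving_swap
    have h5 := h3.comp (h4.comp (h2.comp h1))
    have h6 : (⇑(MeasurableEquiv.piFinSuccAbove (fun _ : Fin (j + 2) => Fin D.a → ℂ)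
        (Fin.last _)).symm ∘ Prod.swap ∘ Prod.map (unc D j) id ∘ ⇑(eApp (D.pw j).a D.a).symm) =
        unc D (j + 1) := by
      funext z
      obtain ⟨p, rfl⟩ : ∃ p, eApp (D.pw j).a D.a p = z :=
        ⟨(eApp (D.pw j).a D.a).symm z, (eApp (D.pw j).a D.a).apply_symm_apply z⟩
      simp only [Function.comp_apply, MeasurableEquiv.symm_apply_apply]
      show (Fin.insertNth (Fin.last (j + 1)) p.2 (unc D j p.1) : Fin (j + 2) → Fin D.a → ℂ) = _
      rw [Fin.insertNth_last', eApp_apply]
      have e1 : (fun i => (Fin.append p.1 p.2 : Fin ((D.pw j).a + D.a) → ℂ) (Fin.castAdd D.a i)) =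
          p.1 := funext fun i => Fin.append_left _ _ _
      have e2 : (fun i => (Fin.append p.1 p.2 : Fin ((D.pw j).a + D.a) → ℂ)
          (Fin.natAdd (D.pw j).a i)) = p.2 := funext fun i => Fin.append_right _ _ _
      show _ = (Fin.snoc (α := fun _ => Fin D.a → ℂ) (unc D j fun i => (Fin.append p.1 p.2 :
        Fin ((D.pw j).a + D.a) → ℂ) (Fin.castAdd D.a i)) fun i => (Fin.append p.1 p.2 :
        Fin ((D.pw j).a + D.a) → ℂ) (Fin.natAdd (D.pw j).a i) : Fin (j + 2) → Fin D.a → ℂ)
      rw [e1, e2]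
    rw [← h6]
    exact h5

lemma tl_FP {a b : ℕ} {M N : Type} [TopologicalSpace M] [TopologicalSpace N]
    [RDom (a + 1) M] [RDom (b + 1) N] (p : FP M N) :
    (tl p : Fin (a + b) → ℂ) = Fin.append (tl p.fst) (tl p.snd) := rfl

lemma tl_tup : ∀ (j : ℕ) (p : (D.pw j).P) (i : Fin (j + 1)),
    tl (tup D j p i) = unc D j (tl p) i
  | 0, _, _ => rfl
  | j + 1, p, i => by
    rw [tup_succ]
    refine Fin.lastCases ?_ (fun i => ?_) i
    · rw [Fin.snoc_last, unc_succ, Fin.snoc_last]
      funext k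
      exact (Fin.append_right (tl (FP.fst (M := (D.pw j).P) (N := D.P) p))
        (tl (FP.snd (M := (D.pw j).P) (N := D.P) p)) k).symm
    · rw [Fin.snoc_castSucc, unc_succ, Fin.snoc_castSucc]
      have : (fun i : Fin (D.pw j).a => (Fin.append (tl (FP.fst (M := (D.pw j).P) (N := D.P) p))
          (tl (FP.snd (M := (D.pw j).P) (N := D.P) p)) : Fin ((D.pw j).a + D.a) → ℂ)
          (Fin.castAdd D.a i)) = tl (FP.fst (M := (D.pw j).P) (N := D.P) p) :=
        funext fun k => Fin.append_left _ _ _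
      exact (tl_tup j _ i).trans (congrFun (congrArg (unc D j) this) i).symm

lemma tl_eq_cat (j : ℕ) (p : (D.pw j).P) : tl p = cat D j fun i => tl (tup D j p i) := by
  have : (fun i => tl (tup D j p i)) = unc D j (tl p) := funext fun i => tl_tup D j p i
  rw [this, cat_unc]

lemma cp_tup (j : ℕ) (p : (D.pw j).P) (i : Fin (j + 1)) :
    cp (tup D j p i) = (Fin.cons (tc p) (unc D j (tl p) i) : Fin (D.a + 1) → ℂ) := by
  rw [← tl_tup, ← tc_tup D j p i, cons_tl]

lemma cp_mk (j : ℕ) (y : Fin (j + 1) → D.P) {t : ℂ} (h : ∀ i, tc (y i) = t) :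
    cp (mk D j y h) = (Fin.cons t (cat D j fun i => tl (y i)) : Fin ((D.pw j).a + 1) → ℂ) := by
  rw [← cons_tl, tc_mk, tl_eq_cat, tup_mk]

lemma cp_mk' (j : ℕ) (y : Fin (j + 1) → D.P) {t : ℂ} {x : Fin (j + 1) → Fin D.a → ℂ}
    (hx : ∀ i, cp (y i) = (Fin.cons t (x i) : Fin (D.a + 1) → ℂ)) (h : ∀ i, tc (y i) = t) :
    cp (mk D j y h) = (Fin.cons t (cat D j x) : Fin ((D.pw j).a + 1) → ℂ) := by
  rw [cp_mk]
  congr 2
  funext i k
  show (cp (y i) : Fin (D.a + 1) → ℂ) k.succ = _
  rw [hx i, Fin.cons_succ]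

/-! ### fibre integrals -/

lemma tc_of {a : ℕ} {M : Type} [TopologicalSpace M] [RDom (a + 1) M] {y : M} {t : ℂ}
    {x : Fin a → ℂ} (h : cp y = (Fin.cons t x : Fin (a + 1) → ℂ)) : tc y = t := by
  unfold tc
  rw [h]
  rfl

/-- the fibre of the power -/
def fibE (t : ℂ) (j : ℕ) (x : Fin (j + 1) → Fin D.a → ℂ) :
    {p : (D.pw j).P // cp p = (Fin.cons t (cat D j x) : Fin ((D.pw j).a + 1) → ℂ)} ≃
      {y : Fin (j + 1) → D.P // ∀ i, cp (y i) = (Fin.cons t (x i) : Fin (D.a + 1) → ℂ)} where
  toFun p := ⟨tup D j p.1, fun i => by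
    rw [cp_tup, tc_of p.2]
    have : tl p.1 = cat D j x := by
      funext k
      show (cp p.1 : Fin ((D.pw j).a + 1) → ℂ) k.succ = _
      rw [p.2, Fin.cons_succ]
    rw [this, unc_cat]⟩
  invFun y := ⟨mk D j y.1 (t := t) fun i => tc_of (y.2 i), cp_mk' D j y.1 y.2 _⟩
  left_inv p := Subtype.ext (mk_tup D j p.1 _)
  right_inv y := Subtype.ext (tup_mk D j y.1 _)

/-- **fibre integrals on the power, in terms of tuples** -/
theorem fi_tup (j : ℕ) (G : (Fin (j + 1) → D.P) → ℝ≥0∞) (t : ℂ) :
    fi (fun p : (D.pw j).P => G (tup D j p)) t = ∫⁻ x : Fin (j + 1) → Fin D.a → ℂ,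
      ∑' y : {y : Fin (j + 1) → D.P // ∀ i, cp (y i) = (Fin.cons t (x i) : Fin (D.a + 1) → ℂ)},
        G y.1 := by
  rw [← (unc_mp D j).lintegral_comp_emb (eU D j).measurableEmbedding]
  unfold fi
  refine lintegral_congr fun z => ?_
  obtain ⟨x, rfl⟩ : ∃ x, cat D j x = z := ⟨unc D j z, cat_unc D j z⟩
  rw [unc_cat]
  unfold fsum
  exact (fibE D t j x).tsum_eq (fun y => G y.1)

theorem fi_mk (j : ℕ) (g : (D.pw j).P → ℝ≥0∞) (t : ℂ) :
    fi g t = ∫⁻ x : Fin (j + 1) → Fin D.a → ℂ,
      ∑' y : {y : Fin (j + 1) → D.P // ∀ i, cp (y i) = (Fin.cons t (x i) : Fin (D.a + 1) → ℂ)},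
        g (mk D j y.1 (t := t) fun i => tc_of (y.2 i)) := by
  rw [← (unc_mp D j).lintegral_comp_emb (eU D j).measurableEmbedding]
  unfold fi
  refine lintegral_congr fun z => ?_
  obtain ⟨x, rfl⟩ : ∃ x, cat D j x = z := ⟨unc D j z, cat_unc D j z⟩
  rw [unc_cat]
  unfold fsum
  rw [← (fibE D t j x).symm.tsum_eq]
  rfl

/-! ### holomorphic functions on the fibres -/

/-- the condition of 986's `HolFS` on the fibre over `t` -/
def THol (t : ℂ) (j : ℕ) (τ : (Fin (j + 1) → D.P) → ℂ) : Prop :=
  ∀ y : Fin (j + 1) → D.P, (∀ i, tc (y i) = t) →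
    AnalyticAt ℂ (fun x : Fin (j + 1) → Fin D.a → ℂ => τ fun i => (ch (y i)).symm (Fin.cons t (x i)))
      (fun i => tl (y i))

variable {D}

theorem FHol.thol {t : ℂ} {j : ℕ} {τ : (Fin (j + 1) → D.P) → ℂ}
    (h : FHol t fun p : (D.pw j).P => τ (tup D j p)) : THol D t j τ := by
  intro y hy
  set p : (D.pw j).P := mk D j y hy with hp
  set e := ch p with he
  have hech : IsCh e := isCh_ch p
  have hty : tup D j p = y := tup_mk D j y hy
  have hopen : IsOpen {u : Fin (D.pw j).a → ℂ | (Fin.cons t u : Fin ((D.pw j).a + 1) → ℂ) ∈ e.target} :=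
    e.open_target.preimage (differentiable_cons t).continuous
  have hcp : cp p = (Fin.cons t (cat D j fun i => tl (y i)) : Fin ((D.pw j).a + 1) → ℂ) :=
    cp_mk D j y hy
  have hmem : (cat D j fun i => tl (y i)) ∈
      {u : Fin (D.pw j).a → ℂ | (Fin.cons t u : Fin ((D.pw j).a + 1) → ℂ) ∈ e.target} := by
    show _ ∈ e.target
    rw [← hcp]
    exact hech.cp_mem (mem_ch p)
  have h1 : AnalyticAt ℂ (fun u : Fin (D.pw j).a → ℂ => τ (tup D j (e.symm (Fin.cons t u))))
      (cat D j fun i => tl (y i)) :=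
    Crest.Agent.R266.SCV.analyticOnNhd_of_differentiableOn hopen (h e hech) _ hmem
  have h2 : AnalyticAt ℂ (cat D j) (fun i => tl (y i)) :=
    Crest.Agent.R266.SCV.analyticOnNhd_of_differentiableOn isOpen_univ
      (differentiable_cat D j).differentiableOn _ (mem_univ _)
  have h3 := h1.comp h2
  refine h3.congr ?_
  -- continuity of the inverse charts
  have h4 : ContinuousAt (fun x : Fin (j + 1) → Fin D.a → ℂ =>
      e.symm (Fin.cons t (cat D j x))) (fun i => tl (y i)) := by
    refine ContinuousAt.comp (g := e.symm) (f := fun x : Fin (j + 1) → Fin D.a → ℂ =>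
      (Fin.cons t (cat D j x) : Fin ((D.pw j).a + 1) → ℂ)) ?_ ?_
    · exact e.continuousAt_symm hmem
    · exact ((differentiable_cons t).continuous.comp (cont_cat D j)).continuousAt
  have h5 : e.symm (Fin.cons t (cat D j fun i => tl (y i))) = p := by
    rw [← hcp]
    exact hech.symm_cp (mem_ch p)
  have h6 : ∀ i, ∀ᶠ x in 𝓝 (fun i => tl (y i)),
      tup D j (e.symm (Fin.cons t (cat D j x))) i ∈ (ch (y i)).source := by
    intro i
    have h7 := (continuousAt_iff D).1 h4 i
    refine h7 ((ch (y i)).open_source.mem_nhds ?_)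
    show tup D j (e.symm (Fin.cons t (cat D j fun i => tl (y i)))) i ∈ _
    rw [h5, hty]
    exact mem_ch _
  have h8 : ∀ᶠ x in 𝓝 (fun i => tl (y i)), cat D j x ∈ {u : Fin (D.pw j).a → ℂ |
      (Fin.cons t u : Fin ((D.pw j).a + 1) → ℂ) ∈ e.target} :=
    (cont_cat D j).continuousAt (hopen.mem_nhds hmem)
  filter_upwards [eventually_all.2 h6, h8] with x hx hx'
  show τ (tup D j (e.symm (Fin.cons t (cat D j x)))) = _
  congr 1
  funext i
  have h9 := (isCh_ch (y i)).symm_cp (hx i)
  rw [← h9, cp_tup]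
  have hx'' : (Fin.cons t (cat D j x) : Fin ((D.pw j).a + 1) → ℂ) ∈ e.target := hx'
  have h10 := hech.cp_symm hx''
  have h11 : tc (e.symm (Fin.cons t (cat D j x))) = t := tc_of h10
  have h12 : tl (e.symm (Fin.cons t (cat D j x))) = cat D j x := by
    funext k
    show (cp (e.symm (Fin.cons t (cat D j x))) : Fin ((D.pw j).a + 1) → ℂ) k.succ = _
    rw [h10, Fin.cons_succ]
  rw [h11, h12, unc_cat]

theorem THol.fhol {t : ℂ} {j : ℕ} {τ : (Fin (j + 1) → D.P) → ℂ} (h : THol D t j τ) :
    FHol t fun p : (D.pw j).P => τ (tup D j p) := by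
  intro e hech u0 hu0
  have hu0' : (Fin.cons t u0 : Fin ((D.pw j).a + 1) → ℂ) ∈ e.target := hu0
  set p : (D.pw j).P := e.symm (Fin.cons t u0) with hp
  have hcp : cp p = (Fin.cons t u0 : Fin ((D.pw j).a + 1) → ℂ) := hech.cp_symm hu0'
  have htc : tc p = t := tc_of hcp
  have htl : tl p = u0 := by
    funext k
    show (cp p : Fin ((D.pw j).a + 1) → ℂ) k.succ = _
    rw [hcp, Fin.cons_succ]
  have h1 := h (tup D j p) fun i => (tc_tup D j p i).trans htc
  have h2 : (fun i => tl (tup D j p i)) = unc D j u0 := by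
    funext i
    rw [tl_tup, htl]
  rw [h2] at h1
  have h3 : DifferentiableAt ℂ ((fun x : Fin (j + 1) → Fin D.a → ℂ => τ fun i =>
      (ch (tup D j p i)).symm (Fin.cons t (x i))) ∘ unc D j) u0 :=
    h1.differentiableAt.comp u0 (differentiable_unc D j u0)
  have hopen : IsOpen {u : Fin (D.pw j).a → ℂ | (Fin.cons t u : Fin ((D.pw j).a + 1) → ℂ) ∈ e.target} :=
    e.open_target.preimage (differentiable_cons t).continuous
  refine (h3.congr_of_eventuallyEq ?_).differentiableWithinAt
  have h4 : ContinuousAt (fun u : Fin (D.pw j).a → ℂ => e.symm (Fin.cons t u)) u0 :=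
    ContinuousAt.comp (g := e.symm) (f := fun u : Fin (D.pw j).a → ℂ =>
      (Fin.cons t u : Fin ((D.pw j).a + 1) → ℂ)) (e.continuousAt_symm hu0')
      (differentiable_cons t).continuous.continuousAt
  have h6 : ∀ i, ∀ᶠ u in 𝓝 u0,
      tup D j (e.symm (Fin.cons t u)) i ∈ (ch (tup D j p i)).source := by
    intro i
    have h7 := (continuousAt_iff D).1 h4 i
    exact h7 ((ch (tup D j p i)).open_source.mem_nhds (mem_ch _))
  filter_upwards [eventually_all.2 h6, hopen.mem_nhds hu0] with u hu hu'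
  show τ (tup D j (e.symm (Fin.cons t u))) = _
  simp only [Function.comp_apply]
  congr 1
  funext i
  have h9 := (isCh_ch (tup D j p i)).symm_cp (hu i)
  rw [← h9, cp_tup]
  have hu'' : (Fin.cons t u : Fin ((D.pw j).a + 1) → ℂ) ∈ e.target := hu'
  have h10 := hech.cp_symm hu''
  have h11 : tc (e.symm (Fin.cons t u)) = t := tc_of h10
  have h12 : tl (e.symm (Fin.cons t u)) = u := by
    funext k
    show (cp (e.symm (Fin.cons t u)) : Fin ((D.pw j).a + 1) → ℂ) k.succ = _
    rw [h10, Fin.cons_succ]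
  rw [h11, h12]

theorem fhol_iff {t : ℂ} {j : ℕ} {τ : (Fin (j + 1) → D.P) → ℂ} :
    (FHol t fun p : (D.pw j).P => τ (tup D j p)) ↔ THol D t j τ := ⟨FHol.thol, THol.fhol⟩

open Classical in
/-- a function on the power as a function of tuples -/
def ofT (j : ℕ) (f : (D.pw j).P → ℂ) (y : Fin (j + 1) → D.P) : ℂ :=
  if h : ∀ i, tc (y i) = tc (y 0) then f (mk D j y h) else 0

lemma ofT_mk {j : ℕ} (f : (D.pw j).P → ℂ) {y : Fin (j + 1) → D.P} {t : ℂ} (h : ∀ i, tc (y i) = t) :
    ofT j f y = f (mk D j y h) := by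
  have h' : ∀ i, tc (y i) = tc (y 0) := fun i => (h i).trans (h 0).symm
  rw [ofT, dif_pos h', mk_congr D j rfl h' h]

lemma ofT_tup {j : ℕ} (f : (D.pw j).P → ℂ) (p : (D.pw j).P) : ofT j f (tup D j p) = f p := by
  rw [ofT_mk f (tc_tup D j p), mk_tup]

theorem FHol.thol' {t : ℂ} {j : ℕ} {f : (D.pw j).P → ℂ} (h : FHol t f) : THol D t j (ofT j f) := by
  refine FHol.thol ?_
  simp only [ofT_tup]
  exact h

end Crest.Agent.R276.Pws_201
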