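import Crest.Agent.R276.DivVal13_858
import Crest.Agent.R276.BC7_986

/-! # Row 276, helper858: (R0) algebra of relative boundary charts, part A. -/

set_option autoImplicit false

noncomputable section

namespace Crest.Agent.R276.DivVal_858

open IsLocalRing MvPolynomial Crest.Agent.R276.FKDefs_779 Crest.Agent.R276.BC_986

section Adap

/-- put `X i₀ = 0` -/
def kill (k : Type*) [Field k] {σ : Type*} [DecidableEq σ] (i₀ : σ) :
    MvPolynomial σ k →ₐ[k] MvPolynomial {i : σ // i ≠ i₀} k :=
  aeval (fun i => if h : i = i₀ then 0 else X ⟨i, h⟩)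

theorem kill_rename {k : Type*} [Field k] {σ : Type*} [DecidableEq σ] (i₀ : σ)
    (P : MvPolynomial {i : σ // i ≠ i₀} k) : kill k i₀ (rename Subtype.val P) = P := by
  have h : (kill k i₀).comp (rename Subtype.val) = AlgHom.id k _ := by
    apply MvPolynomial.algHom_ext
    rintro ⟨i, hi⟩
    simp [kill, hi]
  exact DFunLike.congr_fun h P

theorem dvd_sub_rename {k : Type*} [Field k] {σ : Type*} [DecidableEq σ] (i₀ : σ)
    (P : MvPolynomial σ k) : X i₀ ∣ P - rename Subtype.val (kill k i₀ P) := by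
  rw [← Ideal.mem_span_singleton, ← Ideal.Quotient.eq]
  have h : (Ideal.Quotient.mkₐ k (Ideal.span {(X i₀ : MvPolynomial σ k)})) =
      (Ideal.Quotient.mkₐ k (Ideal.span {(X i₀ : MvPolynomial σ k)})).comp
        ((rename Subtype.val).comp (kill k i₀)) := by
    apply MvPolynomial.algHom_ext
    intro i
    by_cases hi : i = i₀
    · subst hi
      simp only [AlgHom.comp_apply, kill, aeval_X, dif_pos, map_zero]
      exact Ideal.Quotient.eq_zero_iff_mem.mpr (Ideal.mem_span_singleton_self _)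
    · simp [kill, hi]
  exact DFunLike.congr_fun h P

theorem X_dvd_iff_kill {k : Type*} [Field k] {σ : Type*} [DecidableEq σ] (i₀ : σ)
    (P : MvPolynomial σ k) : X i₀ ∣ P ↔ kill k i₀ P = 0 := by
  constructor
  · rintro ⟨Q, rfl⟩
    rw [map_mul]
    have : kill k i₀ (X i₀) = 0 := by simp [kill]
    rw [this, zero_mul]
  · intro h
    have := dvd_sub_rename i₀ P
    rwa [h, map_zero, sub_zero] at this

variable {n : ℕ} {K : Type} [Field K] [Algebra ℂ K] {R : ValuationSubring K}

theorem adap_of_resInd (halg : ∀ c : ℂ, algebraMap ℂ K c ∈ R) {z : Fin n → K} {i₀ : Fin n}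
    (h : ResInd ℂ R (fun i : {i : Fin n // i ≠ i₀} => z i)) (ht : R.valuation (z i₀) < 1)
    (hne : z i₀ ≠ 0) : Adap R z i₀ := by
  refine ⟨fun P hP => ?_, ht, hne⟩
  have hz : ∀ i, z i ∈ R := by
    intro i
    by_cases hi : i = i₀
    · rw [hi, ← ValuationSubring.valuation_le_one_iff]
      exact ht.le
    · exact h.1 ⟨i, hi⟩
  obtain ⟨Q, hQ⟩ := dvd_sub_rename i₀ P
  have h0 : kill ℂ i₀ P ≠ 0 := fun h0 => hP ((X_dvd_iff_kill i₀ P).mpr h0)
  have h1 : aeval z P = aeval (fun i : {i : Fin n // i ≠ i₀} => z i) (kill ℂ i₀ P) +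
      z i₀ * aeval z Q := by
    have h2 : P = rename Subtype.val (kill ℂ i₀ P) + X i₀ * Q := by
      rw [← hQ]; ring
    conv_lhs => rw [h2]
    rw [map_add, map_mul, aeval_X, aeval_rename]
    rfl
  have h3 : R.valuation (z i₀ * aeval z Q) < 1 := by
    rw [map_mul]
    have h4 : R.valuation (aeval z Q) ≤ 1 :=
      (ValuationSubring.valuation_le_one_iff R _).mpr (BC_986.aeval_mem halg hz Q)
    exact mul_lt_one_of_lt_of_le ht h4
  rw [h1, Valuation.map_add_eq_of_lt_left]
  · exact h.2 _ h0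
  · rw [h.2 _ h0]
    exact h3

/-- the `DivModel` attached to adapted coordinates `z` (uniformiser `z i₀`, the others residually
independent), in any order -/
theorem exists_divModel_of_unif [Algebra.EssFiniteType ℂ K] (htr : Algebra.trdeg ℂ K = n)
    (halg : ∀ c : ℂ, algebraMap ℂ K c ∈ R) {z : Fin n → K} {i₀ : Fin n}
    (h : ResInd ℂ R (fun i : {i : Fin n // i ≠ i₀} => z i)) (ht : IsUnif R (z i₀)) :
    ∃ D : DivModel n K, D.ModelOf R ∧ D.i₀ = i₀ ∧ ∀ i, algebraMap D.A K (D.w i) = z i := by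
  have hA := adap_of_resInd halg h ht.lt ht.ne
  have hb : IsTranscendenceBasis ℂ z := by
    apply hA.algebraicIndependent.isTranscendenceBasis_of_lift_trdeg_le_of_finite
    rw [htr]
    simp
  refine exists_divModel_of_adap hA hb ?_
  have hmem : ∀ y : R, y ∈ maximalIdeal R ↔ R.valuation (y : K) < 1 :=
    fun y => ValuationSubring.valuation_lt_one_iff R y
  have hX : ((hA.toR (X i₀) : R) : K) = z i₀ := by rw [hA.coe_toR, aeval_X]
  apply le_antisymm
  · intro y hy
    rw [Ideal.mem_span_singleton]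
    have h1 : R.valuation (y : K) ≤ R.valuation (z i₀) := ht.max _ ((hmem y).mp hy)
    have h2 : (y : K) / z i₀ ∈ R := by
      rw [← ValuationSubring.valuation_le_one_iff, map_div₀]
      exact div_le_one_of_le₀ h1 zero_le
    refine ⟨⟨(y : K) / z i₀, h2⟩, ?_⟩
    apply Subtype.ext
    change (y : K) = ((hA.toR (X i₀) : R) : K) * ((y : K) / z i₀)
    rw [hX, mul_div_cancel₀ _ ht.ne]
  · rw [Ideal.span_singleton_le_iff_mem, hmem, hX]
    exact ht.lt

/-- the uniformiser of a model -/
theorem isUnif_of_modelOf {D : DivModel n K} (h : D.ModelOf R) :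
    IsUnif R (algebraMap D.A K D.t) := by
  refine ⟨h.lt, D.tK_ne, fun y hy => ?_⟩
  by_cases hy0 : y = 0
  · rw [hy0, map_zero]
    exact zero_le
  · obtain ⟨a, ha⟩ := D.exists_hasOrd y hy0
    have h1 := h.val_eq ha
    have hlt := h.lt
    have hpos := h.pos
    rw [h1] at hy ⊢
    have ha1 : 1 ≤ a := by
      by_contra hcon
      have ha0 : a ≤ 0 := by omega
      have : (1 : _) ≤ R.valuation (algebraMap D.A K D.t) ^ a := by
        rw [← zpow_zero (R.valuation (algebraMap D.A K D.t))]
        exact zpow_le_zpow_right_of_le_one₀ hpos hlt.le ha0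
      exact absurd hy (not_lt.mpr this)
    calc R.valuation (algebraMap D.A K D.t) ^ a ≤ R.valuation (algebraMap D.A K D.t) ^ (1 : ℤ) :=
          zpow_le_zpow_right_of_le_one₀ hpos hlt.le ha1
      _ = _ := zpow_one _

end Adap

end Crest.Agent.R276.DivVal_858
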