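import Crest.Agent.R276.R0A_858

/-! # Row 276, helper858: (R0) algebra of relative boundary charts, part B: a model gives adapted
coordinates. -/

set_option autoImplicit false

noncomputable section

namespace Crest.Agent.R276.DivVal_858

open IsLocalRing MvPolynomial Crest.Agent.R276.FKDefs_779 Crest.Agent.R276.BC_986

variable {n : ℕ} {K : Type} [Field K] [Algebra ℂ K] {R : ValuationSubring K}

/-- an étale coordinate polynomial divisible by `t` is divisible by `X i₀` -/
theorem X_dvd_of_t_dvd (D : DivModel n K) (Q : MvPolynomial (Fin n) ℂ)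
    (hQ : D.t ∣ aeval D.w Q) : X D.i₀ ∣ Q := by
  by_contra hX
  let S := MvPolynomial (Fin n) ℂ
  let : Algebra S D.A := ((aeval D.w : S →ₐ[ℂ] D.A) : S →+* D.A).toAlgebra
  have hE : Algebra.Etale S D.A := D.etale
  have hflat : Module.Flat S D.A := inferInstance
  let P : Ideal D.A := Ideal.span {D.t}
  have hPp : P.IsPrime := (Ideal.span_singleton_prime D.t_ne).mpr D.t_prime
  let q : Ideal S := P.comap (algebraMap S D.A)
  have hq : q.IsPrime := Ideal.comap_isPrime _ _
  have : P.LiesOver q := ⟨rfl⟩
  let p : Ideal S := Ideal.span {X D.i₀}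
  have hp : p.IsPrime := (Ideal.span_singleton_prime (X_ne_zero D.i₀)).mpr X_prime
  have hX0 : (algebraMap S D.A) (X D.i₀) = D.t := by
    change aeval D.w (X D.i₀) = _
    rw [aeval_X]
    rfl
  have hpq : p < q := by
    refine lt_of_le_of_ne ?_ ?_
    · rw [Ideal.span_singleton_le_iff_mem, Ideal.mem_comap, hX0]
      exact Ideal.mem_span_singleton_self _
    · intro heq
      apply hX
      rw [← Ideal.mem_span_singleton]
      have : Q ∈ q := by
        rw [Ideal.mem_comap]
        exact Ideal.mem_span_singleton.mpr hQ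
      rw [← heq] at this
      exact this
  obtain ⟨P', hP', hP'p, hover⟩ := Ideal.exists_ideal_lt_liesOver_of_lt (S := D.A) P hpq
  have h1 : D.t ∈ P' := by
    rw [← hX0]
    have h2 : X D.i₀ ∈ p := Ideal.mem_span_singleton_self _
    rw [hover.over] at h2
    exact Ideal.mem_comap.mp h2
  have h3 : P ≤ P' := by
    rw [Ideal.span_singleton_le_iff_mem]
    exact h1
  exact absurd h3 (not_le_of_gt hP')

/-- the coordinates of a model other than `t` are residually independent -/
theorem resInd_of_modelOf {D : DivModel n K} (h : D.ModelOf R) :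
    ResInd ℂ R (fun i : {i : Fin n // i ≠ D.i₀} => algebraMap D.A K (D.w i)) := by
  refine ⟨fun i => h.mem _, fun P hP => ?_⟩
  have h1 : aeval (fun i : {i : Fin n // i ≠ D.i₀} => algebraMap D.A K (D.w i)) P =
      algebraMap D.A K (aeval D.w (rename Subtype.val P)) := by
    rw [aeval_rename]
    have := MvPolynomial.aeval_algebraMap_apply K (fun i : {i : Fin n // i ≠ D.i₀} => D.w i) P
    exact this
  rw [h1]
  apply h.unit
  intro hd
  apply hP
  have h2 := (X_dvd_iff_kill D.i₀ _).mp (X_dvd_of_t_dvd D _ hd)
  rwa [kill_rename] at h2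

theorem modelOf_alg {D : DivModel n K} (h : D.ModelOf R) (c : ℂ) : algebraMap ℂ K c ∈ R := by
  have := h.mem (algebraMap ℂ D.A c)
  rwa [← IsScalarTower.algebraMap_apply] at this

end Crest.Agent.R276.DivVal_858
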