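/-
  R276 / RegF_774 : Fourier-transform tools for the regularity of weak solutions of first order
  elliptic systems with constant principal part (leaf IPC-REG).
  Mathlib only.
-/
import Mathlib

open MeasureTheory FourierTransform Real Complex
open scoped ContDiff ENNReal

namespace Crest.Agent.R276.Reg774

variable {E : Type*} [NormedAddCommGroup E] [InnerProductSpace ℝ E] [FiniteDimensional ℝ E]
  [MeasurableSpace E] [BorelSpace E]

/-- adjointness of the classical Fourier transform -/
theorem int_fourier_mul {w g : E → ℂ} (hw : Integrable w) (hg : Integrable g) :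
    ∫ ξ, 𝓕 w ξ * g ξ = ∫ x, w x * 𝓕 g x := by
  have h := VectorFourier.integral_bilin_fourierIntegral_eq_flip
    (μ := (volume : Measure E)) (ν := (volume : Measure E)) (L := innerₗ E)
    (ContinuousLinearMap.mul ℂ ℂ) Real.continuous_fourierChar
    (by exact continuous_inner) hw hg
  have hflip : (innerₗ E).flip = innerₗ E := by
    ext x y
    simp
  rw [hflip] at h
  exact h

theorem continuous_fourier {w : E → ℂ} (hw : Integrable w) : Continuous (𝓕 w) :=
  VectorFourier.fourierIntegral_continuous Real.continuous_fourierChar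
    (by exact continuous_inner) hw

/-- Plancherel, membership part: the classical Fourier transform of an `L¹ ∩ L²` function is in `L²` -/
theorem memLp_fourier {w : E → ℂ} (hw : Integrable w) (hw2 : MemLp w 2) :
    MemLp (𝓕 w) 2 := by
  set W : Lp ℂ 2 (volume : Measure E) := hw2.toLp w with hW
  have hT := Lp.fourier_toTemperedDistribution_eq W
  have hae : 𝓕 w =ᵐ[volume] (𝓕 W : Lp ℂ 2 (volume : Measure E)) := by
    apply ae_eq_of_integral_contDiff_smul_eq
    · exact (continuous_fourier hw).locallyIntegrable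
    · exact (Lp.memLp (𝓕 W)).locallyIntegrable (by norm_num)
    · intro g hg hgc
      have hgC : HasCompactSupport (fun x => (g x : ℂ)) := by
        exact hgc.comp_left (g := fun r : ℝ => (r : ℂ)) (by simp)
      have hgs : ContDiff ℝ ∞ (fun x => (g x : ℂ)) :=
        Complex.ofRealCLM.contDiff.comp hg
      let G : SchwartzMap E ℂ := hgC.toSchwartzMap hgs
      have hG : ∀ x, G x = (g x : ℂ) := fun x => rfl
      have h1 := congrArg (fun T => T G) hT
      rw [TemperedDistribution.fourier_apply] at h1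
      rw [Lp.toTemperedDistribution_apply, Lp.toTemperedDistribution_apply] at h1
      have h2 : ∫ x, (g x) • 𝓕 w x = ∫ x, w x * 𝓕 (fun y => (g y : ℂ)) x := by
        rw [← int_fourier_mul hw (hgs.continuous.integrable_of_hasCompactSupport hgC)]
        apply integral_congr_ae
        filter_upwards with x
        simp [mul_comm]
      have h3 : ∫ x, w x * 𝓕 (fun y => (g y : ℂ)) x = ∫ x, (𝓕 G) x • W x := by
        apply integral_congr_ae
        filter_upwards [hw2.coeFn_toLp] with x hx
        rw [hW, hx]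
        simp only [smul_eq_mul, mul_comm]
        rfl
      rw [h2, h3, h1]
      apply integral_congr_ae
      filter_upwards with x
      rw [hG]
      simp
  exact (memLp_congr_ae hae).mpr (Lp.memLp _)

/-- almost everywhere Fourier inversion -/
theorem inversion_ae {w : E → ℂ} (hw : Integrable w) (hF : Integrable (𝓕 w)) :
    w =ᵐ[volume] 𝓕⁻ (𝓕 w) := by
  have hcont : Continuous (𝓕⁻ (𝓕 w)) := by
    have h1 : 𝓕⁻ (𝓕 w) = 𝓕 (fun x => 𝓕 w (-x)) := by
      rw [fourierInv_eq_fourier_comp_neg]
    rw [h1]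
    exact continuous_fourier hF.comp_neg
  apply ae_eq_of_integral_contDiff_smul_eq hw.locallyIntegrable hcont.locallyIntegrable
  intro g hg hgc
  have hgC : HasCompactSupport (fun x => (g x : ℂ)) :=
    hgc.comp_left (g := fun r : ℝ => (r : ℂ)) (by simp)
  have hgs : ContDiff ℝ ∞ (fun x => (g x : ℂ)) :=
    Complex.ofRealCLM.contDiff.comp hg
  let G : SchwartzMap E ℂ := hgC.toSchwartzMap hgs
  have hG : ∀ x, G x = (g x : ℂ) := fun x => rfl
  have hGi : Integrable (fun x => (g x : ℂ)) := G.integrable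
  obtain ⟨H, hH⟩ : ∃ H : SchwartzMap E ℂ, H = 𝓕⁻ G := ⟨_, rfl⟩
  have hGF : 𝓕 H = G := by rw [hH]; exact FourierTransform.fourier_fourierInv_eq G
  have hinv : ∀ x, H x = 𝓕⁻ (fun y => (g y : ℂ)) x := fun x => by
    rw [hH, SchwartzMap.fourierInv_coe]; rfl
  have h2 : ∀ x, 𝓕 (H : E → ℂ) x = (g x : ℂ) := fun x => by
    have := congrArg (fun f : SchwartzMap E ℂ => f x) hGF
    beta_reduce at this
    rw [SchwartzMap.fourier_coe] at this
    rw [this]; rfl
  calc ∫ x, g x • w x = ∫ x, w x * 𝓕 (H : E → ℂ) x := by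
        apply integral_congr_ae
        filter_upwards with x
        rw [h2]; simp [mul_comm]
    _ = ∫ x, 𝓕 w x * H x := (int_fourier_mul hw H.integrable).symm
    _ = ∫ x, 𝓕 (fun y => (g y : ℂ)) (-x) * 𝓕 w x := by
        apply integral_congr_ae
        filter_upwards with x
        rw [hinv, fourierInv_eq_fourier_neg, mul_comm]
    _ = ∫ x, 𝓕 (fun y => (g y : ℂ)) x * 𝓕 w (-x) := by
        rw [← integral_neg_eq_self]
        simp
    _ = ∫ x, (g x : ℂ) * 𝓕 (fun y => 𝓕 w (-y)) x := int_fourier_mul hGi hF.comp_neg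
    _ = ∫ x, g x • 𝓕⁻ (𝓕 w) x := by
        apply integral_congr_ae
        filter_upwards with x
        rw [fourierInv_eq_fourier_comp_neg]
        simp

/-- weights: membership in `L²` with all polynomial weights gives integrability with all weights -/
theorem integrable_of_memLp {g : E → ℂ} (hg : AEStronglyMeasurable g volume)
    (h : ∀ s : ℕ, MemLp (fun ξ => ((1 + ‖ξ‖) ^ s : ℝ) • g ξ) 2) (n : ℕ) :
    Integrable (fun ξ => ‖ξ‖ ^ n * ‖g ξ‖) := by
  obtain ⟨m, hm⟩ : ∃ m : ℕ, m = Module.finrank ℝ E + 1 := ⟨_, rfl⟩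
  have h1 : MemLp (fun ξ : E => ((1 + ‖ξ‖) ^ m)⁻¹) 2 := by
    rw [memLp_two_iff_integrable_sq]
    · have h2 : Integrable (fun x : E => (1 + ‖x‖) ^ (-((2 * m : ℕ) : ℝ))) := by
        apply integrable_one_add_norm
        rw [hm]; push_cast; linarith [(Nat.cast_nonneg (Module.finrank ℝ E) : (0:ℝ) ≤ _)]
      refine h2.congr ?_
      filter_upwards with x
      have hx : 0 < 1 + ‖x‖ := by positivity
      rw [Real.rpow_neg hx.le, Real.rpow_natCast, inv_pow, ← pow_mul]
      congr 2; ring
    · apply Continuous.aestronglyMeasurable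
      apply Continuous.inv₀ (by fun_prop)
      intro x; positivity
  have h3 := MemLp.integrable_mul h1 (h (n + m)).norm
  refine h3.mono' ?_ ?_
  · exact (continuous_norm.pow n).aestronglyMeasurable.mul hg.norm
  · filter_upwards with x
    have hx : 0 < 1 + ‖x‖ := by positivity
    have h4 : ‖((1 + ‖x‖) ^ (n + m) : ℝ) • g x‖ = (1 + ‖x‖) ^ (n + m) * ‖g x‖ := by
      rw [norm_smul, Real.norm_eq_abs, abs_of_pos (by positivity)]
    have h5 : ‖‖x‖ ^ n * ‖g x‖‖ = ‖x‖ ^ n * ‖g x‖ := by
      rw [Real.norm_eq_abs, abs_of_nonneg (by positivity)]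
    rw [h5, Pi.mul_apply, h4]
    have h6 : ((1 + ‖x‖) ^ m)⁻¹ * ((1 + ‖x‖) ^ (n + m) * ‖g x‖) = (1 + ‖x‖) ^ n * ‖g x‖ := by
      rw [pow_add]; field_simp
    rw [h6]
    gcongr
    linarith

theorem contDiff_inv {g : E → ℂ} (h : ∀ n : ℕ, Integrable (fun ξ => ‖ξ‖ ^ n * ‖g ξ‖)) :
    ContDiff ℝ ∞ (𝓕⁻ g) := by
  have h1 : 𝓕⁻ g = 𝓕 (fun x => g (-x)) := by
    rw [fourierInv_eq_fourier_comp_neg]
  rw [h1]
  apply contDiff_fourier
  intro n hn
  have := (h n).comp_neg
  simpa using this

end Crest.Agent.R276.Reg774
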