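/-
  R276 / Reg_774 : regularity of locally square integrable weak solutions of first order elliptic
  systems with constant principal part and smooth lower order terms (leaf IPC-REG).

  `Ell e P`     : the symbol `ξ ↦ ∑ j, ⟨e j, ξ⟩ P j` is injective for all real `ξ ≠ 0`
  `WSol e P Ω A f u` : `∑ j, P j ∂_{e j} u = A u + f` weakly on `Ω`
  `reg`         : u ∈ L²_loc(Ω), A, f smooth on Ω  ⟹  u = v a.e. on Ω, v smooth, equation pointwise
-/
import Crest.Agent.R276.RegF_774

open MeasureTheory FourierTransform Real Complex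
open scoped ContDiff ENNReal

set_option linter.unusedSectionVars false

namespace Crest.Agent.R276.Reg774

variable {E : Type*} [NormedAddCommGroup E] [InnerProductSpace ℝ E] [FiniteDimensional ℝ E]
  [MeasurableSpace E] [BorelSpace E]
variable {ι κ κ' : Type*} [Fintype ι] [Fintype κ] [Fintype κ']

/-- injectivity of the (constant) principal symbol -/
def Ell (e : ι → E) (P : ι → κ' → κ → ℂ) : Prop :=
  ∀ ξ : E, ξ ≠ 0 → ∀ v : κ → ℂ,
    (∀ k', ∑ j, ∑ k, ((inner ℝ (e j) ξ : ℝ) : ℂ) * P j k' k * v k = 0) → v = 0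

/-- test functions -/
structure Cut (Ω : Set E) (χ : E → ℂ) : Prop where
  sm : ContDiff ℝ ∞ χ
  cpt : HasCompactSupport χ
  sub : tsupport χ ⊆ Ω

/-- weak solution of `∑ j, P j ∂_{e j} u = A u + f` on `Ω` -/
def WSol (e : ι → E) (P : ι → κ' → κ → ℂ) (Ω : Set E) (A : E → κ' → κ → ℂ) (f : E → κ' → ℂ)
    (u : E → κ → ℂ) : Prop :=
  ∀ φ : E → ℂ, Cut Ω φ → ∀ k',
    ∫ x, ∑ j, ∑ k, P j k' k * u x k * fderiv ℝ φ x (e j)
      = - ∫ x, (∑ k, A x k' k * u x k + f x k') * φ x

/-- locally square integrable -/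
def L2loc (Ω : Set E) (u : E → ℂ) : Prop :=
  ∀ K : Set E, IsCompact K → K ⊆ Ω → MemLp u 2 (volume.restrict K)

theorem Cut.fd {Ω : Set E} {χ : E → ℂ} (h : Cut Ω χ) (v : E) :
    Cut Ω (fun x => fderiv ℝ χ x v) where
  sm := by
    have h1 : ContDiff ℝ ∞ (fderiv ℝ χ) := h.sm.fderiv_right (m := ∞) (by norm_cast)
    exact h1.clm_apply contDiff_const
  cpt := h.cpt.fderiv_apply (𝕜 := ℝ) v
  sub := (tsupport_fderiv_apply_subset ℝ v).trans h.sub

theorem Cut.mul {Ω : Set E} {χ : E → ℂ} (h : Cut Ω χ) {a : E → ℂ} (hΩ : IsOpen Ω)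
    (ha : ContDiffOn ℝ ∞ a Ω) : Cut Ω (fun x => χ x * a x) where
  sm := by
    rw [contDiff_iff_contDiffAt]
    intro x
    by_cases hx : x ∈ Ω
    · exact h.sm.contDiffAt.mul (ha.contDiffAt (hΩ.mem_nhds hx))
    · have h1 : x ∉ tsupport χ := fun h2 => hx (h.sub h2)
      have h2 : (fun x => χ x * a x) =ᶠ[nhds x] fun _ => 0 := by
        filter_upwards [notMem_tsupport_iff_eventuallyEq.mp h1] with y hy
        simp [hy]
      exact contDiffAt_const.congr_of_eventuallyEq h2
  cpt := h.cpt.mul_right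
  sub := (tsupport_mul_subset_left).trans h.sub

theorem Cut.memLp {Ω : Set E} {χ : E → ℂ} (h : Cut Ω χ) {u : E → ℂ} (hu : L2loc Ω u) :
    MemLp (fun x => χ x * u x) 2 := by
  have h1 : MemLp ((tsupport χ).indicator u) 2 volume :=
    (memLp_indicator_iff_restrict (isClosed_tsupport χ).measurableSet).mpr (hu _ h.cpt h.sub)
  obtain ⟨C, hC⟩ := h.cpt.exists_bound_of_continuous h.sm.continuous
  refine MemLp.of_le_mul (c := C) h1 ?_ ?_
  · have h2 : (fun x => χ x * u x) = fun x => χ x * (tsupport χ).indicator u x := by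
      funext x
      by_cases hx : x ∈ tsupport χ
      · simp [hx]
      · simp [hx, image_eq_zero_of_notMem_tsupport hx]
    rw [h2]
    exact h.sm.continuous.aestronglyMeasurable.mul h1.1
  · filter_upwards with x
    by_cases hx : x ∈ tsupport χ
    · simp only [norm_mul, hx, Set.indicator_of_mem]
      gcongr
      exact hC x
    · simp [hx, image_eq_zero_of_notMem_tsupport hx]

theorem Cut.integrable {Ω : Set E} {χ : E → ℂ} (h : Cut Ω χ) {u : E → ℂ} (hu : L2loc Ω u) :
    Integrable (fun x => χ x * u x) := by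
  have h1 := h.memLp hu
  have h2 : MemLp (fun x => χ x * u x) 2 (volume.restrict (tsupport χ)) := h1.restrict _
  have : IsFiniteMeasure ((volume : Measure E).restrict (tsupport χ)) :=
    ⟨by simpa using h.cpt.isCompact.measure_lt_top⟩
  have h3 : Integrable (fun x => χ x * u x) (volume.restrict (tsupport χ)) :=
    h2.integrable (by norm_num)
  rw [← integrableOn_iff_integrable_of_support_subset (s := tsupport χ)]
  · exact h3
  · intro x hx
    by_contra h4
    exact hx (by simp [image_eq_zero_of_notMem_tsupport h4])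

/-- the plane wave -/
noncomputable def pw (ξ : E) (x : E) : ℂ := Complex.exp (↑(-2 * π * (inner ℝ x ξ : ℝ)) * I)

theorem fourier_pw (w : E → ℂ) (ξ : E) : 𝓕 w ξ = ∫ x, pw ξ x * w x := by
  rw [Real.fourier_eq']
  rfl

theorem contDiff_pw (ξ : E) : ContDiff ℝ ∞ (pw ξ : E → ℂ) := by
  unfold pw
  apply ContDiff.cexp
  apply ContDiff.mul _ contDiff_const
  apply Complex.ofRealCLM.contDiff.comp
  exact contDiff_const.mul (contDiff_id.inner ℝ contDiff_const)

theorem hasFDerivAt_pw (ξ x v : E) :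
    fderiv ℝ (pw ξ) x v = -(2 * π * I * (inner ℝ v ξ : ℝ)) * pw ξ x := by
  have h1 : HasFDerivAt (fun x : E => (inner ℝ x ξ : ℝ)) ((innerSL ℝ).flip ξ) x :=
    ((innerSL ℝ).flip ξ).hasFDerivAt
  have h2 : HasFDerivAt (fun x : E => ((-2 * π * (inner ℝ x ξ : ℝ) : ℝ) : ℂ))
      (Complex.ofRealCLM.comp ((-2 * π : ℝ) • (innerSL ℝ).flip ξ)) x :=
    Complex.ofRealCLM.hasFDerivAt.comp x (h1.const_mul (-2 * π))
  have h3 := (h2.mul_const I).cexp
  have h4 : HasFDerivAt (pw ξ) _ x := h3
  rw [h4.fderiv]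
  simp only [pw, _root_.smul_apply, ContinuousLinearMap.comp_apply,
    ContinuousLinearMap.flip_apply, innerSL_apply_apply, smul_eq_mul, Complex.ofRealCLM_apply]
  push_cast
  ring

theorem norm_pw (ξ x : E) : ‖pw ξ x‖ = 1 := by
  unfold pw
  exact Complex.norm_exp_ofReal_mul_I _

theorem int_pw {w : E → ℂ} (hw : Integrable w) (ξ : E) : Integrable (fun x => pw ξ x * w x) := by
  refine hw.mono ((contDiff_pw ξ).continuous.aestronglyMeasurable.mul hw.1) ?_
  filter_upwards with x
  simp [norm_pw]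

section main

variable {e : ι → E} {P : ι → κ' → κ → ℂ} {Ω : Set E} {A : E → κ' → κ → ℂ} {f : E → κ' → ℂ}
  {u : E → κ → ℂ}

/-- the Fourier side of the weak equation -/
theorem four_eq (hΩ : IsOpen Ω) (hA : ∀ k' k, ContDiffOn ℝ ∞ (fun x => A x k' k) Ω)
    (hf : ∀ k', ContDiffOn ℝ ∞ (fun x => f x k') Ω) (hu : ∀ k, L2loc Ω (fun x => u x k))
    (hw : WSol e P Ω A f u) {χ : E → ℂ} (hχ : Cut Ω χ) (ξ : E) (k' : κ') :
    2 * π * I * ∑ j, ∑ k, ((inner ℝ (e j) ξ : ℝ) : ℂ) * P j k' k * 𝓕 (fun x => χ x * u x k) ξ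
      = ∑ j, ∑ k, P j k' k * 𝓕 (fun x => fderiv ℝ χ x (e j) * u x k) ξ
        + ∑ k, 𝓕 (fun x => (χ x * A x k' k) * u x k) ξ + 𝓕 (fun x => χ x * f x k') ξ := by
  have hφ : Cut Ω (fun x => χ x * pw ξ x) := hχ.mul hΩ (contDiff_pw ξ).contDiffOn
  have h := hw _ hφ k'
  have hd : ∀ x j, fderiv ℝ (fun x => χ x * pw ξ x) x (e j)
      = pw ξ x * fderiv ℝ χ x (e j)
        - (2 * π * I * (inner ℝ (e j) ξ : ℝ)) * (pw ξ x * χ x) := by
    intro x j
    have h1 : HasFDerivAt χ (fderiv ℝ χ x) x :=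
      (hχ.sm.differentiable (by simp)).differentiableAt.hasFDerivAt
    have h2 : HasFDerivAt (pw ξ) (fderiv ℝ (pw ξ) x) x :=
      ((contDiff_pw ξ).differentiable (by simp)).differentiableAt.hasFDerivAt
    rw [(h1.fun_mul h2).fderiv]
    simp only [_root_.add_apply, _root_.smul_apply, smul_eq_mul,
      hasFDerivAt_pw]
    ring
  have i1 : ∀ k, Integrable (fun x => pw ξ x * (χ x * u x k)) := fun k =>
    int_pw (hχ.integrable (hu k)) ξ
  have i2 : ∀ j k, Integrable (fun x => pw ξ x * (fderiv ℝ χ x (e j) * u x k)) := fun j k =>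
    int_pw ((hχ.fd (e j)).integrable (hu k)) ξ
  have i3 : ∀ k, Integrable (fun x => pw ξ x * ((χ x * A x k' k) * u x k)) := fun k =>
    int_pw ((hχ.mul hΩ (hA k' k)).integrable (hu k)) ξ
  have i4 : Integrable (fun x => pw ξ x * (χ x * f x k')) := by
    have h5 := hχ.mul hΩ (hf k')
    exact int_pw (h5.sm.continuous.integrable_of_hasCompactSupport h5.cpt) ξ
  have hL : ∫ x, ∑ j, ∑ k, P j k' k * u x k * fderiv ℝ (fun x => χ x * pw ξ x) x (e j)
      = ∑ j, ∑ k, P j k' k * (𝓕 (fun x => fderiv ℝ χ x (e j) * u x k) ξ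
        - (2 * π * I * (inner ℝ (e j) ξ : ℝ)) * 𝓕 (fun x => χ x * u x k) ξ) := by
    rw [integral_finsetSum]
    · apply Finset.sum_congr rfl
      intro j _
      rw [integral_finsetSum]
      · apply Finset.sum_congr rfl
        intro k _
        rw [fourier_pw, fourier_pw, ← integral_const_mul, ← integral_sub (i2 j k) ((i1 k).const_mul _),
          ← integral_const_mul]
        apply integral_congr_ae
        filter_upwards with x
        rw [hd]; ring
      · intro k _
        have := (((i2 j k).sub ((i1 k).const_mul (2 * π * I * (inner ℝ (e j) ξ : ℝ)))).const_mul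
          (P j k' k))
        refine this.congr ?_
        filter_upwards with x
        simp only [Pi.sub_apply, hd]; ring
    · intro j _
      apply integrable_finsetSum
      intro k _
      have := (((i2 j k).sub ((i1 k).const_mul (2 * π * I * (inner ℝ (e j) ξ : ℝ)))).const_mul
          (P j k' k))
      refine this.congr ?_
      filter_upwards with x
      simp only [Pi.sub_apply, hd]; ring
  have hR : ∫ x, (∑ k, A x k' k * u x k + f x k') * (χ x * pw ξ x)
      = ∑ k, 𝓕 (fun x => (χ x * A x k' k) * u x k) ξ + 𝓕 (fun x => χ x * f x k') ξ := by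
    simp only [fourier_pw]
    rw [← integral_finsetSum _ (fun k _ => i3 k), ← integral_add _ i4]
    · apply integral_congr_ae
      filter_upwards with x
      simp only [add_mul, Finset.sum_mul]
      congr 1
      · apply Finset.sum_congr rfl; intro k _; ring
      · ring
    · apply integrable_finsetSum
      intro k _; exact i3 k
  rw [hL, hR] at h
  have h6 : ∑ j, ∑ k, P j k' k * (𝓕 (fun x => fderiv ℝ χ x (e j) * u x k) ξ
        - (2 * π * I * (inner ℝ (e j) ξ : ℝ)) * 𝓕 (fun x => χ x * u x k) ξ)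
      = ∑ j, ∑ k, P j k' k * 𝓕 (fun x => fderiv ℝ χ x (e j) * u x k) ξ
        - 2 * π * I * ∑ j, ∑ k, ((inner ℝ (e j) ξ : ℝ) : ℂ) * P j k' k
            * 𝓕 (fun x => χ x * u x k) ξ := by
    simp only [mul_sub, Finset.sum_sub_distrib, Finset.mul_sum]
    congr 1
    apply Finset.sum_congr rfl; intro j _
    apply Finset.sum_congr rfl; intro k _
    ring
  rw [h6] at h
  linear_combination -h

/-- ellipticity constant -/
theorem Ell.bound (hP : Ell e P) : ∃ C : ℝ, 0 ≤ C ∧ ∀ ξ : E, ∀ v : κ → ℂ, ∀ k,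
    ‖ξ‖ * ‖v k‖ ≤ C * ∑ k', ‖∑ j, ∑ k, ((inner ℝ (e j) ξ : ℝ) : ℂ) * P j k' k * v k‖ := by
  set Φ : E × (κ → ℂ) → ℝ := fun p =>
    ∑ k', ‖∑ j, ∑ k, ((inner ℝ (e j) p.1 : ℝ) : ℂ) * P j k' k * p.2 k‖ with hΦ
  have hcont : Continuous Φ := by
    apply continuous_finsetSum
    intro k' _
    apply Continuous.norm
    apply continuous_finsetSum
    intro j _
    apply continuous_finsetSum
    intro k _
    have h1 : Continuous fun p : E × (κ → ℂ) => ((inner ℝ (e j) p.1 : ℝ) : ℂ) :=
      Complex.continuous_ofReal.comp (continuous_const.inner continuous_fst)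
    have h2 : Continuous fun p : E × (κ → ℂ) => p.2 k :=
      (continuous_apply k).comp continuous_snd
    exact (h1.mul continuous_const).mul h2
  have hnn : ∀ p, 0 ≤ Φ p := fun p => Finset.sum_nonneg fun _ _ => norm_nonneg _
  have hhom : ∀ (a b : ℝ), 0 ≤ a → 0 ≤ b → ∀ ξ v, Φ (a • ξ, (b : ℂ) • v) = a * b * Φ (ξ, v) := by
    intro a b ha hb ξ v
    simp only [hΦ, Finset.mul_sum]
    apply Finset.sum_congr rfl
    intro k' _
    have h1 : ∑ j, ∑ k, ((inner ℝ (e j) (a • ξ) : ℝ) : ℂ) * P j k' k * ((b : ℂ) • v) k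
        = ((a * b : ℝ) : ℂ) * ∑ j, ∑ k, ((inner ℝ (e j) ξ : ℝ) : ℂ) * P j k' k * v k := by
      simp only [Finset.mul_sum]
      apply Finset.sum_congr rfl; intro j _
      apply Finset.sum_congr rfl; intro k _
      rw [inner_smul_right]
      simp only [Pi.smul_apply, smul_eq_mul]
      push_cast; ring
    rw [h1, norm_mul, Complex.norm_real, Real.norm_eq_abs, abs_of_nonneg (mul_nonneg ha hb)]
  have hS : IsCompact (Metric.sphere (0 : E) 1 ×ˢ Metric.sphere (0 : κ → ℂ) 1) :=
    (isCompact_sphere _ _).prod (isCompact_sphere _ _)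
  obtain ⟨c, hc, hcb⟩ : ∃ c : ℝ, 0 < c ∧ ∀ p ∈ Metric.sphere (0 : E) 1 ×ˢ Metric.sphere (0 : κ → ℂ) 1,
      c ≤ Φ p := by
    by_cases hne : (Metric.sphere (0 : E) 1 ×ˢ Metric.sphere (0 : κ → ℂ) 1).Nonempty
    · obtain ⟨p, hp, hmin⟩ := hS.exists_isMinOn hne hcont.continuousOn
      refine ⟨Φ p, ?_, fun q hq => hmin hq⟩
      apply lt_of_le_of_ne (hnn p)
      intro h0
      have hp1 : p.1 ≠ 0 := by
        intro h1
        have := hp.1
        rw [h1] at this
        simp at this
      have hp2 : p.2 ≠ 0 := by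
        intro h1
        have := hp.2
        rw [h1] at this
        simp at this
      apply hp2
      apply hP p.1 hp1
      intro k'
      have h2 := (Finset.sum_eq_zero_iff_of_nonneg (fun k' _ => norm_nonneg _)).mp h0.symm k'
        (Finset.mem_univ _)
      exact norm_eq_zero.mp h2
    · exact ⟨1, one_pos, fun p hp => (hne ⟨p, hp⟩).elim⟩
  refine ⟨c⁻¹, by positivity, ?_⟩
  intro ξ v k
  have key : ‖ξ‖ * ‖v‖ ≤ c⁻¹ * Φ (ξ, v) := by
    by_cases hξ : ξ = 0
    · subst hξ
      simp only [norm_zero, zero_mul]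
      exact mul_nonneg (by positivity) (hnn _)
    by_cases hv : v = 0
    · subst hv
      simp only [norm_zero, mul_zero]
      exact mul_nonneg (by positivity) (hnn _)
    have hξ' : 0 < ‖ξ‖ := norm_pos_iff.mpr hξ
    have hv' : 0 < ‖v‖ := norm_pos_iff.mpr hv
    have h1 := hcb (‖ξ‖⁻¹ • ξ, ((‖v‖⁻¹ : ℝ) : ℂ) • v) (by
      constructor
      · simp [norm_smul, hξ'.ne']
      · simp [norm_smul, hv'.ne'])
    rw [hhom _ _ (by positivity) (by positivity)] at h1
    rw [inv_mul_eq_div, le_div_iff₀ hc]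
    calc ‖ξ‖ * ‖v‖ * c ≤ ‖ξ‖ * ‖v‖ * (‖ξ‖⁻¹ * ‖v‖⁻¹ * Φ (ξ, v)) := by gcongr
      _ = Φ (ξ, v) := by field_simp
  calc ‖ξ‖ * ‖v k‖ ≤ ‖ξ‖ * ‖v‖ := by gcongr; exact norm_le_pi_norm v k
    _ ≤ _ := key

/-- all Sobolev norms of the localisations are finite -/
theorem sobolev (hΩ : IsOpen Ω) (hP : Ell e P) (hA : ∀ k' k, ContDiffOn ℝ ∞ (fun x => A x k' k) Ω)
    (hf : ∀ k', ContDiffOn ℝ ∞ (fun x => f x k') Ω) (hu : ∀ k, L2loc Ω (fun x => u x k))
    (hw : WSol e P Ω A f u) (s : ℕ) : ∀ χ : E → ℂ, Cut Ω χ → ∀ k,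
      MemLp (fun ξ => ((1 + ‖ξ‖) ^ s : ℝ) • 𝓕 (fun x => χ x * u x k) ξ) 2 := by
  induction s with
  | zero =>
    intro χ hχ k
    simpa using memLp_fourier (hχ.integrable (hu k)) (hχ.memLp (hu k))
  | succ s ih =>
    intro χ hχ k
    obtain ⟨C, hC0, hC⟩ := hP.bound
    -- the right hand side
    set G : κ' → E → ℂ := fun k' ξ =>
      ∑ j, ∑ k, P j k' k * 𝓕 (fun x => fderiv ℝ χ x (e j) * u x k) ξ
        + ∑ k, 𝓕 (fun x => (χ x * A x k' k) * u x k) ξ + 𝓕 (fun x => χ x * f x k') ξ with hG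
    have hGm : ∀ k', MemLp (fun ξ => ((1 + ‖ξ‖) ^ s : ℝ) • G k' ξ) 2 := by
      intro k'
      have e1 : (fun ξ => ((1 + ‖ξ‖) ^ s : ℝ) • G k' ξ) = fun ξ =>
          ∑ j, ∑ k, P j k' k * (((1 + ‖ξ‖) ^ s : ℝ) • 𝓕 (fun x => fderiv ℝ χ x (e j) * u x k) ξ)
          + ∑ k, ((1 + ‖ξ‖) ^ s : ℝ) • 𝓕 (fun x => (χ x * A x k' k) * u x k) ξ
          + ((1 + ‖ξ‖) ^ s : ℝ) • 𝓕 (fun x => χ x * f x k') ξ := by
        funext ξ
        simp only [hG, smul_add, Finset.smul_sum, mul_smul_comm]
      rw [e1]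
      refine (MemLp.add (MemLp.add ?_ ?_) ?_)
      · apply memLp_finsetSum
        intro j _
        apply memLp_finsetSum
        intro k _
        exact (ih _ (hχ.fd (e j)) k).const_mul _
      · apply memLp_finsetSum
        intro k _
        exact ih _ (hχ.mul hΩ (hA k' k)) k
      · have h5 := hχ.mul hΩ (hf k')
        let H : SchwartzMap E ℂ := h5.cpt.toSchwartzMap h5.sm
        obtain ⟨H', hH'⟩ : ∃ H' : SchwartzMap E ℂ, H' = 𝓕 H := ⟨_, rfl⟩
        have h6 : ∀ ξ, 𝓕 (fun x => χ x * f x k') ξ = H' ξ := by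
          intro ξ
          rw [hH', SchwartzMap.fourier_coe]; rfl
        simp only [h6]
        have htg : (fun ξ : E => (((1 + ‖ξ‖ ^ 2) ^ s : ℝ) : ℂ)).HasTemperateGrowth := by
          fun_prop
        obtain ⟨K, hK⟩ : ∃ K : SchwartzMap E ℂ,
          K = SchwartzMap.smulLeftCLM ℂ (fun ξ : E => (((1 + ‖ξ‖ ^ 2) ^ s : ℝ) : ℂ)) H' := ⟨_, rfl⟩
        have hK1 : ∀ ξ, K ξ = (((1 + ‖ξ‖ ^ 2) ^ s : ℝ) : ℂ) * H' ξ := by
          intro ξ
          rw [hK, SchwartzMap.smulLeftCLM_apply_apply htg]; rfl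
        refine MemLp.of_le_mul (c := 2 ^ s) (K.memLp 2 volume) ?_ ?_
        · apply Continuous.aestronglyMeasurable
          exact (by fun_prop : Continuous fun ξ : E => ((1 + ‖ξ‖) ^ s : ℝ)).smul H'.continuous
        · filter_upwards with ξ
          rw [hK1, norm_smul, norm_mul, Complex.norm_real, Real.norm_eq_abs, Real.norm_eq_abs,
            abs_of_nonneg (by positivity), abs_of_nonneg (by positivity), ← mul_assoc, ← mul_pow]
          gcongr
          nlinarith [sq_nonneg (‖ξ‖ - 1), norm_nonneg ξ]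
    have hle : ∀ ξ, ‖((1 + ‖ξ‖) ^ (s + 1) : ℝ) • 𝓕 (fun x => χ x * u x k) ξ‖
        ≤ ‖((1 + ‖ξ‖) ^ s : ℝ) • 𝓕 (fun x => χ x * u x k) ξ‖
          + ∑ k', C * ‖((1 + ‖ξ‖) ^ s : ℝ) • G k' ξ‖ := by
      intro ξ
      have h1 := hC ξ (fun k => 𝓕 (fun x => χ x * u x k) ξ) k
      have h2 : ∀ k', ‖∑ j, ∑ k, ((inner ℝ (e j) ξ : ℝ) : ℂ) * P j k' k
          * 𝓕 (fun x => χ x * u x k) ξ‖ ≤ ‖G k' ξ‖ := by
        intro k'
        have h3 := four_eq hΩ hA hf hu hw hχ ξ k'
        have h4 : G k' ξ = 2 * π * I * ∑ j, ∑ k, ((inner ℝ (e j) ξ : ℝ) : ℂ) * P j k' k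
          * 𝓕 (fun x => χ x * u x k) ξ := h3.symm
        rw [h4, norm_mul]
        have h5 : (1 : ℝ) ≤ ‖2 * (π : ℂ) * I‖ := by
          rw [norm_mul, norm_mul, Complex.norm_I, Complex.norm_real, Real.norm_eq_abs,
            abs_of_pos Real.pi_pos]
          norm_num
          linarith [Real.pi_gt_three]
        nlinarith [norm_nonneg (∑ j, ∑ k, ((inner ℝ (e j) ξ : ℝ) : ℂ) * P j k' k
          * 𝓕 (fun x => χ x * u x k) ξ)]
      have hpos : (0:ℝ) ≤ (1 + ‖ξ‖) ^ s := by positivity
      have e1 : ∀ (m : ℕ) (z : ℂ), ‖((1 + ‖ξ‖) ^ m : ℝ) • z‖ = (1 + ‖ξ‖) ^ m * ‖z‖ := by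
        intro m z
        rw [norm_smul, Real.norm_eq_abs, abs_of_nonneg (by positivity)]
      simp only [e1]
      calc (1 + ‖ξ‖) ^ (s + 1) * ‖𝓕 (fun x => χ x * u x k) ξ‖
          = (1 + ‖ξ‖) ^ s * ‖𝓕 (fun x => χ x * u x k) ξ‖
            + (1 + ‖ξ‖) ^ s * (‖ξ‖ * ‖𝓕 (fun x => χ x * u x k) ξ‖) := by ring
        _ ≤ (1 + ‖ξ‖) ^ s * ‖𝓕 (fun x => χ x * u x k) ξ‖
            + (1 + ‖ξ‖) ^ s * (C * ∑ k', ‖G k' ξ‖) := by
            have h7 : C * ∑ k', ‖∑ j, ∑ k, ((inner ℝ (e j) ξ : ℝ) : ℂ) * P j k' k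
                * 𝓕 (fun x => χ x * u x k) ξ‖ ≤ C * ∑ k', ‖G k' ξ‖ :=
              mul_le_mul_of_nonneg_left (Finset.sum_le_sum fun k' _ => h2 k') hC0
            have h8 := mul_le_mul_of_nonneg_left (h1.trans h7) hpos
            linarith
        _ = _ := by
            rw [Finset.mul_sum, Finset.mul_sum]
            congr 1
            apply Finset.sum_congr rfl; intro k' _
            ring
    have hR : MemLp (fun ξ => ‖((1 + ‖ξ‖) ^ s : ℝ) • 𝓕 (fun x => χ x * u x k) ξ‖
          + ∑ k', C * ‖((1 + ‖ξ‖) ^ s : ℝ) • G k' ξ‖) 2 := by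
      refine (ih χ hχ k).norm.add ?_
      apply memLp_finsetSum
      intro k' _
      exact (hGm k').norm.const_mul C
    refine hR.mono ?_ ?_
    · apply Continuous.aestronglyMeasurable
      exact (by fun_prop : Continuous fun ξ : E => ((1 + ‖ξ‖) ^ (s + 1) : ℝ)).smul
        (continuous_fourier (hχ.integrable (hu k)))
    · filter_upwards with ξ
      refine (hle ξ).trans (le_abs_self _)

/-- a localised component is a.e. equal to a smooth function -/
theorem loc_smooth (hΩ : IsOpen Ω) (hP : Ell e P)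
    (hA : ∀ k' k, ContDiffOn ℝ ∞ (fun x => A x k' k) Ω)
    (hf : ∀ k', ContDiffOn ℝ ∞ (fun x => f x k') Ω) (hu : ∀ k, L2loc Ω (fun x => u x k))
    (hw : WSol e P Ω A f u) {χ : E → ℂ} (hχ : Cut Ω χ) (k : κ) :
    ∃ V : E → ℂ, ContDiff ℝ ∞ V ∧ (fun x => χ x * u x k) =ᵐ[volume] V := by
  have h1 := hχ.integrable (hu k)
  have h2 := integrable_of_memLp (continuous_fourier h1).aestronglyMeasurable
    (fun s => sobolev hΩ hP hA hf hu hw s χ hχ k)
  refine ⟨𝓕⁻ (𝓕 (fun x => χ x * u x k)), contDiff_inv h2, inversion_ae h1 ?_⟩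
  have h3 := h2 0
  simp only [pow_zero, one_mul] at h3
  exact (integrable_norm_iff (continuous_fourier h1).aestronglyMeasurable).mp h3

end main

/-- a cut-off equal to one on a ball around a given point -/
theorem exists_cut {Ω : Set E} (hΩ : IsOpen Ω) {x₀ : E} (hx : x₀ ∈ Ω) :
    ∃ r : ℝ, 0 < r ∧ Metric.ball x₀ r ⊆ Ω ∧ ∃ χ : E → ℂ, Cut Ω χ ∧ ∀ y ∈ Metric.ball x₀ r, χ y = 1 := by
  obtain ⟨R, hR, hRΩ⟩ := Metric.isOpen_iff.mp hΩ x₀ hx
  let b : ContDiffBump x₀ := ⟨R / 4, R / 2, by positivity, by linarith⟩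
  refine ⟨R / 4, by positivity, (Metric.ball_subset_ball (by linarith)).trans hRΩ,
    fun y => (b y : ℂ), ⟨?_, ?_, ?_⟩, ?_⟩
  · exact Complex.ofRealCLM.contDiff.comp b.contDiff
  · exact b.hasCompactSupport.comp_left (g := fun r : ℝ => (r : ℂ)) (by simp)
  · have h1 : tsupport (fun y => (b y : ℂ)) ⊆ tsupport b :=
      closure_mono (fun y hy hy' => hy (by simp [hy']))
    refine h1.trans ?_
    rw [b.tsupport_eq]
    refine (Metric.closedBall_subset_ball ?_).trans hRΩ
    show R / 2 < R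
    linarith
  · intro y hy
    have : b y = 1 := b.one_of_mem_closedBall (Metric.ball_subset_closedBall hy)
    simp [this]

/-- gluing of smooth local representatives -/
theorem glue {Ω : Set E} {u : E → ℂ}
    (h : ∀ x ∈ Ω, ∃ U : Set E, IsOpen U ∧ x ∈ U ∧ ∃ V : E → ℂ, ContDiff ℝ ∞ V ∧
      ∀ᵐ y, y ∈ U → u y = V y) :
    ∃ v : E → ℂ, (∀ᵐ y, y ∈ Ω → u y = v y) ∧
      ∀ x ∈ Ω, ∃ U : Set E, IsOpen U ∧ x ∈ U ∧ ∃ V : E → ℂ, ContDiff ℝ ∞ V ∧
        (∀ᵐ y, y ∈ U → u y = V y) ∧ ∀ y ∈ U ∩ Ω, v y = V y := by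
  choose! U hU hxU V hV hae using h
  have key : ∀ x ∈ Ω, ∀ y ∈ U x ∩ Ω, V y y = V x y := by
    intro x hx y hy
    have h1 : V y =ᵐ[volume.restrict (U x ∩ U y)] V x := by
      rw [Filter.EventuallyEq, ae_restrict_iff' ((hU x hx).inter (hU y hy.2)).measurableSet]
      filter_upwards [hae x hx, hae y hy.2] with z h1 h2 hz
      rw [← h1 hz.1, ← h2 hz.2]
    exact Measure.eqOn_open_of_ae_eq h1 ((hU x hx).inter (hU y hy.2))
      (hV y hy.2).continuous.continuousOn (hV x hx).continuous.continuousOn ⟨hy.1, hxU y hy.2⟩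
  refine ⟨fun y => V y y, ?_, fun x hx => ⟨U x, hU x hx, hxU x hx, V x, hV x hx, hae x hx,
    fun y hy => key x hx y hy⟩⟩
  rw [ae_iff]
  apply measure_null_of_locally_null
  intro x hx
  simp only [Classical.not_imp, Set.mem_ofPred_eq] at hx
  refine ⟨{a | ¬(a ∈ Ω → u a = V a a)} ∩ U x, inter_mem_nhdsWithin _ ((hU x hx.1).mem_nhds (hxU x hx.1)),
    ?_⟩
  refine measure_mono_null ?_ (ae_iff.mp (hae x hx.1))
  intro z hz
  simp only [Classical.not_imp, Set.mem_inter_iff, Set.mem_ofPred_eq] at hz ⊢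
  refine ⟨hz.2, ?_⟩
  rw [← key x hx.1 z ⟨hz.2, hz.1.1⟩]
  exact hz.1.2

section main2

variable {e : ι → E} {P : ι → κ' → κ → ℂ} {Ω : Set E} {A : E → κ' → κ → ℂ} {f : E → κ' → ℂ}
  {u : E → κ → ℂ}

/-- REGULARITY: a locally square integrable weak solution of a first order system with constant
elliptic principal part and smooth lower order terms is smooth. -/
theorem reg (hΩ : IsOpen Ω) (hP : Ell e P) (hA : ∀ k' k, ContDiffOn ℝ ∞ (fun x => A x k' k) Ω)
    (hf : ∀ k', ContDiffOn ℝ ∞ (fun x => f x k') Ω) (hu : ∀ k, L2loc Ω (fun x => u x k))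
    (hw : WSol e P Ω A f u) :
    ∃ v : E → κ → ℂ, (∀ k, ContDiffOn ℝ ∞ (fun x => v x k) Ω) ∧ (∀ᵐ x, x ∈ Ω → u x = v x) ∧
      ∀ x ∈ Ω, ∀ k', ∑ j, ∑ k, P j k' k * fderiv ℝ (fun y => v y k) x (e j)
        = ∑ k, A x k' k * v x k + f x k' := by
  have h1 : ∀ k, ∀ x ∈ Ω, ∃ U : Set E, IsOpen U ∧ x ∈ U ∧ ∃ V : E → ℂ, ContDiff ℝ ∞ V ∧
      ∀ᵐ y, y ∈ U → u y k = V y := by
    intro k x hx
    obtain ⟨r, hr, hrΩ, χ, hχ, hχ1⟩ := exists_cut hΩ hx
    obtain ⟨V, hV, hVe⟩ := loc_smooth hΩ hP hA hf hu hw hχ k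
    refine ⟨Metric.ball x r, Metric.isOpen_ball, Metric.mem_ball_self hr, V, hV, ?_⟩
    filter_upwards [hVe] with y hy hyr
    rw [← hy, hχ1 y hyr, one_mul]
  have h2 : ∀ k, ∃ v : E → ℂ, (∀ᵐ y, y ∈ Ω → u y k = v y) ∧
      ∀ x ∈ Ω, ∃ U : Set E, IsOpen U ∧ x ∈ U ∧ ∃ V : E → ℂ, ContDiff ℝ ∞ V ∧
        (∀ᵐ y, y ∈ U → u y k = V y) ∧ ∀ y ∈ U ∩ Ω, v y = V y := fun k => glue (h1 k)
  choose v hv1 hv2 using h2
  refine ⟨fun x k => v k x, ?_, ?_, ?_⟩
  · intro k x hx
    obtain ⟨U, hU, hxU, V, hV, -, hVv⟩ := hv2 k x hx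
    have h3 : (fun x => v k x) =ᶠ[nhdsWithin x Ω] V := by
      filter_upwards [inter_mem_nhdsWithin Ω (hU.mem_nhds hxU)] with y hy
      exact hVv y ⟨hy.2, hy.1⟩
    exact hV.contDiffAt.contDiffWithinAt.congr_of_eventuallyEq h3 (hVv x ⟨hxU, hx⟩)
  · have h3 : ∀ᵐ y, ∀ k, y ∈ Ω → u y k = v k y := ae_all_iff.mpr hv1
    filter_upwards [h3] with y hy hyΩ
    funext k
    exact hy k hyΩ
  · intro x₀ hx₀ k'
    choose U hU hxU V hV hae hVv using fun k => hv2 k x₀ hx₀
    set W : Set E := (⋂ k, U k) ∩ Ω with hWdef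
    have hW : IsOpen W := (isOpen_iInter_of_finite fun k => hU k).inter hΩ
    have hxW : x₀ ∈ W := ⟨Set.mem_iInter.mpr fun k => hxU k, hx₀⟩
    have hWΩ : W ⊆ Ω := Set.inter_subset_right
    have hWU : ∀ k, W ⊆ U k := fun k y hy => Set.mem_iInter.mp hy.1 k
    set R : E → ℂ := fun x => ∑ j, ∑ k, P j k' k * fderiv ℝ (V k) x (e j)
        - (∑ k, A x k' k * V k x + f x k') with hR
    have hRc : ContinuousOn R W := by
      apply ContinuousOn.sub
      · apply Continuous.continuousOn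
        apply continuous_finsetSum; intro j _
        apply continuous_finsetSum; intro k _
        exact continuous_const.mul (((hV k).continuous_fderiv (by simp)).clm_apply continuous_const)
      · apply ContinuousOn.add
        · apply continuousOn_finsetSum; intro k _
          exact ((hA k' k).continuousOn.mono hWΩ).mul (hV k).continuous.continuousOn
        · exact (hf k').continuousOn.mono hWΩ
    have hR0 : ∀ᵐ x, x ∈ W → R x = 0 := by
      apply hW.ae_eq_zero_of_integral_contDiff_smul_eq_zero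
      · exact hRc.locallyIntegrableOn hW.measurableSet
      · intro g hg hgc hgs
        have hgC : HasCompactSupport (fun x => (g x : ℂ)) :=
          hgc.comp_left (g := fun r : ℝ => (r : ℂ)) (by simp)
        have hgsC0 : tsupport (fun x => (g x : ℂ)) ⊆ tsupport g :=
          closure_mono (fun y hy hy' => hy (by simp [hy']))
        have hgsC : tsupport (fun x => (g x : ℂ)) ⊆ W := hgsC0.trans hgs
        have hφ : Cut W (fun x => (g x : ℂ)) :=
          ⟨Complex.ofRealCLM.contDiff.comp hg, hgC, hgsC⟩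
        have hφΩ : Cut Ω (fun x => (g x : ℂ)) := ⟨hφ.sm, hφ.cpt, hφ.sub.trans hWΩ⟩
        obtain ⟨φ, hφe⟩ : ∃ φ : E → ℂ, φ = fun x => (g x : ℂ) := ⟨_, rfl⟩
        rw [← hφe] at hφ hφΩ
        have hweak := hw φ hφΩ k'
        have haeall : ∀ᵐ y, ∀ k, y ∈ U k → u y k = V k y := ae_all_iff.mpr hae
        have hVint : ∀ k (a : E → ℂ), Continuous a → HasCompactSupport a →
            Integrable (fun x => V k x * a x) := fun k a ha hac =>
          ((hV k).continuous.mul ha).integrable_of_hasCompactSupport hac.mul_left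
        have hfd : ∀ j, Continuous (fun x => fderiv ℝ φ x (e j)) := fun j =>
          (hφ.fd (e j)).sm.continuous
        have hdV : ∀ k j, Continuous (fun x => fderiv ℝ (V k) x (e j)) := fun k j =>
          ((hV k).continuous_fderiv (by simp)).clm_apply continuous_const
        have hL : ∫ x, ∑ j, ∑ k, P j k' k * u x k * fderiv ℝ φ x (e j)
            = - ∫ x, ∑ j, ∑ k, P j k' k * (fderiv ℝ (V k) x (e j) * φ x) := by
          have s1 : ∫ x, ∑ j, ∑ k, P j k' k * u x k * fderiv ℝ φ x (e j)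
              = ∫ x, ∑ j, ∑ k, P j k' k * (V k x * fderiv ℝ φ x (e j)) := by
            apply integral_congr_ae
            filter_upwards [haeall] with x hx
            apply Finset.sum_congr rfl; intro j _
            apply Finset.sum_congr rfl; intro k _
            by_cases hxs : x ∈ tsupport φ
            · rw [hx k (hWU k (hφ.sub hxs))]; ring
            · have h5 : fderiv ℝ φ x (e j) = 0 := by
                have := (hφ.fd (e j))
                have h6 : x ∉ tsupport (fun x => fderiv ℝ φ x (e j)) := fun h7 =>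
                  hxs (tsupport_fderiv_apply_subset ℝ (e j) h7)
                exact image_eq_zero_of_notMem_tsupport (f := fun x => fderiv ℝ φ x (e j)) h6
              rw [h5]; ring
          rw [s1, integral_finsetSum, integral_finsetSum, ← Finset.sum_neg_distrib]
          · apply Finset.sum_congr rfl; intro j _
            rw [integral_finsetSum, integral_finsetSum, ← Finset.sum_neg_distrib]
            · apply Finset.sum_congr rfl; intro k _
              rw [integral_const_mul, integral_const_mul, ← mul_neg]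
              congr 1
              apply integral_mul_fderiv_eq_neg_fderiv_mul_of_integrable
              · exact ((hdV k j).mul hφ.sm.continuous).integrable_of_hasCompactSupport
                  hφ.cpt.mul_left
              · exact hVint k _ (hfd j) (hφ.fd (e j)).cpt
              · exact hVint k _ hφ.sm.continuous hφ.cpt
              · exact fun x _ => ((hV k).differentiable (by simp)).differentiableAt
              · exact fun x _ => (hφ.sm.differentiable (by simp)).differentiableAt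
            · intro k _
              exact (((hdV k j).mul hφ.sm.continuous).integrable_of_hasCompactSupport
                  hφ.cpt.mul_left).const_mul _
            · intro k _
              exact (hVint k _ (hfd j) (hφ.fd (e j)).cpt).const_mul _
          · intro j _
            apply integrable_finsetSum; intro k _
            exact (((hdV k j).mul hφ.sm.continuous).integrable_of_hasCompactSupport
                  hφ.cpt.mul_left).const_mul _
          · intro j _
            apply integrable_finsetSum; intro k _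
            exact (hVint k _ (hfd j) (hφ.fd (e j)).cpt).const_mul _
        have hRt : ∫ x, (∑ k, A x k' k * u x k + f x k') * φ x
            = ∫ x, (∑ k, A x k' k * V k x + f x k') * φ x := by
          apply integral_congr_ae
          filter_upwards [haeall] with x hx
          by_cases hxs : x ∈ tsupport φ
          · congr 2
            apply Finset.sum_congr rfl; intro k _
            rw [hx k (hWU k (hφ.sub hxs))]
          · rw [image_eq_zero_of_notMem_tsupport hxs]; ring
        rw [hL, hRt] at hweak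
        have hi1 : Integrable (fun x => ∑ j, ∑ k, P j k' k * (fderiv ℝ (V k) x (e j) * φ x)) := by
          apply integrable_finsetSum; intro j _
          apply integrable_finsetSum; intro k _
          exact (((hdV k j).mul hφ.sm.continuous).integrable_of_hasCompactSupport
                  hφ.cpt.mul_left).const_mul _
        have hi2 : Integrable (fun x => (∑ k, A x k' k * V k x + f x k') * φ x) := by
          have h7 : ContDiffOn ℝ ∞ (fun x => ∑ k, A x k' k * V k x + f x k') Ω := by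
            apply ContDiffOn.add _ (hf k')
            apply ContDiffOn.sum
            intro k _
            exact (hA k' k).mul (hV k).contDiffOn
          have h8 := hφΩ.mul hΩ h7
          refine (h8.sm.continuous.integrable_of_hasCompactSupport h8.cpt).congr ?_
          filter_upwards with x
          ring
        have hfin : ∫ x, g x • R x = (∫ x, ∑ j, ∑ k, P j k' k * (fderiv ℝ (V k) x (e j) * φ x))
            - ∫ x, (∑ k, A x k' k * V k x + f x k') * φ x := by
          rw [← integral_sub hi1 hi2]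
          apply integral_congr_ae
          filter_upwards with x
          simp only [hR, hφe, Complex.real_smul]
          rw [mul_sub, Finset.mul_sum]
          congr 1
          · apply Finset.sum_congr rfl; intro j _
            rw [Finset.mul_sum]
            apply Finset.sum_congr rfl; intro k _
            ring
          · ring
        rw [hfin]
        linear_combination -hweak
    have hRe : Set.EqOn R 0 W := by
      apply Measure.eqOn_open_of_ae_eq (μ := volume) _ hW hRc continuousOn_const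
      rw [Filter.EventuallyEq, ae_restrict_iff' hW.measurableSet]
      exact hR0
    have h9 := hRe hxW
    simp only [hR, Pi.zero_apply] at h9
    have h10 : ∀ k, (fun y => v k y) =ᶠ[nhds x₀] V k := by
      intro k
      filter_upwards [hW.mem_nhds hxW] with y hy
      exact hVv k y ⟨hWU k hy, hWΩ hy⟩
    have h11 : ∀ k, v k x₀ = V k x₀ := fun k => (h10 k).self_of_nhds
    simp only [h11]
    have h12 : ∀ k, fderiv ℝ (fun y => v k y) x₀ = fderiv ℝ (V k) x₀ := fun k =>
      (h10 k).fderiv_eq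
    simp only [h12]
    linear_combination h9

end main2

end Crest.Agent.R276.Reg774
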