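/-
  R276 / RegP_774 : the planar instances of `Reg774.reg` (leaf IPC-REG).

  `dbar φ x = (∂₁ φ + I ∂₂ φ) / 2`, `del φ x = (∂₁ φ - I ∂₂ φ) / 2` (real derivative in the directions 1, I).
  `plane`   : weakly ∂bar a = F a + G b + f, ∂ b = F' a + G' b + g on Ω ⊂ ℂ, a, b ∈ L²_loc, smooth
              coefficients  ⟹  a, b smooth on Ω.
  `harm`    : η = a dx + b dx̄ ∈ L²_loc with dη = 0 and d (K a dx - K b dx̄) = 0 weakly, K smooth
              invertible ⟹ η smooth, both equations pointwise.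
-/
import Crest.Agent.R276.Reg_774

open MeasureTheory FourierTransform Real Complex
open scoped ContDiff ENNReal

set_option linter.unusedSectionVars false

namespace Crest.Agent.R276.Reg774

/-- the Cauchy-Riemann operator -/
noncomputable def dbar (φ : ℂ → ℂ) (x : ℂ) : ℂ := (fderiv ℝ φ x 1 + I * fderiv ℝ φ x I) / 2

/-- the conjugate Cauchy-Riemann operator -/
noncomputable def del (φ : ℂ → ℂ) (x : ℂ) : ℂ := (fderiv ℝ φ x 1 - I * fderiv ℝ φ x I) / 2

variable {ν : Type*} [Fintype ν] [DecidableEq ν]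

/-- principal part of the planar system -/
noncomputable def PP (j : Fin 2) : ν ⊕ ν → ν ⊕ ν → ℂ
  | .inl r, .inl s => if r = s then (![1 / 2, I / 2] : Fin 2 → ℂ) j else 0
  | .inr r, .inr s => if r = s then (![1 / 2, -I / 2] : Fin 2 → ℂ) j else 0
  | _, _ => 0

theorem ell_PP : Ell (E := ℂ) (![1, I] : Fin 2 → ℂ) (PP (ν := ν)) := by
  intro ξ hξ v hv
  have h1 : (inner ℝ (1 : ℂ) ξ : ℝ) = ξ.re := by simp [Complex.inner]
  have h2 : (inner ℝ (I : ℂ) ξ : ℝ) = ξ.im := by simp [Complex.inner]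
  funext k
  rcases k with r | r
  · have := hv (.inl r)
    simp only [Fin.sum_univ_two, Fintype.sum_sum_type, PP, Matrix.cons_val_zero, Matrix.cons_val_one,
      h1, h2, mul_ite, ite_mul, mul_zero, zero_mul, Finset.sum_ite_eq, Finset.mem_univ, if_true,
      Finset.sum_const_zero, add_zero] at this
    have h3 : ξ * v (.inl r) = 0 := by
      have h4 : ξ = ξ.re + ξ.im * I := (Complex.re_add_im ξ).symm
      rw [h4]
      linear_combination 2 * this
    exact (mul_eq_zero.mp h3).resolve_left hξ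
  · have := hv (.inr r)
    simp only [Fin.sum_univ_two, Fintype.sum_sum_type, PP, Matrix.cons_val_zero, Matrix.cons_val_one,
      h1, h2, mul_ite, ite_mul, mul_zero, zero_mul, Finset.sum_ite_eq, Finset.mem_univ, if_true,
      Finset.sum_const_zero, zero_add] at this
    have h3 : (starRingEnd ℂ) ξ * v (.inr r) = 0 := by
      have h4 : (starRingEnd ℂ) ξ = ξ.re - ξ.im * I := by
        apply Complex.ext <;> simp
      rw [h4]
      linear_combination 2 * this
    exact (mul_eq_zero.mp h3).resolve_left (by simpa using hξ)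

theorem plane {Ω : Set ℂ} (hΩ : IsOpen Ω) {a b : ℂ → ν → ℂ} {F G F' G' : ℂ → ν → ν → ℂ}
    {f g : ℂ → ν → ℂ}
    (hF : ∀ r s, ContDiffOn ℝ ∞ (fun x => F x r s) Ω) (hG : ∀ r s, ContDiffOn ℝ ∞ (fun x => G x r s) Ω)
    (hF' : ∀ r s, ContDiffOn ℝ ∞ (fun x => F' x r s) Ω)
    (hG' : ∀ r s, ContDiffOn ℝ ∞ (fun x => G' x r s) Ω)
    (hf : ∀ r, ContDiffOn ℝ ∞ (fun x => f x r) Ω) (hg : ∀ r, ContDiffOn ℝ ∞ (fun x => g x r) Ω)
    (ha : ∀ r, L2loc Ω (fun x => a x r)) (hb : ∀ r, L2loc Ω (fun x => b x r))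
    (h1 : ∀ φ, Cut Ω φ → ∀ r, ∫ x, a x r * dbar φ x
      = - ∫ x, (∑ s, F x r s * a x s + ∑ s, G x r s * b x s + f x r) * φ x)
    (h2 : ∀ φ, Cut Ω φ → ∀ r, ∫ x, b x r * del φ x
      = - ∫ x, (∑ s, F' x r s * a x s + ∑ s, G' x r s * b x s + g x r) * φ x) :
    ∃ a' b' : ℂ → ν → ℂ, (∀ r, ContDiffOn ℝ ∞ (fun x => a' x r) Ω) ∧
      (∀ r, ContDiffOn ℝ ∞ (fun x => b' x r) Ω) ∧
      (∀ᵐ x, x ∈ Ω → a x = a' x ∧ b x = b' x) ∧
      (∀ x ∈ Ω, ∀ r, dbar (fun y => a' y r) x = ∑ s, F x r s * a' x s + ∑ s, G x r s * b' x s + f x r) ∧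
      (∀ x ∈ Ω, ∀ r, del (fun y => b' y r) x = ∑ s, F' x r s * a' x s + ∑ s, G' x r s * b' x s + g x r) := by
  let A : ℂ → ν ⊕ ν → ν ⊕ ν → ℂ := fun x => Sum.elim (fun r => Sum.elim (F x r) (G x r))
    (fun r => Sum.elim (F' x r) (G' x r))
  let ff : ℂ → ν ⊕ ν → ℂ := fun x => Sum.elim (f x) (g x)
  let u : ℂ → ν ⊕ ν → ℂ := fun x => Sum.elim (a x) (b x)
  have hw : WSol (E := ℂ) (![1, I] : Fin 2 → ℂ) (PP (ν := ν)) Ω A ff u := by
    intro φ hφ k'
    rcases k' with r | r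
    · have e1 := h1 φ hφ r
      have e2 : ∀ x, ∑ j : Fin 2, ∑ k, PP (ν := ν) j (.inl r) k * u x k
          * fderiv ℝ φ x ((![1, I] : Fin 2 → ℂ) j) = a x r * dbar φ x := by
        intro x
        simp only [Fin.sum_univ_two, Fintype.sum_sum_type, PP, Matrix.cons_val_zero,
          Matrix.cons_val_one, u, Sum.elim_inl, Sum.elim_inr, ite_mul, zero_mul,
          Finset.sum_ite_eq, Finset.mem_univ, if_true, Finset.sum_const_zero, add_zero, dbar]
        ring
      have e3 : ∀ x, (∑ k, A x (.inl r) k * u x k + ff x (.inl r)) * φ x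
          = (∑ s, F x r s * a x s + ∑ s, G x r s * b x s + f x r) * φ x := by
        intro x
        simp only [Fintype.sum_sum_type, A, u, ff, Sum.elim_inl, Sum.elim_inr]
      simp only [e2, e3]
      exact e1
    · have e1 := h2 φ hφ r
      have e2 : ∀ x, ∑ j : Fin 2, ∑ k, PP (ν := ν) j (.inr r) k * u x k
          * fderiv ℝ φ x ((![1, I] : Fin 2 → ℂ) j) = b x r * del φ x := by
        intro x
        simp only [Fin.sum_univ_two, Fintype.sum_sum_type, PP, Matrix.cons_val_zero,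
          Matrix.cons_val_one, u, Sum.elim_inl, Sum.elim_inr, ite_mul, zero_mul,
          Finset.sum_ite_eq, Finset.mem_univ, if_true, Finset.sum_const_zero, zero_add, del]
        ring
      have e3 : ∀ x, (∑ k, A x (.inr r) k * u x k + ff x (.inr r)) * φ x
          = (∑ s, F' x r s * a x s + ∑ s, G' x r s * b x s + g x r) * φ x := by
        intro x
        simp only [Fintype.sum_sum_type, A, u, ff, Sum.elim_inl, Sum.elim_inr]
      simp only [e2, e3]
      exact e1
  obtain ⟨v, hv1, hv2, hv3⟩ := reg hΩ ell_PP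
    (A := A) (f := ff) (u := u)
    (by rintro (r | r) (s | s)
        · exact hF r s
        · exact hG r s
        · exact hF' r s
        · exact hG' r s)
    (by rintro (r | r)
        · exact hf r
        · exact hg r)
    (by rintro (r | r)
        · exact ha r
        · exact hb r) hw
  refine ⟨fun x r => v x (.inl r), fun x r => v x (.inr r), fun r => hv1 _, fun r => hv1 _, ?_, ?_, ?_⟩
  · filter_upwards [hv2] with x hx hxΩ
    have := hx hxΩ
    constructor
    · funext r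
      exact congrFun this (.inl r)
    · funext r
      exact congrFun this (.inr r)
  · intro x hx r
    have e1 := hv3 x hx (.inl r)
    simp only [Fin.sum_univ_two, Fintype.sum_sum_type, PP, Matrix.cons_val_zero,
          Matrix.cons_val_one, A, ff, Sum.elim_inl, Sum.elim_inr, ite_mul, zero_mul,
          Finset.sum_ite_eq, Finset.mem_univ, if_true, Finset.sum_const_zero, add_zero] at e1
    rw [← e1, dbar]
    ring
  · intro x hx r
    have e1 := hv3 x hx (.inr r)
    simp only [Fin.sum_univ_two, Fintype.sum_sum_type, PP, Matrix.cons_val_zero,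
          Matrix.cons_val_one, A, ff, Sum.elim_inl, Sum.elim_inr, ite_mul, zero_mul,
          Finset.sum_ite_eq, Finset.mem_univ, if_true, Finset.sum_const_zero, zero_add] at e1
    rw [← e1, del]
    ring

/-! ### the harmonic corollary -/

theorem dbar_mul {φ ψ : ℂ → ℂ} {x : ℂ} (h1 : DifferentiableAt ℝ φ x) (h2 : DifferentiableAt ℝ ψ x) :
    dbar (fun y => φ y * ψ y) x = ψ x * dbar φ x + φ x * dbar ψ x := by
  unfold dbar
  rw [(h1.hasFDerivAt.fun_mul h2.hasFDerivAt).fderiv]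
  simp only [_root_.add_apply, _root_.smul_apply, smul_eq_mul]
  ring

theorem del_mul {φ ψ : ℂ → ℂ} {x : ℂ} (h1 : DifferentiableAt ℝ φ x) (h2 : DifferentiableAt ℝ ψ x) :
    del (fun y => φ y * ψ y) x = ψ x * del φ x + φ x * del ψ x := by
  unfold del
  rw [(h1.hasFDerivAt.fun_mul h2.hasFDerivAt).fderiv]
  simp only [_root_.add_apply, _root_.smul_apply, smul_eq_mul]
  ring

theorem dbar_sum {ι : Type*} (s : Finset ι) {φ : ι → ℂ → ℂ} {x : ℂ}
    (h : ∀ i ∈ s, DifferentiableAt ℝ (φ i) x) :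
    dbar (fun y => ∑ i ∈ s, φ i y) x = ∑ i ∈ s, dbar (φ i) x := by
  unfold dbar
  rw [fderiv_fun_sum h]
  simp only [_root_.sum_apply, Finset.mul_sum, ← Finset.sum_add_distrib, Finset.sum_div]

theorem del_sum {ι : Type*} (s : Finset ι) {φ : ι → ℂ → ℂ} {x : ℂ}
    (h : ∀ i ∈ s, DifferentiableAt ℝ (φ i) x) :
    del (fun y => ∑ i ∈ s, φ i y) x = ∑ i ∈ s, del (φ i) x := by
  unfold del
  rw [fderiv_fun_sum h]
  simp only [_root_.sum_apply, Finset.mul_sum, ← Finset.sum_sub_distrib, Finset.sum_div]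

theorem dbar_const (c x : ℂ) : dbar (fun _ => c) x = 0 := by simp [dbar]

theorem del_const (c x : ℂ) : del (fun _ => c) x = 0 := by simp [del]

theorem Cut.dbar {Ω : Set ℂ} {χ : ℂ → ℂ} (h : Cut Ω χ) : Cut Ω (Reg774.dbar χ) where
  sm := by
    have h1 := (h.fd 1).sm
    have h2 := (h.fd I).sm
    unfold Reg774.dbar
    fun_prop
  cpt := by
    have h1 := (h.fd 1).cpt
    have h2 := (h.fd I).cpt
    unfold Reg774.dbar
    have h3 : HasCompactSupport (fun x => fderiv ℝ χ x 1 + I * fderiv ℝ χ x I) :=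
      h1.add h2.mul_left
    simp only [div_eq_mul_inv]
    exact h3.mul_right
  sub := by
    refine closure_minimal ?_ (isClosed_tsupport χ) |>.trans h.sub
    intro x hx
    by_contra hx2
    apply hx
    have h1 : fderiv ℝ χ x = 0 := by
      have := (notMem_tsupport_iff_eventuallyEq.mp hx2).fderiv_eq (𝕜 := ℝ)
      rw [this]; simp
    simp [Reg774.dbar, h1]

theorem Cut.del {Ω : Set ℂ} {χ : ℂ → ℂ} (h : Cut Ω χ) : Cut Ω (Reg774.del χ) where
  sm := by
    have h1 := (h.fd 1).sm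
    have h2 := (h.fd I).sm
    unfold Reg774.del
    fun_prop
  cpt := by
    have h1 := (h.fd 1).cpt
    have h2 := (h.fd I).cpt
    unfold Reg774.del
    have h3 : HasCompactSupport (fun x => fderiv ℝ χ x 1 - I * fderiv ℝ χ x I) := by
      simp only [sub_eq_add_neg, ← neg_mul]
      exact h1.add h2.mul_left
    simp only [div_eq_mul_inv]
    exact h3.mul_right
  sub := by
    refine closure_minimal ?_ (isClosed_tsupport χ) |>.trans h.sub
    intro x hx
    by_contra hx2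
    apply hx
    have h1 : fderiv ℝ χ x = 0 := by
      have := (notMem_tsupport_iff_eventuallyEq.mp hx2).fderiv_eq (𝕜 := ℝ)
      rw [this]; simp
    simp [Reg774.del, h1]

theorem Cut.zero_of_notMem {Ω : Set ℂ} {χ : ℂ → ℂ} (h : Cut Ω χ) {x : ℂ} (hx : x ∉ Ω) : χ x = 0 :=
  image_eq_zero_of_notMem_tsupport fun h2 => hx (h.sub h2)

theorem Cut.dbar_mul_all {Ω : Set ℂ} (hΩ : IsOpen Ω) {ψ : ℂ → ℂ} (h : Cut Ω ψ) {l : ℂ → ℂ}
    (hl : ContDiffOn ℝ ∞ l Ω) (x : ℂ) :
    Reg774.dbar (fun y => ψ y * l y) x = l x * Reg774.dbar ψ x + ψ x * Reg774.dbar l x := by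
  by_cases hx : x ∈ Ω
  · exact dbar_mul (h.sm.differentiable (by simp)).differentiableAt
      ((hl.contDiffAt (hΩ.mem_nhds hx)).differentiableAt (by simp))
  · rw [(h.mul hΩ hl).dbar.zero_of_notMem hx, h.dbar.zero_of_notMem hx, h.zero_of_notMem hx]
    simp

theorem Cut.del_mul_all {Ω : Set ℂ} (hΩ : IsOpen Ω) {ψ : ℂ → ℂ} (h : Cut Ω ψ) {l : ℂ → ℂ}
    (hl : ContDiffOn ℝ ∞ l Ω) (x : ℂ) :
    Reg774.del (fun y => ψ y * l y) x = l x * Reg774.del ψ x + ψ x * Reg774.del l x := by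
  by_cases hx : x ∈ Ω
  · exact del_mul (h.sm.differentiable (by simp)).differentiableAt
      ((hl.contDiffAt (hΩ.mem_nhds hx)).differentiableAt (by simp))
  · rw [(h.mul hΩ hl).del.zero_of_notMem hx, h.del.zero_of_notMem hx, h.zero_of_notMem hx]
    simp

theorem smooth_dbar {Ω : Set ℂ} (hΩ : IsOpen Ω) {l : ℂ → ℂ} (hl : ContDiffOn ℝ ∞ l Ω) :
    ContDiffOn ℝ ∞ (dbar l) Ω := by
  have h1 : ContDiffOn ℝ ∞ (fderiv ℝ l) Ω := hl.fderiv_of_isOpen hΩ (by norm_cast)
  have h2 := h1.clm_apply (contDiffOn_const (c := (1 : ℂ)))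
  have h3 := h1.clm_apply (contDiffOn_const (c := (I : ℂ)))
  unfold dbar
  exact (h2.add (contDiffOn_const.mul h3)).div_const 2

theorem smooth_del {Ω : Set ℂ} (hΩ : IsOpen Ω) {l : ℂ → ℂ} (hl : ContDiffOn ℝ ∞ l Ω) :
    ContDiffOn ℝ ∞ (del l) Ω := by
  have h1 : ContDiffOn ℝ ∞ (fderiv ℝ l) Ω := hl.fderiv_of_isOpen hΩ (by norm_cast)
  have h2 := h1.clm_apply (contDiffOn_const (c := (1 : ℂ)))
  have h3 := h1.clm_apply (contDiffOn_const (c := (I : ℂ)))
  unfold del
  exact (h2.sub (contDiffOn_const.mul h3)).div_const 2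

end Crest.Agent.R276.Reg774
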