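import Crest.Agent.R276.Rsr_185
import Crest.Agent.R276.Brg_201

/-!
# Row 276, task W1 (helper185): the relative slice is an instance of 201's `RS`
-/

set_option autoImplicit false
set_option linter.unusedSectionVars false

open Set Filter Topology MeasureTheory
open scoped ENNReal

noncomputable section

namespace Crest.Agent.R276.Rs_185

open Crest.Agent.R271 Crest.Agent.R271.Defs710 Crest.Agent.R271.Rd692 Crest.Agent.R271.Ho51
open Crest.Agent.R276.Mod1_987 Crest.Agent.R276.PV_159
open Crest.Agent.R276.SkelDefs_220 hiding tc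
open Crest.Agent.R276.Sl_748 (SD bt fx gl)
open Crest.Agent.R276.NbB_185 (tl cons_tl cont_tl)

variable {L K : Type} [Field L] [Field K] [Algebra ℂ L] [Algebra ℂ K] [Algebra L K]
  [IsScalarTower ℂ L K] {m r : ℕ} {ML : Mdl L m} {MK : Mdl K (m + r)}

variable {R : ℝ} (S : SD (m + r) MK.Pts) (H : Rel ML MK) (X : Lft ML.Pts R)

/-- the relative slice satisfies 201's `RS` -/
theorem rs_rsl : Brg_201.RS H X.c (rsl S (prj H) X) pr where
  ha := rfl
  cont := cont_pr
  fib x := f_pr x
  crd x i := by
    rw [tl_eq, fx_spR]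
    rfl
  inj x x' h1 h2 := ext' h2 h1
  surj t ht w hw := ⟨mk w t ht hw, rfl, rfl⟩

end Crest.Agent.R276.Rs_185
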