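import Crest.Agent.R276.RzExt_358
import Crest.Agent.R276.GeoOne_519

/-!
# Row 276 (S0419): RZ-EXT on 425's/519's spaces (helper358)

`rext`: a realisation on the open part `{g ≠ 0}` of a fibred space extends to the whole space;
`exists_rz_full`, `exists_rz_one_full`: the output of 519's `exists_rz`, `exists_rz_one` on the whole
root covers.
-/

set_option autoImplicit false
set_option linter.unusedSectionVars false

noncomputable section

open Set Filter Topology MeasureTheory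
open Crest.Agent.R271.Ho51 Crest.Agent.R276.Ipc735 Crest.Agent.R276.Top8_815
open Crest.Agent.R276.Tow2_244 Crest.Agent.R276.Tow4_244 Crest.Agent.R276.Iter_840
open Crest.Agent.R276.IpcModel_244 Crest.Agent.R276.IpcRel_244 Crest.Agent.R276.Mod1_987
open Crest.Agent.R271.Rd692 Crest.Agent.R276.IpcRMdl_244
open Crest.Agent.R276.Geo2_519 Crest.Agent.R276.Cov_425 Crest.Agent.R276.Geo4_519
open scoped ENNReal

namespace Crest.Agent.R276.RzExt_358

section gen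

variable {m d N w : ℕ} {S Y : Type*} [TopologicalSpace S] [RDom m S] [TopologicalSpace Y]

/-- `{g ≠ 0}` in a fibred space -/
theorem sub_gv (F : FSp m d S Y) (g : MvPolynomial (Fin (m + d)) ℂ)
    (hg : ∀ u : S, ∃ τ, MvPolynomial.eval (Fin.append (cp u) τ) g ≠ 0) :
    Sub F (sub F (isOpen_gv F g)) g (Subtype.val : {y | gv F g y ≠ 0} → Y) where
  hg := hg
  hj := (isOpen_gv F g).isOpenEmbedding_subtypeVal
  hq _ := rfl
  ht _ := rfl
  hr := Subtype.range_val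

/-- **realisation extension** -/
theorem rext (F : FSp m d S Y) (g : MvPolynomial (Fin (m + d)) ℂ)
    (hg : ∀ u : S, ∃ τ, MvPolynomial.eval (Fin.append (cp u) τ) g ≠ 0) {V : VHS m S N w}
    {ι₀ : S → (Fin N → ℂ) → {y | gv F g y ≠ 0} → ℂ} (hR : Rz V (sub F (isOpen_gv F g)) ι₀) :
    ∃ ι : S → (Fin N → ℂ) → Y → ℂ, Rz V F ι ∧
      ∀ u v, Top8_815.IsTop w (V.E u) v → ∀ y : {y | gv F g y ≠ 0}, F.q y.1 = u →
        ι u v y.1 = ι₀ u v y := by
  have h := sub_gv F g hg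
  exact ⟨_, h.rz hR, fun u v hv y hy => h.ext_j (hR.hol u v hv) hy⟩

end gen

section rel

variable {L K : Type} [Field L] [Field K] [Algebra ℂ L] [Algebra ℂ K] [Algebra L K]
  [IsScalarTower ℂ L K] {m r : ℕ}

/-- 519's `exists_rz` on the whole root cover of the fibre power -/
theorem exists_rz_full (hO : OneStep) (hR : StepRz) (hA : StepRzAct) (R : RMdl L K m r) {s : ℕ}
    (σ : Fin s → R.MK.B) {N : ℕ} (hN : N ≠ 0) (w₀ : R.ML.Pts)
    (hconn : ∀ w, R.ML.pz w = R.ML.pz w₀ → ConnectedSpace (R.Fib w))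
    (hind : ∀ w, R.ML.pz w = R.ML.pz w₀ → ∀ v : Fin s → ℂ, v ≠ 0 →
      ∃ y : R.Fib w, ∑ i, v i * (y.val) (σ i) ≠ 0) :
    ∃ p : MvPolynomial (Fin m) ℂ, p ≠ 0 ∧
      ∀ (S : Type) [TopologicalSpace S] [T2Space S] [SecondCountableTopology S]
        [PreconnectedSpace S] [RDom m S] (ρ : S → R.ML.Pts) (hρ : Continuous ρ)
        (_ : ∀ u, R.ML.pz (ρ u) = cp u) (_ : ∀ u : S, MvPolynomial.eval (cp u) p ≠ 0),
        ∃ (N' : ℕ) (W : VHS m S N' (s * r)) (ι : S → (Fin N' → ℂ) → _ → ℂ),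
          Rz W (FR R σ hρ hN) ι := by
  obtain ⟨p, g, hp, hg, h⟩ := exists_rz hO hR hA R σ hN w₀ hconn hind
  refine ⟨p, hp, fun S _ _ _ _ _ ρ hρ hcp hps => ?_⟩
  obtain ⟨N', W, ι, hι⟩ := h S ρ hρ hcp hps
  obtain ⟨ι', hι', -⟩ := rext (FR R σ hρ hN) g (fun u => hg _ (hps u)) hι
  exact ⟨N', W, ι', hι'⟩

/-- 519's `exists_rz_one` on the whole root cover -/
theorem exists_rz_one_full (hO : OneStep) (hR : StepRz) (hA : StepRzAct) (R : RMdl L K m r)
    (δ : R.MK.B) (hδ : δ ≠ 0) {N : ℕ} (hN : N ≠ 0) :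
    ∃ p : MvPolynomial (Fin m) ℂ, p ≠ 0 ∧
      ∀ (S : Type) [TopologicalSpace S] [T2Space S] [SecondCountableTopology S]
        [PreconnectedSpace S] [RDom m S] (ρ : S → R.ML.Pts) (hρ : Continuous ρ)
        (_ : ∀ u, R.ML.pz (ρ u) = cp u) (_ : ∀ u : S, MvPolynomial.eval (cp u) p ≠ 0),
        ∃ (N' : ℕ) (W : VHS m S N' r) (ι : S → (Fin N' → ℂ) → _ → ℂ),
          Rz W (GeoOne_519.FR1 R δ hρ hN) ι := by
  obtain ⟨p, g, hp, hg, h⟩ := GeoOne_519.exists_rz_one hO hR hA R δ hδ hN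
  refine ⟨p, hp, fun S _ _ _ _ _ ρ hρ hcp hps => ?_⟩
  obtain ⟨N', W, ι, hι⟩ := h S ρ hρ hcp hps
  obtain ⟨ι', hι', -⟩ := rext (GeoOne_519.FR1 R δ hρ hN) g (fun u => hg _ (hps u)) hι
  exact ⟨N', W, ι', hι'⟩

end rel

end Crest.Agent.R276.RzExt_358
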