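import Mathlib

/-!
# R276, leaf SS (helper720): semisimplicity, algebra part

`G` is a set of rational matrices (the monodromy), `H` a positive definite Hermitian matrix,
`A` the complex commutant of `G`.  If `A` is closed under the `H`-adjoint and every rational
`G`-stable subspace has a (complex) `G`-equivariant projector, then for every complex `G`-stable
subspace `W` there is a rational idempotent `ε`, commuting with `G` and with `A`, equal to one on
`W`, such that every `b` in the rational span of `G` which is zero (scalar) on `W` satisfies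
`b ε = 0` (`b ε` commutes with `G`).
-/

set_option autoImplicit false

open Matrix
open scoped ComplexOrder

namespace Crest.Agent.R276.SSAlg_720

section basic

variable {ι κ μ : Type*}

/-- rational matrix as a complex matrix -/
def qc (a : Matrix ι κ ℚ) : Matrix ι κ ℂ := a.map (fun q : ℚ => (q : ℂ))

/-- rational vector as a complex vector -/
def qv (v : ι → ℚ) : ι → ℂ := fun i => (v i : ℂ)

@[simp] theorem qc_apply (a : Matrix ι κ ℚ) (i : ι) (k : κ) : qc a i k = (a i k : ℂ) := rfl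

@[simp] theorem qv_apply (v : ι → ℚ) (i : ι) : qv v i = (v i : ℂ) := rfl

theorem qc_injective : Function.Injective (qc : Matrix ι κ ℚ → Matrix ι κ ℂ) := by
  intro a b h
  ext i k
  have := congrFun (congrFun h i) k
  simpa using this

theorem qc_add (a b : Matrix ι κ ℚ) : qc (a + b) = qc a + qc b := by
  ext i k; simp

theorem qc_sub (a b : Matrix ι κ ℚ) : qc (a - b) = qc a - qc b := by
  ext i k; simp

@[simp] theorem qc_zero : qc (0 : Matrix ι κ ℚ) = 0 := by
  ext i k; simp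

theorem qc_smul (q : ℚ) (a : Matrix ι κ ℚ) : qc (q • a) = (q : ℂ) • qc a := by
  ext i k; simp

@[simp] theorem qc_one [DecidableEq ι] : qc (1 : Matrix ι ι ℚ) = 1 := by
  ext i k
  by_cases h : i = k
  · subst h; simp
  · simp [h]

theorem qc_mul [Fintype κ] (a : Matrix ι κ ℚ) (b : Matrix κ μ ℚ) : qc (a * b) = qc a * qc b := by
  ext i k
  simp [Matrix.mul_apply]

theorem qc_mulVec [Fintype κ] (a : Matrix ι κ ℚ) (v : κ → ℚ) : qv (a *ᵥ v) = qc a *ᵥ qv v := by
  ext i
  simp [Matrix.mulVec, dotProduct]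

/-- a complex matrix in terms of rational matrices -/
theorem decomp [Finite ι] [Finite κ] (a : Matrix ι κ ℂ) :
    ∃ (n : ℕ) (c : Fin n → ℂ) (b : Fin n → Matrix ι κ ℚ), LinearIndependent ℚ c ∧
      a = ∑ j, c j • qc (b j) := by
  classical
  set S : Submodule ℚ ℂ := Submodule.span ℚ (Set.range fun p : ι × κ => a p.1 p.2) with hS
  have : FiniteDimensional ℚ S :=
    FiniteDimensional.span_of_finite ℚ (Set.finite_range _)
  have hm : ∀ i k, a i k ∈ S := fun i k => Submodule.subset_span ⟨(i, k), rfl⟩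
  let B := Module.finBasis ℚ S
  refine ⟨Module.finrank ℚ S, fun j => (B j : ℂ), fun j i k => B.repr ⟨a i k, hm i k⟩ j, ?_, ?_⟩
  · have := B.linearIndependent
    exact this.map' S.subtype (Submodule.ker_subtype S)
  · ext i k
    have h := B.sum_repr ⟨a i k, hm i k⟩
    have h2 := congrArg (fun x : S => (x : ℂ)) h
    simp only [Submodule.coe_sum, Submodule.coe_smul] at h2
    rw [← h2, Matrix.sum_apply]
    refine Finset.sum_congr rfl fun j _ => ?_
    simp only [Matrix.smul_apply, smul_eq_mul]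
    rw [Algebra.smul_def, mul_comm]
    rfl

theorem indep_zero {n : ℕ} {c : Fin n → ℂ} (hc : LinearIndependent ℚ c)
    {b : Fin n → Matrix ι κ ℚ} (h : ∑ j, c j • qc (b j) = 0) (j : Fin n) : b j = 0 := by
  ext i k
  have h1 := congrFun (congrFun h i) k
  rw [Matrix.sum_apply] at h1
  rw [Fintype.linearIndependent_iff] at hc
  refine hc (fun j => b j i k) ?_ j
  refine Eq.trans (Finset.sum_congr rfl fun j _ => ?_) h1
  simp only [Matrix.smul_apply, qc_apply, smul_eq_mul]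
  rw [Algebra.smul_def, mul_comm]
  rfl

/-- a rational linear form on `ℂ` with value `1` at `1` -/
theorem exists_phi : ∃ φ : ℂ →ₗ[ℚ] ℚ, φ 1 = 1 := by
  obtain ⟨g, hg⟩ := LinearMap.exists_leftInverse_of_injective (Algebra.linearMap ℚ ℂ)
    (LinearMap.ker_eq_bot.mpr (algebraMap ℚ ℂ).injective)
  refine ⟨g, ?_⟩
  have := LinearMap.congr_fun hg 1
  simpa using this

end basic

section adj

open scoped MatrixOrder Matrix.Norms.L2Operator in
theorem psd_factor {ι : Type*} [Fintype ι] [DecidableEq ι] {A : Matrix ι ι ℂ}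
    (hA : A.PosSemidef) : ∃ B : Matrix ι ι ℂ, A = Bᴴ * B := by
  obtain ⟨B, hB⟩ := CStarAlgebra.nonneg_iff_eq_star_mul_self.mp hA.nonneg
  exact ⟨B, hB⟩

variable {ι : Type*} [Fintype ι] [DecidableEq ι]

/-- the adjoint with respect to `H` -/
noncomputable def adj (H a : Matrix ι ι ℂ) : Matrix ι ι ℂ := H⁻¹ * aᴴ * H

variable {H : Matrix ι ι ℂ} (hH : H.PosDef)

include hH

theorem inv_mul' : H⁻¹ * H = 1 := Matrix.nonsing_inv_mul _ ((Matrix.isUnit_iff_isUnit_det _).mp hH.isUnit)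

theorem mul_inv' : H * H⁻¹ = 1 := Matrix.mul_nonsing_inv _ ((Matrix.isUnit_iff_isUnit_det _).mp hH.isUnit)

theorem H_adj (a : Matrix ι ι ℂ) : H * adj H a = aᴴ * H := by
  unfold adj
  rw [← mul_assoc, ← mul_assoc, mul_inv' hH, one_mul]

theorem adj_mul (a b : Matrix ι ι ℂ) : adj H (a * b) = adj H b * adj H a := by
  unfold adj
  rw [conjTranspose_mul]
  have := mul_inv' hH
  calc H⁻¹ * (bᴴ * aᴴ) * H = H⁻¹ * bᴴ * 1 * aᴴ * H := by noncomm_ring
    _ = H⁻¹ * bᴴ * (H * H⁻¹) * aᴴ * H := by rw [this]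
    _ = _ := by noncomm_ring

theorem adj_adj (a : Matrix ι ι ℂ) : adj H (adj H a) = a := by
  have h1 : H⁻¹ᴴ = H⁻¹ := by rw [conjTranspose_nonsing_inv, hH.isHermitian.eq]
  unfold adj
  rw [conjTranspose_mul, conjTranspose_mul, conjTranspose_conjTranspose, h1, hH.isHermitian.eq]
  calc H⁻¹ * (H * (a * H⁻¹)) * H = (H⁻¹ * H) * a * (H⁻¹ * H) := by noncomm_ring
    _ = a := by rw [inv_mul' hH]; simp

omit hH in
theorem adj_zero : adj H (0 : Matrix ι ι ℂ) = 0 := by simp [adj]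

omit hH in
theorem adj_add (a b : Matrix ι ι ℂ) : adj H (a + b) = adj H a + adj H b := by
  simp [adj, mul_add, add_mul]

omit hH in
theorem adj_sub (a b : Matrix ι ι ℂ) : adj H (a - b) = adj H a - adj H b := by
  simp [adj, mul_sub, sub_mul]

/-- `a* a = 0` implies `a = 0` -/
theorem eq_zero_of_adj_mul (a : Matrix ι ι ℂ) (h : adj H a * a = 0) : a = 0 := by
  have h1 : aᴴ * H * a = 0 := by
    have := congrArg (fun x => H * x) h
    simp only [mul_zero, ← mul_assoc, H_adj hH] at this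
    exact this
  ext i k
  have hv : ∀ v : ι → ℂ, a *ᵥ v = 0 := by
    intro v
    by_contra hne
    have h2 := hH.dotProduct_mulVec_pos hne
    have h3 : star (a *ᵥ v) ⬝ᵥ (H *ᵥ (a *ᵥ v)) = star v ⬝ᵥ ((aᴴ * H * a) *ᵥ v) := by
      rw [Matrix.star_mulVec, ← Matrix.dotProduct_mulVec, Matrix.mulVec_mulVec,
        Matrix.mulVec_mulVec, mul_assoc]
    rw [h3, h1] at h2
    simp at h2
  have := congrFun (hv (Pi.single k 1)) i
  simpa [Matrix.mulVec_single] using this

/-- existence of the `H`-orthogonal projector -/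
theorem exists_proj (W : Submodule ℂ (ι → ℂ)) : ∃ p : Matrix ι ι ℂ, adj H p = p ∧
    (∀ v, p *ᵥ v ∈ W) ∧ ∀ v ∈ W, p *ᵥ v = v := by
  classical
  let b := Module.finBasis ℂ W
  set k := Module.finrank ℂ W
  let B : Matrix ι (Fin k) ℂ := Matrix.of fun i j => (b j : ι → ℂ) i
  have hB : ∀ x : Fin k → ℂ, B *ᵥ x = ((∑ j, x j • b j : W) : ι → ℂ) := by
    intro x
    ext i
    simp [B, Matrix.mulVec, dotProduct, Finset.sum_apply, mul_comm]
  have hinj : ∀ x : Fin k → ℂ, B *ᵥ x = 0 → x = 0 := by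
    intro x hx
    rw [hB] at hx
    have h1 : (∑ j, x j • b j : W) = 0 := Subtype.ext hx
    have := Fintype.linearIndependent_iff.mp b.linearIndependent x h1
    exact funext this
  have hG : (Bᴴ * H * B).PosDef := by
    refine Matrix.PosDef.of_dotProduct_mulVec_pos ?_ ?_
    · rw [Matrix.IsHermitian, conjTranspose_mul, conjTranspose_mul, conjTranspose_conjTranspose,
        hH.isHermitian.eq, Matrix.mul_assoc]
    · intro x hx
      have hne : B *ᵥ x ≠ 0 := fun h => hx (hinj x h)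
      have h2 := hH.dotProduct_mulVec_pos hne
      have h3 : star (B *ᵥ x) ⬝ᵥ (H *ᵥ (B *ᵥ x)) = star x ⬝ᵥ ((Bᴴ * H * B) *ᵥ x) := by
        rw [Matrix.star_mulVec, ← Matrix.dotProduct_mulVec, Matrix.mulVec_mulVec,
          Matrix.mulVec_mulVec, Matrix.mul_assoc]
      rwa [h3] at h2
  set Gm := Bᴴ * H * B with hGm
  have hGi : Gm⁻¹ * Gm = 1 :=
    Matrix.nonsing_inv_mul _ ((Matrix.isUnit_iff_isUnit_det _).mp hG.isUnit)
  refine ⟨B * Gm⁻¹ * Bᴴ * H, ?_, ?_, ?_⟩
  · unfold adj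
    have h1 : Gm⁻¹ᴴ = Gm⁻¹ := by rw [conjTranspose_nonsing_inv, hG.isHermitian.eq]
    rw [conjTranspose_mul, conjTranspose_mul, conjTranspose_mul, conjTranspose_conjTranspose, h1,
      hH.isHermitian.eq]
    calc H⁻¹ * (H * (B * (Gm⁻¹ * Bᴴ))) * H = (H⁻¹ * H) * (B * (Gm⁻¹ * Bᴴ)) * H := by
          simp only [Matrix.mul_assoc]
      _ = _ := by rw [inv_mul' hH, Matrix.one_mul]; simp only [Matrix.mul_assoc]
  · intro v
    have : (B * Gm⁻¹ * Bᴴ * H) *ᵥ v = B *ᵥ ((Gm⁻¹ * Bᴴ * H) *ᵥ v) := by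
      rw [Matrix.mulVec_mulVec]
      simp only [Matrix.mul_assoc]
    rw [this, hB]
    exact (∑ j, ((Gm⁻¹ * Bᴴ * H) *ᵥ v) j • b j : W).2
  · intro v hv
    obtain ⟨x, hx⟩ : ∃ x : Fin k → ℂ, B *ᵥ x = v := by
      refine ⟨fun j => b.repr ⟨v, hv⟩ j, ?_⟩
      rw [hB, b.sum_repr]
    rw [← hx, Matrix.mulVec_mulVec]
    have : B * Gm⁻¹ * Bᴴ * H * B = B := by
      calc B * Gm⁻¹ * Bᴴ * H * B = B * (Gm⁻¹ * (Bᴴ * H * B)) := by simp only [Matrix.mul_assoc]
        _ = B := by rw [← hGm, hGi, Matrix.mul_one]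
    rw [this]

/-- an operator which preserves `W` together with its adjoint commutes with the projector -/
theorem proj_comm {W : Submodule ℂ (ι → ℂ)} {p : Matrix ι ι ℂ} (hp : adj H p = p)
    (h1 : ∀ v, p *ᵥ v ∈ W) (h2 : ∀ v ∈ W, p *ᵥ v = v) {b : Matrix ι ι ℂ}
    (hb : ∀ v ∈ W, b *ᵥ v ∈ W) (hb' : ∀ v ∈ W, adj H b *ᵥ v ∈ W) : b * p = p * b := by
  have key : ∀ c : Matrix ι ι ℂ, (∀ v ∈ W, c *ᵥ v ∈ W) → p * c * p = c * p := by
    intro c hc
    refine Matrix.toLin'.injective (LinearMap.ext fun v => ?_)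
    simp only [Matrix.toLin'_apply, ← Matrix.mulVec_mulVec]
    exact h2 _ (hc _ (h1 _))
  have e1 := key b hb
  have e2 := congrArg (adj H) (key _ hb')
  rw [adj_mul hH, adj_mul hH, adj_mul hH, adj_adj hH, hp] at e2
  rw [← e1, mul_assoc, e2]

end adj

section main

variable {ι : Type*} [Fintype ι] [DecidableEq ι]

/-- `a` commutes with the rational matrices in `G` -/
def Comm (G : Set (Matrix ι ι ℚ)) (a : Matrix ι ι ℂ) : Prop := ∀ g ∈ G, a * qc g = qc g * a

theorem Comm.adjoin {G : Set (Matrix ι ι ℚ)} {a : Matrix ι ι ℂ} (h : Comm G a)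
    {b : Matrix ι ι ℚ} (hb : b ∈ Algebra.adjoin ℚ G) : a * qc b = qc b * a := by
  induction hb using Algebra.adjoin_induction with
  | mem x hx => exact h x hx
  | algebraMap r =>
    rw [Algebra.algebraMap_eq_smul_one, qc_smul, qc_one]
    simp
  | add x y _ _ hx hy => rw [qc_add, mul_add, add_mul, hx, hy]
  | mul x y _ _ hx hy => rw [qc_mul, ← mul_assoc, hx, mul_assoc, hy, mul_assoc]

omit [DecidableEq ι] in
theorem Comm.mul {G : Set (Matrix ι ι ℚ)} {a b : Matrix ι ι ℂ} (ha : Comm G a) (hb : Comm G b) :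
    Comm G (a * b) := fun g hg => by
  rw [mul_assoc, hb g hg, ← mul_assoc, ha g hg, mul_assoc]

omit [DecidableEq ι] in
/-- the rational projector onto a rational stable subspace -/
theorem exists_rat_proj {G : Set (Matrix ι ι ℚ)}
    (hproj : ∀ R : Submodule ℚ (ι → ℚ), (∀ g ∈ G, ∀ v ∈ R, g *ᵥ v ∈ R) →
      ∃ a : Matrix ι ι ℂ, Comm G a ∧ (∀ v ∈ R, a *ᵥ qv v = qv v) ∧
        ∀ w, a *ᵥ w ∈ Submodule.span ℂ (qv '' (R : Set (ι → ℚ))))
    (R : Submodule ℚ (ι → ℚ)) (hR : ∀ g ∈ G, ∀ v ∈ R, g *ᵥ v ∈ R) :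
    ∃ p : Matrix ι ι ℚ, (∀ g ∈ G, p * g = g * p) ∧ (∀ v ∈ R, p *ᵥ v = v) ∧ ∀ w, p *ᵥ w ∈ R := by
  obtain ⟨a, ha, h1, h2⟩ := hproj R hR
  obtain ⟨φ, hφ⟩ := exists_phi
  have hφq : ∀ q : ℚ, φ (q : ℂ) = q := by
    intro q
    have : (q : ℂ) = q • (1 : ℂ) := by rw [Algebra.smul_def]; simp
    rw [this, map_smul, hφ]; simp
  have hm : ∀ (z : ℂ) (q : ℚ), φ (z * q) = φ z * q := by
    intro z q
    have : z * (q : ℂ) = q • z := by rw [Algebra.smul_def, mul_comm]; rfl
    rw [this, map_smul, smul_eq_mul, mul_comm]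
  have hm' : ∀ (z : ℂ) (q : ℚ), φ (q * z) = q * φ z := by
    intro z q
    rw [mul_comm, hm, mul_comm]
  have hvec : ∀ w : ι → ℚ, (a.map φ : Matrix ι ι ℚ) *ᵥ w = fun i => φ ((a *ᵥ qv w) i) := by
    intro w
    ext i
    simp [Matrix.mulVec, dotProduct, hm]
  refine ⟨a.map φ, ?_, ?_, ?_⟩
  · intro g hg
    ext i k
    have h3 := congrFun (congrFun (ha g hg) i) k
    simp only [Matrix.mul_apply, qc_apply] at h3
    have h4 := congrArg φ h3
    simp only [map_sum, hm, hm'] at h4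
    simpa [Matrix.mul_apply] using h4
  · intro v hv
    rw [hvec, h1 v hv]
    ext i
    exact hφq _
  · intro w
    rw [hvec]
    have key : ∀ x ∈ Submodule.span ℂ (qv '' (R : Set (ι → ℚ))), (fun i => φ (x i)) ∈ R := by
      intro x hx
      have : ∀ x ∈ Submodule.span ℂ (qv '' (R : Set (ι → ℚ))), ∀ z : ℂ,
          (fun i => φ (z * x i)) ∈ R := by
        intro x hx
        induction hx using Submodule.span_induction with
        | mem x hx =>
          obtain ⟨r, hr, rfl⟩ := hx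
          intro z
          have : (fun i => φ (z * qv r i)) = φ z • r := by
            ext i
            simp [hm]
          rw [this]
          exact R.smul_mem _ hr
        | zero =>
          intro z
          have : (fun i : ι => φ (z * (0 : ι → ℂ) i)) = 0 := by ext i; simp
          rw [this]; exact R.zero_mem
        | add x y _ _ hx hy =>
          intro z
          have : (fun i => φ (z * (x + y) i)) = (fun i => φ (z * x i)) + fun i => φ (z * y i) := by
            ext i; simp [mul_add]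
          rw [this]; exact R.add_mem (hx z) (hy z)
        | smul c x _ hx =>
          intro z
          have : (fun i => φ (z * (c • x) i)) = fun i => φ ((z * c) * x i) := by
            ext i; simp [mul_assoc]
          rw [this]; exact hx _
      have h5 := this x hx 1
      simpa using h5
    exact key _ (h2 _)

/-- double commutant over the rationals (Jacobson density) -/
theorem mem_adjoin {G : Set (Matrix ι ι ℚ)}
    (hrat : ∀ R : Submodule ℚ (ι → ℚ), (∀ g ∈ G, ∀ v ∈ R, g *ᵥ v ∈ R) →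
      ∃ p : Matrix ι ι ℚ, (∀ g ∈ G, p * g = g * p) ∧ (∀ v ∈ R, p *ᵥ v = v) ∧ ∀ w, p *ᵥ w ∈ R)
    (b : Matrix ι ι ℚ) (hb : ∀ a : Matrix ι ι ℚ, (∀ g ∈ G, a * g = g * a) → a * b = b * a) :
    b ∈ Algebra.adjoin ℚ G := by
  classical
  set 𝓑 := Algebra.adjoin ℚ G with h𝓑
  let ρ : 𝓑 →+* Module.End ℚ (ι → ℚ) :=
    ((Matrix.toLinAlgEquiv' (R := ℚ) (n := ι)).toAlgHom.comp 𝓑.val).toRingHom
  let _ : Module 𝓑 (ι → ℚ) := Module.compHom (ι → ℚ) ρ
  have hsm : ∀ (r : 𝓑) (v : ι → ℚ), r • v = (r : Matrix ι ι ℚ) *ᵥ v := fun r v => rfl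
  have hq : ∀ (q : ℚ) (v : ι → ℚ), (algebraMap ℚ 𝓑 q) • v = q • v := by
    intro q v
    rw [hsm, Subalgebra.coe_algebraMap, Algebra.algebraMap_eq_smul_one, Matrix.smul_mulVec,
      Matrix.one_mulVec]
  -- equivariant maps are rational matrices commuting with `G`
  have hcomm : ∀ p : Matrix ι ι ℚ, (∀ g ∈ G, p * g = g * p) → ∀ x ∈ 𝓑, p * x = x * p := by
    intro p hp x hx
    induction hx using Algebra.adjoin_induction with
    | mem x hx => exact hp x hx
    | algebraMap r => exact (Algebra.commutes r p).symm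
    | add x y _ _ hx hy => rw [mul_add, add_mul, hx, hy]
    | mul x y _ _ hx hy => rw [← mul_assoc, hx, mul_assoc, hy, mul_assoc]
  have : IsSemisimpleModule 𝓑 (ι → ℚ) := by
    refine (isSemisimpleModule_iff 𝓑 (ι → ℚ)).mpr ⟨fun R => ?_⟩
    let Rq : Submodule ℚ (ι → ℚ) :=
      { carrier := R
        add_mem' := fun ha hb => R.add_mem ha hb
        zero_mem' := R.zero_mem
        smul_mem' := fun q v hv => by
          rw [← hq q v]
          exact R.smul_mem _ hv }
    have hRq : ∀ g ∈ G, ∀ v ∈ Rq, g *ᵥ v ∈ Rq := fun g hg v hv =>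
      R.smul_mem (⟨g, Algebra.subset_adjoin hg⟩ : 𝓑) hv
    obtain ⟨p, hp1, hp2, hp3⟩ := hrat Rq hRq
    let f : (ι → ℚ) →ₗ[𝓑] R :=
      { toFun := fun v => ⟨p *ᵥ v, hp3 v⟩
        map_add' := fun v w => Subtype.ext (Matrix.mulVec_add _ _ _)
        map_smul' := fun r v => Subtype.ext (by
          show p *ᵥ ((r : Matrix ι ι ℚ) *ᵥ v) = (r : Matrix ι ι ℚ) *ᵥ (p *ᵥ v)
          rw [Matrix.mulVec_mulVec, Matrix.mulVec_mulVec, hcomm p hp1 r r.2]) }
    refine ⟨LinearMap.ker f, LinearMap.isCompl_of_proj fun x => ?_⟩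
    exact Subtype.ext (hp2 x x.2)
  let f : Module.End (Module.End 𝓑 (ι → ℚ)) (ι → ℚ) :=
    { toFun := fun v => b *ᵥ v
      map_add' := fun v w => Matrix.mulVec_add _ _ _
      map_smul' := fun φ v => by
        let φq : (ι → ℚ) →ₗ[ℚ] (ι → ℚ) :=
          { toFun := φ
            map_add' := φ.map_add
            map_smul' := fun q v => by
              have h0 := φ.map_smul (algebraMap ℚ 𝓑 q) v
              exact (congrArg φ (hq q v)).symm.trans (h0.trans (hq q (φ v))) }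
        let a := LinearMap.toMatrix' φq
        have ha : ∀ v, a *ᵥ v = φ v := fun v => by
          have := LinearMap.toMatrix'_mulVec φq v
          exact this
        have hac : ∀ g ∈ G, a * g = g * a := by
          intro g hg
          refine Matrix.toLin'.injective (LinearMap.ext fun v => ?_)
          simp only [Matrix.toLin'_apply, ← Matrix.mulVec_mulVec, ha]
          exact φ.map_smul (⟨g, Algebra.subset_adjoin hg⟩ : 𝓑) v
        have h6 := hb a hac
        show b *ᵥ (φ v) = φ (b *ᵥ v)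
        rw [← ha, ← ha, Matrix.mulVec_mulVec, Matrix.mulVec_mulVec, h6] }
  obtain ⟨r, hr⟩ := jacobson_density f (Finset.univ.image fun i : ι => (Pi.single i 1 : ι → ℚ))
  have : b = r := by
    ext i k
    have h7 := hr (Pi.single k 1) (Finset.mem_image_of_mem _ (Finset.mem_univ _))
    have h8 := congrFun h7 i
    have h9 : (b *ᵥ Pi.single k 1) i = ((r : Matrix ι ι ℚ) *ᵥ Pi.single k 1) i := h8
    simpa [Matrix.mulVec_single] using h9
  rw [this]
  exact r.2

/-- rational commutation from complex commutation, coordinate by coordinate -/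
theorem comm_coord {n : ℕ} {c : Fin n → ℂ} (hc : LinearIndependent ℚ c)
    {b : Fin n → Matrix ι ι ℚ} (g : Matrix ι ι ℚ)
    (h : (∑ j, c j • qc (b j)) * qc g = qc g * ∑ j, c j • qc (b j)) (j : Fin n) :
    b j * g = g * b j := by
  have h1 : ∑ j, c j • qc (b j * g - g * b j) = 0 := by
    rw [Finset.sum_mul, Finset.mul_sum] at h
    rw [← sub_eq_zero, ← Finset.sum_sub_distrib] at h
    refine Eq.trans (Finset.sum_congr rfl fun j _ => ?_) h
    rw [qc_sub, qc_mul, qc_mul, smul_sub, smul_mul_assoc, mul_smul_comm]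
  exact sub_eq_zero.mp (indep_zero hc h1 j)

/-- complex double commutant -/
theorem span_of_comm {G : Set (Matrix ι ι ℚ)}
    (hdc : ∀ b : Matrix ι ι ℚ, (∀ a : Matrix ι ι ℚ, (∀ g ∈ G, a * g = g * a) → a * b = b * a) →
      b ∈ Algebra.adjoin ℚ G)
    {b : Matrix ι ι ℂ} (hb : ∀ a : Matrix ι ι ℚ, (∀ g ∈ G, a * g = g * a) → b * qc a = qc a * b) :
    ∃ (n : ℕ) (c : Fin n → ℂ) (B : Fin n → Matrix ι ι ℚ), LinearIndependent ℚ c ∧
      (∀ j, B j ∈ Algebra.adjoin ℚ G) ∧ b = ∑ j, c j • qc (B j) := by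
  obtain ⟨n, c, B, hc, rfl⟩ := decomp b
  exact ⟨n, c, B, hc, fun j => hdc _ fun a ha => (comm_coord hc a (hb a ha) j).symm, rfl⟩

theorem stable_adjoin {G : Set (Matrix ι ι ℚ)} {W : Submodule ℂ (ι → ℂ)}
    (hW : ∀ g ∈ G, ∀ w ∈ W, qc g *ᵥ w ∈ W) {b : Matrix ι ι ℚ} (hb : b ∈ Algebra.adjoin ℚ G) :
    ∀ w ∈ W, qc b *ᵥ w ∈ W := by
  induction hb using Algebra.adjoin_induction with
  | mem x hx => exact hW x hx
  | algebraMap r =>
    intro w hw
    rw [Algebra.algebraMap_eq_smul_one, qc_smul, qc_one, Matrix.smul_mulVec, Matrix.one_mulVec]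
    exact W.smul_mem _ hw
  | add x y _ _ hx hy =>
    intro w hw
    rw [qc_add, Matrix.add_mulVec]
    exact W.add_mem (hx w hw) (hy w hw)
  | mul x y _ _ hx hy =>
    intro w hw
    rw [qc_mul, ← Matrix.mulVec_mulVec]
    exact hx _ (hy w hw)

theorem stable_comb {G : Set (Matrix ι ι ℚ)} {W : Submodule ℂ (ι → ℂ)}
    (hW : ∀ g ∈ G, ∀ w ∈ W, qc g *ᵥ w ∈ W) {n : ℕ} {c : Fin n → ℂ} {B : Fin n → Matrix ι ι ℚ}
    (hB : ∀ j, B j ∈ Algebra.adjoin ℚ G) :
    ∀ w ∈ W, (∑ j, c j • qc (B j)) *ᵥ w ∈ W := by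
  intro w hw
  rw [Matrix.sum_mulVec]
  refine W.sum_mem fun j _ => ?_
  rw [Matrix.smul_mulVec]
  exact W.smul_mem _ (stable_adjoin hW (hB j) w hw)

/-- **Main algebraic theorem.** -/
theorem main {H : Matrix ι ι ℂ} (hH : H.PosDef) {G : Set (Matrix ι ι ℚ)}
    (hadj : ∀ a, Comm G a → Comm G (adj H a))
    (hproj : ∀ R : Submodule ℚ (ι → ℚ), (∀ g ∈ G, ∀ v ∈ R, g *ᵥ v ∈ R) →
      ∃ a : Matrix ι ι ℂ, Comm G a ∧ (∀ v ∈ R, a *ᵥ qv v = qv v) ∧
        ∀ w, a *ᵥ w ∈ Submodule.span ℂ (qv '' (R : Set (ι → ℚ))))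
    (W : Submodule ℂ (ι → ℂ)) (hW : ∀ g ∈ G, ∀ w ∈ W, qc g *ᵥ w ∈ W) :
    (∃ p : Matrix ι ι ℂ, Comm G p ∧ adj H p = p ∧ (∀ v, p *ᵥ v ∈ W) ∧ ∀ v ∈ W, p *ᵥ v = v) ∧
    ∃ ε : Matrix ι ι ℚ, ε * ε = ε ∧ (∀ g ∈ G, ε * g = g * ε) ∧
      (∀ a, Comm G a → a * qc ε = qc ε * a) ∧ ε ∈ Algebra.adjoin ℚ G ∧ adj H (qc ε) = qc ε ∧
      (∀ w ∈ W, qc ε *ᵥ w = w) ∧
      (∀ b ∈ Algebra.adjoin ℚ G, (∀ w ∈ W, qc b *ᵥ w = 0) → b * ε = 0) ∧
      (∀ b ∈ Algebra.adjoin ℚ G, ∀ ζ : ℂ, (∀ w ∈ W, qc b *ᵥ w = ζ • w) →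
        ∀ g ∈ G, (b * ε) * g = g * (b * ε)) := by
  classical
  have hrat := exists_rat_proj hproj
  have hdc := mem_adjoin hrat
  have hspan := fun {b : Matrix ι ι ℂ} => span_of_comm (b := b) hdc
  -- `a` rational commuting with `G`
  have hqG : ∀ a : Matrix ι ι ℚ, (∀ g ∈ G, a * g = g * a) → Comm G (qc a) := by
    intro a ha g hg
    rw [← qc_mul, ← qc_mul, ha g hg]
  -- commutant of the commutant is stable under adjoint
  have hcc : ∀ b : Matrix ι ι ℂ, (∀ a, Comm G a → b * a = a * b) →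
      ∀ a, Comm G a → adj H b * a = a * adj H b := by
    intro b hb a ha
    have h1 := congrArg (adj H) (hb _ (hadj a ha))
    rw [adj_mul hH, adj_mul hH, adj_adj hH] at h1
    exact h1.symm
  -- elements of the span of `G` commute with the commutant
  have hadjoin : ∀ b ∈ Algebra.adjoin ℚ G, ∀ a, Comm G a → qc b * a = a * qc b :=
    fun b hb a ha => (ha.adjoin hb).symm
  -- stability of `G`-stable subspaces under the double commutant
  have hst : ∀ {U : Submodule ℂ (ι → ℂ)}, (∀ g ∈ G, ∀ w ∈ U, qc g *ᵥ w ∈ U) →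
      ∀ b : Matrix ι ι ℂ, (∀ a, Comm G a → b * a = a * b) → ∀ w ∈ U, b *ᵥ w ∈ U := by
    intro U hU b hb
    obtain ⟨n, c, B, -, hB, rfl⟩ := hspan (b := b) fun a ha => hb _ (hqG a ha)
    exact stable_comb hU hB
  -- projectors onto `G`-stable subspaces commute with `G`
  have hpr : ∀ {U : Submodule ℂ (ι → ℂ)}, (∀ g ∈ G, ∀ w ∈ U, qc g *ᵥ w ∈ U) →
      ∃ p : Matrix ι ι ℂ, Comm G p ∧ adj H p = p ∧ (∀ v, p *ᵥ v ∈ U) ∧ ∀ v ∈ U, p *ᵥ v = v := by
    intro U hU
    obtain ⟨p, hp, h1, h2⟩ := exists_proj hH U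
    refine ⟨p, ?_, hp, h1, h2⟩
    intro g hg
    have hb := hadjoin g (Algebra.subset_adjoin hg)
    exact (proj_comm hH hp h1 h2 (hst hU _ hb) (hst hU _ (hcc _ hb))).symm
  refine ⟨hpr hW, ?_⟩
  -- the saturation `X = A W`
  let X : Submodule ℂ (ι → ℂ) :=
    Submodule.span ℂ {v | ∃ a, Comm G a ∧ ∃ w ∈ W, v = a *ᵥ w}
  have hcomm1 : Comm G (1 : Matrix ι ι ℂ) := fun g _ => by simp
  have hWX : W ≤ X := fun w hw => Submodule.subset_span ⟨1, hcomm1, w, hw, by simp⟩
  have hXind : ∀ c : Matrix ι ι ℂ, (∀ a, Comm G a → ∀ w ∈ W, c *ᵥ (a *ᵥ w) ∈ X) →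
      ∀ v ∈ X, c *ᵥ v ∈ X := by
    intro c hc v hv
    induction hv using Submodule.span_induction with
    | mem v hv =>
      obtain ⟨a, ha, w, hw, rfl⟩ := hv
      exact hc a ha w hw
    | zero => simp
    | add x y _ _ hx hy => rw [Matrix.mulVec_add]; exact X.add_mem hx hy
    | smul r x _ hx => rw [Matrix.mulVec_smul]; exact X.smul_mem _ hx
  have hXG : ∀ g ∈ G, ∀ w ∈ X, qc g *ᵥ w ∈ X := by
    intro g hg
    refine hXind _ fun a ha w hw => ?_
    rw [Matrix.mulVec_mulVec, ← ha g hg, ← Matrix.mulVec_mulVec]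
    exact Submodule.subset_span ⟨a, ha, _, hW g hg w hw, rfl⟩
  have hXA : ∀ a, Comm G a → ∀ w ∈ X, a *ᵥ w ∈ X := by
    intro a ha
    refine hXind _ fun a' ha' w hw => ?_
    rw [Matrix.mulVec_mulVec]
    exact Submodule.subset_span ⟨a * a', ha.mul ha', w, hw, rfl⟩
  obtain ⟨p, hpG, hpa, hp1, hp2⟩ := hpr hXG
  have hpA : ∀ a, Comm G a → p * a = a * p := fun a ha =>
    (proj_comm hH hpa hp1 hp2 (hXA a ha) (hXA _ (hadj a ha))).symm
  have hpp : p * p = p := by
    refine Matrix.toLin'.injective (LinearMap.ext fun v => ?_)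
    simp only [Matrix.toLin'_apply, ← Matrix.mulVec_mulVec]
    exact hp2 _ (hp1 _)
  -- rational coordinates of `p`
  obtain ⟨n, c, P, hc, hP, hPsum⟩ := hspan (b := p) fun a ha => hpA _ (hqG a ha)
  have hPG : ∀ j, ∀ g ∈ G, P j * g = g * P j := fun j g hg =>
    comm_coord hc g (by rw [← hPsum]; exact hpG g hg) j
  -- the centre
  let 𝓑 := Algebra.adjoin ℚ G
  let Z := Subalgebra.center ℚ 𝓑
  have hZ : ∀ z : Z, ∀ g ∈ G, ((z : 𝓑) : Matrix ι ι ℚ) * g = g * ((z : 𝓑) : Matrix ι ι ℚ) := by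
    intro z g hg
    have := (Subalgebra.mem_center_iff.mp z.2) ⟨g, Algebra.subset_adjoin hg⟩
    have h2 := congrArg (fun x : 𝓑 => (x : Matrix ι ι ℚ)) this
    simpa using h2.symm
  let PZ : Fin n → Z := fun j => ⟨⟨P j, hP j⟩, by
    rw [Subalgebra.mem_center_iff]
    intro b
    refine Subtype.ext ?_
    have h3 := (hqG (P j) (hPG j)).adjoin b.2
    have h4 : qc (P j * (b : Matrix ι ι ℚ)) = qc ((b : Matrix ι ι ℚ) * P j) := by
      rw [qc_mul, qc_mul, h3]
    exact (qc_injective h4).symm⟩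
  -- the centre is reduced
  have hred : IsReduced Z := by
    rw [isReduced_iff_pow_one_lt 2 one_lt_two]
    intro z hz
    have hz2 : ((z : 𝓑) : Matrix ι ι ℚ) * ((z : 𝓑) : Matrix ι ι ℚ) = 0 := by
      have := congrArg (fun x : Z => ((x : 𝓑) : Matrix ι ι ℚ)) hz
      simpa [pow_two] using this
    set zz := qc ((z : 𝓑) : Matrix ι ι ℚ) with hzz
    have hzc : Comm G zz := hqG _ (hZ z)
    have hz3 : zz * zz = 0 := by rw [hzz, ← qc_mul, hz2, qc_zero]
    have hnorm : zz * adj H zz = adj H zz * zz :=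
      hadjoin _ (z : 𝓑).2 _ (hadj _ hzc)
    have hz4 : zz = 0 := by
      refine eq_zero_of_adj_mul hH _ (eq_zero_of_adj_mul hH _ ?_)
      rw [adj_mul hH, adj_adj hH]
      calc adj H zz * zz * (adj H zz * zz) = adj H zz * (zz * adj H zz) * zz := by noncomm_ring
        _ = adj H zz * adj H zz * (zz * zz) := by rw [hnorm]; noncomm_ring
        _ = 0 := by rw [hz3, mul_zero]
    have hz5 : ((z : 𝓑) : Matrix ι ι ℚ) = 0 := qc_injective (by rw [← hzz, hz4, qc_zero])
    exact Subtype.ext (Subtype.ext hz5)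
  have hfin : Module.Finite ℚ Z := inferInstance
  have hart : IsArtinianRing Z := IsArtinianRing.of_finite ℚ Z
  have hss : IsSemisimpleRing Z := IsArtinianRing.isSemisimpleRing_of_isReduced Z
  obtain ⟨e, he, hI⟩ := IsSemisimpleRing.ideal_eq_span_idempotent (Ideal.span (Set.range PZ))
  set ε : Matrix ι ι ℚ := ((e : 𝓑) : Matrix ι ι ℚ) with hε
  have hεε : ε * ε = ε := by
    have := congrArg (fun x : Z => ((x : 𝓑) : Matrix ι ι ℚ)) he.eq
    simpa using this
  have hεG : ∀ g ∈ G, ε * g = g * ε := hZ e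
  have hεP : ∀ j, ε * P j = P j := by
    intro j
    have h1 : PZ j ∈ Ideal.span {e} := by
      rw [← hI]
      exact Ideal.subset_span ⟨j, rfl⟩
    obtain ⟨x, hx⟩ := Ideal.mem_span_singleton'.mp h1
    have h2 : e * PZ j = PZ j := by
      rw [← hx, mul_comm x e, ← mul_assoc, he.eq]
    have := congrArg (fun x : Z => ((x : 𝓑) : Matrix ι ι ℚ)) h2
    simpa using this
  have hεp : qc ε * p = p := by
    rw [hPsum, Finset.mul_sum]
    refine Finset.sum_congr rfl fun j _ => ?_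
    rw [mul_smul_comm, ← qc_mul, hεP]
  -- `ε` is a combination of the `P j`
  have hεmem : e ∈ Ideal.span (Set.range PZ) := by
    rw [hI]
    exact Ideal.mem_span_singleton_self e
  have hεcomb : ∃ z : Fin n → Z, ε = ∑ j, ((z j : 𝓑) : Matrix ι ι ℚ) * P j := by
    obtain ⟨z, hz⟩ := (Ideal.mem_span_range_iff_exists_fun).mp hεmem
    refine ⟨z, ?_⟩
    have := congrArg (fun x : Z => ((x : 𝓑) : Matrix ι ι ℚ)) hz
    simp only [AddSubmonoidClass.coe_finsetSum, MulMemClass.coe_mul] at this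
    exact this.symm
  obtain ⟨z, hz⟩ := hεcomb
  refine ⟨ε, hεε, hεG, fun a ha => (hadjoin ε (e : 𝓑).2 a ha).symm, (e : 𝓑).2, ?_, ?_, ?_, ?_⟩
  · -- normal idempotents are self-adjoint
    set q := qc ε
    have hq : q * q = q := by rw [← qc_mul, hεε]
    have hqn : q * adj H q = adj H q * q := hadjoin _ (e : 𝓑).2 _ (hadj _ (hqG _ hεG))
    have hq' : adj H q * adj H q = adj H q := by rw [← adj_mul hH, hq]
    have h1 : q - adj H q * q = 0 := by
      refine eq_zero_of_adj_mul hH _ ?_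
      rw [adj_sub, adj_mul hH, adj_adj hH]
      calc (adj H q - adj H q * q) * (q - adj H q * q)
          = adj H q * q - adj H q * (adj H q * q) - adj H q * (q * q)
            + adj H q * (q * adj H q) * q := by noncomm_ring
        _ = 0 := by
            rw [hqn, hq]
            simp only [← mul_assoc, hq']
            rw [mul_assoc, hq]
            abel
    have h2 : q = adj H q * q := sub_eq_zero.mp h1
    have h3 := congrArg (adj H) h2
    rw [adj_mul hH, adj_adj hH, ← h2] at h3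
    exact h3
  · intro w hw
    have : p *ᵥ w = w := hp2 w (hWX hw)
    rw [← this, Matrix.mulVec_mulVec, hεp]
  · intro b hb hbW
    have hbX : qc b * p = 0 := by
      refine Matrix.toLin'.injective (LinearMap.ext fun v => ?_)
      simp only [Matrix.toLin'_apply, ← Matrix.mulVec_mulVec, map_zero, LinearMap.zero_apply]
      have h1 : ∀ v ∈ X, qc b *ᵥ v = 0 := by
        intro v hv
        induction hv using Submodule.span_induction with
        | mem v hv =>
          obtain ⟨a, ha, w, hw, rfl⟩ := hv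
          rw [Matrix.mulVec_mulVec, hadjoin b hb a ha, ← Matrix.mulVec_mulVec, hbW w hw,
            Matrix.mulVec_zero]
        | zero => simp
        | add x y _ _ hx hy => rw [Matrix.mulVec_add, hx, hy, add_zero]
        | smul r x _ hx => rw [Matrix.mulVec_smul, hx, smul_zero]
      exact h1 _ (hp1 v)
    have hbP : ∀ j, b * P j = 0 := by
      refine indep_zero hc ?_
      rw [hPsum, Finset.mul_sum] at hbX
      refine Eq.trans (Finset.sum_congr rfl fun j _ => ?_) hbX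
      rw [mul_smul_comm, ← qc_mul]
    rw [hz, Finset.mul_sum]
    refine Finset.sum_eq_zero fun j _ => ?_
    have h5 : b * ((z j : 𝓑) : Matrix ι ι ℚ) = ((z j : 𝓑) : Matrix ι ι ℚ) * b := by
      have := (Subalgebra.mem_center_iff.mp (z j).2) ⟨b, hb⟩
      have h2 := congrArg (fun x : 𝓑 => (x : Matrix ι ι ℚ)) this
      simpa using h2
    rw [← mul_assoc, h5, mul_assoc, hbP, mul_zero]
  · intro b hb ζ hbW g hg
    have hbX : qc b * p = ζ • p := by
      refine Matrix.toLin'.injective (LinearMap.ext fun v => ?_)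
      simp only [Matrix.toLin'_apply, ← Matrix.mulVec_mulVec, Matrix.smul_mulVec]
      have h1 : ∀ v ∈ X, qc b *ᵥ v = ζ • v := by
        intro v hv
        induction hv using Submodule.span_induction with
        | mem v hv =>
          obtain ⟨a, ha, w, hw, rfl⟩ := hv
          rw [Matrix.mulVec_mulVec, hadjoin b hb a ha, ← Matrix.mulVec_mulVec, hbW w hw,
            Matrix.mulVec_smul]
        | zero => simp
        | add x y _ _ hx hy => rw [Matrix.mulVec_add, hx, hy, smul_add]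
        | smul r x _ hx => rw [Matrix.mulVec_smul, hx, smul_comm]
      exact h1 _ (hp1 v)
    have hbP : ∀ j, (b * P j) * g = g * (b * P j) := by
      refine comm_coord hc g ?_
      have e1 : ∑ j, c j • qc (b * P j) = ζ • p := by
        rw [← hbX, hPsum, Finset.mul_sum]
        refine Finset.sum_congr rfl fun j _ => ?_
        rw [mul_smul_comm, ← qc_mul]
      rw [e1, smul_mul_assoc, mul_smul_comm, hpG g hg]
    rw [hz, Finset.mul_sum, Finset.sum_mul, Finset.mul_sum]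
    refine Finset.sum_congr rfl fun j _ => ?_
    have h5 : b * ((z j : 𝓑) : Matrix ι ι ℚ) = ((z j : 𝓑) : Matrix ι ι ℚ) * b := by
      have := (Subalgebra.mem_center_iff.mp (z j).2) ⟨b, hb⟩
      have h2 := congrArg (fun x : 𝓑 => (x : Matrix ι ι ℚ)) this
      simpa using h2
    calc b * (((z j : 𝓑) : Matrix ι ι ℚ) * P j) * g
        = (b * ((z j : 𝓑) : Matrix ι ι ℚ)) * P j * g := by noncomm_ring
      _ = ((z j : 𝓑) : Matrix ι ι ℚ) * ((b * P j) * g) := by rw [h5]; noncomm_ring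
      _ = (((z j : 𝓑) : Matrix ι ι ℚ) * g) * (b * P j) := by rw [hbP]; noncomm_ring
      _ = g * (((z j : 𝓑) : Matrix ι ι ℚ) * b) * P j := by rw [hZ (z j) g hg]; noncomm_ring
      _ = _ := by rw [← h5]; noncomm_ring

/-- the trace form `tr (a* a)` is definite -/
theorem eq_zero_of_trace {H : Matrix ι ι ℂ} (hH : H.PosDef) (y : Matrix ι ι ℂ)
    (h : (adj H y * y).trace = 0) : y = 0 := by
  obtain ⟨B, hB⟩ := psd_factor hH.inv.posSemidef
  have hBu : IsUnit B.det := by
    have h1 : IsUnit (H⁻¹).det := (Matrix.isUnit_iff_isUnit_det _).mp hH.inv.isUnit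
    rw [hB, Matrix.det_mul] at h1
    exact isUnit_of_mul_isUnit_right h1
  have h2 : ((y * Bᴴ)ᴴ * H * (y * Bᴴ)).trace = 0 := by
    rw [← h]
    unfold adj
    rw [conjTranspose_mul, conjTranspose_conjTranspose]
    calc (B * yᴴ * H * (y * Bᴴ)).trace = ((B * yᴴ * H * y) * Bᴴ).trace := by
          simp only [mul_assoc]
      _ = (Bᴴ * (B * yᴴ * H * y)).trace := Matrix.trace_mul_comm _ _
      _ = ((Bᴴ * B) * yᴴ * H * y).trace := by simp only [mul_assoc]
      _ = _ := by rw [← hB]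
  have hps : ((y * Bᴴ)ᴴ * H * (y * Bᴴ)).PosSemidef :=
    hH.posSemidef.conjTranspose_mul_mul_same (y * Bᴴ)
  have h3 : (y * Bᴴ)ᴴ * H * (y * Bᴴ) = 0 := (Matrix.PosSemidef.trace_eq_zero_iff hps).mp h2
  have h4 : y * Bᴴ = 0 := by
    refine eq_zero_of_adj_mul hH _ ?_
    unfold adj
    rw [mul_assoc, mul_assoc, ← mul_assoc _ H, h3, mul_zero]
  have hBu' : IsUnit (Bᴴ).det := by
    rw [Matrix.det_conjTranspose]
    exact hBu.star
  calc y = y * (Bᴴ * Bᴴ⁻¹) := by rw [Matrix.mul_nonsing_inv _ hBu', mul_one]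
    _ = 0 := by rw [← mul_assoc, h4, zero_mul]

/-- central elements commute with the grading operator -/
theorem commute_E {H : Matrix ι ι ℂ} (hH : H.PosDef) {G : Set (Matrix ι ι ℚ)}
    (hadj : ∀ a, Comm G a → Comm G (adj H a)) {E : Matrix ι ι ℂ}
    (hE : ∀ a, Comm G a → Comm G (E * a - a * E)) {z : Matrix ι ι ℂ} (hz : Comm G z)
    (hzc : ∀ a, Comm G a → a * z = z * a) : E * z = z * E := by
  have hy := hadj _ (hE z hz)
  set y := E * z - z * E with hydef
  have h1 : (adj H y * y).trace = 0 := by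
    have h2 := hzc _ hy
    calc (adj H y * y).trace = (adj H y * E * z).trace - (adj H y * z * E).trace := by
          rw [← Matrix.trace_sub, hydef]
          congr 1
          noncomm_ring
      _ = (z * adj H y * E).trace - (adj H y * z * E).trace := by
          congr 1
          rw [Matrix.trace_mul_comm]
          simp only [mul_assoc]
      _ = 0 := by rw [h2, sub_self]
  exact sub_eq_zero.mp (eq_zero_of_trace hH y h1)

/-- **The hull**: version of `main` with a grading operator. -/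
theorem hull {H : Matrix ι ι ℂ} (hH : H.PosDef) {G : Set (Matrix ι ι ℚ)}
    (hadj : ∀ a, Comm G a → Comm G (adj H a))
    (hproj : ∀ R : Submodule ℚ (ι → ℚ), (∀ g ∈ G, ∀ v ∈ R, g *ᵥ v ∈ R) →
      ∃ a : Matrix ι ι ℂ, Comm G a ∧ (∀ v ∈ R, a *ᵥ qv v = qv v) ∧
        ∀ w, a *ᵥ w ∈ Submodule.span ℂ (qv '' (R : Set (ι → ℚ))))
    {E : Matrix ι ι ℂ} (hE : ∀ a, Comm G a → Comm G (E * a - a * E))
    (W : Submodule ℂ (ι → ℂ)) (hW : ∀ g ∈ G, ∀ w ∈ W, qc g *ᵥ w ∈ W) :
    ∃ ε : Matrix ι ι ℚ, ε * ε = ε ∧ (∀ g ∈ G, ε * g = g * ε) ∧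
      (∀ a, Comm G a → a * qc ε = qc ε * a) ∧ ε ∈ Algebra.adjoin ℚ G ∧ adj H (qc ε) = qc ε ∧
      E * qc ε = qc ε * E ∧
      (∀ w ∈ W, qc ε *ᵥ w = w) ∧
      (∀ b ∈ Algebra.adjoin ℚ G, (∀ w ∈ W, qc b *ᵥ w = 0) → b * ε = 0) ∧
      (∀ b ∈ Algebra.adjoin ℚ G, ∀ ζ : ℂ, (∀ w ∈ W, qc b *ᵥ w = ζ • w) →
        (∀ g ∈ G, (b * ε) * g = g * (b * ε)) ∧ (∀ a, Comm G a → a * qc (b * ε) = qc (b * ε) * a) ∧
        E * qc (b * ε) = qc (b * ε) * E) := by
  obtain ⟨-, ε, h1, h2, h3, h4, h5, h6, h7, h8⟩ := main hH hadj hproj W hW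
  have hcG : Comm G (qc ε) := fun g hg => by rw [← qc_mul, ← qc_mul, h2 g hg]
  refine ⟨ε, h1, h2, h3, h4, h5, commute_E hH hadj hE hcG h3, h6, h7, ?_⟩
  intro b hb ζ hζ
  have h9 := h8 b hb ζ hζ
  have h10 : ∀ a, Comm G a → a * qc (b * ε) = qc (b * ε) * a :=
    fun a ha => ha.adjoin (Subalgebra.mul_mem _ hb h4)
  have h11 : Comm G (qc (b * ε)) := fun g hg => by rw [← qc_mul, ← qc_mul, h9 g hg]
  exact ⟨h9, h10, commute_E hH hadj hE h11 h10⟩

end main

section finite

variable {ι : Type*} [Fintype ι] [DecidableEq ι]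

/-- integral matrix as a rational matrix -/
def zq {κ : Type*} (a : Matrix ι κ ℤ) : Matrix ι κ ℚ := a.map (fun z : ℤ => (z : ℚ))

/-- entries of a matrix with `Xᴴ H X ≤ K` are bounded -/
theorem entry_bound {H : Matrix ι ι ℂ} (hH : H.PosDef) (K : ℝ) :
    ∃ C : ℝ, ∀ v : ι → ℂ, (star v ⬝ᵥ (H *ᵥ v)).re ≤ K → ∀ i, ‖v i‖ ≤ C := by
  obtain ⟨B, hB⟩ := psd_factor hH.posSemidef
  have hBu : IsUnit B.det := by
    have h1 : IsUnit H.det := (Matrix.isUnit_iff_isUnit_det _).mp hH.isUnit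
    rw [hB, Matrix.det_mul] at h1
    exact isUnit_of_mul_isUnit_right h1
  refine ⟨∑ i, ∑ j, ‖B⁻¹ i j‖ * Real.sqrt K, fun v hv i => ?_⟩
  set x := B *ᵥ v with hx
  have h1 : (star v ⬝ᵥ (H *ᵥ v)) = ∑ j, (star (x j) * x j) := by
    rw [hB, ← Matrix.mulVec_mulVec, Matrix.dotProduct_mulVec, ← Matrix.star_mulVec, ← hx]
    rfl
  have h2 : ∑ j, ‖x j‖ ^ 2 ≤ K := by
    rw [h1] at hv
    refine le_trans (le_of_eq ?_) hv
    rw [Complex.re_sum]
    refine Finset.sum_congr rfl fun j _ => ?_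
    have : star (x j) * x j = ((‖x j‖ ^ 2 : ℝ) : ℂ) := by
      rw [← Complex.normSq_eq_norm_sq, Complex.normSq_eq_conj_mul_self]
      rfl
    rw [this, Complex.ofReal_re]
  have h3 : ∀ j, ‖x j‖ ≤ Real.sqrt K := by
    intro j
    refine Real.le_sqrt_of_sq_le (le_trans ?_ h2)
    exact Finset.single_le_sum (f := fun j => ‖x j‖ ^ 2) (fun j _ => by positivity)
      (Finset.mem_univ j)
  have h4 : v = B⁻¹ *ᵥ x := by
    rw [hx, Matrix.mulVec_mulVec, Matrix.nonsing_inv_mul _ hBu, Matrix.one_mulVec]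
  have h5 : ‖v i‖ ≤ ∑ j, ‖B⁻¹ i j‖ * Real.sqrt K := by
    rw [h4]
    refine le_trans (norm_sum_le _ _) (Finset.sum_le_sum fun j _ => ?_)
    rw [norm_mul]
    exact mul_le_mul_of_nonneg_left (h3 j) (norm_nonneg _)
  refine h5.trans ?_
  exact Finset.single_le_sum (f := fun i => ∑ j, ‖B⁻¹ i j‖ * Real.sqrt K)
    (fun i _ => Finset.sum_nonneg fun j _ => by positivity) (Finset.mem_univ i)

/-- integral matrices acting isometrically on the image of a rational matrix `ε` give finitely many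
products `g ε` -/
theorem finite_of_isometric {H : Matrix ι ι ℂ} (hH : H.PosDef) (ε : Matrix ι ι ℚ) :
    Set.Finite {x : Matrix ι ι ℚ | ∃ g : Matrix ι ι ℤ, x = zq g * ε ∧
      (qc x)ᴴ * H * qc x = (qc ε)ᴴ * H * qc ε} := by
  classical
  obtain ⟨C, hC⟩ := entry_bound hH
    (∑ k, (((qc ε)ᴴ * H * qc ε) k k).re)
  have hPS : ((qc ε)ᴴ * H * qc ε).PosSemidef := hH.posSemidef.conjTranspose_mul_mul_same _
  -- common denominator
  obtain ⟨d, hd, hdε⟩ : ∃ d : ℤ, d ≠ 0 ∧ ∀ i k, ∃ z : ℤ, (d : ℚ) * ε i k = z := by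
    refine ⟨∏ i, ∏ k, ((ε i k).den : ℤ), ?_, ?_⟩
    · exact Finset.prod_ne_zero_iff.mpr fun i _ => Finset.prod_ne_zero_iff.mpr fun k _ => by
        exact_mod_cast (ε i k).den_ne_zero
    · intro i k
      have h1 : ((ε i k).den : ℤ) ∣ ∏ i, ∏ k, ((ε i k).den : ℤ) :=
        (Finset.dvd_prod_of_mem (fun k => ((ε i k).den : ℤ)) (Finset.mem_univ k)).trans
          (Finset.dvd_prod_of_mem (fun i => ∏ k, ((ε i k).den : ℤ)) (Finset.mem_univ i))
      obtain ⟨t, ht⟩ := h1
      refine ⟨t * (ε i k).num, ?_⟩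
      rw [ht]
      push_cast
      have h2 : ((ε i k).den : ℚ) ≠ 0 := by exact_mod_cast (ε i k).den_ne_zero
      have h3 : ((ε i k).den : ℚ) * ε i k = (ε i k).num := by
        rw [mul_comm]
        exact Rat.mul_den_eq_num _
      linear_combination (t : ℚ) * h3
  -- the set injects into bounded integral matrices
  have hfin : Set.Finite {m : ι → ι → ℤ | ∀ i, m i ∈ {x : ι → ℤ | ∀ k, x k ∈
      Set.Icc (-⌈|(d : ℝ)| * C⌉) ⌈|(d : ℝ)| * C⌉}} :=
    Set.Finite.pi' fun _ => Set.Finite.pi' fun _ => Set.finite_Icc _ _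
  refine Set.Finite.subset (hfin.image fun m => Matrix.of fun i k => (m i k : ℚ) / d) ?_
  rintro x ⟨g, rfl, hx⟩
  have hden : ∀ i k, ∃ z : ℤ, (d : ℚ) * (zq g * ε) i k = z := by
    intro i k
    choose z hz using hdε
    refine ⟨∑ j, g i j * z j k, ?_⟩
    rw [Matrix.mul_apply, Finset.mul_sum]
    push_cast
    refine Finset.sum_congr rfl fun j _ => ?_
    rw [← hz]
    simp only [zq, Matrix.map_apply]
    ring
  choose m hm using hden
  refine ⟨m, ?_, ?_⟩
  · intro i k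
    have hcol : (star (fun j => qc (zq g * ε) j k) ⬝ᵥ (H *ᵥ fun j => qc (zq g * ε) j k)).re ≤
        ∑ k, (((qc ε)ᴴ * H * qc ε) k k).re := by
      have h1 : star (fun j => qc (zq g * ε) j k) ⬝ᵥ (H *ᵥ fun j => qc (zq g * ε) j k) =
          ((qc (zq g * ε))ᴴ * H * qc (zq g * ε)) k k := by
        rw [Matrix.mul_assoc, Matrix.mul_apply]
        rfl
      rw [h1, hx]
      exact Finset.single_le_sum (f := fun k => (((qc ε)ᴴ * H * qc ε) k k).re)
        (fun k _ => (Complex.nonneg_iff.mp (hPS.diag_nonneg (i := k))).1) (Finset.mem_univ k)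
    have h2 := hC _ hcol i
    have h3 : |((zq g * ε) i k : ℝ)| ≤ C := by
      have : ‖qc (zq g * ε) i k‖ = |((zq g * ε) i k : ℝ)| := by
        rw [qc_apply, ← Complex.ofReal_ratCast, Complex.norm_real, Real.norm_eq_abs]
      rw [← this]
      exact h2
    have h4 : |(m i k : ℝ)| ≤ |(d : ℝ)| * C := by
      have h5 : ((m i k : ℚ) : ℝ) = (d : ℝ) * ((zq g * ε) i k : ℝ) := by
        rw [← hm i k]
        push_cast
        ring
      have h6 : (m i k : ℝ) = (d : ℝ) * ((zq g * ε) i k : ℝ) := by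
        rw [← h5]; push_cast; ring
      rw [h6, abs_mul]
      exact mul_le_mul_of_nonneg_left h3 (abs_nonneg _)
    have h7 := abs_le.mp h4
    constructor
    · have : (-⌈|(d : ℝ)| * C⌉ : ℝ) ≤ m i k := by
        have := Int.le_ceil (|(d : ℝ)| * C)
        linarith [h7.1]
      exact_mod_cast this
    · have : (m i k : ℝ) ≤ ⌈|(d : ℝ)| * C⌉ := h7.2.trans (Int.le_ceil _)
      exact_mod_cast this
  · ext i k
    have hd' : (d : ℚ) ≠ 0 := by exact_mod_cast hd
    simp only [Matrix.of_apply]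
    rw [← hm i k]
    field_simp

omit [Fintype ι] [DecidableEq ι] in
theorem zq_mul {κ μ : Type*} [Fintype κ] (a : Matrix ι κ ℤ) (b : Matrix κ μ ℤ) :
    zq (a * b) = zq a * zq b := by
  ext i k
  simp [zq, Matrix.mul_apply]

/-- an integral matrix which commutes with `ε` and is isometric on its image has finite order there -/
theorem exists_pow {H : Matrix ι ι ℂ} (hH : H.PosDef) {ε : Matrix ι ι ℚ} (hε : ε * ε = ε)
    {g : Matrix ι ι ℤ} (hg : zq g * ε = ε * zq g)
    (hiso : (qc (zq g * ε))ᴴ * H * qc (zq g * ε) = (qc ε)ᴴ * H * qc ε) :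
    ∃ M : ℕ, 0 < M ∧ zq (g ^ M) * ε = ε := by
  classical
  have hz1 : zq (1 : Matrix ι ι ℤ) = 1 := by
    ext i k
    by_cases h : i = k
    · subst h; simp [zq]
    · simp [zq, h]
  have hcomm : ∀ k : ℕ, zq (g ^ k) * ε = ε * zq (g ^ k) := by
    intro k
    induction k with
    | zero => rw [pow_zero, hz1]; simp
    | succ k ih => rw [pow_succ, zq_mul, mul_assoc, hg, ← mul_assoc, ih, mul_assoc]
  have hisok : ∀ k : ℕ, (qc (zq (g ^ k) * ε))ᴴ * H * qc (zq (g ^ k) * ε) =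
      (qc ε)ᴴ * H * qc ε := by
    intro k
    induction k with
    | zero => rw [pow_zero, hz1, one_mul]
    | succ k ih =>
      have e1 : zq (g ^ (k + 1)) * ε = (zq g * ε) * (zq (g ^ k) * ε) := by
        rw [pow_succ', zq_mul, hcomm k]
        rw [mul_assoc, hcomm k, mul_assoc, ← mul_assoc ε ε, hε]
      have e2 : ε * (zq (g ^ k) * ε) = zq (g ^ k) * ε := by
        rw [hcomm k, ← mul_assoc, hε]
      calc (qc (zq (g ^ (k + 1)) * ε))ᴴ * H * qc (zq (g ^ (k + 1)) * ε)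
          = (qc (zq (g ^ k) * ε))ᴴ * ((qc (zq g * ε))ᴴ * H * qc (zq g * ε)) *
              qc (zq (g ^ k) * ε) := by
            rw [e1, qc_mul, conjTranspose_mul]
            noncomm_ring
        _ = (qc (ε * (zq (g ^ k) * ε)))ᴴ * H * qc (ε * (zq (g ^ k) * ε)) := by
            rw [hiso, qc_mul ε (zq (g ^ k) * ε), conjTranspose_mul (qc ε)]
            simp only [mul_assoc]
        _ = _ := by rw [e2, ih]
  have hcancel : ∀ (k : ℕ) (y : Matrix ι ι ℚ), zq (g ^ k) * ε * y = 0 → ε * y = 0 := by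
    intro k y hy
    have h1 : adj H (qc (ε * y)) * qc (ε * y) = 0 := by
      unfold adj
      have h2 : (qc (ε * y))ᴴ * H * qc (ε * y) = 0 := by
        calc (qc (ε * y))ᴴ * H * qc (ε * y) = (qc y)ᴴ * ((qc ε)ᴴ * H * qc ε) * qc y := by
              rw [qc_mul, conjTranspose_mul]; noncomm_ring
          _ = (qc (zq (g ^ k) * ε * y))ᴴ * H * qc (zq (g ^ k) * ε * y) := by
              rw [← hisok k, qc_mul (zq (g ^ k) * ε) y, conjTranspose_mul]
              simp only [mul_assoc]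
          _ = 0 := by rw [hy, qc_zero, mul_zero]
      rw [mul_assoc, mul_assoc, ← mul_assoc _ H, h2, mul_zero]
    exact qc_injective (by rw [eq_zero_of_adj_mul hH _ h1, qc_zero])
  have hfin := finite_of_isometric hH ε
  obtain ⟨k, l, hkl, hx⟩ : ∃ k l : ℕ, k < l ∧ zq (g ^ k) * ε = zq (g ^ l) * ε := by
    by_contra hcon
    push Not at hcon
    have hinj : Function.Injective fun k : ℕ => zq (g ^ k) * ε := by
      intro k l h
      rcases lt_trichotomy k l with h1 | h1 | h1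
      · exact absurd h (hcon k l h1)
      · exact h1
      · exact absurd h.symm (hcon l k h1)
    exact (Set.infinite_range_of_injective hinj)
      (hfin.subset (by rintro _ ⟨k, rfl⟩; exact ⟨g ^ k, rfl, hisok k⟩))
  refine ⟨l - k, Nat.sub_pos_of_lt hkl, ?_⟩
  have h1 : zq (g ^ k) * ε * (ε - zq (g ^ (l - k)) * ε) = 0 := by
    have e1 : zq (g ^ k) * ε * (zq (g ^ (l - k)) * ε) = zq (g ^ l) * ε := by
      rw [hcomm (l - k), mul_assoc, ← mul_assoc ε ε, hε, ← hcomm (l - k), ← mul_assoc, ← zq_mul,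
        ← pow_add, Nat.add_sub_cancel' hkl.le]
    rw [mul_sub, e1, mul_assoc, hε, hx, sub_self]
  have h2 := hcancel k _ h1
  rw [mul_sub, hε, hcomm (l - k), ← mul_assoc, hε, ← hcomm (l - k)] at h2
  exact (sub_eq_zero.mp h2).symm

end finite

end Crest.Agent.R276.SSAlg_720
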