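import Mathlib

/-!
# Row 276 (S0419): degeneracy of a smooth map is invariant along a symmetry field (helper450)

`transport`: if `dΦ(c X) = 0` near `x₀`, `X i₀ = 1`, then every point near `x₀` where `dΦ` is not injective on
`{v i₀ = 0}` can be moved, inside a small neighbourhood and inside the level set of `Φ`, to such a
point with prescribed coordinate `i₀`. (Linearised ordinary differential equation.)
-/

set_option autoImplicit false
set_option linter.unusedSectionVars false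

noncomputable section

open Set Filter Topology

namespace Crest.Agent.R276.SardA_450

variable {m : ℕ} {i₀ : Fin m} {V : Type*} [NormedAddCommGroup V] [NormedSpace ℝ V]

/-- `dΦ` is not injective on `{v i₀ = 0}` -/
def Bad (i₀ : Fin m) (Φ : (Fin m → ℂ) → V) : Set (Fin m → ℂ) :=
  {x | ∃ v : Fin m → ℂ, v ≠ 0 ∧ v i₀ = 0 ∧ fderiv ℝ Φ x v = 0}

lemma const_of_deriv {F : Type*} [NormedAddCommGroup F] [NormedSpace ℝ F] {f : ℝ → F} {ε : ℝ}
    (h : ∀ t ∈ Ioo (-ε) ε, HasDerivAt f 0 t) {t : ℝ} (ht : t ∈ Ioo (-ε) ε) : f t = f 0 := by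
  have h0 : (0 : ℝ) ∈ Ioo (-ε) ε := by
    constructor <;> linarith [ht.1, ht.2]
  exact isOpen_Ioo.is_const_of_deriv_eq_zero (convex_Ioo _ _).isPreconnected
    (fun x hx => (h x hx).differentiableAt.differentiableWithinAt)
    (fun x hx => (h x hx).deriv) ht h0

/-- the linearised field -/
def fld (X : (Fin m → ℂ) → (Fin m → ℂ)) (z : (Fin m → ℂ) × ℂ × (Fin m → ℂ)) :
    (Fin m → ℂ) × ℂ × (Fin m → ℂ) :=
  (z.2.1 • X z.1, 0, z.2.1 • fderiv ℝ X z.1 z.2.2)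

lemma fld_contDiffAt {X : (Fin m → ℂ) → (Fin m → ℂ)} {z : (Fin m → ℂ) × ℂ × (Fin m → ℂ)}
    (hX : ContDiffAt ℝ 2 X z.1) : ContDiffAt ℝ 1 (fld X) z := by
  have h1 : ContDiffAt ℝ 1 X z.1 := hX.of_le (by norm_num)
  have h2 : ContDiffAt ℝ 1 (fderiv ℝ X) z.1 := hX.fderiv_right (by norm_num)
  have hf : ContDiffAt ℝ 1 (fun z : (Fin m → ℂ) × ℂ × (Fin m → ℂ) => z.1) z :=
    contDiff_fst.contDiffAt
  have hs : ContDiffAt ℝ 1 (fun z : (Fin m → ℂ) × ℂ × (Fin m → ℂ) => z.2.1) z :=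
    (contDiff_fst.comp contDiff_snd).contDiffAt
  have ht : ContDiffAt ℝ 1 (fun z : (Fin m → ℂ) × ℂ × (Fin m → ℂ) => z.2.2) z :=
    (contDiff_snd.comp contDiff_snd).contDiffAt
  have e1 : ContDiffAt ℝ 1 (fun z : (Fin m → ℂ) × ℂ × (Fin m → ℂ) => X z.1) z :=
    h1.comp z hf
  have e2 : ContDiffAt ℝ 1 (fun z : (Fin m → ℂ) × ℂ × (Fin m → ℂ) => fderiv ℝ X z.1) z :=
    h2.comp z hf
  exact (hs.smul e1).prodMk (contDiffAt_const.prodMk (hs.smul (e2.clm_apply ht)))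

/-- the differentiated tangency -/
lemma tan2 {Φ : (Fin m → ℂ) → V} {X : (Fin m → ℂ) → (Fin m → ℂ)} {y : Fin m → ℂ}
    (hΦ : ContDiffAt ℝ 2 Φ y) (hX : ContDiffAt ℝ 2 X y) (a : ℂ)
    (htan : ∀ᶠ x in 𝓝 y, ∀ c : ℂ, fderiv ℝ Φ x (c • X x) = 0) (u : Fin m → ℂ) :
    fderiv ℝ (fderiv ℝ Φ) y (a • X y) u + fderiv ℝ Φ y (a • fderiv ℝ X y u) = 0 := by
  have h1 : HasFDerivAt (fderiv ℝ Φ) (fderiv ℝ (fderiv ℝ Φ) y) y :=
    ((hΦ.fderiv_right (m := 1) (by norm_num)).differentiableAt (by norm_num)).hasFDerivAt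
  have h2 : HasFDerivAt (fun x => a • X x) (a • fderiv ℝ X y) y :=
    ((hX.differentiableAt (by norm_num)).hasFDerivAt).const_smul a
  have h3 := h1.clm_apply h2
  have h4 : HasFDerivAt (fun x => fderiv ℝ Φ x (a • X x)) (0 : (Fin m → ℂ) →L[ℝ] V) y := by
    refine (hasFDerivAt_const (0 : V) y).congr_of_eventuallyEq ?_
    filter_upwards [htan] with x hx
    exact hx a
  have h5 := congrArg (fun L : (Fin m → ℂ) →L[ℝ] V => L u) (h3.unique h4)
  have hsym := hΦ.isSymmSndFDerivAt (by simp [minSmoothness_of_isRCLikeNormedField])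
  have h6 := hsym (a • X y) u
  rw [h6]
  simpa [add_comm] using h5

theorem transport {Φ : (Fin m → ℂ) → V} {X : (Fin m → ℂ) → (Fin m → ℂ)} {x₀ : Fin m → ℂ}
    (hΦ : ContDiffAt ℝ 2 Φ x₀) (hX : ContDiffAt ℝ 2 X x₀)
    (hX1 : ∀ᶠ x in 𝓝 x₀, X x i₀ = 1)
    (htan : ∀ᶠ x in 𝓝 x₀, ∀ c : ℂ, fderiv ℝ Φ x (c • X x) = 0) {N : Set (Fin m → ℂ)}
    (hN : N ∈ 𝓝 x₀) :
    ∃ δ > 0, ∀ q ∈ Metric.ball x₀ δ, q ∈ Bad i₀ Φ → ∀ ζ ∈ Metric.ball (x₀ i₀) δ,
      ∃ q' ∈ N, q' i₀ = ζ ∧ Φ q' = Φ q ∧ q' ∈ Bad i₀ Φ := by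
  have hgood : ∀ᶠ x in 𝓝 x₀, ContDiffAt ℝ 2 Φ x ∧ ContDiffAt ℝ 2 X x ∧ X x i₀ = 1 ∧
      (∀ c : ℂ, fderiv ℝ Φ x (c • X x) = 0) ∧ x ∈ N := by
    filter_upwards [hΦ.eventually (by simp), hX.eventually (by simp), hX1, htan, hN]
      with x h1 h2 h3 h4 h5
    exact ⟨h1, h2, h3, h4, h5⟩
  obtain ⟨R, hR, hRo, hxR⟩ := _root_.eventually_nhds_iff.1 hgood
  -- the flow
  set z₀ : (Fin m → ℂ) × ℂ × (Fin m → ℂ) := (x₀, 0, 0) with hz₀
  have hW : ContDiffAt ℝ 1 (fld X) z₀ := fld_contDiffAt hX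
  obtain ⟨ε, hε, a, r, L, K, hr, hPL⟩ := IsPicardLindelof.of_contDiffAt_one hW
  obtain ⟨α, hα, hαc⟩ :=
    (hPL 0).exists_forall_mem_closedBall_eq_hasDerivWithinAt_continuousOn
  simp only [zero_sub, zero_add] at hα hαc
  have hmem0 : (z₀, (0 : ℝ)) ∈ Metric.closedBall z₀ (r : ℝ) ×ˢ Icc (-ε) ε :=
    ⟨Metric.mem_closedBall_self r.2, by constructor <;> linarith⟩
  have hnb : (Metric.closedBall z₀ (r : ℝ) ×ˢ Icc (-ε) ε : Set _) ∈ 𝓝 (z₀, (0 : ℝ)) :=
    prod_mem_nhds (Metric.closedBall_mem_nhds _ hr) (Icc_mem_nhds (by linarith) hε)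
  have hca : ContinuousAt α (z₀, 0) := (hαc _ hmem0).continuousAt hnb
  have hα0 : α (z₀, 0) = z₀ := (hα z₀ (Metric.mem_closedBall_self r.2)).1
  have hopen : {z : (Fin m → ℂ) × ℂ × (Fin m → ℂ) | z.1 ∈ R} ∈ 𝓝 (α (z₀, 0)) := by
    rw [hα0]
    exact (hRo.preimage continuous_fst).mem_nhds hxR
  have hpre := hca.preimage_mem_nhds hopen
  rw [nhds_prod_eq] at hpre
  obtain ⟨A, hA, B, hB, hAB⟩ := Filter.mem_prod_iff.1 hpre
  obtain ⟨r1, hr1, hr1A⟩ := Metric.mem_nhds_iff.1 hA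
  obtain ⟨ε1, hε1, hε1B⟩ := Metric.mem_nhds_iff.1 hB
  -- radii
  set r2 : ℝ := min (r1 / 2) r with hr2
  have hr2p : 0 < r2 := lt_min (by linarith) hr
  set η : ℝ := min ε1 ε with hη
  have hηp : 0 < η := lt_min hε1 hε
  set T : ℝ := η / 2 with hT
  have hTp : 0 < T := by positivity
  have hTη : T < η := by rw [hT]; linarith
  refine ⟨min r2 (r2 * T / 2), by positivity, ?_⟩
  intro q hq hqB ζ hζ
  obtain ⟨v, hv, hv0, hvk⟩ := hqB
  -- initial values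
  have hqr : dist q x₀ < r2 := lt_of_lt_of_le (Metric.mem_ball.1 hq) (min_le_left _ _)
  have hq0 : dist (q i₀) (x₀ i₀) < r2 * T / 2 :=
    lt_of_le_of_lt (dist_le_pi_dist q x₀ i₀)
      (lt_of_lt_of_le (Metric.mem_ball.1 hq) (min_le_right _ _))
  have hζ0 : dist ζ (x₀ i₀) < r2 * T / 2 :=
    lt_of_lt_of_le (Metric.mem_ball.1 hζ) (min_le_right _ _)
  set τ : ℂ := (ζ - q i₀) / T with hτ
  have hτT : q i₀ + (T : ℂ) * τ = ζ := by
    rw [hτ]
    have : (T : ℂ) ≠ 0 := by exact_mod_cast hTp.ne'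
    field_simp
    ring
  have hτn : ‖τ‖ ≤ r2 := by
    rw [hτ, norm_div, Complex.norm_real, Real.norm_of_nonneg hTp.le, div_le_iff₀ hTp, ← dist_eq_norm]
    have := dist_triangle_right ζ (q i₀) (x₀ i₀)
    linarith
  obtain ⟨s, hs0, hs⟩ : ∃ s : ℝ, 0 < s ∧ ‖s • v‖ ≤ r2 := by
    have hvn : 0 < ‖v‖ := norm_pos_iff.2 hv
    refine ⟨r2 / ‖v‖, by positivity, ?_⟩
    rw [norm_smul, Real.norm_of_nonneg (by positivity), div_mul_cancel₀ _ hvn.ne']
  set u₀ : Fin m → ℂ := s • v with hu₀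
  have hu₀ne : u₀ ≠ 0 := smul_ne_zero hs0.ne' hv
  have hu₀0 : u₀ i₀ = 0 := by rw [hu₀, Pi.smul_apply, hv0, smul_zero]
  have hu₀k : fderiv ℝ Φ q u₀ = 0 := by rw [hu₀, map_smul, hvk, smul_zero]
  set p₀ : (Fin m → ℂ) × ℂ × (Fin m → ℂ) := (q, τ, u₀) with hp₀
  have hp₀d : dist p₀ z₀ ≤ r2 := by
    rw [hp₀, hz₀, Prod.dist_eq, Prod.dist_eq]
    refine max_le hqr.le (max_le ?_ ?_)
    · simpa using hτn
    · simpa using hs
  have hp₀r : p₀ ∈ Metric.closedBall z₀ (r : ℝ) := Metric.mem_closedBall.2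
    (hp₀d.trans (min_le_right _ _))
  have hp₀A : p₀ ∈ A := hr1A (Metric.mem_ball.2 (lt_of_le_of_lt hp₀d
    (lt_of_le_of_lt (min_le_left _ _) (by linarith))))
  obtain ⟨hin, hder⟩ := hα p₀ hp₀r
  -- the solution on the open interval
  have hsub : ∀ t ∈ Ioo (-η) η, t ∈ Icc (-ε) ε ∧ t ∈ Ioo (-ε) ε ∧ t ∈ B := by
    intro t ht
    have h1 : η ≤ ε := min_le_right _ _
    have h2 : η ≤ ε1 := min_le_left _ _
    have h3 : t ∈ Ioo (-ε) ε := ⟨by linarith [ht.1], by linarith [ht.2]⟩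
    refine ⟨Ioo_subset_Icc_self h3, h3, hε1B ?_⟩
    rw [Metric.mem_ball, dist_zero_right, Real.norm_eq_abs, abs_lt]
    exact ⟨by linarith [ht.1], by linarith [ht.2]⟩
  have hd : ∀ t ∈ Ioo (-η) η, HasDerivAt (fun t => α (p₀, t)) (fld X (α (p₀, t))) t := by
    intro t ht
    obtain ⟨h1, h2, _⟩ := hsub t ht
    exact (hder t h1).hasDerivAt (Icc_mem_nhds h2.1 h2.2)
  have hyR : ∀ t ∈ Ioo (-η) η, (α (p₀, t)).1 ∈ R := by
    intro t ht
    exact hAB (show (p₀, t) ∈ A ×ˢ B from ⟨hp₀A, (hsub t ht).2.2⟩)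
  set y : ℝ → (Fin m → ℂ) := fun t => (α (p₀, t)).1 with hy
  set σ : ℝ → ℂ := fun t => (α (p₀, t)).2.1 with hσ
  set u : ℝ → (Fin m → ℂ) := fun t => (α (p₀, t)).2.2 with hu
  have hy' : ∀ t ∈ Ioo (-η) η, HasDerivAt y (σ t • X (y t)) t := fun t ht =>
    (ContinuousLinearMap.fst ℝ (Fin m → ℂ) (ℂ × (Fin m → ℂ))).hasFDerivAt.comp_hasDerivAt t (hd t ht)
  have hσ' : ∀ t ∈ Ioo (-η) η, HasDerivAt σ 0 t := fun t ht =>
    ((ContinuousLinearMap.fst ℝ ℂ (Fin m → ℂ)).comp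
      (ContinuousLinearMap.snd ℝ (Fin m → ℂ) (ℂ × (Fin m → ℂ)))).hasFDerivAt.comp_hasDerivAt t (hd t ht)
  have hu' : ∀ t ∈ Ioo (-η) η, HasDerivAt u (σ t • fderiv ℝ X (y t) (u t)) t := fun t ht =>
    ((ContinuousLinearMap.snd ℝ ℂ (Fin m → ℂ)).comp
      (ContinuousLinearMap.snd ℝ (Fin m → ℂ) (ℂ × (Fin m → ℂ)))).hasFDerivAt.comp_hasDerivAt t (hd t ht)
  have hy00 : y 0 = q := by show (α (p₀, 0)).1 = q; rw [hin]
  have hσ00 : σ 0 = τ := by show (α (p₀, 0)).2.1 = τ; rw [hin]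
  have hu00 : u 0 = u₀ := by show (α (p₀, 0)).2.2 = u₀; rw [hin]
  have hσt : ∀ t ∈ Ioo (-η) η, σ t = τ := fun t ht => (const_of_deriv hσ' ht).trans hσ00
  have hTm : T ∈ Ioo (-η) η := ⟨by linarith, hTη⟩
  -- the coordinate
  have hyi : y T i₀ = ζ := by
    have h1 : ∀ t ∈ Ioo (-η) η, HasDerivAt (fun t => y t i₀ - (t : ℂ) * τ) 0 t := by
      intro t ht
      have e1 : HasDerivAt (fun t => y t i₀) (σ t * X (y t) i₀) t := by
        have := hasDerivAt_pi.1 (hy' t ht) i₀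
        simpa using this
      have e2 : HasDerivAt (fun t : ℝ => (t : ℂ) * τ) (1 * τ) t :=
        (Complex.ofRealCLM.hasFDerivAt.comp_hasDerivAt t (hasDerivAt_id t)).mul_const τ
      have e3 := e1.sub e2
      have e4 : σ t * X (y t) i₀ - 1 * τ = 0 := by
        rw [hσt t ht, (hR _ (hyR t ht)).2.2.1]; ring
      rw [e4] at e3
      exact e3
    have h2 := const_of_deriv h1 hTm
    simp only [hy00, Complex.ofReal_zero, zero_mul, sub_zero] at h2
    rw [← hτT]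
    linear_combination h2
  -- `Φ` is constant
  have hΦc : Φ (y T) = Φ q := by
    have h1 : ∀ t ∈ Ioo (-η) η, HasDerivAt (fun t => Φ (y t)) 0 t := by
      intro t ht
      obtain ⟨g1, _, _, g4, _⟩ := hR _ (hyR t ht)
      have e1 := (g1.differentiableAt (by norm_num)).hasFDerivAt.comp_hasDerivAt t (hy' t ht)
      rw [g4] at e1
      exact e1
    have := const_of_deriv h1 hTm
    rw [hy00] at this
    exact this
  -- the kernel
  have hker : fderiv ℝ Φ (y T) (u T) = 0 := by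
    have h1 : ∀ t ∈ Ioo (-η) η, HasDerivAt (fun t => fderiv ℝ Φ (y t) (u t)) 0 t := by
      intro t ht
      obtain ⟨g1, g2, _, _, _⟩ := hR _ (hyR t ht)
      have htan' : ∀ᶠ x in 𝓝 (y t), ∀ c : ℂ, fderiv ℝ Φ x (c • X x) = 0 :=
        (hRo.eventually_mem (hyR t ht)).mono fun x hx => (hR x hx).2.2.2.1
      have e0 : HasFDerivAt (fderiv ℝ Φ) (fderiv ℝ (fderiv ℝ Φ) (y t)) (y t) :=
        ((g1.fderiv_right (m := 1) (by norm_num)).differentiableAt (by norm_num)).hasFDerivAt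
      have e1 := e0.comp_hasDerivAt t (hy' t ht)
      have e2 := e1.clm_apply (hu' t ht)
      have e3 := tan2 g1 g2 (σ t) htan' (u t)
      have e4 : fderiv ℝ (fderiv ℝ Φ) (y t) (σ t • X (y t)) (u t) +
          (fderiv ℝ Φ ∘ y) t (σ t • fderiv ℝ X (y t) (u t)) = 0 := e3
      rw [e4] at e2
      exact e2
    have := const_of_deriv h1 hTm
    simp only [hy00, hu00, hu₀k] at this
    exact this
  have hui : u T i₀ = 0 := by
    have h1 : ∀ t ∈ Ioo (-η) η, HasDerivAt (fun t => u t i₀) 0 t := by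
      intro t ht
      obtain ⟨_, g2, _, _, _⟩ := hR _ (hyR t ht)
      have e1 := (ContinuousLinearMap.proj (R := ℝ) (φ := fun _ : Fin m => ℂ)
          i₀).hasFDerivAt.comp_hasDerivAt t (hu' t ht)
      have e2 : HasFDerivAt (fun x => X x i₀)
          ((ContinuousLinearMap.proj (R := ℝ) (φ := fun _ : Fin m => ℂ) i₀).comp
            (fderiv ℝ X (y t))) (y t) :=
        (ContinuousLinearMap.proj (R := ℝ) (φ := fun _ : Fin m => ℂ) i₀).hasFDerivAt.comp (y t)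
          (g2.differentiableAt (by norm_num)).hasFDerivAt
      have e3 : HasFDerivAt (fun x => X x i₀) (0 : (Fin m → ℂ) →L[ℝ] ℂ) (y t) := by
        refine (hasFDerivAt_const (1 : ℂ) (y t)).congr_of_eventuallyEq ?_
        filter_upwards [hRo.mem_nhds (hyR t ht)] with x hx
        exact (hR x hx).2.2.1
      have e4 := congrArg (fun L : (Fin m → ℂ) →L[ℝ] ℂ => L (u t)) (e2.unique e3)
      have e5 : (ContinuousLinearMap.proj (R := ℝ) (φ := fun _ : Fin m => ℂ) i₀)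
          (σ t • fderiv ℝ X (y t) (u t)) = 0 := by
        have : fderiv ℝ X (y t) (u t) i₀ = 0 := by simpa using e4
        simp [this]
      rw [e5] at e1
      exact e1
    have := const_of_deriv h1 hTm
    simp only [hu00, hu₀0] at this
    exact this
  have hune : u T ≠ 0 := by
    intro huT
    -- uniqueness for the linear equation
    have hcont : ContinuousOn (fun t => ‖(σ t • fderiv ℝ X (y t) :
        (Fin m → ℂ) →L[ℝ] (Fin m → ℂ))‖₊) (Icc 0 T) := by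
      intro t ht
      have htm : t ∈ Ioo (-η) η := ⟨by linarith [ht.1], by linarith [ht.2]⟩
      obtain ⟨_, g2, _, _, _⟩ := hR _ (hyR t htm)
      have c1 : ContinuousAt (fun t => fderiv ℝ X (y t)) t :=
        ContinuousAt.comp (g := fderiv ℝ X)
          (g2.fderiv_right (m := 1) (by norm_num)).continuousAt (hy' t htm).continuousAt
      exact ((hσ' t htm).continuousAt.smul c1).nnnorm.continuousWithinAt
    obtain ⟨K', hK'⟩ := (isCompact_Icc.image_of_continuousOn hcont).bddAbove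
    have hlip : ∀ t ∈ Ioc (0 : ℝ) T, LipschitzOnWith K'
        ((fun (t : ℝ) (w : Fin m → ℂ) => σ t • fderiv ℝ X (y t) w) t)
        ((fun _ : ℝ => (univ : Set (Fin m → ℂ))) t) := by
      intro t ht
      have h1 : ‖(σ t • fderiv ℝ X (y t) : (Fin m → ℂ) →L[ℝ] (Fin m → ℂ))‖₊ ≤ K' :=
        hK' ⟨t, Ioc_subset_Icc_self ht, rfl⟩
      exact ((σ t • fderiv ℝ X (y t) : (Fin m → ℂ) →L[ℝ] (Fin m → ℂ)).lipschitz.weaken
        h1).lipschitzOnWith
    have hin' : ∀ t ∈ Icc (0 : ℝ) T, t ∈ Ioo (-η) η := fun t ht =>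
      ⟨by linarith [ht.1], by linarith [ht.2]⟩
    have huniq := ODE_solution_unique_of_mem_Icc_left (f := u) (g := fun _ => (0 : Fin m → ℂ))
      hlip (fun t ht => (hu' t (hin' t ht)).continuousAt.continuousWithinAt)
      (fun t ht => (hu' t (hin' t (Ioc_subset_Icc_self ht))).hasDerivWithinAt)
      (fun t _ => mem_univ _) continuousOn_const
      (fun t ht => by
        have : σ t • fderiv ℝ X (y t) (0 : Fin m → ℂ) = 0 := by simp
        simp only [this]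
        exact hasDerivWithinAt_const _ _ _)
      (fun t _ => mem_univ _) huT
    have h0 := huniq (show (0 : ℝ) ∈ Icc 0 T from ⟨le_refl _, hTp.le⟩)
    rw [hu00] at h0
    exact hu₀ne h0
  exact ⟨y T, (hR _ (hyR T hTm)).2.2.2.2, hyi, hΦc, u T, hune, hui, hker⟩

end Crest.Agent.R276.SardA_450
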