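import Mathlib
import Crest.Agent.R276.AlgLq_464

/-!
# R276, leaf SAT (A) (helper152): uniform growth exponents

`ζ = (z, x) ∈ ℂ^{m+r}`; weight `wz p a z = |p(z)| / (1+|z|²)^a`.

`growth_unif` : `f` holomorphic on `{g ≠ 0}`, `∫ |f|^q (1+|ζ|)^{-L} wz p a (z) < ∞` implies
`|f| |g|^{b₀} |p(z)|^{b'} ≤ C (1+|z|)^{a'} (1+|x|)^{a₀}` with `a₀, b₀` depending only on
`g, q, L` (not on `f, p, a`).
-/

set_option autoImplicit false

open MeasureTheory Metric Set Filter Topology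
open scoped ENNReal Real

noncomputable section

namespace Crest.Agent.R276.SatA_152

variable {m r : ℕ}

/-- the base part of a point -/
def zp (ζ : Fin (m + r) → ℂ) : Fin m → ℂ := fun i => ζ (Fin.castAdd r i)

/-- the fibre part of a point -/
def xp (ζ : Fin (m + r) → ℂ) : Fin r → ℂ := fun j => ζ (Fin.natAdd m j)

lemma norm_zp_le (ζ : Fin (m + r) → ℂ) : ‖zp ζ‖ ≤ ‖ζ‖ := by
  rw [pi_norm_le_iff_of_nonneg (norm_nonneg _)]
  intro i
  exact norm_le_pi_norm ζ _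

lemma norm_xp_le (ζ : Fin (m + r) → ℂ) : ‖xp ζ‖ ≤ ‖ζ‖ := by
  rw [pi_norm_le_iff_of_nonneg (norm_nonneg _)]
  intro i
  exact norm_le_pi_norm ζ _

lemma norm_le_add (ζ : Fin (m + r) → ℂ) : ‖ζ‖ ≤ ‖zp ζ‖ + ‖xp ζ‖ := by
  rw [pi_norm_le_iff_of_nonneg (by positivity)]
  intro i
  refine Fin.addCases (fun i => ?_) (fun j => ?_) i
  · have h1 : ‖ζ (Fin.castAdd r i)‖ ≤ ‖zp ζ‖ := norm_le_pi_norm (zp ζ) i
    linarith [norm_nonneg (xp ζ)]
  · have h1 : ‖ζ (Fin.natAdd m j)‖ ≤ ‖xp ζ‖ := norm_le_pi_norm (xp ζ) j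
    linarith [norm_nonneg (zp ζ)]

lemma one_add_norm_le_mul (ζ : Fin (m + r) → ℂ) : 1 + ‖ζ‖ ≤ (1 + ‖zp ζ‖) * (1 + ‖xp ζ‖) := by
  have := norm_le_add ζ
  have h1 : 0 ≤ ‖zp ζ‖ * ‖xp ζ‖ := by positivity
  nlinarith

/-- the weight in the base variables -/
def wz (p : MvPolynomial (Fin m) ℂ) (a : ℕ) (z : Fin m → ℂ) : ℝ :=
  ‖MvPolynomial.eval z p‖ / (1 + ∑ i, ‖z i‖ ^ 2) ^ a

lemma wz_nonneg (p : MvPolynomial (Fin m) ℂ) (a : ℕ) (z : Fin m → ℂ) : 0 ≤ wz p a z := by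
  unfold wz; positivity

/-- lower bound of the weight near a point -/
lemma one_le_wz {p : MvPolynomial (Fin m) ℂ} (a : ℕ) {C' : ℝ} {D' : ℕ}
    (hp2 : ∀ ζ w : Fin m → ℂ, ‖w‖ ≤ 1 →
      ‖MvPolynomial.eval (ζ + w) p - MvPolynomial.eval ζ p‖ ≤ C' * (1 + ‖ζ‖) ^ D' * ‖w‖)
    {z z' : Fin m → ℂ} (hP0 : 0 < ‖MvPolynomial.eval z p‖) (h1 : ‖z' - z‖ ≤ 1 / 2)
    (h2 : C' * (1 + ‖z‖) ^ D' * ‖z' - z‖ ≤ ‖MvPolynomial.eval z p‖ / 4) :
    (1 : ℝ) ≤ 2 / ‖MvPolynomial.eval z p‖ * ((m + 1 : ℝ) * 4 * (1 + ‖z‖) ^ 2) ^ a *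
      wz p a z' := by
  have h7 := hp2 z (z' - z) (by linarith)
  rw [add_sub_cancel] at h7
  have h9 : ‖MvPolynomial.eval z p‖ - ‖MvPolynomial.eval z' p‖ ≤
      ‖MvPolynomial.eval z' p - MvPolynomial.eval z p‖ := by
    rw [norm_sub_rev]
    exact norm_sub_norm_le _ _
  have h4 : ‖z'‖ ≤ ‖z' - z‖ + ‖z‖ := by
    have : z' = (z' - z) + z := by abel
    conv_lhs => rw [this]
    exact norm_add_le _ _
  set P := ‖MvPolynomial.eval z p‖ with hP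
  set T := 1 + ‖z‖ with hT
  have hT1 : 1 ≤ T := by rw [hT]; linarith [norm_nonneg z]
  have h6 : P / 2 ≤ ‖MvPolynomial.eval z' p‖ := by linarith
  have h5 : 1 + ‖z'‖ ≤ 2 * T := by linarith
  have h8 : 1 + ∑ i, ‖z' i‖ ^ 2 ≤ (m + 1 : ℝ) * 4 * T ^ 2 := by
    have h8 := R271.AlgC956.one_add_sum_le z'
    have h9 : (1 + ‖z'‖) ^ 2 ≤ (2 * T) ^ 2 := by gcongr
    have h10 : (0 : ℝ) ≤ m + 1 := by positivity
    nlinarith
  have h10 : (1 + ∑ i, ‖z' i‖ ^ 2) ^ a ≤ ((m + 1 : ℝ) * 4 * T ^ 2) ^ a := by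
    gcongr
  have h11 : (0 : ℝ) < (1 + ∑ i, ‖z' i‖ ^ 2) ^ a := by positivity
  unfold wz
  calc (1 : ℝ) = 2 / P * (1 + ∑ i, ‖z' i‖ ^ 2) ^ a *
        ((P / 2) / (1 + ∑ i, ‖z' i‖ ^ 2) ^ a) := by
        field_simp
    _ ≤ _ := by gcongr

set_option maxHeartbeats 1600000 in
/-- **uniform growth exponents** -/
theorem growth_unif (g : MvPolynomial (Fin (m + r)) ℂ) {q : ℝ} (hq : 0 < q) (L : ℕ) :
    ∃ a0 b0 : ℕ, ∀ {f : (Fin (m + r) → ℂ) → ℂ},
      DifferentiableOn ℂ f {ζ | MvPolynomial.eval ζ g ≠ 0} →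
      ∀ (p : MvPolynomial (Fin m) ℂ) (a : ℕ),
      ∫⁻ ζ in {ζ | MvPolynomial.eval ζ g ≠ 0},
        ‖f ζ‖ₑ ^ q * ENNReal.ofReal ((1 + ‖ζ‖) ^ L)⁻¹ * ENNReal.ofReal (wz p a (zp ζ)) < ∞ →
      ∃ (C : ℝ) (a' b' : ℕ), 0 ≤ C ∧ ∀ ζ, MvPolynomial.eval ζ g ≠ 0 →
        ‖f ζ‖ * (‖MvPolynomial.eval ζ g‖ ^ b0 * ‖MvPolynomial.eval (zp ζ) p‖ ^ b') ≤
          C * ((1 + ‖zp ζ‖) ^ a' * (1 + ‖xp ζ‖) ^ a0) := by
  obtain ⟨C, D, hC, hg1, hg2⟩ := LqG_464.poly_bound g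
  obtain ⟨k, hk⟩ := exists_nat_ge (1 / q)
  obtain ⟨n, hn⟩ : ∃ n : ℕ, n = m + r := ⟨_, rfl⟩
  refine ⟨(2 * D * n + L) * k, 2 * n * k, ?_⟩
  intro f hf p a hint
  obtain ⟨C', D', hC', hp1, hp2⟩ := LqG_464.poly_bound p
  set Ω : Set (Fin (m + r) → ℂ) := {ζ | MvPolynomial.eval ζ g ≠ 0} with hΩ
  have hΩo : IsOpen Ω := isOpen_ne.preimage (MvPolynomial.continuous_eval g)
  set I : ℝ := (∫⁻ ζ in Ω, ‖f ζ‖ₑ ^ q * ENNReal.ofReal ((1 + ‖ζ‖) ^ L)⁻¹ *
    ENNReal.ofReal (wz p a (zp ζ))).toReal with hI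
  have hI0 : 0 ≤ I := ENNReal.toReal_nonneg
  set E : ℝ := (16 * C ^ 2 * C' ^ 2) ^ n * 2 ^ L * (2 * ((m + 1 : ℝ) * 4) ^ a) * I with hE
  have hE0 : 0 ≤ E := by positivity
  -- pointwise estimate
  have hpt : ∀ ζ ∈ Ω, 0 < ‖MvPolynomial.eval (zp ζ) p‖ →
      ‖f ζ‖ ^ q * (‖MvPolynomial.eval ζ g‖ ^ (2 * n) *
        ‖MvPolynomial.eval (zp ζ) p‖ ^ (2 * n + 1)) ≤
      E * ((1 + ‖ζ‖) ^ (2 * D * n + L) * (1 + ‖zp ζ‖) ^ (2 * D' * n + 2 * a)) := by
    intro ζ hζ hP0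
    have hG0 : 0 < ‖MvPolynomial.eval ζ g‖ := norm_pos_iff.2 hζ
    set G := ‖MvPolynomial.eval ζ g‖ with hG
    set P := ‖MvPolynomial.eval (zp ζ) p‖ with hP
    set S := 1 + ‖ζ‖ with hS
    set T := 1 + ‖zp ζ‖ with hT
    have hS1 : 1 ≤ S := by rw [hS]; linarith [norm_nonneg ζ]
    have hS0 : 0 < S := by linarith
    have hT1 : 1 ≤ T := by rw [hT]; linarith [norm_nonneg (zp ζ)]
    have hT0 : 0 < T := by linarith
    have hCD : 0 < C * S ^ D := by positivity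
    have hCD' : 0 < C' * T ^ D' := by positivity
    have hGle : G ≤ C * S ^ D := hg1 ζ
    have hPle : P ≤ C' * T ^ D' := hp1 (zp ζ)
    set ρ : ℝ := G * P / (4 * (C * S ^ D) * (C' * T ^ D')) with hρ
    have hρ0 : 0 < ρ := by positivity
    have hρG : ρ * (C * S ^ D) ≤ G / 4 := by
      have h1 : ρ * (C * S ^ D) = G / 4 * (P / (C' * T ^ D')) := by
        rw [hρ]; field_simp
      rw [h1]
      have h2 : P / (C' * T ^ D') ≤ 1 := by rw [div_le_one hCD']; exact hPle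
      have h3 : 0 ≤ G / 4 := by positivity
      nlinarith
    have hρP : ρ * (C' * T ^ D') ≤ P / 4 := by
      have h1 : ρ * (C' * T ^ D') = P / 4 * (G / (C * S ^ D)) := by
        rw [hρ]; field_simp
      rw [h1]
      have h2 : G / (C * S ^ D) ≤ 1 := by rw [div_le_one hCD]; exact hGle
      have h3 : 0 ≤ P / 4 := by positivity
      nlinarith
    have hρ1 : ρ ≤ 1 / 2 := by
      have h2 : ρ * (C * S ^ D) ≤ (C * S ^ D) / 4 := by linarith
      have h3 : ρ ≤ 1 / 4 := by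
        by_contra hcon
        push Not at hcon
        nlinarith
      linarith
    have hsub : closedBall ζ ρ ⊆ Ω := by
      intro y hy
      have hw : ‖y - ζ‖ ≤ ρ := by simpa [dist_eq_norm] using hy
      have h1 := hg2 ζ (y - ζ) (hw.trans (hρ1.trans (by norm_num)))
      rw [add_sub_cancel] at h1
      intro h0
      have h0' : MvPolynomial.eval y g = 0 := h0
      rw [h0', zero_sub, norm_neg] at h1
      have h2 : C * S ^ D * ‖y - ζ‖ ≤ C * S ^ D * ρ := by gcongr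
      have h4 : G ≤ C * S ^ D * ‖y - ζ‖ := h1
      nlinarith
    have hmv := Lq_464.submean hΩo hf hsub hq
    set W : ℝ := 2 / P * ((m + 1 : ℝ) * 4 * T ^ 2) ^ a with hW
    have hW0 : 0 < W := by positivity
    have hle : ∫⁻ y in ball ζ ρ, ‖f y‖ₑ ^ q ≤
        ENNReal.ofReal ((2 * S) ^ L * W) * ENNReal.ofReal I := by
      calc ∫⁻ y in ball ζ ρ, ‖f y‖ₑ ^ q
          ≤ ∫⁻ y in ball ζ ρ, ENNReal.ofReal ((2 * S) ^ L * W) *
              (‖f y‖ₑ ^ q * ENNReal.ofReal ((1 + ‖y‖) ^ L)⁻¹ *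
                ENNReal.ofReal (wz p a (zp y))) := by
            refine setLIntegral_mono' measurableSet_ball fun y hy => ?_
            have hw : ‖y - ζ‖ < ρ := by simpa [dist_eq_norm] using hy
            have h1 : ‖y‖ ≤ ‖y - ζ‖ + ‖ζ‖ := by
              have : y = (y - ζ) + ζ := by abel
              conv_lhs => rw [this]
              exact norm_add_le _ _
            have h2 : 1 + ‖y‖ ≤ 2 * S := by linarith
            have h3 : (1 : ℝ) ≤ (2 * S) ^ L * ((1 + ‖y‖) ^ L)⁻¹ := by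
              rw [← div_eq_mul_inv, one_le_div (by positivity)]
              gcongr
            have hzy : ‖zp y - zp ζ‖ ≤ ‖y - ζ‖ := by
              have : zp y - zp ζ = zp (y - ζ) := rfl
              rw [this]; exact norm_zp_le _
            have h8 : (1 : ℝ) ≤ W * wz p a (zp y) := by
              refine one_le_wz a hp2 hP0 (by linarith) ?_
              calc C' * T ^ D' * ‖zp y - zp ζ‖ ≤ C' * T ^ D' * ρ := by
                    gcongr; linarith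
                _ ≤ P / 4 := by linarith
            have h9 : (1 : ℝ) ≤ (2 * S) ^ L * ((1 + ‖y‖) ^ L)⁻¹ * (W * wz p a (zp y)) := by
              calc (1 : ℝ) = 1 * 1 := by norm_num
                _ ≤ _ := mul_le_mul h3 h8 (by norm_num) (by positivity)
            calc ‖f y‖ₑ ^ q = 1 * ‖f y‖ₑ ^ q := by rw [one_mul]
              _ ≤ ENNReal.ofReal ((2 * S) ^ L * ((1 + ‖y‖) ^ L)⁻¹ * (W * wz p a (zp y))) *
                  ‖f y‖ₑ ^ q := by
                gcongr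
                rw [← ENNReal.ofReal_one]
                exact ENNReal.ofReal_le_ofReal h9
              _ = ENNReal.ofReal (((2 * S) ^ L * W) * (((1 + ‖y‖) ^ L)⁻¹ * wz p a (zp y))) *
                  ‖f y‖ₑ ^ q := by
                congr 2; ring
              _ = _ := by
                rw [ENNReal.ofReal_mul (by positivity),
                  ENNReal.ofReal_mul (p := ((1 + ‖y‖) ^ L)⁻¹) (by positivity)]; ring
        _ = ENNReal.ofReal ((2 * S) ^ L * W) *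
              ∫⁻ y in ball ζ ρ, ‖f y‖ₑ ^ q * ENNReal.ofReal ((1 + ‖y‖) ^ L)⁻¹ *
                ENNReal.ofReal (wz p a (zp y)) :=
            lintegral_const_mul' _ _ ENNReal.ofReal_ne_top
        _ ≤ ENNReal.ofReal ((2 * S) ^ L * W) * ∫⁻ y in Ω,
              ‖f y‖ₑ ^ q * ENNReal.ofReal ((1 + ‖y‖) ^ L)⁻¹ *
                ENNReal.ofReal (wz p a (zp y)) := by
            gcongr
            exact ball_subset_closedBall.trans hsub
        _ = _ := by rw [hI, ENNReal.ofReal_toReal hint.ne]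
    have h5 := hmv.trans hle
    rw [LqG_464.vol_ball ζ hρ0, ← hn, ← ENNReal.ofReal_mul (by positivity)] at h5
    have h6 : ‖f ζ‖ₑ ^ q = ENNReal.ofReal (‖f ζ‖ ^ q) := by
      rw [← ENNReal.ofReal_rpow_of_nonneg (norm_nonneg _) hq.le, ofReal_norm]
    rw [h6, ← ENNReal.ofReal_mul (by positivity), ENNReal.ofReal_le_ofReal_iff (by positivity)] at h5
    have h7 : (ρ ^ 2) ^ n * ‖f ζ‖ ^ q ≤ (2 * S) ^ L * W * I := by
      refine le_trans ?_ h5
      gcongr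
      have : (1 : ℝ) ≤ π := by linarith [Real.pi_gt_three]
      nlinarith [sq_nonneg ρ]
    have h8 : (ρ ^ 2) ^ n * ((16 * C ^ 2 * C' ^ 2) ^ n * (S ^ (2 * D * n) * T ^ (2 * D' * n))) =
        G ^ (2 * n) * P ^ (2 * n) := by
      have e1 : ρ ^ 2 * ((16 * C ^ 2 * C' ^ 2) * (S ^ (2 * D) * T ^ (2 * D'))) = G ^ 2 * P ^ 2 := by
        rw [hρ, show S ^ (2 * D) = (S ^ D) ^ 2 by rw [← pow_mul, mul_comm],
          show T ^ (2 * D') = (T ^ D') ^ 2 by rw [← pow_mul, mul_comm]]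
        field_simp
        ring
      calc (ρ ^ 2) ^ n * ((16 * C ^ 2 * C' ^ 2) ^ n * (S ^ (2 * D * n) * T ^ (2 * D' * n)))
          = (ρ ^ 2 * ((16 * C ^ 2 * C' ^ 2) * (S ^ (2 * D) * T ^ (2 * D')))) ^ n := by
            rw [mul_pow (ρ ^ 2), mul_pow (16 * C ^ 2 * C' ^ 2), mul_pow (S ^ (2 * D)),
              ← pow_mul S (2 * D) n, ← pow_mul T (2 * D') n]
        _ = _ := by rw [e1, mul_pow, ← pow_mul, ← pow_mul]
    calc ‖f ζ‖ ^ q * (G ^ (2 * n) * P ^ (2 * n + 1))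
        = ((ρ ^ 2) ^ n * ‖f ζ‖ ^ q) *
          ((16 * C ^ 2 * C' ^ 2) ^ n * (S ^ (2 * D * n) * T ^ (2 * D' * n))) * P := by
          rw [pow_succ P (2 * n), ← mul_assoc (G ^ (2 * n)), ← h8]; ring
      _ ≤ ((2 * S) ^ L * W * I) *
          ((16 * C ^ 2 * C' ^ 2) ^ n * (S ^ (2 * D * n) * T ^ (2 * D' * n))) * P := by gcongr
      _ = E * (S ^ (2 * D * n + L) * T ^ (2 * D' * n + 2 * a)) := by
          rw [hE, hW, pow_add, pow_add, mul_pow, mul_pow ((m + 1 : ℝ) * 4) (T ^ 2) a, ← pow_mul T 2 a]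
          field_simp
  -- take the power `1/q`
  set A1 : ℕ := 2 * D * n + L with hA1
  set A2 : ℕ := D' * (2 * n + 1) + 2 * D' * n + 2 * a with hA2
  set F : ℝ := C ^ (2 * n) * C' ^ (2 * n + 1) + E with hF
  have hF0 : 0 ≤ F := by positivity
  refine ⟨F ^ k * C', A2 * k + A1 * k + D', (2 * n + 1) * k + 1, by positivity, ?_⟩
  intro ζ hζ
  have hG0 : 0 < ‖MvPolynomial.eval ζ g‖ := norm_pos_iff.2 hζ
  rcases (norm_nonneg (MvPolynomial.eval (zp ζ) p)).eq_or_lt with hP0 | hP0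
  · rw [← hP0, zero_pow (by omega), mul_zero, mul_zero]
    positivity
  have h1 := hpt ζ hζ hP0
  have h2 := hg1 ζ
  have h2' := hp1 (zp ζ)
  have hSTU := one_add_norm_le_mul ζ
  set G := ‖MvPolynomial.eval ζ g‖ with hG
  set P := ‖MvPolynomial.eval (zp ζ) p‖ with hP
  set S := 1 + ‖ζ‖ with hS
  set T := 1 + ‖zp ζ‖ with hT
  set U := 1 + ‖xp ζ‖ with hU
  have hS1 : 1 ≤ S := by rw [hS]; linarith [norm_nonneg ζ]
  have hS0 : 0 < S := by linarith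
  have hT1 : 1 ≤ T := by rw [hT]; linarith [norm_nonneg (zp ζ)]
  have hT0 : 0 < T := by linarith
  have hU1 : 1 ≤ U := by rw [hU]; linarith [norm_nonneg (xp ζ)]
  have hU0 : 0 < U := by linarith
  set X := ‖f ζ‖ with hX
  have hX0 : 0 ≤ X := norm_nonneg _
  set Gk : ℝ := G ^ (2 * n) * P ^ (2 * n + 1) with hGk
  have hGk0 : 0 < Gk := by positivity
  set Ek : ℝ := E * (S ^ A1 * T ^ (2 * D' * n + 2 * a)) with hEk
  have hEk0 : 0 ≤ Ek := by positivity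
  set Y : ℝ := (Gk + Ek) / Gk with hY
  have hY1 : 1 ≤ Y := by
    rw [hY, one_le_div hGk0]
    linarith
  have hXY : X ^ q ≤ Y := by
    rw [hY, le_div_iff₀ hGk0]
    linarith
  have hXk : X ≤ Y ^ k := by
    calc X = (X ^ q) ^ (1 / q) := by
          rw [← Real.rpow_mul hX0, mul_one_div_cancel hq.ne', Real.rpow_one]
      _ ≤ Y ^ (1 / q) := Real.rpow_le_rpow (by positivity) hXY (by positivity)
      _ ≤ Y ^ (k : ℝ) := Real.rpow_le_rpow_of_exponent_le hY1 hk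
      _ = Y ^ k := Real.rpow_natCast _ _
  have hYG : Y ^ k * Gk ^ k = (Gk + Ek) ^ k := by
    rw [hY, ← mul_pow, div_mul_cancel₀ _ hGk0.ne']
  have h3 : Gk + Ek ≤ F * (S ^ A1 * T ^ A2) := by
    rw [hF, add_mul]
    apply add_le_add
    · calc Gk ≤ (C * S ^ D) ^ (2 * n) * (C' * T ^ D') ^ (2 * n + 1) := by
            rw [hGk]; gcongr
        _ = C ^ (2 * n) * C' ^ (2 * n + 1) * (S ^ (D * (2 * n)) * T ^ (D' * (2 * n + 1))) := by
            rw [mul_pow, mul_pow, ← pow_mul, ← pow_mul]; ring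
        _ ≤ C ^ (2 * n) * C' ^ (2 * n + 1) * (S ^ A1 * T ^ A2) := by
            have e1 : D * (2 * n) ≤ A1 := by rw [hA1]; nlinarith
            have e2 : D' * (2 * n + 1) ≤ A2 := by rw [hA2]; nlinarith
            gcongr
    · rw [hEk]
      have e2 : 2 * D' * n + 2 * a ≤ A2 := by rw [hA2]; nlinarith
      gcongr
  calc X * (G ^ (2 * n * k) * P ^ ((2 * n + 1) * k + 1)) = (X * Gk ^ k) * P := by
        rw [hGk, mul_pow, ← pow_mul, ← pow_mul, pow_succ P ((2 * n + 1) * k)]; ring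
    _ ≤ (Y ^ k * Gk ^ k) * (C' * T ^ D') := by gcongr
    _ = (Gk + Ek) ^ k * (C' * T ^ D') := by rw [hYG]
    _ ≤ (F * (S ^ A1 * T ^ A2)) ^ k * (C' * T ^ D') := by gcongr
    _ ≤ (F * ((T * U) ^ A1 * T ^ A2)) ^ k * (C' * T ^ D') := by gcongr
    _ = F ^ k * C' * (T ^ (A2 * k + A1 * k + D') * U ^ (A1 * k)) := by
      have e1 : ((T * U) ^ A1 * T ^ A2) ^ k = T ^ (A1 * k) * U ^ (A1 * k) * T ^ (A2 * k) := by
        rw [mul_pow T U A1, mul_pow, mul_pow, ← pow_mul, ← pow_mul, ← pow_mul]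
      rw [mul_pow F, e1, pow_add, pow_add]
      ring

end Crest.Agent.R276.SatA_152
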