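import Crest.Agent.R276.AlgLq_464
import Crest.Agent.R271.RExt2_747

/-!
# Row 276 (S0419), SAT (helper210), part A: anisotropic growth

Coordinates `ζ = (z, x)` on `ℂ^{m+r}` (`zc ζ`, `xc ζ`).  `f` holomorphic on `{g ≠ 0}`,
`∫_{g ≠ 0} |f|^q |p(z)|^b (1+|z|)^{-a} (1+|x|)^{-L} < ∞`.  Then `f g^{K₁} p(z)^e` is a polynomial whose
degree in `x` is at most `K₂`, where `K₁`, `K₂` depend only on `g`, `q`, `L` (not on `f`, `p`, `a`, `b`).
-/

set_option autoImplicit false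

noncomputable section

open Set Filter Topology Metric MeasureTheory
open scoped ENNReal Real

namespace Crest.Agent.R276.SatA_210

open Crest.Agent.R276 Crest.Agent.R276.LqG_464 Crest.Agent.R271

variable {m r : ℕ}

/-- the first coordinates -/
def zc (ζ : Fin (m + r) → ℂ) : Fin m → ℂ := fun i => ζ (Fin.castAdd r i)

/-- the last coordinates -/
def xc (ζ : Fin (m + r) → ℂ) : Fin r → ℂ := fun j => ζ (Fin.natAdd m j)

lemma norm_zc_le (ζ : Fin (m + r) → ℂ) : ‖zc ζ‖ ≤ ‖ζ‖ :=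
  (pi_norm_le_iff_of_nonneg (norm_nonneg _)).2 fun _ => norm_le_pi_norm ζ _

lemma norm_xc_le (ζ : Fin (m + r) → ℂ) : ‖xc ζ‖ ≤ ‖ζ‖ :=
  (pi_norm_le_iff_of_nonneg (norm_nonneg _)).2 fun _ => norm_le_pi_norm ζ _

lemma one_add_norm_le_mul (ζ : Fin (m + r) → ℂ) : 1 + ‖ζ‖ ≤ (1 + ‖zc ζ‖) * (1 + ‖xc ζ‖) := by
  have h : ‖ζ‖ ≤ ‖zc ζ‖ + ‖xc ζ‖ := by
    refine (pi_norm_le_iff_of_nonneg (by positivity)).2 fun i => ?_
    refine Fin.addCases (fun i => ?_) (fun j => ?_) i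
    · have h1 : ‖zc ζ i‖ ≤ ‖zc ζ‖ := norm_le_pi_norm (zc ζ) i
      have h2 : ‖ζ (Fin.castAdd r i)‖ = ‖zc ζ i‖ := rfl
      rw [h2]
      linarith [norm_nonneg (xc ζ)]
    · have h1 : ‖xc ζ j‖ ≤ ‖xc ζ‖ := norm_le_pi_norm (xc ζ) j
      have h2 : ‖ζ (Fin.natAdd m j)‖ = ‖xc ζ j‖ := rfl
      rw [h2]
      linarith [norm_nonneg (zc ζ)]
  nlinarith [norm_nonneg (zc ζ), norm_nonneg (xc ζ)]

lemma zc_add (ζ w : Fin (m + r) → ℂ) : zc (ζ + w) = zc ζ + zc w := rfl

lemma xc_add (ζ w : Fin (m + r) → ℂ) : xc (ζ + w) = xc ζ + xc w := rfl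

lemma continuous_zc : Continuous (zc : (Fin (m + r) → ℂ) → Fin m → ℂ) := by
  unfold zc; fun_prop

lemma continuous_xc : Continuous (xc : (Fin (m + r) → ℂ) → Fin r → ℂ) := by
  unfold xc; fun_prop

/-- the weight in the integrals -/
def wt (p : MvPolynomial (Fin m) ℂ) (a b L : ℕ) (ζ : Fin (m + r) → ℂ) : ℝ :=
  ‖MvPolynomial.eval (zc ζ) p‖ ^ b / ((1 + ‖zc ζ‖) ^ a * (1 + ‖xc ζ‖) ^ L)

lemma wt_nonneg (p : MvPolynomial (Fin m) ℂ) (a b L : ℕ) (ζ : Fin (m + r) → ℂ) :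
    0 ≤ wt p a b L ζ := by unfold wt; positivity

/-- **anisotropic growth**, pointwise estimate -/
theorem growth_pt (g : MvPolynomial (Fin (m + r)) ℂ) (L : ℕ) : ∃ K : ℕ,
    ∀ (f : (Fin (m + r) → ℂ) → ℂ),
    DifferentiableOn ℂ f {ζ | MvPolynomial.eval ζ g ≠ 0} → ∀ (q : ℝ), 0 < q →
    ∀ (p : MvPolynomial (Fin m) ℂ) (a b : ℕ),
    (∫⁻ ζ in {ζ | MvPolynomial.eval ζ g ≠ 0}, ‖f ζ‖ₑ ^ q * ENNReal.ofReal (wt p a b L ζ) < ∞) →
    ∃ (E : ℝ) (a' b' : ℕ), 0 ≤ E ∧ ∀ ζ, MvPolynomial.eval ζ g ≠ 0 →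
      MvPolynomial.eval (zc ζ) p ≠ 0 →
      ‖f ζ‖ ^ q * (‖MvPolynomial.eval ζ g‖ ^ (2 * (m + r)) * ‖MvPolynomial.eval (zc ζ) p‖ ^ b') ≤
        E * ((1 + ‖zc ζ‖) ^ a' * (1 + ‖xc ζ‖) ^ K) := by
  obtain ⟨C, D, hC, hg1, hg2⟩ := poly_bound g
  refine ⟨L + 2 * (m + r) * D, ?_⟩
  intro f hf q hq p a b hint
  obtain ⟨C', D', hC', hp1, hp2⟩ := poly_bound p
  set Ω : Set (Fin (m + r) → ℂ) := {ζ | MvPolynomial.eval ζ g ≠ 0} with hΩ
  have hΩo : IsOpen Ω := isOpen_ne.preimage (MvPolynomial.continuous_eval g)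
  set I : ℝ := (∫⁻ ζ in Ω, ‖f ζ‖ₑ ^ q * ENNReal.ofReal (wt p a b L ζ)).toReal with hI
  have hI0 : 0 ≤ I := ENNReal.toReal_nonneg
  refine ⟨I * (2 ^ b * (2 ^ a * 2 ^ L)) * ((4 * C * C') ^ 2) ^ (m + r), a + 2 * (m + r) * D + 2 * (m + r) * D',
    2 * (m + r) + b, by positivity, ?_⟩
  intro ζ hζ hζp
  have hG0 : 0 < ‖MvPolynomial.eval ζ g‖ := norm_pos_iff.2 hζ
  have hP0 : 0 < ‖MvPolynomial.eval (zc ζ) p‖ := norm_pos_iff.2 hζp
  set G := ‖MvPolynomial.eval ζ g‖ with hG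
  set Q := ‖MvPolynomial.eval (zc ζ) p‖ with hQ
  set S := 1 + ‖ζ‖ with hS
  set Z := 1 + ‖zc ζ‖ with hZ
  set X := 1 + ‖xc ζ‖ with hX
  have hS1 : 1 ≤ S := by rw [hS]; linarith [norm_nonneg ζ]
  have hZ1 : 1 ≤ Z := by rw [hZ]; linarith [norm_nonneg (zc ζ)]
  have hX1 : 1 ≤ X := by rw [hX]; linarith [norm_nonneg (xc ζ)]
  have hS0 : 0 < S := by linarith
  have hZ0 : 0 < Z := by linarith
  have hX0 : 0 < X := by linarith
  have hSZX : S ≤ Z * X := one_add_norm_le_mul ζ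
  have hC0 : 0 < C := by linarith
  have hC0' : 0 < C' := by linarith
  have hCD : 0 < C * S ^ D := by positivity
  have hCD' : 0 < C' * Z ^ D' := by positivity
  set t : ℝ := G / (2 * (C * S ^ D)) with ht
  set s : ℝ := Q / (2 * (C' * Z ^ D')) with hs
  have ht0 : 0 < t := by positivity
  have hs0 : 0 < s := by positivity
  have ht1 : t ≤ 1 / 2 := by
    rw [ht, div_le_div_iff₀ (by positivity) (by norm_num)]
    have := hg1 ζ
    nlinarith
  have hs1 : s ≤ 1 / 2 := by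
    rw [hs, div_le_div_iff₀ (by positivity) (by norm_num)]
    have := hp1 (zc ζ)
    nlinarith
  set ρ : ℝ := t * s with hρ
  have hρ0 : 0 < ρ := by positivity
  have hρt : ρ ≤ t := by rw [hρ]; nlinarith
  have hρs : ρ ≤ s := by rw [hρ]; nlinarith
  have hρ1 : ρ ≤ 1 := by linarith
  have hsub : closedBall ζ ρ ⊆ Ω := by
    intro y hy
    have hw : ‖y - ζ‖ ≤ ρ := by simpa [dist_eq_norm] using hy
    have h1 := hg2 ζ (y - ζ) (hw.trans hρ1)
    rw [add_sub_cancel] at h1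
    intro h0
    have h0' : MvPolynomial.eval y g = 0 := h0
    rw [h0', zero_sub, norm_neg] at h1
    have h2 : C * S ^ D * ‖y - ζ‖ ≤ C * S ^ D * t := by
      have := hw.trans hρt
      gcongr
    have h3 : C * S ^ D * t = G / 2 := by rw [ht]; field_simp
    have h4 : G ≤ C * S ^ D * ‖y - ζ‖ := h1
    linarith
  have hmv := Lq_464.submean hΩo hf hsub hq
  have hle : ∫⁻ y in ball ζ ρ, ‖f y‖ₑ ^ q ≤
      ENNReal.ofReal (2 ^ b * (2 ^ a * 2 ^ L) * (Z ^ a * X ^ L) / Q ^ b) * ENNReal.ofReal I := by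
    calc ∫⁻ y in ball ζ ρ, ‖f y‖ₑ ^ q
        ≤ ∫⁻ y in ball ζ ρ, ENNReal.ofReal (2 ^ b * (2 ^ a * 2 ^ L) * (Z ^ a * X ^ L) / Q ^ b) *
            (‖f y‖ₑ ^ q * ENNReal.ofReal (wt p a b L y)) := by
          refine setLIntegral_mono' measurableSet_ball fun y hy => ?_
          have hw : ‖y - ζ‖ < ρ := by simpa [dist_eq_norm] using hy
          have hyd : y = ζ + (y - ζ) := by abel
          have hz1 : ‖zc y‖ ≤ ‖zc ζ‖ + 1 := by
            rw [hyd, zc_add]
            refine (norm_add_le _ _).trans ?_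
            have := norm_zc_le (y - ζ)
            linarith
          have hx1 : ‖xc y‖ ≤ ‖xc ζ‖ + 1 := by
            rw [hyd, xc_add]
            refine (norm_add_le _ _).trans ?_
            have := norm_xc_le (y - ζ)
            linarith
          have hz2 : 1 + ‖zc y‖ ≤ 2 * Z := by linarith
          have hx2 : 1 + ‖xc y‖ ≤ 2 * X := by linarith
          have hpy : Q / 2 ≤ ‖MvPolynomial.eval (zc y) p‖ := by
            have hzz : ‖zc (y - ζ)‖ ≤ ρ := (norm_zc_le _).trans hw.le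
            have h1 := hp2 (zc ζ) (zc (y - ζ)) (hzz.trans hρ1)
            rw [← zc_add, add_sub_cancel] at h1
            have h2 : C' * Z ^ D' * ‖zc (y - ζ)‖ ≤ C' * Z ^ D' * s := by
              have := hzz.trans hρs
              gcongr
            have h3 : C' * Z ^ D' * s = Q / 2 := by rw [hs]; field_simp
            have h4 : Q ≤ ‖MvPolynomial.eval (zc y) p‖ +
                ‖MvPolynomial.eval (zc y) p - MvPolynomial.eval (zc ζ) p‖ := by
              have h5 := norm_sub_norm_le (MvPolynomial.eval (zc ζ) p) (MvPolynomial.eval (zc y) p)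
              rw [norm_sub_rev] at h5
              linarith
            have h6 : ‖MvPolynomial.eval (zc y) p - MvPolynomial.eval (zc ζ) p‖ ≤ Q / 2 := by
              refine h1.trans ?_
              rw [← h3]
              exact h2
            linarith
          have h3 : (1 : ℝ) ≤ 2 ^ b * (2 ^ a * 2 ^ L) * (Z ^ a * X ^ L) / Q ^ b *
              wt p a b L y := by
            unfold wt
            have e1 : Q ^ b ≤ 2 ^ b * ‖MvPolynomial.eval (zc y) p‖ ^ b := by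
              calc Q ^ b = 2 ^ b * (Q / 2) ^ b := by
                    rw [← mul_pow]; congr 1; ring
                _ ≤ 2 ^ b * ‖MvPolynomial.eval (zc y) p‖ ^ b := by gcongr
            have e2 : (1 + ‖zc y‖) ^ a ≤ 2 ^ a * Z ^ a := by
              rw [← mul_pow]; gcongr
            have e3 : (1 + ‖xc y‖) ^ L ≤ 2 ^ L * X ^ L := by
              rw [← mul_pow]; gcongr
            rw [div_mul_div_comm, one_le_div (by positivity)]
            calc Q ^ b * ((1 + ‖zc y‖) ^ a * (1 + ‖xc y‖) ^ L)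
                ≤ (2 ^ b * ‖MvPolynomial.eval (zc y) p‖ ^ b) *
                    ((2 ^ a * Z ^ a) * (2 ^ L * X ^ L)) := by gcongr
              _ = _ := by ring
          calc ‖f y‖ₑ ^ q = 1 * ‖f y‖ₑ ^ q := by rw [one_mul]
            _ ≤ ENNReal.ofReal (2 ^ b * (2 ^ a * 2 ^ L) * (Z ^ a * X ^ L) / Q ^ b *
                wt p a b L y) * ‖f y‖ₑ ^ q := by
              gcongr
              rw [← ENNReal.ofReal_one]
              exact ENNReal.ofReal_le_ofReal h3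
            _ = _ := by
              rw [ENNReal.ofReal_mul (by positivity)]; ring
      _ = ENNReal.ofReal (2 ^ b * (2 ^ a * 2 ^ L) * (Z ^ a * X ^ L) / Q ^ b) *
            ∫⁻ y in ball ζ ρ, ‖f y‖ₑ ^ q * ENNReal.ofReal (wt p a b L y) :=
          lintegral_const_mul' _ _ ENNReal.ofReal_ne_top
      _ ≤ ENNReal.ofReal (2 ^ b * (2 ^ a * 2 ^ L) * (Z ^ a * X ^ L) / Q ^ b) * ∫⁻ y in Ω,
            ‖f y‖ₑ ^ q * ENNReal.ofReal (wt p a b L y) := by
          gcongr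
          exact ball_subset_closedBall.trans hsub
      _ = _ := by rw [hI, ENNReal.ofReal_toReal hint.ne]
  have h5 := hmv.trans hle
  rw [vol_ball ζ hρ0, ← ENNReal.ofReal_mul (by positivity)] at h5
  have h6 : ‖f ζ‖ₑ ^ q = ENNReal.ofReal (‖f ζ‖ ^ q) := by
    rw [← ENNReal.ofReal_rpow_of_nonneg (norm_nonneg _) hq.le, ofReal_norm]
  rw [h6, ← ENNReal.ofReal_mul (by positivity), ENNReal.ofReal_le_ofReal_iff (by positivity)] at h5
  have h7 : (ρ ^ 2) ^ (m + r) * ‖f ζ‖ ^ q ≤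
      2 ^ b * (2 ^ a * 2 ^ L) * (Z ^ a * X ^ L) / Q ^ b * I := by
    refine le_trans ?_ h5
    gcongr
    have : (1 : ℝ) ≤ π := by linarith [Real.pi_gt_three]
    nlinarith [sq_nonneg ρ]
  have e1 : (ρ ^ 2) ^ (m + r) * (((4 * C * C') ^ 2) ^ (m + r) * ((S ^ D * Z ^ D') ^ 2) ^ (m + r)) =
      (G ^ (2 * (m + r))) * Q ^ (2 * (m + r)) := by
    have e0 : ρ * (4 * C * C' * (S ^ D * Z ^ D')) = G * Q := by
      rw [hρ, ht, hs]
      field_simp
      ring
    rw [← mul_pow, ← mul_pow, ← mul_pow, ← mul_pow, e0, ← pow_mul, mul_pow]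
  have e2 : ((S ^ D * Z ^ D') ^ 2) ^ (m + r) ≤ Z ^ (2 * (m + r) * D + 2 * (m + r) * D') * X ^ (2 * (m + r) * D) := by
    calc ((S ^ D * Z ^ D') ^ 2) ^ (m + r) ≤ (((Z * X) ^ D * Z ^ D') ^ 2) ^ (m + r) := by gcongr
      _ = Z ^ (2 * (m + r) * D + 2 * (m + r) * D') * X ^ (2 * (m + r) * D) := by
        rw [← pow_mul, mul_pow, ← pow_mul, ← pow_mul, mul_pow, pow_add,
          show 2 * (m + r) * D = D * (2 * (m + r)) by ring,
          show 2 * (m + r) * D' = D' * (2 * (m + r)) by ring]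
        ring
  calc ‖f ζ‖ ^ q * (G ^ (2 * (m + r)) * Q ^ (2 * (m + r) + b))
      = (‖f ζ‖ ^ q * (ρ ^ 2) ^ (m + r)) * Q ^ b *
          (((4 * C * C') ^ 2) ^ (m + r) * ((S ^ D * Z ^ D') ^ 2) ^ (m + r)) := by
        rw [pow_add, show ‖f ζ‖ ^ q * (G ^ (2 * (m + r)) * (Q ^ (2 * (m + r)) * Q ^ b)) =
          ‖f ζ‖ ^ q * (G ^ (2 * (m + r)) * Q ^ (2 * (m + r))) * Q ^ b by ring, ← e1]
        ring
    _ ≤ (2 ^ b * (2 ^ a * 2 ^ L) * (Z ^ a * X ^ L) / Q ^ b * I) * Q ^ b *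
          (((4 * C * C') ^ 2) ^ (m + r) * (Z ^ (2 * (m + r) * D + 2 * (m + r) * D') * X ^ (2 * (m + r) * D))) := by
        refine mul_le_mul (mul_le_mul_of_nonneg_right ?_ (by positivity)) ?_ (by positivity)
          (by positivity)
        · rw [mul_comm]
          exact h7
        · exact mul_le_mul_of_nonneg_left e2 (by positivity)
    _ = I * (2 ^ b * (2 ^ a * 2 ^ L)) * ((4 * C * C') ^ 2) ^ (m + r) *
          (Z ^ (a + 2 * (m + r) * D + 2 * (m + r) * D') * X ^ (L + 2 * (m + r) * D)) := by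
        have hQb : Q ^ b ≠ 0 := by positivity
        rw [pow_add X L, pow_add Z (a + 2 * (m + r) * D), pow_add Z a, pow_add Z (2 * (m + r) * D)]
        field_simp

/-! ### polynomials in `(z, x)` as polynomials in `x` over `ℂ[z]` -/

/-- `ℂ[z,x] = ℂ[z][x]` -/
def split : MvPolynomial (Fin (m + r)) ℂ ≃ₐ[ℂ] MvPolynomial (Fin r) (MvPolynomial (Fin m) ℂ) :=
  (MvPolynomial.renameEquiv ℂ (finSumFinEquiv.symm.trans (Equiv.sumComm (Fin m) (Fin r)))).trans
    (MvPolynomial.sumAlgEquiv ℂ (Fin r) (Fin m))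

lemma split_X_z (i : Fin m) : split (MvPolynomial.X (Fin.castAdd r i) : MvPolynomial (Fin (m + r)) ℂ) =
    MvPolynomial.C (MvPolynomial.X i) := by
  simp [split]

lemma split_X_x (j : Fin r) : split (MvPolynomial.X (Fin.natAdd m j) : MvPolynomial (Fin (m + r)) ℂ) =
    MvPolynomial.X j := by
  simp [split]

/-- evaluation of `split P` in any commutative algebra -/
lemma eval₂_split {A : Type*} [CommRing A] [Algebra ℂ A] (u : Fin (m + r) → A)
    (P : MvPolynomial (Fin (m + r)) ℂ) :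
    MvPolynomial.eval₂ ((MvPolynomial.aeval fun i : Fin m => u (Fin.castAdd r i) :
      MvPolynomial (Fin m) ℂ →ₐ[ℂ] A) : MvPolynomial (Fin m) ℂ →+* A)
      (fun j => u (Fin.natAdd m j)) (split P) = MvPolynomial.aeval u P := by
  induction P using MvPolynomial.induction_on with
  | C a =>
    have h : split (MvPolynomial.C a : MvPolynomial (Fin (m + r)) ℂ) =
        MvPolynomial.C (MvPolynomial.C a) := by
      have := (split (m := m) (r := r)).commutes a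
      rw [MvPolynomial.algebraMap_eq] at this
      rw [this]
      rfl
    rw [h]
    simp
  | add p q hp hq => rw [map_add, MvPolynomial.eval₂_add, hp, hq, map_add]
  | mul_X p i hp =>
    rw [map_mul, MvPolynomial.eval₂_mul, hp, map_mul]
    congr 1
    refine Fin.addCases (fun i => ?_) (fun j => ?_) i
    · rw [split_X_z]; simp
    · rw [split_X_x]; simp

lemma eval_split (ζ : Fin (m + r) → ℂ) (P : MvPolynomial (Fin (m + r)) ℂ) :
    MvPolynomial.eval (xc ζ) (MvPolynomial.map (MvPolynomial.eval (zc ζ)) (split P)) =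
      MvPolynomial.eval ζ P := by
  have h := eval₂_split ζ P
  rw [MvPolynomial.eval_map]
  rw [MvPolynomial.coe_aeval_eq_eval] at h
  exact h

lemma zc_append (z : Fin m → ℂ) (x : Fin r → ℂ) : zc (Fin.append z x) = z := by
  funext i; simp [zc]

lemma xc_append (z : Fin m → ℂ) (x : Fin r → ℂ) : xc (Fin.append z x) = x := by
  funext i; simp [xc]

/-- growth bounds the degree in `x` -/
theorem totalDegree_split_le {P : MvPolynomial (Fin (m + r)) ℂ} {C : ℝ} {A K : ℕ}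
    (h : ∀ ζ, ‖MvPolynomial.eval ζ P‖ ≤ C * ((1 + ‖zc ζ‖) ^ A * (1 + ‖xc ζ‖) ^ K)) :
    (split P).totalDegree ≤ K := by
  rw [MvPolynomial.totalDegree]
  refine Finset.sup_le fun β hβ => ?_
  have hc : (split P).coeff β ≠ 0 := MvPolynomial.mem_support_iff.1 hβ
  obtain ⟨z0, hz0⟩ : ∃ z0, MvPolynomial.eval z0 ((split P).coeff β) ≠ 0 := by
    by_contra hcon
    push Not at hcon
    exact hc (MvPolynomial.funext fun z => by rw [hcon z, map_zero])
  set P0 := MvPolynomial.map (MvPolynomial.eval z0) (split P) with hP0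
  have hev : ∀ x : Fin r → ℂ, MvPolynomial.eval x P0 = MvPolynomial.eval (Fin.append z0 x) P := by
    intro x
    have := eval_split (Fin.append z0 x) P
    rw [zc_append, xc_append] at this
    exact this
  have hC : Differentiable ℂ fun x : Fin r → ℂ => MvPolynomial.eval x P0 := fun x =>
    (RExt747.analyticAt_eval P0 x).differentiableAt
  obtain ⟨p', hp', hpe⟩ := RExt747.poly_of_growth (C := C * (1 + ‖z0‖) ^ A) (N := K) hC (by
    intro x
    rw [hev]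
    refine (h _).trans (le_of_eq ?_)
    rw [zc_append, xc_append]
    ring)
  have hPp : P0 = p' := MvPolynomial.funext hpe
  have hcoef : P0.coeff β ≠ 0 := by
    rw [hP0, MvPolynomial.coeff_map]
    exact hz0
  rw [hPp] at hcoef
  exact (MvPolynomial.le_totalDegree (MvPolynomial.mem_support_iff.2 hcoef)).trans hp'

/-- a polynomial in the first coordinates, as a polynomial in all coordinates -/
lemma eval_rename_castAdd (p : MvPolynomial (Fin m) ℂ) (ζ : Fin (m + r) → ℂ) :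
    MvPolynomial.eval ζ (MvPolynomial.rename (Fin.castAdd r) p) = MvPolynomial.eval (zc ζ) p := by
  rw [MvPolynomial.eval_rename]; rfl

/-- **`L^{2/N}` functions are polynomials after multiplication by `g^{K₁} p^e`**, the degree in `x` being
bounded independently of `f`, `p`, `a`, `b`. -/
theorem poly_of_lq {g : MvPolynomial (Fin (m + r)) ℂ} (hg : g ≠ 0) (L : ℕ) {N : ℕ} (hN : 0 < N) :
    ∃ K1 K2 : ℕ, ∀ (f : (Fin (m + r) → ℂ) → ℂ),
    DifferentiableOn ℂ f {ζ | MvPolynomial.eval ζ g ≠ 0} →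
    ∀ (p : MvPolynomial (Fin m) ℂ) (a b : ℕ), p ≠ 0 →
    (∫⁻ ζ in {ζ | MvPolynomial.eval ζ g ≠ 0},
      ‖f ζ‖ₑ ^ (2 / N : ℝ) * ENNReal.ofReal (wt p a b L ζ) < ∞) →
    ∃ (e : ℕ) (P : MvPolynomial (Fin (m + r)) ℂ), (split P).totalDegree ≤ K2 ∧
      ∀ ζ, MvPolynomial.eval ζ g ≠ 0 →
        MvPolynomial.eval ζ P = f ζ * MvPolynomial.eval ζ g ^ K1 * MvPolynomial.eval (zc ζ) p ^ e := by
  obtain ⟨K, hK⟩ := growth_pt g L
  refine ⟨(m + r) * N, K * N, ?_⟩
  intro f hf p a b hp hint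
  have hN' : (0 : ℝ) < N := by exact_mod_cast hN
  obtain ⟨E, a', b', hE, hE2⟩ := hK f hf (2 / N) (by positivity) p a b hint
  obtain ⟨C', D', hC', hp1, -⟩ := poly_bound p
  set Ω : Set (Fin (m + r) → ℂ) := {ζ | MvPolynomial.eval ζ g ≠ 0} with hΩ
  have hΩo : IsOpen Ω := isOpen_ne.preimage (MvPolynomial.continuous_eval g)
  set e : ℕ := b' * N + 1 with he
  set e2 : ℕ := b' * N + 2 with he2
  set F : (Fin (m + r) → ℂ) → ℂ := fun ζ =>
    f ζ * MvPolynomial.eval ζ g ^ ((m + r) * N) * MvPolynomial.eval (zc ζ) p ^ e with hF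
  have hzd : Differentiable ℂ (zc : (Fin (m + r) → ℂ) → Fin m → ℂ) := by
    unfold zc; fun_prop
  have hpd : Differentiable ℂ fun ζ : Fin (m + r) → ℂ => MvPolynomial.eval (zc ζ) p := fun ζ =>
    (RExt747.analyticAt_eval p (zc ζ)).differentiableAt.comp ζ (hzd ζ)
  have hgd : Differentiable ℂ fun ζ : Fin (m + r) → ℂ => MvPolynomial.eval ζ g := fun ζ =>
    (RExt747.analyticAt_eval g ζ).differentiableAt
  have hFd : DifferentiableOn ℂ F Ω :=
    (hf.mul (hgd.pow _).differentiableOn).mul (hpd.pow _).differentiableOn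
  have hC0 : 0 < C' := by linarith
  set E' : ℝ := E ^ N * C' ^ e2 with hE'
  have hE'0 : 0 ≤ E' := by positivity
  set A' : ℕ := a' * N + D' * e2 with hA'
  -- the bound for `‖F‖ ^ 2`
  have hFb : ∀ ζ ∈ Ω, ‖F ζ‖ ^ 2 ≤ E' * ((1 + ‖zc ζ‖) ^ A' * (1 + ‖xc ζ‖) ^ (K * N)) := by
    intro ζ hζ
    by_cases hz : MvPolynomial.eval (zc ζ) p = 0
    · have : F ζ = 0 := by simp [hF, hz, he]
      rw [this, norm_zero, zero_pow two_ne_zero]
      positivity
    · have h1 := hE2 ζ hζ hz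
      set G := ‖MvPolynomial.eval ζ g‖ with hG
      set Q := ‖MvPolynomial.eval (zc ζ) p‖ with hQ
      set Z := 1 + ‖zc ζ‖ with hZ
      set X := 1 + ‖xc ζ‖ with hX
      have hZ0 : 0 < Z := by rw [hZ]; positivity
      have hX0 : 0 < X := by rw [hX]; positivity
      have h2 : (‖f ζ‖ ^ (2 / N : ℝ)) ^ N = ‖f ζ‖ ^ 2 := by
        rw [← Real.rpow_natCast, ← Real.rpow_mul (norm_nonneg _), div_mul_cancel₀ _ hN'.ne']
        norm_num
      have h3 : ‖f ζ‖ ^ 2 * (G ^ (2 * (m + r)) * Q ^ b') ^ N ≤ E ^ N * (Z ^ a' * X ^ K) ^ N := by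
        rw [← h2, ← mul_pow, ← mul_pow]
        exact pow_le_pow_left₀ (by positivity) h1 N
      have h4 : Q ^ e2 ≤ C' ^ e2 * Z ^ (D' * e2) := by
        calc Q ^ e2 ≤ (C' * Z ^ D') ^ e2 := by gcongr; exact hp1 (zc ζ)
          _ = _ := by rw [mul_pow, ← pow_mul]
      calc ‖F ζ‖ ^ 2 = (‖f ζ‖ ^ 2 * (G ^ (2 * (m + r)) * Q ^ b') ^ N) * Q ^ e2 := by
            simp only [hF, norm_mul, norm_pow, he, he2]
            ring
        _ ≤ (E ^ N * (Z ^ a' * X ^ K) ^ N) * (C' ^ e2 * Z ^ (D' * e2)) := by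
            gcongr
        _ = _ := by
            rw [hE', hA', mul_pow, ← pow_mul, ← pow_mul, pow_add]; ring
  -- extension
  obtain ⟨W, hW, hWF⟩ := RExt747.riemann_ext_poly (f := F) hg hFd (by
    intro c
    refine ⟨ball c 1, ball_mem_nhds c one_pos, ?_⟩
    have hm : MeasurableSet (ball c 1 ∩ {ζ | MvPolynomial.eval ζ g ≠ 0}) :=
      isOpen_ball.measurableSet.inter hΩo.measurableSet
    calc ∫⁻ ζ in ball c 1 ∩ {ζ | MvPolynomial.eval ζ g ≠ 0}, ‖F ζ‖ₑ ^ 2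
        ≤ ∫⁻ _ in ball c 1 ∩ {ζ | MvPolynomial.eval ζ g ≠ 0},
          ENNReal.ofReal (E' * ((2 + ‖c‖) ^ A' * (2 + ‖c‖) ^ (K * N))) := by
          refine setLIntegral_mono' hm ?_
          rintro ζ ⟨hζ1, hζ2⟩
          have h1 := hFb ζ hζ2
          have h2 : ‖ζ‖ ≤ 1 + ‖c‖ := by
            have h3 : ‖ζ - c‖ < 1 := by simpa [dist_eq_norm] using hζ1
            have h4 : ‖ζ‖ ≤ ‖ζ - c‖ + ‖c‖ := by
              have : ζ = (ζ - c) + c := by abel
              conv_lhs => rw [this]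
              exact norm_add_le _ _
            linarith
          have h5 : 1 + ‖zc ζ‖ ≤ 2 + ‖c‖ := by linarith [norm_zc_le ζ]
          have h6 : 1 + ‖xc ζ‖ ≤ 2 + ‖c‖ := by linarith [norm_xc_le ζ]
          rw [← ofReal_norm, ← ENNReal.ofReal_pow (norm_nonneg _)]
          apply ENNReal.ofReal_le_ofReal
          refine h1.trans ?_
          gcongr
      _ = ENNReal.ofReal (E' * ((2 + ‖c‖) ^ A' * (2 + ‖c‖) ^ (K * N))) *
          volume (ball c 1 ∩ {ζ | MvPolynomial.eval ζ g ≠ 0}) := setLIntegral_const _ _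
      _ < ∞ := ENNReal.mul_lt_top ENNReal.ofReal_lt_top
          (lt_of_le_of_lt (measure_mono inter_subset_left) measure_ball_lt_top))
  -- the bound for the extension
  have hΩd : Dense Ω := by
    intro ζ
    rw [mem_closure_iff_nhds]
    intro U hU
    by_contra hcon
    rw [not_nonempty_iff_eq_empty] at hcon
    refine RExt747.poly_not_eventually_zero hg ζ ?_
    filter_upwards [hU] with y hy
    by_contra hne
    have : y ∈ U ∩ Ω := ⟨hy, hne⟩
    rw [hcon] at this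
    exact this
  have hWb : ∀ ζ, ‖W ζ‖ ^ 2 ≤ E' * ((1 + ‖zc ζ‖) ^ A' * (1 + ‖xc ζ‖) ^ (K * N)) := by
    have hcl : IsClosed {ζ | ‖W ζ‖ ^ 2 ≤ E' * ((1 + ‖zc ζ‖) ^ A' * (1 + ‖xc ζ‖) ^ (K * N))} := by
      refine isClosed_le ((hW.continuous.norm).pow 2) ?_
      exact continuous_const.mul (((continuous_const.add continuous_zc.norm).pow _).mul
        ((continuous_const.add continuous_xc.norm).pow _))
    have hsub : Ω ⊆ {ζ | ‖W ζ‖ ^ 2 ≤ E' * ((1 + ‖zc ζ‖) ^ A' * (1 + ‖xc ζ‖) ^ (K * N))} := by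
      intro ζ hζ
      rw [mem_ofPred_eq, hWF ζ hζ]
      exact hFb ζ hζ
    intro ζ
    exact (hcl.closure_subset_iff.2 hsub) (hΩd ζ)
  have hsq : ∀ (x y : ℝ), 0 ≤ x → 0 ≤ y → x ^ 2 ≤ y → x ≤ 1 + y := by
    intro x y hx hy h
    nlinarith [sq_nonneg (x - 1)]
  have hWb2 : ∀ ζ, ‖W ζ‖ ≤ (1 + E') * ((1 + ‖zc ζ‖) ^ A' * (1 + ‖xc ζ‖) ^ (K * N)) := by
    intro ζ
    have hZ1 : 1 ≤ 1 + ‖zc ζ‖ := by linarith [norm_nonneg (zc ζ)]
    have hX1 : 1 ≤ 1 + ‖xc ζ‖ := by linarith [norm_nonneg (xc ζ)]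
    have h1 := hsq _ _ (norm_nonneg (W ζ)) (by positivity) (hWb ζ)
    have h2 : 1 ≤ (1 + ‖zc ζ‖) ^ A' * (1 + ‖xc ζ‖) ^ (K * N) := by
      have := one_le_pow₀ hZ1 (n := A')
      have h3 := one_le_pow₀ hX1 (n := K * N)
      nlinarith
    nlinarith
  obtain ⟨P, -, hP⟩ := RExt747.poly_of_growth (g := W) hW (C := 1 + E') (N := A' + K * N) (by
    intro ζ
    refine (hWb2 ζ).trans ?_
    rw [pow_add (1 + ‖ζ‖) A' (K * N)]
    have h1 := norm_zc_le ζ
    have h2 := norm_xc_le ζ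
    gcongr)
  refine ⟨e, P, ?_, fun ζ hζ => ?_⟩
  · refine totalDegree_split_le (C := 1 + E') (A := A') fun ζ => ?_
    rw [← hP]
    exact hWb2 ζ
  · rw [← hP, hWF ζ hζ]

end Crest.Agent.R276.SatA_210
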