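import Mathlib
import Crest.Agent.R276.SatA_152
import Crest.Agent.R276.CntJet_691

/-!
# R276, leaf SAT (A) (helper152): polynomials from growth, degree in the fibre variables

`exists_poly_of_growth` : `f` holomorphic on `{g ≠ 0} ⊆ ℂ^{m+r}`,
`|f| ≤ C (1+|z|)^{a'} (1+|x|)^{a₀}` there ⟹ `f` is a polynomial of degree `≤ a₀` in `x`.
-/

set_option autoImplicit false

open MeasureTheory Metric Set Filter Topology
open scoped ENNReal Real

noncomputable section

namespace Crest.Agent.R276.SatA_152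

variable {m r : ℕ}

open Crest.Agent.R271

lemma deriv_iterate_eval (Q : Polynomial ℂ) (d : ℕ) :
    iteratedDeriv d (fun t => Q.eval t) = fun t => (Polynomial.derivative^[d] Q).eval t := by
  induction d with
  | zero => simp
  | succ d ih =>
    rw [iteratedDeriv_succ, ih]
    funext t
    rw [Polynomial.deriv, Function.iterate_succ_apply']

/-- degree from growth, one variable -/
lemma coeff_eq_zero_of_growth {Q : Polynomial ℂ} {A : ℝ} {M : ℕ}
    (h : ∀ t, ‖Q.eval t‖ ≤ A * (1 + ‖t‖) ^ M) {d : ℕ} (hd : M < d) : Q.coeff d = 0 := by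
  have h1 := CntJet_691.iteratedDeriv_eq_zero (u := fun t => Q.eval t) Q.differentiable h hd
  rw [deriv_iterate_eval] at h1
  have h2 : (Polynomial.derivative^[d] Q).coeff 0 = 0 := by
    rw [Polynomial.coeff_zero_eq_eval_zero]; exact h1
  rw [Polynomial.coeff_iterate_derivative, zero_add, Nat.descFactorial_self, nsmul_eq_mul] at h2
  rcases mul_eq_zero.mp h2 with h3 | h3
  · exact absurd (Nat.cast_eq_zero.mp h3) (Nat.factorial_ne_zero d)
  · exact h3

/-- degree in the fibre variables -/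
def dx (s : Fin (m + r) →₀ ℕ) : ℕ := ∑ j : Fin r, s (Fin.natAdd m j)

/-- scaling of the fibre variables -/
def sc (t : ℂ) (ζ : Fin (m + r) → ℂ) : Fin (m + r) → ℂ := Fin.append (zp ζ) (t • xp ζ)

lemma prod_sc (t : ℂ) (ζ : Fin (m + r) → ℂ) (s : Fin (m + r) →₀ ℕ) :
    ∏ i, sc t ζ i ^ s i = (∏ i, ζ i ^ s i) * t ^ dx s := by
  rw [Fin.prod_univ_add, Fin.prod_univ_add]
  simp only [sc, Fin.append_left, Fin.append_right, Pi.smul_apply, smul_eq_mul, mul_pow]
  rw [Finset.prod_mul_distrib, dx, Finset.prod_pow_eq_pow_sum]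
  simp only [zp, xp]
  ring

lemma growth_deg {P : MvPolynomial (Fin (m + r)) ℂ} {C : ℝ} {a' a0 : ℕ} (hC : 0 ≤ C)
    (h : ∀ ζ, ‖MvPolynomial.eval ζ P‖ ≤ C * ((1 + ‖zp ζ‖) ^ a' * (1 + ‖xp ζ‖) ^ a0)) :
    ∀ s ∈ P.support, dx s ≤ a0 := by
  classical
  intro s hs
  by_contra hcon
  push Not at hcon
  set R : MvPolynomial (Fin (m + r)) ℂ :=
    ∑ s' ∈ P.support.filter (fun s' => dx s' = dx s), MvPolynomial.monomial s' (P.coeff s') with hR
  have hR0 : R = 0 := by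
    apply MvPolynomial.funext
    intro ζ
    rw [map_zero]
    set Q : Polynomial ℂ := ∑ s' ∈ P.support,
      Polynomial.C (P.coeff s' * ∏ i, ζ i ^ s' i) * Polynomial.X ^ dx s' with hQ
    have hQe : ∀ t, Q.eval t = MvPolynomial.eval (sc t ζ) P := by
      intro t
      rw [hQ, Polynomial.eval_finsetSum, MvPolynomial.eval_eq']
      refine Finset.sum_congr rfl fun s' _ => ?_
      rw [Polynomial.eval_mul, Polynomial.eval_C, Polynomial.eval_pow, Polynomial.eval_X, prod_sc]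
      ring
    have hgr : ∀ t, ‖Q.eval t‖ ≤ (C * ((1 + ‖zp ζ‖) ^ a' * (1 + ‖xp ζ‖) ^ a0)) *
        (1 + ‖t‖) ^ a0 := by
      intro t
      rw [hQe]
      refine (h _).trans ?_
      have e1 : zp (sc t ζ) = zp ζ := by
        funext i; simp [zp, sc]
      have e2 : xp (sc t ζ) = t • xp ζ := by
        funext i; simp [xp, sc]
      rw [e1, e2, norm_smul, mul_assoc, mul_assoc, ← mul_pow]
      have e3 : 1 + ‖t‖ * ‖xp ζ‖ ≤ (1 + ‖xp ζ‖) * (1 + ‖t‖) := by
        nlinarith [norm_nonneg t, norm_nonneg (xp ζ)]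
      gcongr
    have h1 := coeff_eq_zero_of_growth hgr hcon
    rw [hQ, Polynomial.finsetSum_coeff] at h1
    simp only [Polynomial.coeff_C_mul, Polynomial.coeff_X_pow] at h1
    rw [hR, map_sum, Finset.sum_filter]
    refine Eq.trans (Finset.sum_congr rfl fun s' _ => ?_) h1
    by_cases hd : dx s' = dx s
    · rw [if_pos hd, if_pos hd.symm, MvPolynomial.eval_monomial, mul_one, Finsupp.prod_fintype]
      intro i; exact pow_zero _
    · rw [if_neg hd, if_neg (fun h => hd h.symm), mul_zero]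
  have h2 : MvPolynomial.coeff s R = P.coeff s := by
    rw [hR, MvPolynomial.coeff_sum, Finset.sum_eq_single s]
    · simp
    · intro s' _ hne
      rw [MvPolynomial.coeff_monomial, if_neg hne]
    · intro hns
      exact absurd (Finset.mem_filter.mpr ⟨hs, (rfl : dx s = dx s)⟩) hns
  rw [hR0, MvPolynomial.coeff_zero] at h2
  exact (MvPolynomial.mem_support_iff.mp hs) h2.symm

lemma dense_ne {n : ℕ} {g : MvPolynomial (Fin n) ℂ} (hg : g ≠ 0) :
    Dense {ζ : Fin n → ℂ | MvPolynomial.eval ζ g ≠ 0} :=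
  Measure.dense_of_ae (μ := (volume : Measure (Fin n → ℂ))) (Null956.ae_eval_ne hg)

/-- a holomorphic function on `{g ≠ 0}` of growth `(1+|z|)^{a'} (1+|x|)^{a₀}` is a polynomial,
of degree `≤ a₀` in `x` -/
theorem exists_poly_of_growth {f : (Fin (m + r) → ℂ) → ℂ} {g : MvPolynomial (Fin (m + r)) ℂ}
    (hg : g ≠ 0) (hf : DifferentiableOn ℂ f {ζ | MvPolynomial.eval ζ g ≠ 0}) {C : ℝ} {a' a0 : ℕ}
    (hC : 0 ≤ C)
    (h : ∀ ζ, MvPolynomial.eval ζ g ≠ 0 →
      ‖f ζ‖ ≤ C * ((1 + ‖zp ζ‖) ^ a' * (1 + ‖xp ζ‖) ^ a0)) :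
    ∃ P : MvPolynomial (Fin (m + r)) ℂ, (∀ ζ, MvPolynomial.eval ζ g ≠ 0 →
      f ζ = MvPolynomial.eval ζ P) ∧ ∀ s ∈ P.support, dx s ≤ a0 := by
  have hopen : IsOpen {ζ : Fin (m + r) → ℂ | MvPolynomial.eval ζ g ≠ 0} :=
    isOpen_ne.preimage (MvPolynomial.continuous_eval g)
  have hST : ∀ ζ : Fin (m + r) → ℂ, C * ((1 + ‖zp ζ‖) ^ a' * (1 + ‖xp ζ‖) ^ a0) ≤
      C * (1 + ‖ζ‖) ^ (a' + a0) := by
    intro ζ
    have h1 := norm_zp_le ζ
    have h2 := norm_xp_le ζ
    rw [pow_add]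
    gcongr
  obtain ⟨E, hE, hEf⟩ := RExt747.riemann_ext_poly hg hf (by
    intro a
    refine ⟨ball a 1, ball_mem_nhds a one_pos, ?_⟩
    have hm : MeasurableSet (ball a 1 ∩ {ζ : Fin (m + r) → ℂ | MvPolynomial.eval ζ g ≠ 0}) :=
      isOpen_ball.measurableSet.inter hopen.measurableSet
    calc ∫⁻ ζ in ball a 1 ∩ {ζ | MvPolynomial.eval ζ g ≠ 0}, ‖f ζ‖ₑ ^ 2
        ≤ ∫⁻ _ζ in ball a 1 ∩ {ζ | MvPolynomial.eval ζ g ≠ 0},
            ENNReal.ofReal (C * (2 + ‖a‖) ^ (a' + a0)) ^ 2 := by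
          refine setLIntegral_mono' hm ?_
          rintro ζ ⟨hζ1, hζ2⟩
          have h1 : ‖ζ - a‖ < 1 := by simpa [dist_eq_norm] using hζ1
          have h2 : ‖ζ‖ ≤ ‖ζ - a‖ + ‖a‖ := by
            have : ζ = (ζ - a) + a := by abel
            conv_lhs => rw [this]
            exact norm_add_le _ _
          have h3 : ‖f ζ‖ ≤ C * (2 + ‖a‖) ^ (a' + a0) := by
            refine ((h ζ hζ2).trans (hST ζ)).trans ?_
            have h4 : 1 + ‖ζ‖ ≤ 2 + ‖a‖ := by linarith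
            exact mul_le_mul_of_nonneg_left (pow_le_pow_left₀ (by positivity) h4 _) hC
          gcongr
          rw [← ofReal_norm]
          exact ENNReal.ofReal_le_ofReal h3
      _ = ENNReal.ofReal (C * (2 + ‖a‖) ^ (a' + a0)) ^ 2 *
            volume (ball a 1 ∩ {ζ | MvPolynomial.eval ζ g ≠ 0}) := by
          rw [setLIntegral_const]
      _ < ∞ := ENNReal.mul_lt_top (ENNReal.pow_lt_top ENNReal.ofReal_lt_top)
          ((measure_mono inter_subset_left).trans_lt measure_ball_lt_top))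
  -- growth of `E`
  have hEg : ∀ ζ, ‖E ζ‖ ≤ C * ((1 + ‖zp ζ‖) ^ a' * (1 + ‖xp ζ‖) ^ a0) := by
    have hcz : Continuous (fun ζ : Fin (m + r) → ℂ => zp ζ) := by
      unfold zp; fun_prop
    have hcx : Continuous (fun ζ : Fin (m + r) → ℂ => xp ζ) := by
      unfold xp; fun_prop
    have hcl : IsClosed {ζ | ‖E ζ‖ ≤ C * ((1 + ‖zp ζ‖) ^ a' * (1 + ‖xp ζ‖) ^ a0)} := by
      refine isClosed_le hE.continuous.norm ?_
      fun_prop
    have hsub : {ζ : Fin (m + r) → ℂ | MvPolynomial.eval ζ g ≠ 0} ⊆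
        {ζ | ‖E ζ‖ ≤ C * ((1 + ‖zp ζ‖) ^ a' * (1 + ‖xp ζ‖) ^ a0)} := by
      intro ζ hζ
      have := h ζ hζ
      rw [← hEf ζ hζ] at this
      exact this
    intro ζ
    exact hcl.closure_subset_iff.mpr hsub ((dense_ne hg) ζ)
  obtain ⟨P, -, hP⟩ := RExt747.poly_of_sq_growth (g := E) hE (N := a' + a0 + (m + r + 1)) (by
    have hle : ∀ ζ : Fin (m + r) → ℂ, ‖E ζ‖ₑ ^ 2 *
        ENNReal.ofReal ((1 + ‖ζ‖) ^ (2 * (a' + a0 + (m + r + 1))))⁻¹ ≤
        ENNReal.ofReal (C ^ 2 * (m + r + 1 : ℝ) ^ (m + r + 1)) *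
          ENNReal.ofReal (1 / (1 + ∑ i, ‖ζ i‖ ^ 2) ^ (m + r + 1)) := by
      intro ζ
      have h1 := (hEg ζ).trans (hST ζ)
      rw [← ofReal_norm, ← ENNReal.ofReal_pow (norm_nonneg _),
        ← ENNReal.ofReal_mul (by positivity), ← ENNReal.ofReal_mul (by positivity)]
      apply ENNReal.ofReal_le_ofReal
      set S := 1 + ‖ζ‖ with hS
      have hS0 : 0 < S := by positivity
      have h2 : 1 + ∑ i, ‖ζ i‖ ^ 2 ≤ (m + r + 1 : ℝ) * S ^ 2 := by
        have := AlgC956.one_add_sum_le ζ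
        push_cast at this
        exact this
      have h3 : 0 < (1 + ∑ i, ‖ζ i‖ ^ 2) ^ (m + r + 1) := by positivity
      calc ‖E ζ‖ ^ 2 * (S ^ (2 * (a' + a0 + (m + r + 1))))⁻¹
          ≤ (C * S ^ (a' + a0)) ^ 2 * (S ^ (2 * (a' + a0 + (m + r + 1))))⁻¹ := by gcongr
        _ = C ^ 2 * (1 / (S ^ 2) ^ (m + r + 1)) := by
            have e1 : S ^ (2 * (a' + a0 + (m + r + 1))) =
                (S ^ (a' + a0)) ^ 2 * (S ^ 2) ^ (m + r + 1) := by
              rw [← pow_mul, ← pow_mul, ← pow_add]; congr 1; ring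
            rw [e1]
            field_simp
        _ = C ^ 2 * (m + r + 1 : ℝ) ^ (m + r + 1) *
              (1 / ((m + r + 1 : ℝ) * S ^ 2) ^ (m + r + 1)) := by
            rw [mul_pow (m + r + 1 : ℝ) (S ^ 2)]
            field_simp
        _ ≤ _ := by
            gcongr
    refine lt_of_le_of_lt (lintegral_mono hle) ?_
    rw [lintegral_const_mul' _ _ ENNReal.ofReal_ne_top]
    exact ENNReal.mul_lt_top ENNReal.ofReal_lt_top (AB2_590.lintegral_japanese (m + r)))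
  refine ⟨P, fun ζ hζ => by rw [← hEf ζ hζ, hP], growth_deg (C := C) (a' := a') hC ?_⟩
  intro ζ
  rw [← hP]
  exact hEg ζ

end Crest.Agent.R276.SatA_152
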