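import Crest.Agent.R276.SatA_210
import Crest.Agent.R276.Mod7_987

/-!
# Row 276 (S0419), SAT (helper210), part B: the spaces `V_N`

`R : RMdl L K m r` a relative model.
* `InW R N G` : `∫_{MK} |G|^{2/N} |p(z)| (1+|z|)^{-a} < ∞` for some `p ≠ 0` in `ℂ[z]` and some `a`;
* `VN R N : Submodule L K` : the `v` such that `c v = b ∈ B_K`, `InW b`, for some `c ≠ 0` in `B_L`;
* `VN_mul` : `V_N V_N' ⊆ V_{N+N'}`;
* `VN_finite` : `V_N` is finite dimensional over `L`.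
-/

set_option autoImplicit false

noncomputable section

open Set Filter Topology Metric MeasureTheory
open scoped ENNReal Real

namespace Crest.Agent.R276.SatB_210

open Crest.Agent.R271 Crest.Agent.R271.Defs710 Crest.Agent.R271.Alg255 Crest.Agent.R271.Rd692
open Crest.Agent.R271.AlgB956 Crest.Agent.R271.Ho51
open Crest.Agent.R276 Crest.Agent.R276.AB2_590 Crest.Agent.R276.Mod1_987
open Crest.Agent.R276.SatA_210 Crest.Agent.R276.LqG_464

variable {L K : Type} [Field L] [Field K] [Algebra ℂ L] [Algebra ℂ K] [Algebra L K]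
  [IsScalarTower ℂ L K] {m r : ℕ} (R : RMdl L K m r)

/-- weights on the base -/
def wL (p : MvPolynomial (Fin m) ℂ) (a : ℕ) (w : R.ML.Pts) : ℝ :=
  ‖MvPolynomial.eval (R.ML.pz w) p‖ / (1 + ‖R.ML.pz w‖) ^ a

lemma wL_nonneg (p : MvPolynomial (Fin m) ℂ) (a : ℕ) (w : R.ML.Pts) : 0 ≤ wL R p a w := by
  unfold wL; positivity

lemma continuous_wL (p : MvPolynomial (Fin m) ℂ) (a : ℕ) : Continuous (wL R p a) := by
  unfold wL
  have h1 : Continuous R.ML.pz := continuous_pr R.ML.z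
  refine Continuous.div ?_ ?_ fun w => by positivity
  · exact ((MvPolynomial.continuous_eval p).comp h1).norm
  · exact (continuous_const.add h1.norm).pow a

lemma pz_q' (y : R.MK.Pts) : R.ML.pz (R.q y) = zc (R.MK.pz y) := funext fun i => R.pz_q y i

/-- domination of weights -/
lemma wL_dom (p1 p2 : MvPolynomial (Fin m) ℂ) (a1 : ℕ) : ∃ (D : ℕ), ∀ a, a1 + D ≤ a →
    ∃ C : ℝ, 0 ≤ C ∧ ∀ w, wL R (p1 * p2) a w ≤ C * wL R p1 a1 w := by
  obtain ⟨C, D, hC, h1, -⟩ := poly_bound p2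
  refine ⟨D, fun a ha => ⟨C, by linarith, fun w => ?_⟩⟩
  unfold wL
  set Z := 1 + ‖R.ML.pz w‖ with hZ
  have hZ1 : 1 ≤ Z := by rw [hZ]; linarith [norm_nonneg (R.ML.pz w)]
  have hZ0 : 0 < Z := by linarith
  rw [map_mul, norm_mul, ← mul_div_assoc, div_le_div_iff₀ (by positivity) (by positivity)]
  have h2 := h1 (R.ML.pz w)
  calc ‖MvPolynomial.eval (R.ML.pz w) p1‖ * ‖MvPolynomial.eval (R.ML.pz w) p2‖ * Z ^ a1
      ≤ ‖MvPolynomial.eval (R.ML.pz w) p1‖ * (C * Z ^ D) * Z ^ a1 := by gcongr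
    _ = C * ‖MvPolynomial.eval (R.ML.pz w) p1‖ * Z ^ (a1 + D) := by rw [pow_add]; ring
    _ ≤ C * ‖MvPolynomial.eval (R.ML.pz w) p1‖ * Z ^ a := by
      gcongr

/-- weighted `L^{2/N}` functions -/
def InW (N : ℕ) (G : R.MK.Pts → ℂ) : Prop := ∃ (p : MvPolynomial (Fin m) ℂ) (a : ℕ), p ≠ 0 ∧
  lintM R.MK.z (fun y => ENNReal.ofReal (‖G y‖ ^ (2 / N : ℝ) * wL R p a (R.q y))) < ∞

/-- general form: weighted integrable functions -/
def InL (F : R.MK.Pts → ℝ) : Prop := ∃ (p : MvPolynomial (Fin m) ℂ) (a : ℕ), p ≠ 0 ∧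
  lintM R.MK.z (fun y => ENNReal.ofReal (F y * wL R p a (R.q y))) < ∞

variable {R}

lemma lintM_const_mul {n : ℕ} {B : Type} [CommRing B] [Algebra ℂ B] (z : Fin n → B) (k : ℝ≥0∞)
    (hk : k ≠ ∞) (g : (B →ₐ[ℂ] ℂ) → ℝ≥0∞) : lintM z (fun y => k * g y) = k * lintM z g := by
  unfold lintM
  rw [← lintegral_const_mul' _ _ hk]
  exact lintegral_congr fun ζ => ENNReal.tsum_mul_left

lemma lintM_add' (M : Mdl K (m + r)) {f g : M.Pts → ℝ≥0∞} (hf : Measurable f) (hg : Measurable g) :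
    lintM M.z (fun y => f y + g y) = lintM M.z f + lintM M.z g := by
  obtain ⟨μ, hμ⟩ := M.exists_leb
  rw [M.lintM_eq hμ hf, M.lintM_eq hμ hg]
  have h := M.lintM_eq hμ (g := fun y => f y + g y) (hf.add hg)
  rw [h]
  exact lintegral_add_left hf _

lemma InL.mono {F F' : R.MK.Pts → ℝ} (h : InL R F) {C : ℝ} (hC0 : 0 ≤ C)
    (hC : ∀ y, F' y ≤ C * F y) : InL R F' := by
  obtain ⟨p, a, hp, hi⟩ := h
  refine ⟨p, a, hp, lt_of_le_of_lt (lintM_mono _ (g := fun y => ENNReal.ofReal C *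
    ENNReal.ofReal (F y * wL R p a (R.q y))) fun y => ?_) ?_⟩
  · rw [← ENNReal.ofReal_mul hC0]
    apply ENNReal.ofReal_le_ofReal
    rw [← mul_assoc]
    exact mul_le_mul_of_nonneg_right (hC y) (wL_nonneg R p a _)
  · rw [lintM_const_mul _ _ ENNReal.ofReal_ne_top]
    exact ENNReal.mul_lt_top ENNReal.ofReal_lt_top hi

/-- multiplication by functions of polynomial growth on the base -/
lemma InL.mul_growth {F F' : R.MK.Pts → ℝ} (h : InL R F)
    {p2 : MvPolynomial (Fin m) ℂ} (hp2 : p2 ≠ 0) {C : ℝ} {k : ℕ} (hC0 : 0 ≤ C)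
    (hC : ∀ y, F' y * ‖MvPolynomial.eval (R.ML.pz (R.q y)) p2‖ ≤
      C * (1 + ‖R.ML.pz (R.q y)‖) ^ k * F y) : InL R F' := by
  obtain ⟨p, a, hp, hi⟩ := h
  refine ⟨p * p2, a + k, mul_ne_zero hp hp2, lt_of_le_of_lt (lintM_mono _ (g := fun y =>
    ENNReal.ofReal C * ENNReal.ofReal (F y * wL R p a (R.q y))) fun y => ?_) ?_⟩
  · rw [← ENNReal.ofReal_mul hC0]
    apply ENNReal.ofReal_le_ofReal
    unfold wL
    set Z := 1 + ‖R.ML.pz (R.q y)‖ with hZ
    have hZ0 : 0 < Z := by rw [hZ]; positivity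
    rw [map_mul, norm_mul, mul_div_assoc', mul_div_assoc', mul_div_assoc',
      div_le_div_iff₀ (by positivity) (by positivity)]
    calc F' y * (‖MvPolynomial.eval (R.ML.pz (R.q y)) p‖ *
          ‖MvPolynomial.eval (R.ML.pz (R.q y)) p2‖) * Z ^ a
        = (F' y * ‖MvPolynomial.eval (R.ML.pz (R.q y)) p2‖) *
          (‖MvPolynomial.eval (R.ML.pz (R.q y)) p‖ * Z ^ a) := by ring
      _ ≤ (C * Z ^ k * F y) * (‖MvPolynomial.eval (R.ML.pz (R.q y)) p‖ * Z ^ a) :=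
        mul_le_mul_of_nonneg_right (hC y) (by positivity)
      _ = C * (F y * ‖MvPolynomial.eval (R.ML.pz (R.q y)) p‖) * Z ^ (a + k) := by
        rw [pow_add]; ring
  · rw [lintM_const_mul _ _ ENNReal.ofReal_ne_top]
    exact ENNReal.mul_lt_top ENNReal.ofReal_lt_top hi

/-- sums -/
lemma InL.add {F F' : R.MK.Pts → ℝ} (h : InL R F) (h' : InL R F') (h0 : ∀ y, 0 ≤ F y)
    (h0' : ∀ y, 0 ≤ F' y) (hm : Measurable F) (hm' : Measurable F') :
    InL R fun y => F y + F' y := by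
  obtain ⟨p, a, hp, hi⟩ := h
  obtain ⟨p', a', hp', hi'⟩ := h'
  obtain ⟨D, hD⟩ := wL_dom R p p' a
  obtain ⟨D', hD'⟩ := wL_dom R p' p a'
  obtain ⟨C, hC0, hC⟩ := hD (a + D + (a' + D')) (by omega)
  obtain ⟨C', hC0', hC'⟩ := hD' (a + D + (a' + D')) (by omega)
  refine ⟨p * p', a + D + (a' + D'), mul_ne_zero hp hp', ?_⟩
  have hq : Measurable R.q := R.continuous_q.measurable
  have hw : ∀ p a, Measurable fun y => wL R p a (R.q y) := fun p a =>
    (continuous_wL R p a).measurable.comp hq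
  refine lt_of_le_of_lt (lintM_mono _ (g := fun y =>
    (ENNReal.ofReal C * ENNReal.ofReal (F y * wL R p a (R.q y))) +
    (ENNReal.ofReal C' * ENNReal.ofReal (F' y * wL R p' a' (R.q y)))) fun y => ?_) ?_
  · rw [← ENNReal.ofReal_mul hC0, ← ENNReal.ofReal_mul hC0', ← ENNReal.ofReal_add
      (mul_nonneg hC0 (mul_nonneg (h0 y) (wL_nonneg _ _ _ _)))
      (mul_nonneg hC0' (mul_nonneg (h0' y) (wL_nonneg _ _ _ _)))]
    apply ENNReal.ofReal_le_ofReal
    rw [add_mul]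
    apply add_le_add
    · have := mul_le_mul_of_nonneg_left (hC (R.q y)) (h0 y)
      linarith
    · have := mul_le_mul_of_nonneg_left (hC' (R.q y)) (h0' y)
      rw [mul_comm p' p] at this
      linarith
  · have e1 : Measurable fun y => ENNReal.ofReal C * ENNReal.ofReal (F y * wL R p a (R.q y)) :=
      (hm.mul (hw p a)).ennreal_ofReal.const_mul _
    have e2 : Measurable fun y => ENNReal.ofReal C' * ENNReal.ofReal (F' y * wL R p' a' (R.q y)) :=
      (hm'.mul (hw p' a')).ennreal_ofReal.const_mul _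
    rw [lintM_add' R.MK e1 e2, lintM_const_mul _ _ ENNReal.ofReal_ne_top,
      lintM_const_mul _ _ ENNReal.ofReal_ne_top]
    exact ENNReal.add_lt_top.2 ⟨ENNReal.mul_lt_top ENNReal.ofReal_lt_top hi,
      ENNReal.mul_lt_top ENNReal.ofReal_lt_top hi'⟩

lemma inW_iff {N : ℕ} {G : R.MK.Pts → ℂ} : InW R N G ↔ InL R fun y => ‖G y‖ ^ (2 / N : ℝ) :=
  Iff.rfl

/-- growth of the elements of `B_L`: `‖c‖^s ‖h_L‖^{2l} ≤ C (1+|z|)^k` for `0 ≤ s ≤ 2` -/
lemma growth_L (c : R.ML.B) : ∃ (C : ℝ) (k : ℕ) (p : MvPolynomial (Fin m) ℂ), 0 ≤ C ∧ p ≠ 0 ∧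
    ∀ (s : ℝ), 0 ≤ s → s ≤ 2 → ∀ w : R.ML.Pts,
      ‖w c‖ ^ s * ‖MvPolynomial.eval (R.ML.pz w) p‖ ≤ C * (1 + ‖R.ML.pz w‖) ^ k := by
  obtain ⟨C, k, l, hC, h⟩ := R.ML.growth c
  obtain ⟨C1, D1, hC1, h1, -⟩ := poly_bound (R.ML.h ^ (2 * l))
  refine ⟨C1 + C ^ 2 * (m + 1 : ℝ) ^ (2 * k), D1 + 4 * k, R.ML.h ^ (2 * l), by positivity,
    pow_ne_zero _ R.ML.h_ne, fun s hs0 hs2 w => ?_⟩
  set Z := 1 + ‖R.ML.pz w‖ with hZ
  have hZ1 : 1 ≤ Z := by rw [hZ]; linarith [norm_nonneg (R.ML.pz w)]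
  have hZ0 : 0 < Z := by linarith
  have h2 : ‖w c‖ ^ s ≤ 1 + ‖w c‖ ^ 2 := by
    rcases le_total ‖w c‖ 1 with h | h
    · have := Real.rpow_le_one (norm_nonneg _) h hs0
      nlinarith [sq_nonneg ‖w c‖]
    · have := Real.rpow_le_rpow_of_exponent_le h hs2
      rw [Real.rpow_ofNat] at this
      linarith
  have h3 := h1 (R.ML.pz w)
  have h4 := h w
  have h5 : (1 + ∑ i, ‖w (R.ML.z i)‖ ^ 2) ≤ (m + 1 : ℝ) * Z ^ 2 :=
    AlgC956.one_add_sum_le (R.ML.pz w)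
  have h6 : ‖w c‖ ^ 2 * ‖MvPolynomial.eval (R.ML.pz w) (R.ML.h ^ (2 * l))‖ ≤
      C ^ 2 * (m + 1 : ℝ) ^ (2 * k) * Z ^ (4 * k) := by
    calc ‖w c‖ ^ 2 * ‖MvPolynomial.eval (R.ML.pz w) (R.ML.h ^ (2 * l))‖
        = (‖MvPolynomial.eval (R.ML.pz w) R.ML.h‖ ^ l * ‖w c‖) ^ 2 := by
          rw [map_pow, norm_pow, mul_pow, ← pow_mul, mul_comm l 2]; ring
      _ ≤ (C * (1 + ∑ i, ‖w (R.ML.z i)‖ ^ 2) ^ k) ^ 2 := by gcongr
      _ ≤ (C * ((m + 1 : ℝ) * Z ^ 2) ^ k) ^ 2 := by gcongr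
      _ = _ := by
        rw [mul_pow (m + 1 : ℝ) (Z ^ 2) k, ← pow_mul Z 2 k, show 4 * k = 2 * k * 2 by ring,
          pow_mul Z (2 * k) 2, pow_mul' (m + 1 : ℝ) 2 k]
        ring
  calc ‖w c‖ ^ s * ‖MvPolynomial.eval (R.ML.pz w) (R.ML.h ^ (2 * l))‖
      ≤ (1 + ‖w c‖ ^ 2) * ‖MvPolynomial.eval (R.ML.pz w) (R.ML.h ^ (2 * l))‖ := by gcongr
    _ = ‖MvPolynomial.eval (R.ML.pz w) (R.ML.h ^ (2 * l))‖ +
        ‖w c‖ ^ 2 * ‖MvPolynomial.eval (R.ML.pz w) (R.ML.h ^ (2 * l))‖ := by ring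
    _ ≤ C1 * Z ^ D1 + C ^ 2 * (m + 1 : ℝ) ^ (2 * k) * Z ^ (4 * k) := add_le_add h3 h6
    _ ≤ C1 * Z ^ (D1 + 4 * k) + C ^ 2 * (m + 1 : ℝ) ^ (2 * k) * Z ^ (D1 + 4 * k) := by
      have e1 : Z ^ D1 ≤ Z ^ (D1 + 4 * k) := pow_le_pow_right₀ hZ1 (by omega)
      have e2 : Z ^ (4 * k) ≤ Z ^ (D1 + 4 * k) := pow_le_pow_right₀ hZ1 (by omega)
      gcongr
    _ = _ := by ring

/-- multiplication by `c ∈ B_L` -/
lemma InW.mul_L {N : ℕ} (hN : 0 < N) {G : R.MK.Pts → ℂ} (h : InW R N G) (c : R.ML.B) :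
    InW R N fun y => R.q y c * G y := by
  obtain ⟨C, k, p, hC, hp, hg⟩ := growth_L (R := R) c
  have hN' : (1 : ℝ) ≤ N := by exact_mod_cast hN
  refine InL.mul_growth (k := k) (inW_iff.1 h) hp hC fun y => ?_
  have h1 := hg (2 / N) (by positivity) (by
    rw [div_le_iff₀ (by linarith)]; linarith) (R.q y)
  rw [norm_mul, Real.mul_rpow (norm_nonneg _) (norm_nonneg _)]
  calc ‖R.q y c‖ ^ (2 / N : ℝ) * ‖G y‖ ^ (2 / N : ℝ) * ‖MvPolynomial.eval (R.ML.pz (R.q y)) p‖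
      = (‖R.q y c‖ ^ (2 / N : ℝ) * ‖MvPolynomial.eval (R.ML.pz (R.q y)) p‖) *
        ‖G y‖ ^ (2 / N : ℝ) := by ring
    _ ≤ _ := mul_le_mul_of_nonneg_right h1 (by positivity)

lemma rpow_add_le {a b s : ℝ} (ha : 0 ≤ a) (hb : 0 ≤ b) (hs : 0 ≤ s) (hs2 : s ≤ 2) :
    (a + b) ^ s ≤ 4 * (a ^ s + b ^ s) := by
  have h1 : a + b ≤ 2 * max a b := by
    rcases le_total a b with h | h
    · rw [max_eq_right h]; linarith
    · rw [max_eq_left h]; linarith
  have h2 : (max a b) ^ s ≤ a ^ s + b ^ s := by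
    have h3 : 0 ≤ a ^ s := by positivity
    have h4 : 0 ≤ b ^ s := by positivity
    rcases le_total a b with h | h
    · rw [max_eq_right h]; linarith
    · rw [max_eq_left h]; linarith
  have h5 : (2 : ℝ) ^ s ≤ 4 := by
    have := Real.rpow_le_rpow_of_exponent_le (one_le_two : (1 : ℝ) ≤ 2) hs2
    rw [Real.rpow_ofNat] at this
    linarith
  calc (a + b) ^ s ≤ (2 * max a b) ^ s := Real.rpow_le_rpow (by positivity) h1 hs
    _ = 2 ^ s * (max a b) ^ s := Real.mul_rpow (by norm_num) (le_max_of_le_left ha)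
    _ ≤ 4 * (a ^ s + b ^ s) := by gcongr

lemma InW.add {N : ℕ} (hN : 0 < N) {G G' : R.MK.Pts → ℂ} (h : InW R N G) (h' : InW R N G')
    (hG : Continuous G) (hG' : Continuous G') : InW R N fun y => G y + G' y := by
  have hN' : (1 : ℝ) ≤ N := by exact_mod_cast hN
  have hs : (2 / N : ℝ) ≤ 2 := by rw [div_le_iff₀ (by linarith)]; linarith
  have hm : ∀ G : R.MK.Pts → ℂ, Continuous G → Measurable fun y => ‖G y‖ ^ (2 / N : ℝ) :=
    fun G hG => (hG.norm.rpow_const fun _ => Or.inr (by positivity)).measurable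
  have h1 := InL.add (inW_iff.1 h) (inW_iff.1 h') (fun y => by positivity) (fun y => by positivity)
    (hm G hG) (hm G' hG')
  refine InL.mono (C := 4) h1 (by norm_num) fun y => ?_
  calc ‖G y + G' y‖ ^ (2 / N : ℝ) ≤ (‖G y‖ + ‖G' y‖) ^ (2 / N : ℝ) :=
        Real.rpow_le_rpow (norm_nonneg _) (norm_add_le _ _) (by positivity)
    _ ≤ _ := rpow_add_le (norm_nonneg _) (norm_nonneg _) (by positivity) hs

/-- **products** -/
lemma InW.mul {N N' : ℕ} (hN : 0 < N) (hN' : 0 < N') {G G' : R.MK.Pts → ℂ} (h : InW R N G)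
    (h' : InW R N' G') (hG : Continuous G) (hG' : Continuous G') :
    InW R (N + N') fun y => G y * G' y := by
  have hm : ∀ (N : ℕ) (G : R.MK.Pts → ℂ), Continuous G → Measurable fun y => ‖G y‖ ^ (2 / N : ℝ) :=
    fun N G hG => (hG.norm.rpow_const fun _ => Or.inr (by positivity)).measurable
  have h1 := InL.add (inW_iff.1 h) (inW_iff.1 h') (fun y => by positivity) (fun y => by positivity)
    (hm N G hG) (hm N' G' hG')
  refine InL.mono (C := 1) h1 (by norm_num) fun y => ?_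
  rw [one_mul]
  have hN0 : (0 : ℝ) < N := by exact_mod_cast hN
  have hN0' : (0 : ℝ) < N' := by exact_mod_cast hN'
  push_cast
  set S : ℝ := N + N' with hS
  have hS0 : 0 < S := by positivity
  set A := ‖G y‖ ^ (2 / N : ℝ) with hA
  set A' := ‖G' y‖ ^ (2 / N' : ℝ) with hA'
  have hA0 : 0 ≤ A := by positivity
  have hA0' : 0 ≤ A' := by positivity
  have e1 : ‖G y‖ ^ (2 / S) = A ^ (N / S) := by
    rw [hA, ← Real.rpow_mul (norm_nonneg _)]
    congr 1
    field_simp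
  have e2 : ‖G' y‖ ^ (2 / S) = A' ^ (N' / S) := by
    rw [hA', ← Real.rpow_mul (norm_nonneg _)]
    congr 1
    field_simp
  have hsum : (N : ℝ) / S + N' / S = 1 := by rw [← add_div, hS, div_self hS0.ne']
  have h2 := Real.geom_mean_le_arith_mean2_weighted (w₁ := N / S) (w₂ := N' / S) (by positivity)
    (by positivity) hA0 hA0' hsum
  have h3 : (N : ℝ) / S ≤ 1 := by
    have : (0 : ℝ) ≤ N' / S := by positivity
    linarith
  have h4 : (N' : ℝ) / S ≤ 1 := by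
    have : (0 : ℝ) ≤ N / S := by positivity
    linarith
  rw [norm_mul, Real.mul_rpow (norm_nonneg _) (norm_nonneg _), e1, e2]
  calc A ^ (N / S) * A' ^ (N' / S) ≤ N / S * A + N' / S * A' := h2
    _ ≤ 1 * A + 1 * A' := by gcongr
    _ = _ := by ring

lemma continuous_evK (b : R.MK.B) : Continuous fun y : R.MK.Pts => y b := continuous_ev b

variable (R)

/-- **the spaces `V_N`** -/
def VN {N : ℕ} (hN : 0 < N) : Submodule L K where
  carrier := {v | ∃ (c : R.ML.B) (b : R.MK.B), c ≠ 0 ∧ (b : K) = algebraMap L K c * v ∧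
    InW R N fun y => y b}
  zero_mem' := by
    refine ⟨1, 0, one_ne_zero, by simp, 1, 0, one_ne_zero, ?_⟩
    have hN' : (0 : ℝ) < N := by exact_mod_cast hN
    have h0 : (0 : ℝ) ^ (2 / N : ℝ) = 0 := Real.zero_rpow (by positivity)
    have : (fun y : R.MK.Pts => ENNReal.ofReal (‖y (0 : R.MK.B)‖ ^ (2 / N : ℝ) *
        wL R 1 0 (R.q y))) = fun _ => 0 := by
      funext y
      rw [map_zero, norm_zero, h0, zero_mul, ENNReal.ofReal_zero]
    rw [this]
    simp [lintM]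
  add_mem' := by
    rintro v v' ⟨c, b, hc, hb, h⟩ ⟨c', b', hc', hb', h'⟩
    refine ⟨c * c', R.incl c' * b + R.incl c * b', mul_ne_zero hc hc', ?_, ?_⟩
    · simp only [MulMemClass.coe_mul, AddMemClass.coe_add, RMdl.incl_coe, map_mul, hb, hb']
      ring
    · have h1 := InW.add hN (InW.mul_L hN h c') (InW.mul_L hN h' c)
        (((continuous_ev _).comp R.continuous_q).mul (continuous_evK b))
        (((continuous_ev _).comp R.continuous_q).mul (continuous_evK b'))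
      have e : (fun y : R.MK.Pts => y (R.incl c' * b + R.incl c * b')) =
          fun y => R.q y c' * y b + R.q y c * y b' := by
        funext y
        rw [map_add, map_mul, map_mul]
        rfl
      rw [e]
      exact h1
  smul_mem' := by
    rintro l v ⟨c, b, hc, hb, h⟩
    obtain ⟨c1, c2, hc2, hl⟩ := R.ML.frac l
    refine ⟨c2 * c, R.incl c1 * b, mul_ne_zero hc2 hc, ?_, ?_⟩
    · have : algebraMap L K (c2 : L) ≠ 0 := by
        rw [Ne, map_eq_zero]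
        exact fun h => hc2 (Subtype.ext h)
      simp only [MulMemClass.coe_mul, RMdl.incl_coe, map_mul, hb, hl, map_div₀, Algebra.smul_def]
      field_simp
    · have e : (fun y : R.MK.Pts => y (R.incl c1 * b)) = fun y => R.q y c1 * y b := by
        funext y
        rw [map_mul]
        rfl
      rw [e]
      exact InW.mul_L hN h c1

variable {R}

theorem mem_VN {N : ℕ} {hN : 0 < N} {v : K} : v ∈ VN R hN ↔ ∃ (c : R.ML.B) (b : R.MK.B), c ≠ 0 ∧
    (b : K) = algebraMap L K c * v ∧ InW R N fun y => y b := Iff.rfl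

theorem VN_mul {N N' : ℕ} {hN : 0 < N} {hN' : 0 < N'} {v v' : K} (h : v ∈ VN R hN)
    (h' : v' ∈ VN R hN') : v * v' ∈ VN R (Nat.add_pos_left hN N') := by
  obtain ⟨c, b, hc, hb, h⟩ := h
  obtain ⟨c', b', hc', hb', h'⟩ := h'
  refine ⟨c * c', b * b', mul_ne_zero hc hc', ?_, ?_⟩
  · simp only [MulMemClass.coe_mul, map_mul, hb, hb']
    ring
  · have h1 := InW.mul hN hN' h h' (continuous_evK b) (continuous_evK b')
    simp only [map_mul]
    exact h1

/-! ### finiteness -/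

/-- uniform `L^q` bound of the fibre sums (after 464's `HH_bound_q`) -/
theorem HH_bound_unif {n : ℕ} {B : Type} [CommRing B] [Algebra ℂ B] {z : Fin n → B} {θ : B}
    {μ : Polynomial (MvPolynomial (Fin n) ℂ)} {g : MvPolynomial (Fin n) ℂ}
    (hF : FibData z θ μ g) (d : ℕ) {q : ℝ} (hq : 0 < q) :
    ∃ (c : ℝ) (L : ℕ), 0 ≤ c ∧ ∀ (G : (B →ₐ[ℂ] ℂ) → ℂ), ∀ k < d, ∀ ζ : Cn n,
      MvPolynomial.eval ζ g ≠ 0 →
      ‖HH z θ μ g G k ζ‖ₑ ^ q ≤ ENNReal.ofReal (c * (1 + ‖ζ‖) ^ L) *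
        ∑' y : Fib z ζ, ENNReal.ofReal (‖G y.1‖ ^ q) := by
  have hk : ∀ k, ∃ (c : ℝ) (L : ℕ), 0 ≤ c ∧ ∀ (G : (B →ₐ[ℂ] ℂ) → ℂ), ∀ ζ : Cn n,
      MvPolynomial.eval ζ g ≠ 0 →
      ‖HH z θ μ g G k ζ‖ₑ ^ q ≤ ENNReal.ofReal (c * (1 + ‖ζ‖) ^ L) *
        ∑' y : Fib z ζ, ENNReal.ofReal (‖G y.1‖ ^ q) := by
    intro k
    obtain ⟨A, K, hA, hgr⟩ := AlgD956.PG_coeff hF.monic hF.root k
    obtain ⟨m, hm⟩ := exists_nat_ge ((K : ℝ) * q)
    refine ⟨((μ.natDegree : ℝ) * A) ^ q * (n + 1 : ℝ) ^ m, 2 * m, by positivity, ?_⟩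
    intro G ζ hζ
    have hfin := (natCard_fib hF hζ).2
    have hft : Fintype (Fib z ζ) := Fintype.ofFinite _
    set S : ℝ := 1 + ∑ i, ‖ζ i‖ ^ 2 with hS
    have hS1 : 1 ≤ S := by
      rw [hS]
      have : 0 ≤ ∑ i, ‖ζ i‖ ^ 2 := by positivity
      linarith
    have hS0 : 0 < S := by linarith
    have hyS : ∀ y : Fib z ζ, (1 + ∑ i, ‖y.1 (z i)‖ ^ 2) = S := by
      intro y; simp only [y.2, hS]
    have hcard : Fintype.card (Fib z ζ) = μ.natDegree := by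
      rw [← Nat.card_eq_fintype_card, (natCard_fib hF hζ).1]
    set T : ℝ := A * S ^ K with hT
    have hT0 : 0 ≤ T := by positivity
    have h1 : ‖HH z θ μ g G k ζ‖ ^ q ≤
        ((μ.natDegree : ℝ) * T) ^ q * ∑ y : Fib z ζ, ‖G y.1‖ ^ q := by
      by_cases hne : Nonempty (Fib z ζ)
      · obtain ⟨y0, -, hy0⟩ := Finset.exists_max_image (Finset.univ : Finset (Fib z ζ))
          (fun y => ‖G y.1‖) Finset.univ_nonempty
        have h2 : ‖HH z θ μ g G k ζ‖ ≤ (μ.natDegree : ℝ) * T * ‖G y0.1‖ := by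
          rw [HH_eq hF G k hζ]
          calc ‖∑ y : Fib z ζ, G y.1 * y.1 ((qq z θ μ).coeff k)‖
              ≤ ∑ y : Fib z ζ, ‖G y.1 * y.1 ((qq z θ μ).coeff k)‖ := norm_sum_le _ _
            _ ≤ ∑ _y : Fib z ζ, ‖G y0.1‖ * T := by
              refine Finset.sum_le_sum fun y _ => ?_
              rw [norm_mul]
              have h3 : ‖y.1 ((qq z θ μ).coeff k)‖ ≤ A * (1 + ∑ i, ‖y.1 (z i)‖ ^ 2) ^ K := hgr y.1
              rw [hyS] at h3
              exact mul_le_mul (hy0 y (Finset.mem_univ _)) h3 (norm_nonneg _) (norm_nonneg _)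
            _ = (μ.natDegree : ℝ) * T * ‖G y0.1‖ := by
              rw [Finset.sum_const, Finset.card_univ, hcard, nsmul_eq_mul]; ring
        calc ‖HH z θ μ g G k ζ‖ ^ q ≤ ((μ.natDegree : ℝ) * T * ‖G y0.1‖) ^ q :=
              Real.rpow_le_rpow (norm_nonneg _) h2 hq.le
          _ = ((μ.natDegree : ℝ) * T) ^ q * ‖G y0.1‖ ^ q :=
              Real.mul_rpow (by positivity) (norm_nonneg _)
          _ ≤ _ := by
            gcongr
            exact Finset.single_le_sum (f := fun y : Fib z ζ => ‖G y.1‖ ^ q)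
              (fun y _ => by positivity) (Finset.mem_univ y0)
      · have : IsEmpty (Fib z ζ) := not_nonempty_iff.1 hne
        rw [HH_eq hF G k hζ]
        simp [Real.zero_rpow hq.ne']
    have h4 : ‖HH z θ μ g G k ζ‖ₑ ^ q = ENNReal.ofReal (‖HH z θ μ g G k ζ‖ ^ q) := by
      rw [← ENNReal.ofReal_rpow_of_nonneg (norm_nonneg _) hq.le, ofReal_norm]
    rw [h4, tsum_fintype, ← ENNReal.ofReal_sum_of_nonneg (fun _ _ => by positivity),
      ← ENNReal.ofReal_mul (by positivity)]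
    apply ENNReal.ofReal_le_ofReal
    refine h1.trans ?_
    refine mul_le_mul_of_nonneg_right ?_ (Finset.sum_nonneg fun _ _ => by positivity)
    have h6 : S ≤ (n + 1 : ℝ) * (1 + ‖ζ‖) ^ 2 := AlgC956.one_add_sum_le ζ
    have h7 : (S ^ K) ^ q ≤ S ^ m := by
      rw [← Real.rpow_natCast S K, ← Real.rpow_mul hS0.le, ← Real.rpow_natCast S m]
      exact Real.rpow_le_rpow_of_exponent_le hS1 hm
    calc ((μ.natDegree : ℝ) * T) ^ q
        = ((μ.natDegree : ℝ) * A) ^ q * (S ^ K) ^ q := by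
          rw [hT, ← mul_assoc, Real.mul_rpow (by positivity) (by positivity)]
      _ ≤ ((μ.natDegree : ℝ) * A) ^ q * S ^ m := by gcongr
      _ ≤ ((μ.natDegree : ℝ) * A) ^ q * ((n + 1 : ℝ) * (1 + ‖ζ‖) ^ 2) ^ m := by gcongr
      _ = _ := by rw [mul_pow, ← pow_mul]; ring
  choose c L hc hL using hk
  refine ⟨∑ k ∈ Finset.range d, c k, ∑ k ∈ Finset.range d, L k,
    Finset.sum_nonneg fun k _ => hc k, fun G k hkd ζ hζ => (hL k G ζ hζ).trans ?_⟩
  have e1 : c k ≤ ∑ k ∈ Finset.range d, c k :=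
    Finset.single_le_sum (f := c) (fun k _ => hc k) (Finset.mem_range.2 hkd)
  have e2 : L k ≤ ∑ k ∈ Finset.range d, L k :=
    Finset.single_le_sum (f := L) (fun k _ => Nat.zero_le _) (Finset.mem_range.2 hkd)
  have e3 : (1 + ‖ζ‖) ^ L k ≤ (1 + ‖ζ‖) ^ (∑ k ∈ Finset.range d, L k) :=
    pow_le_pow_right₀ (by linarith [norm_nonneg ζ]) e2
  refine mul_le_mul_left ?_ _
  apply ENNReal.ofReal_le_ofReal
  exact mul_le_mul e1 e3 (by positivity) (Finset.sum_nonneg fun k _ => hc k)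

/-- the fibre sums of `G ∈ W_N` satisfy the hypothesis of `poly_of_lq` -/
theorem HH_lq {N : ℕ} (hN : 0 < N) (d : ℕ) : ∃ L' : ℕ, ∀ (G : R.MK.Pts → ℂ), InW R N G →
    ∃ (p : MvPolynomial (Fin m) ℂ) (a : ℕ), p ≠ 0 ∧ ∀ k < d,
      ∫⁻ ζ in {ζ | MvPolynomial.eval ζ R.MK.h ≠ 0},
        ‖HH R.MK.z R.MK.θ R.MK.μ R.MK.h G k ζ‖ₑ ^ (2 / N : ℝ) *
          ENNReal.ofReal (SatA_210.wt p a 1 L' ζ) < ∞ := by
  have hN' : (0 : ℝ) < N := by exact_mod_cast hN
  obtain ⟨c, L', hc, hb⟩ := HH_bound_unif R.MK.fd d (q := 2 / N) (by positivity)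
  refine ⟨L', fun G hG => ?_⟩
  obtain ⟨p, a, hp, hi⟩ := hG
  refine ⟨p, a + L', hp, fun k hk => ?_⟩
  have hopen : IsOpen {ζ : Cn (m + r) | MvPolynomial.eval ζ R.MK.h ≠ 0} :=
    isOpen_ne.preimage (MvPolynomial.continuous_eval R.MK.h)
  rw [lintM] at hi
  refine lt_of_le_of_lt (b := ENNReal.ofReal c * ∫⁻ ζ : Cn (m + r),
    ∑' y : {y : R.MK.B →ₐ[ℂ] ℂ // ∀ i, y (R.MK.z i) = ζ i},
      ENNReal.ofReal (‖G y.1‖ ^ (2 / N : ℝ) * wL R p a (R.q y.1))) ?_
    (ENNReal.mul_lt_top ENNReal.ofReal_lt_top hi)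
  rw [← lintegral_const_mul' _ _ ENNReal.ofReal_ne_top]
  refine (setLIntegral_mono' hopen.measurableSet fun ζ hζ => ?_).trans
    (setLIntegral_le_lintegral _ _)
  refine (mul_le_mul_left (hb G k hk ζ hζ) _).trans ?_
  have hw : ∀ y : {y : R.MK.B →ₐ[ℂ] ℂ // ∀ i, y (R.MK.z i) = ζ i},
      wL R p a (R.q y.1) = ‖MvPolynomial.eval (zc ζ) p‖ / (1 + ‖zc ζ‖) ^ a := by
    intro y
    have h1 : R.MK.pz y.1 = ζ := funext y.2
    unfold wL
    rw [pz_q', h1]
  set Z := 1 + ‖zc ζ‖ with hZ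
  set X := 1 + ‖xc ζ‖ with hX
  have hZ0 : 0 < Z := by rw [hZ]; positivity
  have hX0 : 0 < X := by rw [hX]; positivity
  set Q := ‖MvPolynomial.eval (zc ζ) p‖ with hQ
  have h2 : ∀ y : {y : R.MK.B →ₐ[ℂ] ℂ // ∀ i, y (R.MK.z i) = ζ i},
      ENNReal.ofReal (‖G y.1‖ ^ (2 / N : ℝ) * wL R p a (R.q y.1)) =
        ENNReal.ofReal (Q / Z ^ a) * ENNReal.ofReal (‖G y.1‖ ^ (2 / N : ℝ)) := by
    intro y
    rw [hw, mul_comm, ENNReal.ofReal_mul (by positivity)]
  simp_rw [h2]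
  rw [ENNReal.tsum_mul_left]
  have h3 : c * (1 + ‖ζ‖) ^ L' * SatA_210.wt p (a + L') 1 L' ζ ≤ c * (Q / Z ^ a) := by
    unfold SatA_210.wt
    rw [pow_one, mul_assoc]
    refine mul_le_mul_of_nonneg_left ?_ hc
    rw [mul_div_assoc', div_le_div_iff₀ (by positivity) (by positivity)]
    have h4 : (1 + ‖ζ‖) ^ L' ≤ (Z * X) ^ L' := by
      gcongr
      exact one_add_norm_le_mul ζ
    calc (1 + ‖ζ‖) ^ L' * Q * Z ^ a ≤ (Z * X) ^ L' * Q * Z ^ a := by gcongr
      _ = Q * (Z ^ (a + L') * X ^ L') := by rw [mul_pow, pow_add]; ring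
  calc ENNReal.ofReal (c * (1 + ‖ζ‖) ^ L') *
        (∑' y : Fib R.MK.z ζ, ENNReal.ofReal (‖G y.1‖ ^ (2 / N : ℝ))) *
        ENNReal.ofReal (SatA_210.wt p (a + L') 1 L' ζ)
      = ENNReal.ofReal (c * (1 + ‖ζ‖) ^ L' * SatA_210.wt p (a + L') 1 L' ζ) *
        ∑' y : Fib R.MK.z ζ, ENNReal.ofReal (‖G y.1‖ ^ (2 / N : ℝ)) := by
        rw [ENNReal.ofReal_mul (p := c * (1 + ‖ζ‖) ^ L') (by positivity)]; ring
    _ ≤ ENNReal.ofReal (c * (Q / Z ^ a)) *
        ∑' y : Fib R.MK.z ζ, ENNReal.ofReal (‖G y.1‖ ^ (2 / N : ℝ)) := by gcongr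
    _ = _ := by rw [ENNReal.ofReal_mul hc, mul_assoc]

lemma split_rename (p : MvPolynomial (Fin m) ℂ) :
    split (MvPolynomial.rename (Fin.castAdd r) p) = MvPolynomial.C p := by
  induction p using MvPolynomial.induction_on with
  | C a =>
    rw [MvPolynomial.rename_C]
    have := (split (m := m) (r := r)).commutes a
    rw [MvPolynomial.algebraMap_eq] at this
    rw [this]
    rfl
  | add p q hp hq => rw [map_add, map_add, hp, hq, map_add]
  | mul_X p i hp => rw [map_mul, map_mul, hp, MvPolynomial.rename_X, split_X_z, map_mul]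

/-- the elements of `ℂ[z,x]` of degree `≤ K₂` in `x` are in the `L`-span of the monomials in `x` -/
lemma aK_mem_span {q : MvPolynomial (Fin (m + r)) ℂ} {K2 : ℕ} (hq : (split q).totalDegree ≤ K2) :
    ∃ a : (Fin r → Fin (K2 + 1)) → L, R.MK.aK q =
      ∑ β, algebraMap L K (a β) * ∏ j, R.MK.zK (Fin.natAdd m j) ^ (β j : ℕ) := by
  classical
  have h1 := eval₂_split (A := K) R.MK.zK q
  have h2 : ((MvPolynomial.aeval fun i : Fin m => R.MK.zK (Fin.castAdd r i) :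
      MvPolynomial (Fin m) ℂ →ₐ[ℂ] K) : MvPolynomial (Fin m) ℂ →+* K) =
      (algebraMap L K).comp R.ML.aK := by
    refine RingHom.ext fun p => ?_
    have h3 := R.aK_rename p
    rw [RingHom.comp_apply, ← h3]
    change MvPolynomial.aeval (fun i : Fin m => R.MK.zK (Fin.castAdd r i)) p =
      MvPolynomial.aeval R.MK.zK (MvPolynomial.rename (Fin.castAdd r) p)
    rw [MvPolynomial.aeval_rename]
    rfl
  rw [h2, MvPolynomial.eval₂_eq'] at h1
  -- the support injects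
  let F : (Fin r → Fin (K2 + 1)) → (Fin r →₀ ℕ) := fun β =>
    Finsupp.equivFunOnFinite.symm fun j => (β j : ℕ)
  have hF : Function.Injective F := by
    intro β β' h
    funext j
    have := DFunLike.congr_fun h j
    exact Fin.ext this
  refine ⟨fun β => R.ML.aK ((split q).coeff (F β)), ?_⟩
  have h4 : R.MK.aK q = MvPolynomial.aeval R.MK.zK q := rfl
  rw [h4, ← h1]
  have h5 : (split q).support ⊆ Finset.univ.image F := by
    intro s hs
    have hs' : ∀ j, s j ≤ K2 := by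
      intro j
      have h6 : (s.sum fun _ e => e) ≤ K2 := (MvPolynomial.le_totalDegree hs).trans hq
      refine le_trans ?_ h6
      rw [Finsupp.sum_fintype _ _ (fun _ => rfl)]
      exact Finset.single_le_sum (f := fun j => s j) (fun _ _ => Nat.zero_le _) (Finset.mem_univ j)
    refine Finset.mem_image.2 ⟨fun j => ⟨s j, Nat.lt_succ_of_le (hs' j)⟩, Finset.mem_univ _, ?_⟩
    ext j
    rfl
  rw [Finset.sum_subset h5 (fun s _ hs => by
    rw [MvPolynomial.notMem_support_iff.1 hs, map_zero, zero_mul])]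
  rw [Finset.sum_image fun a _ b _ h => hF h]
  rfl

/-- **finiteness of `V_N`** -/
theorem VN_span {N : ℕ} (hN : 0 < N) : ∃ S : Finset K, VN R hN ≤ Submodule.span L (S : Set K) := by
  classical
  set M := R.MK with hM
  set d : ℕ := (qq M.z M.θ M.μ).natDegree + 1 with hd
  obtain ⟨L', hL'⟩ := HH_lq (R := R) hN d
  obtain ⟨K1, K2, hK⟩ := poly_of_lq M.h_ne L' hN
  set D : K := (dd M.z M.θ M.μ : M.B) * M.aK M.h ^ K1 with hDdef
  let gen : (Fin r → Fin (K2 + 1)) × Fin d → K := fun e =>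
    (∏ j, M.zK (Fin.natAdd m j) ^ (e.1 j : ℕ)) * (M.θ : K) ^ (e.2 : ℕ) * D⁻¹
  refine ⟨Finset.univ.image gen, ?_⟩
  rintro v ⟨c, b, hc, hb, hW⟩
  obtain ⟨p, a, hp, hint⟩ := hL' _ hW
  have hP : ∀ k : Fin d, ∃ (e : ℕ) (P : MvPolynomial (Fin (m + r)) ℂ),
      (split P).totalDegree ≤ K2 ∧ ∀ ζ, MvPolynomial.eval ζ M.h ≠ 0 → MvPolynomial.eval ζ P =
        HH M.z M.θ M.μ M.h (fun y : M.Pts => y b) k ζ * MvPolynomial.eval ζ M.h ^ K1 *
          MvPolynomial.eval (zc ζ) p ^ e := by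
    intro k
    refine hK _ (fun ζ hζ => ?_) p a 1 hp (hint k k.2)
    exact (HH_differentiableAt M.fd M.hch (fun y C => holB_ev b y C) k hζ).differentiableWithinAt
  choose e P hPd hPe using hP
  set E : ℕ := ∑ k, e k with hE
  have hek : ∀ k, e k ≤ E := fun k =>
    Finset.single_le_sum (f := e) (fun _ _ => Nat.zero_le _) (Finset.mem_univ k)
  set p' : MvPolynomial (Fin (m + r)) ℂ := MvPolynomial.rename (Fin.castAdd r) p with hp'
  let Q : Fin d → MvPolynomial (Fin (m + r)) ℂ := fun k => P k * p' ^ (E - e k)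
  have hQd : ∀ k, (split (Q k)).totalDegree ≤ K2 := by
    intro k
    have h0 : split (Q k) = split (P k) * MvPolynomial.C (p ^ (E - e k)) := by
      simp only [Q, map_mul, map_pow, hp', split_rename]
    rw [h0]
    refine (MvPolynomial.totalDegree_mul _ _).trans ?_
    rw [MvPolynomial.totalDegree_C, add_zero]
    exact hPd k
  -- the identity in `B`
  have hid : b * dd M.z M.θ M.μ * az M.z M.h ^ K1 * az M.z p' ^ E =
      ∑ k : Fin d, az M.z (Q k) * M.θ ^ (k : ℕ) := by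
    apply M.ext_of_pts
    intro y
    have hh := M.eval_h_ne y
    have h1 := interp M.fd (fun y : M.Pts => y b) hh y (fun _ => rfl)
    rw [← hd, Finset.sum_range] at h1
    rw [map_mul, map_mul, map_mul, map_pow, map_pow, M.apply_az', M.apply_az', map_sum, h1,
      Finset.sum_mul, Finset.sum_mul]
    refine Finset.sum_congr rfl fun k _ => ?_
    rw [map_mul, map_pow, M.apply_az']
    have h2 : MvPolynomial.eval (M.pz y) p' = MvPolynomial.eval (zc (M.pz y)) p :=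
      eval_rename_castAdd p _
    simp only [Q, map_mul, map_pow, h2]
    rw [hPe k _ hh]
    have h3 : MvPolynomial.eval (zc (M.pz y)) p ^ E =
        MvPolynomial.eval (zc (M.pz y)) p ^ e k * MvPolynomial.eval (zc (M.pz y)) p ^ (E - e k) := by
      rw [← pow_add, Nat.add_sub_cancel' (hek k)]
    rw [h3]
    ring
  -- the identity in `K`
  have hidK : (algebraMap L K c * v) * D * algebraMap L K (R.ML.aK p) ^ E =
      ∑ k : Fin d, M.aK (Q k) * (M.θ : K) ^ (k : ℕ) := by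
    have h1 := congrArg (fun b : M.B => (b : K)) hid
    simp only [MulMemClass.coe_mul, SubmonoidClass.coe_pow, AddSubmonoidClass.coe_finsetSum] at h1
    rw [hb] at h1
    simp only [← M.aK_eq] at h1
    have h2 : M.aK (MvPolynomial.rename (Fin.castAdd r) p) = algebraMap L K (R.ML.aK p) :=
      R.aK_rename p
    rw [hp', h2] at h1
    rw [← h1, hDdef]
    ring
  have hD0 : D ≠ 0 := by
    rw [hDdef]
    refine mul_ne_zero ?_ (pow_ne_zero _ ?_)
    · intro h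
      exact M.fd.der (Subtype.ext h)
    · rw [Ne, map_eq_zero_iff _ M.aK_injective]
      exact M.h_ne
  have hc0 : algebraMap L K (c : L) ≠ 0 := by
    rw [Ne, map_eq_zero]
    exact fun h => hc (Subtype.ext h)
  have hp0 : algebraMap L K (R.ML.aK p) ≠ 0 := by
    rw [Ne, map_eq_zero, map_eq_zero_iff _ R.ML.aK_injective]
    exact hp
  have hv : v = ∑ k : Fin d, ((c : L) * R.ML.aK p ^ E)⁻¹ • (M.aK (Q k) * (M.θ : K) ^ (k : ℕ) * D⁻¹) := by
    rw [← Finset.smul_sum, ← Finset.sum_mul, ← hidK, Algebra.smul_def, map_inv₀, map_mul, map_pow]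
    field_simp
  rw [hv]
  refine Submodule.sum_mem _ fun k _ => Submodule.smul_mem _ _ ?_
  obtain ⟨α, hα⟩ := aK_mem_span (R := R) (hQd k)
  have hα' : M.aK (Q k) = ∑ β, algebraMap L K (α β) * ∏ j, M.zK (Fin.natAdd m j) ^ (β j : ℕ) := hα
  rw [hα', Finset.sum_mul, Finset.sum_mul]
  refine Submodule.sum_mem _ fun β _ => ?_
  have h1 : algebraMap L K (α β) * (∏ j, M.zK (Fin.natAdd m j) ^ (β j : ℕ)) * (M.θ : K) ^ (k : ℕ) *
      D⁻¹ = α β • gen (β, k) := by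
    rw [Algebra.smul_def]
    simp only [gen]
    ring
  rw [h1]
  refine Submodule.smul_mem _ _ (Submodule.subset_span ?_)
  exact Finset.mem_coe.2 (Finset.mem_image.2 ⟨(β, k), Finset.mem_univ _, rfl⟩)

instance VN_finite {N : ℕ} (hN : 0 < N) : Module.Finite L (VN R hN) := by
  obtain ⟨S, hS⟩ := VN_span (R := R) hN
  have : FiniteDimensional L (Submodule.span L (S : Set K)) :=
    FiniteDimensional.span_finset L S
  exact Submodule.finiteDimensional_of_le hS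

end Crest.Agent.R276.SatB_210
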