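import Mathlib
import Crest.Agent.R276.SatB_152
import Crest.Agent.R276.Mod6_987

/-!
# R276, leaf SAT (A) (helper152): the spaces `W_q ⊆ B_K`, `V_q ⊆ K`

`R : RMdl L K m r` relative model, `q > 0` (`q = 2/N`).
* `Wq R q b` : `∫_{M_K} |b|^q |p(z)| (1+|z|²)^{-a} < ∞` for some `p ≠ 0`, `a`.
* `exists_span` : the elements of `W_q` lie in a finite dimensional `L`-subspace of `K`.
-/

set_option autoImplicit false

open MeasureTheory Metric Set Filter Topology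
open scoped ENNReal Real

noncomputable section

namespace Crest.Agent.R276.SatA_152

open Crest.Agent.R271 Crest.Agent.R271.Defs710 Crest.Agent.R271.AlgB956
open Crest.Agent.R276.AB2_590 Crest.Agent.R276.Mod1_987

/-- pointwise `L^q` bound of the fibre sums, constants independent of the function -/
theorem HH_bound_unif {n : ℕ} {B : Type} [CommRing B] [Algebra ℂ B] {z : Fin n → B}
    {θ : B} {μ : Polynomial (MvPolynomial (Fin n) ℂ)}
    {g : MvPolynomial (Fin n) ℂ} (hF : FibData z θ μ g) (k : ℕ) {A : ℝ}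
    {K : ℕ} {q : ℝ} (hq : 0 < q) (hA : 0 ≤ A)
    (hgr : ∀ y : B →ₐ[ℂ] ℂ, ‖y ((qq z θ μ).coeff k)‖ ≤ A * (1 + ∑ i, ‖y (z i)‖ ^ 2) ^ K) :
    ∃ (c : ℝ) (L : ℕ), 0 ≤ c ∧ ∀ (G : (B →ₐ[ℂ] ℂ) → ℂ) (ζ : Cn n), MvPolynomial.eval ζ g ≠ 0 →
      ‖HH z θ μ g G k ζ‖ₑ ^ q ≤ ENNReal.ofReal (c * (1 + ‖ζ‖) ^ L) *
        ∑' y : Fib z ζ, ENNReal.ofReal (‖G y.1‖ ^ q) := by
  obtain ⟨m, hm⟩ := exists_nat_ge ((K : ℝ) * q)
  refine ⟨((μ.natDegree : ℝ) * A) ^ q * (n + 1 : ℝ) ^ m, 2 * m, by positivity, ?_⟩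
  intro G ζ hζ
  have hfin := (natCard_fib hF hζ).2
  have hft : Fintype (Fib z ζ) := Fintype.ofFinite _
  set S : ℝ := 1 + ∑ i, ‖ζ i‖ ^ 2 with hS
  have hS1 : 1 ≤ S := by rw [hS]; have : 0 ≤ ∑ i, ‖ζ i‖ ^ 2 := by positivity
                         linarith
  have hS0 : 0 < S := by linarith
  have hyS : ∀ y : Fib z ζ, (1 + ∑ i, ‖y.1 (z i)‖ ^ 2) = S := by
    intro y; simp only [y.2, hS]
  have hcard : Fintype.card (Fib z ζ) = μ.natDegree := by
    rw [← Nat.card_eq_fintype_card, (natCard_fib hF hζ).1]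
  set T : ℝ := A * S ^ K with hT
  have hT0 : 0 ≤ T := by positivity
  have h1 : ‖HH z θ μ g G k ζ‖ ^ q ≤
      ((μ.natDegree : ℝ) * T) ^ q * ∑ y : Fib z ζ, ‖G y.1‖ ^ q := by
    by_cases hne : Nonempty (Fib z ζ)
    · obtain ⟨y0, -, hy0⟩ := Finset.exists_max_image (Finset.univ : Finset (Fib z ζ))
        (fun y => ‖G y.1‖) Finset.univ_nonempty
      have h2 : ‖HH z θ μ g G k ζ‖ ≤ (μ.natDegree : ℝ) * T * ‖G y0.1‖ := by
        rw [HH_eq hF G k hζ]
        calc ‖∑ y : Fib z ζ, G y.1 * y.1 ((qq z θ μ).coeff k)‖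
            ≤ ∑ y : Fib z ζ, ‖G y.1 * y.1 ((qq z θ μ).coeff k)‖ := norm_sum_le _ _
          _ ≤ ∑ _y : Fib z ζ, ‖G y0.1‖ * T := by
            refine Finset.sum_le_sum fun y _ => ?_
            rw [norm_mul]
            have h3 := hgr y.1
            rw [hyS] at h3
            exact mul_le_mul (hy0 y (Finset.mem_univ _)) h3 (norm_nonneg _) (norm_nonneg _)
          _ = (μ.natDegree : ℝ) * T * ‖G y0.1‖ := by
            rw [Finset.sum_const, Finset.card_univ, hcard, nsmul_eq_mul]; ring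
      calc ‖HH z θ μ g G k ζ‖ ^ q ≤ ((μ.natDegree : ℝ) * T * ‖G y0.1‖) ^ q :=
            Real.rpow_le_rpow (norm_nonneg _) h2 hq.le
        _ = ((μ.natDegree : ℝ) * T) ^ q * ‖G y0.1‖ ^ q :=
            Real.mul_rpow (by positivity) (norm_nonneg _)
        _ ≤ _ := by
          gcongr
          exact Finset.single_le_sum (f := fun y : Fib z ζ => ‖G y.1‖ ^ q)
            (fun y _ => by positivity) (Finset.mem_univ y0)
    · have : IsEmpty (Fib z ζ) := not_nonempty_iff.1 hne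
      rw [HH_eq hF G k hζ]
      simp [Real.zero_rpow hq.ne']
  have h4 : ‖HH z θ μ g G k ζ‖ₑ ^ q = ENNReal.ofReal (‖HH z θ μ g G k ζ‖ ^ q) := by
    rw [← ENNReal.ofReal_rpow_of_nonneg (norm_nonneg _) hq.le, ofReal_norm]
  rw [h4, tsum_fintype, ← ENNReal.ofReal_sum_of_nonneg (fun _ _ => by positivity),
    ← ENNReal.ofReal_mul (by positivity)]
  apply ENNReal.ofReal_le_ofReal
  refine h1.trans ?_
  refine mul_le_mul_of_nonneg_right ?_ (Finset.sum_nonneg fun _ _ => by positivity)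
  have h6 : S ≤ (n + 1 : ℝ) * (1 + ‖ζ‖) ^ 2 := AlgC956.one_add_sum_le ζ
  have h7 : (S ^ K) ^ q ≤ S ^ m := by
    rw [← Real.rpow_natCast S K, ← Real.rpow_mul hS0.le, ← Real.rpow_natCast S m]
    exact Real.rpow_le_rpow_of_exponent_le hS1 hm
  calc ((μ.natDegree : ℝ) * T) ^ q
      = ((μ.natDegree : ℝ) * A) ^ q * (S ^ K) ^ q := by
        rw [hT, ← mul_assoc, Real.mul_rpow (by positivity) (by positivity)]
    _ ≤ ((μ.natDegree : ℝ) * A) ^ q * S ^ m := by gcongr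
    _ ≤ ((μ.natDegree : ℝ) * A) ^ q * ((n + 1 : ℝ) * (1 + ‖ζ‖) ^ 2) ^ m := by gcongr
    _ = _ := by rw [mul_pow, ← pow_mul]; ring

variable {L K : Type} [Field L] [Field K] [Algebra ℂ L] [Algebra ℂ K] [Algebra L K]
  [IsScalarTower ℂ L K] {m r : ℕ} (R : RMdl L K m r)

/-- the space `W_q` -/
def Wq (q : ℝ) (b : R.MK.B) : Prop := ∃ (p : MvPolynomial (Fin m) ℂ) (a : ℕ), p ≠ 0 ∧
  lintM R.MK.z (fun y => ENNReal.ofReal (‖y b‖ ^ q * wz p a (zp (R.MK.pz y)))) < ∞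

/-- growth and polynomiality of the coefficients -/
theorem exists_coef (q : ℝ) (hq : 0 < q) (k : ℕ) : ∃ a0 b0 : ℕ, ∀ b : R.MK.B, ∀ p a,
    lintM R.MK.z (fun y => ENNReal.ofReal (‖y b‖ ^ q * wz p a (zp (R.MK.pz y)))) < ∞ →
    ∃ (b' : ℕ) (P : MvPolynomial (Fin (m + r)) ℂ), (∀ s ∈ P.support, dx s ≤ a0) ∧
      ∀ ζ, MvPolynomial.eval ζ R.MK.h ≠ 0 →
        HH R.MK.z R.MK.θ R.MK.μ R.MK.h (fun y => y b) k ζ *
          (MvPolynomial.eval ζ R.MK.h ^ b0 * MvPolynomial.eval (zp ζ) p ^ b') =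
        MvPolynomial.eval ζ P := by
  obtain ⟨A, K', hA, hAK⟩ := AlgD956.PG_coeff (z := R.MK.z) R.MK.monic R.MK.root k
  obtain ⟨c, Lc, hc, hb⟩ := HH_bound_unif R.MK.fd k hq hA hAK
  obtain ⟨a0, b0, hgr⟩ := growth_unif R.MK.h hq Lc
  refine ⟨a0, b0, fun b p a hint => ?_⟩
  set f : Cn (m + r) → ℂ := HH R.MK.z R.MK.θ R.MK.μ R.MK.h (fun y => y b) k with hf
  have hfd : DifferentiableOn ℂ f {ζ | MvPolynomial.eval ζ R.MK.h ≠ 0} := fun ζ hζ =>
    (HH_differentiableAt (G := fun y => y b) R.MK.fd R.MK.hch (fun y C => holB_ev b y C) k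
      hζ).differentiableWithinAt
  have hopen : IsOpen {ζ : Cn (m + r) | MvPolynomial.eval ζ R.MK.h ≠ 0} :=
    isOpen_ne.preimage (MvPolynomial.continuous_eval _)
  obtain ⟨C, a', b', hC, hbd⟩ := hgr hfd p a (by
    rw [lintM] at hint
    calc ∫⁻ ζ in {ζ | MvPolynomial.eval ζ R.MK.h ≠ 0},
          ‖f ζ‖ₑ ^ q * ENNReal.ofReal ((1 + ‖ζ‖) ^ Lc)⁻¹ * ENNReal.ofReal (wz p a (zp ζ))
        ≤ ∫⁻ ζ in {ζ | MvPolynomial.eval ζ R.MK.h ≠ 0}, ENNReal.ofReal c *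
            ∑' y : Fib R.MK.z ζ, ENNReal.ofReal (‖y.1 b‖ ^ q * wz p a (zp (R.MK.pz y.1))) := by
          refine setLIntegral_mono' hopen.measurableSet fun ζ hζ => ?_
          have h1 : ∀ y : Fib R.MK.z ζ,
              ENNReal.ofReal (‖y.1 b‖ ^ q * wz p a (zp (R.MK.pz y.1))) =
              ENNReal.ofReal (‖y.1 b‖ ^ q) * ENNReal.ofReal (wz p a (zp ζ)) := by
            intro y
            have h2 : R.MK.pz y.1 = ζ := funext y.2
            rw [h2, ENNReal.ofReal_mul (by positivity)]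
          simp only [h1]
          rw [ENNReal.tsum_mul_right, ← mul_assoc]
          refine mul_le_mul' ?_ le_rfl
          calc ‖f ζ‖ₑ ^ q * ENNReal.ofReal ((1 + ‖ζ‖) ^ Lc)⁻¹
              ≤ (ENNReal.ofReal (c * (1 + ‖ζ‖) ^ Lc) *
                ∑' y : Fib R.MK.z ζ, ENNReal.ofReal (‖y.1 b‖ ^ q)) *
                ENNReal.ofReal ((1 + ‖ζ‖) ^ Lc)⁻¹ := by
                gcongr
                exact hb _ ζ hζ
            _ = (ENNReal.ofReal (c * (1 + ‖ζ‖) ^ Lc) * ENNReal.ofReal ((1 + ‖ζ‖) ^ Lc)⁻¹) *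
                ∑' y : Fib R.MK.z ζ, ENNReal.ofReal (‖y.1 b‖ ^ q) := by ring
            _ = _ := by
                rw [← ENNReal.ofReal_mul (by positivity)]
                congr 2
                have : (1 + ‖ζ‖) ^ Lc ≠ 0 := by positivity
                field_simp
      _ ≤ ∫⁻ ζ, ENNReal.ofReal c *
            ∑' y : Fib R.MK.z ζ, ENNReal.ofReal (‖y.1 b‖ ^ q * wz p a (zp (R.MK.pz y.1))) :=
          setLIntegral_le_lintegral _ _
      _ = ENNReal.ofReal c * ∫⁻ ζ,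
            ∑' y : Fib R.MK.z ζ, ENNReal.ofReal (‖y.1 b‖ ^ q * wz p a (zp (R.MK.pz y.1))) :=
          lintegral_const_mul' _ _ ENNReal.ofReal_ne_top
      _ < ∞ := ENNReal.mul_lt_top ENNReal.ofReal_lt_top hint)
  have hzd : Differentiable ℂ (fun ζ : Cn (m + r) => MvPolynomial.eval (zp ζ) p) := by
    have h1 : (fun ζ : Cn (m + r) => MvPolynomial.eval (zp ζ) p) =
        fun ζ => MvPolynomial.eval ζ (MvPolynomial.rename (Fin.castAdd r) p) := by
      funext ζ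
      rw [MvPolynomial.eval_rename]
      rfl
    rw [h1]
    exact fun ζ => (RExt747.analyticAt_eval _ ζ).differentiableAt
  have hhd : Differentiable ℂ (fun ζ : Cn (m + r) => MvPolynomial.eval ζ R.MK.h) :=
    fun ζ => (RExt747.analyticAt_eval _ ζ).differentiableAt
  obtain ⟨P, hP, hdeg⟩ := exists_poly_of_growth (f := fun ζ => f ζ *
      (MvPolynomial.eval ζ R.MK.h ^ b0 * MvPolynomial.eval (zp ζ) p ^ b')) R.MK.h_ne
    (hfd.mul (((hhd.pow b0).mul (hzd.pow b')).differentiableOn)) hC (fun ζ hζ => by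
      rw [norm_mul, norm_mul, norm_pow, norm_pow]
      exact hbd ζ hζ)
  exact ⟨b', P, hdeg, hP⟩

end Crest.Agent.R276.SatA_152
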