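import Mathlib
import Crest.Agent.R276.SatC_152

/-!
# R276, leaf SAT (A) (helper152): finite dimension of the span of `W_q`
-/

set_option autoImplicit false

open MeasureTheory Metric Set Filter Topology
open scoped ENNReal Real

noncomputable section

namespace Crest.Agent.R276.SatA_152

open Crest.Agent.R271 Crest.Agent.R271.Defs710 Crest.Agent.R271.AlgB956
open Crest.Agent.R276.AB2_590 Crest.Agent.R276.Mod1_987

variable {L K : Type} [Field L] [Field K] [Algebra ℂ L] [Algebra ℂ K] [Algebra L K]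
  [IsScalarTower ℂ L K] {m r : ℕ} (R : RMdl L K m r)

lemma aK_ren_ne {p : MvPolynomial (Fin m) ℂ} (hp : p ≠ 0) :
    R.MK.aK (MvPolynomial.rename (Fin.castAdd r) p) ≠ 0 := by
  rw [Ne, map_eq_zero_iff _ R.MK.aK_injective,
    map_eq_zero_iff _ (MvPolynomial.rename_injective _ (Fin.castAdd_injective m r))]
  exact hp

lemma eval_ren (ζ : Cn (m + r)) (p : MvPolynomial (Fin m) ℂ) :
    MvPolynomial.eval ζ (MvPolynomial.rename (Fin.castAdd r) p) = MvPolynomial.eval (zp ζ) p := by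
  rw [MvPolynomial.eval_rename]
  rfl

/-- monomials: the base variables are scalars -/
lemma aK_mem_span (P : MvPolynomial (Fin (m + r)) ℂ) (N : ℕ) (hP : ∀ s ∈ P.support, dx s ≤ N) :
    R.MK.aK P ∈ Submodule.span L (Set.range fun α : Fin r → Fin (N + 1) =>
      ∏ j, R.MK.zK (Fin.natAdd m j) ^ (α j : ℕ)) := by
  have h1 : R.MK.aK P = ∑ s ∈ P.support, algebraMap ℂ K (P.coeff s) *
      ∏ i, R.MK.zK i ^ s i := by
    change MvPolynomial.aeval R.MK.zK P = _
    rw [MvPolynomial.aeval_def, MvPolynomial.eval₂_eq']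
  rw [h1]
  refine Submodule.sum_mem _ fun s hs => ?_
  have hN : ∀ j : Fin r, s (Fin.natAdd m j) < N + 1 := by
    intro j
    have h2 : s (Fin.natAdd m j) ≤ dx s :=
      Finset.single_le_sum (f := fun j : Fin r => s (Fin.natAdd m j)) (fun _ _ => Nat.zero_le _)
        (Finset.mem_univ j)
    have := hP s hs
    omega
  have h2 : algebraMap ℂ K (P.coeff s) * ∏ i, R.MK.zK i ^ s i =
      (algebraMap ℂ L (P.coeff s) * ∏ i, R.ML.zK i ^ s (Fin.castAdd r i)) •
        ∏ j, R.MK.zK (Fin.natAdd m j) ^ s (Fin.natAdd m j) := by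
    rw [Algebra.smul_def, map_mul, ← IsScalarTower.algebraMap_apply, map_prod, Fin.prod_univ_add]
    simp only [map_pow, R.z_eq]
    ring
  rw [h2]
  refine Submodule.smul_mem _ _ (Submodule.subset_span ⟨fun j => ⟨_, hN j⟩, rfl⟩)

/-- the identity in `B` -/
lemma coef_identity {d : ℕ} (hd : (qq R.MK.z R.MK.θ R.MK.μ).natDegree + 1 = d) (b : R.MK.B)
    (p : MvPolynomial (Fin m) ℂ) (b0 b' : ℕ → ℕ) (P : ℕ → MvPolynomial (Fin (m + r)) ℂ)
    (hP : ∀ k, ∀ ζ, MvPolynomial.eval ζ R.MK.h ≠ 0 →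
        HH R.MK.z R.MK.θ R.MK.μ R.MK.h (fun y => y b) k ζ *
          (MvPolynomial.eval ζ R.MK.h ^ b0 k * MvPolynomial.eval (zp ζ) p ^ b' k) =
        MvPolynomial.eval ζ (P k)) (B0 B' : ℕ) (hB0 : ∀ k < d, b0 k ≤ B0)
    (hB' : ∀ k < d, b' k ≤ B') :
    b * dd R.MK.z R.MK.θ R.MK.μ *
      (R271.Alg255.az R.MK.z R.MK.h ^ B0 *
        R271.Alg255.az R.MK.z (MvPolynomial.rename (Fin.castAdd r) p) ^ B') =
    ∑ k ∈ Finset.range d, R271.Alg255.az R.MK.z (P k) * R.MK.θ ^ k *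
      (R271.Alg255.az R.MK.z R.MK.h ^ (B0 - b0 k) *
        R271.Alg255.az R.MK.z (MvPolynomial.rename (Fin.castAdd r) p) ^ (B' - b' k)) := by
  apply R.MK.ext_of_pts
  intro y
  have hy := R.MK.eval_h_ne y
  have h1 := interp R.MK.fd (fun y => y b) hy y (fun _ => rfl)
  rw [hd] at h1
  simp only [map_mul, map_sum, map_pow, R.MK.apply_az', eval_ren]
  rw [h1, Finset.sum_mul]
  refine Finset.sum_congr rfl fun k hk => ?_
  have hk' := Finset.mem_range.mp hk
  have h2 := hP k (R.MK.pz y) hy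
  have e1 : MvPolynomial.eval (R.MK.pz y) R.MK.h ^ B0 =
      MvPolynomial.eval (R.MK.pz y) R.MK.h ^ b0 k *
        MvPolynomial.eval (R.MK.pz y) R.MK.h ^ (B0 - b0 k) := by
    rw [← pow_add]; congr 1; have := hB0 k hk'; omega
  have e2 : MvPolynomial.eval (zp (R.MK.pz y)) p ^ B' =
      MvPolynomial.eval (zp (R.MK.pz y)) p ^ b' k *
        MvPolynomial.eval (zp (R.MK.pz y)) p ^ (B' - b' k) := by
    rw [← pow_add]; congr 1; have := hB' k hk'; omega
  rw [← h2, e1, e2]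
  ring

/-- **the elements of `W_q` lie in a finite dimensional `L`-subspace of `K`** -/
theorem exists_span (q : ℝ) (hq : 0 < q) : ∃ (ι : Type) (_ : Finite ι) (e : ι → K),
    ∀ b : R.MK.B, Wq R q b → (b : K) ∈ Submodule.span L (Set.range e) := by
  choose a0 b0 hab using exists_coef R q hq
  obtain ⟨d, hd⟩ : ∃ d, (qq R.MK.z R.MK.θ R.MK.μ).natDegree + 1 = d := ⟨_, rfl⟩
  obtain ⟨N, hN⟩ : ∃ N, ∀ k < d, a0 k ≤ N := ⟨∑ k ∈ Finset.range d, a0 k, fun k hk =>
    Finset.single_le_sum (f := a0) (fun _ _ => Nat.zero_le _) (Finset.mem_range.mpr hk)⟩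
  obtain ⟨B0, hB0⟩ : ∃ N, ∀ k < d, b0 k ≤ N := ⟨∑ k ∈ Finset.range d, b0 k, fun k hk =>
    Finset.single_le_sum (f := b0) (fun _ _ => Nat.zero_le _) (Finset.mem_range.mpr hk)⟩
  set D : K := ((dd R.MK.z R.MK.θ R.MK.μ : R.MK.B) : K) with hD
  have hD0 : D ≠ 0 := fun h => R.MK.fd.der (Subtype.ext h)
  set H : K := R.MK.aK R.MK.h with hH
  have hH0 : H ≠ 0 := by rw [hH, Ne, map_eq_zero_iff _ R.MK.aK_injective]; exact R.MK.h_ne
  let e : Fin d × (Fin r → Fin (N + 1)) → K := fun i =>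
    (∏ j, R.MK.zK (Fin.natAdd m j) ^ (i.2 j : ℕ)) * ((R.MK.θ : K) ^ (i.1 : ℕ) /
      (D * H ^ b0 i.1))
  refine ⟨_, inferInstance, e, ?_⟩
  rintro b ⟨p, a, hp, hint⟩
  choose b' P hdeg hP using fun k => hab k b p a hint
  obtain ⟨B', hB'⟩ : ∃ N, ∀ k < d, b' k ≤ N := ⟨∑ k ∈ Finset.range d, b' k, fun k hk =>
    Finset.single_le_sum (f := b') (fun _ _ => Nat.zero_le _) (Finset.mem_range.mpr hk)⟩
  set Q : K := R.MK.aK (MvPolynomial.rename (Fin.castAdd r) p) with hQ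
  have hQ0 : Q ≠ 0 := aK_ren_ne R hp
  have hQL : Q = algebraMap L K (R.ML.aK p) := R.aK_rename p
  have hid := congrArg (Subtype.val (p := fun x => x ∈ R.MK.B))
    (coef_identity R hd b p b0 b' P hP B0 B' hB0 hB')
  have hid' : (b : K) * D * (H ^ B0 * Q ^ B') = ∑ k ∈ Finset.range d, R.MK.aK (P k) *
      (R.MK.θ : K) ^ k * (H ^ (B0 - b0 k) * Q ^ (B' - b' k)) := by
    rw [hH, hQ, hD]
    simp only [R.MK.aK_eq]
    push_cast at hid
    exact hid
  have hb : (b : K) = ∑ k ∈ Finset.range d, (algebraMap L K (R.ML.aK p ^ b' k)⁻¹) *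
      (R.MK.aK (P k) * ((R.MK.θ : K) ^ k / (D * H ^ b0 k))) := by
    have h1 : (b : K) = (b * D * (H ^ B0 * Q ^ B')) / (D * (H ^ B0 * Q ^ B')) := by
      field_simp
    rw [h1, hid', Finset.sum_div]
    refine Finset.sum_congr rfl fun k hk => ?_
    have hk' := Finset.mem_range.mp hk
    have e1 : H ^ B0 = H ^ b0 k * H ^ (B0 - b0 k) := by
      rw [← pow_add]; congr 1; have := hB0 k hk'; omega
    have e2 : Q ^ B' = Q ^ b' k * Q ^ (B' - b' k) := by
      rw [← pow_add]; congr 1; have := hB' k hk'; omega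
    rw [map_inv₀, map_pow, ← hQL, e1, e2]
    field_simp
  rw [hb]
  refine Submodule.sum_mem _ fun k hk => ?_
  have hk' := Finset.mem_range.mp hk
  rw [← Algebra.smul_def]
  refine Submodule.smul_mem _ _ ?_
  have h1 := aK_mem_span R (P k) N fun s hs => (hdeg k s hs).trans (hN k hk')
  have h2 := Submodule.mem_map_of_mem (f := LinearMap.mulRight L
    ((R.MK.θ : K) ^ k / (D * H ^ b0 k))) h1
  rw [Submodule.map_span, ← Set.range_comp] at h2
  refine Submodule.span_mono ?_ h2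
  rintro _ ⟨α, rfl⟩
  exact ⟨(⟨k, hk'⟩, α), rfl⟩

end Crest.Agent.R276.SatA_152
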