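import Mathlib
import Crest.Agent.R276.SatD_152

/-!
# R276, leaf SAT (A) (helper152): the `L`-space `V_q ⊆ K`

* `Wq.add`, `Wq.mul_base` (multiplication by `B_L`), `Wq.mul` (`W_{q₁} W_{q₂} ⊆ W_q`,
  `1/q = 1/q₁ + 1/q₂`);
* `Vq R q hq : Submodule L K`, finite dimensional; `Vq_mul`.
-/

set_option autoImplicit false

open MeasureTheory Metric Set Filter Topology
open scoped ENNReal Real

noncomputable section

namespace Crest.Agent.R276.SatA_152

open Crest.Agent.R271 Crest.Agent.R271.Defs710 Crest.Agent.R271.AlgB956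
open Crest.Agent.R276.AB2_590 Crest.Agent.R276.Mod1_987
open Crest.Agent.R271.Rd692 Crest.Agent.R271.Ho51

/-! ### weights -/

section wt

variable {m : ℕ}

/-- `1 + |z|²` -/
abbrev zz (z : Fin m → ℂ) : ℝ := 1 + ∑ i, ‖z i‖ ^ 2

lemma one_le_zz (z : Fin m → ℂ) : 1 ≤ zz z := by
  have : 0 ≤ ∑ i, ‖z i‖ ^ 2 := by positivity
  unfold zz
  linarith

/-- growth of polynomials -/
lemma poly_zz (p : MvPolynomial (Fin m) ℂ) : ∃ (C : ℝ) (k : ℕ), 1 ≤ C ∧
    ∀ z : Fin m → ℂ, ‖MvPolynomial.eval z p‖ ≤ C * zz z ^ k := by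
  obtain ⟨C, D, hC, h1, -⟩ := LqG_464.poly_bound p
  refine ⟨C * 2 ^ D, D, ?_, fun z => ?_⟩
  · have : (1 : ℝ) ≤ 2 ^ D := one_le_pow₀ (by norm_num)
    nlinarith
  · refine (h1 z).trans ?_
    have h2 := AlgLq_464.one_add_norm_le z
    rw [mul_assoc, ← mul_pow]
    gcongr

/-- absorbing a factor into the weight -/
lemma wz_absorb (p t : MvPolynomial (Fin m) ℂ) (a k : ℕ) {C F : ℝ} {z : Fin m → ℂ}
    (h : F * ‖MvPolynomial.eval z t‖ ≤ C * zz z ^ k) :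
    F * wz (p * t) (a + k) z ≤ C * wz p a z := by
  have h0 : 0 < zz z := lt_of_lt_of_le one_pos (one_le_zz z)
  unfold wz
  change F * (‖MvPolynomial.eval z (p * t)‖ / zz z ^ (a + k)) ≤
    C * (‖MvPolynomial.eval z p‖ / zz z ^ a)
  rw [map_mul, norm_mul, pow_add]
  have h1 : F * (‖MvPolynomial.eval z p‖ * ‖MvPolynomial.eval z t‖ / (zz z ^ a * zz z ^ k)) =
      (F * ‖MvPolynomial.eval z t‖) * (‖MvPolynomial.eval z p‖ / (zz z ^ a * zz z ^ k)) := by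
    ring
  rw [h1]
  calc (F * ‖MvPolynomial.eval z t‖) * (‖MvPolynomial.eval z p‖ / (zz z ^ a * zz z ^ k))
      ≤ (C * zz z ^ k) * (‖MvPolynomial.eval z p‖ / (zz z ^ a * zz z ^ k)) := by
        gcongr
    _ = _ := by
        field_simp

lemma wz_anti (p : MvPolynomial (Fin m) ℂ) {a a' : ℕ} (h : a ≤ a') (z : Fin m → ℂ) :
    wz p a' z ≤ wz p a z := by
  unfold wz
  have h1 := one_le_zz z
  have h0 : 0 < zz z := lt_of_lt_of_le one_pos h1
  have h2 : zz z ^ a ≤ zz z ^ a' := pow_le_pow_right₀ h1 h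
  have h3 : 0 < zz z ^ a := by positivity
  exact div_le_div_of_nonneg_left (norm_nonneg _) h3 h2

/-- a common weight -/
lemma wz_common {p1 p2 : MvPolynomial (Fin m) ℂ} (h1 : p1 ≠ 0) (h2 : p2 ≠ 0) (a1 a2 : ℕ) :
    ∃ (p : MvPolynomial (Fin m) ℂ) (a : ℕ) (C : ℝ), p ≠ 0 ∧ 0 ≤ C ∧
      (∀ z, wz p a z ≤ C * wz p1 a1 z) ∧ ∀ z, wz p a z ≤ C * wz p2 a2 z := by
  obtain ⟨C1, k1, hC1, hb1⟩ := poly_zz p1
  obtain ⟨C2, k2, hC2, hb2⟩ := poly_zz p2
  refine ⟨p1 * p2, (a1 + k2) + (a2 + k1), C1 + C2, mul_ne_zero h1 h2, by linarith, ?_, ?_⟩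
  · intro z
    have e1 : (1 : ℝ) * ‖MvPolynomial.eval z p2‖ ≤ C2 * zz z ^ k2 := by rw [one_mul]; exact hb2 z
    have e2 := wz_absorb p1 p2 a1 k2 e1
    rw [one_mul] at e2
    refine (wz_anti _ (Nat.le_add_right _ _) z).trans (e2.trans ?_)
    have := wz_nonneg p1 a1 z
    nlinarith
  · intro z
    have e1 : (1 : ℝ) * ‖MvPolynomial.eval z p1‖ ≤ C1 * zz z ^ k1 := by rw [one_mul]; exact hb1 z
    have e2 := wz_absorb p2 p1 a2 k1 e1
    rw [one_mul, mul_comm p2 p1] at e2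
    refine (wz_anti _ (Nat.le_add_left _ _) z).trans (e2.trans ?_)
    have := wz_nonneg p2 a2 z
    nlinarith

lemma continuous_wz (p : MvPolynomial (Fin m) ℂ) (a : ℕ) : Continuous (wz p a) := by
  unfold wz
  refine Continuous.div (MvPolynomial.continuous_eval p).norm (by fun_prop) fun z => ?_
  have := one_le_zz z
  have h0 : 0 < zz z := lt_of_lt_of_le one_pos this
  positivity

end wt

variable {L K : Type} [Field L] [Field K] [Algebra ℂ L] [Algebra ℂ K] [Algebra L K]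
  [IsScalarTower ℂ L K] {m r : ℕ} {R : RMdl L K m r}

lemma continuous_zp : Continuous (zp : (Fin (m + r) → ℂ) → (Fin m → ℂ)) := by
  unfold zp; fun_prop

lemma continuous_zpz (R : RMdl L K m r) : Continuous fun y : R.MK.Pts => zp (R.MK.pz y) :=
  continuous_zp.comp (continuous_pr R.MK.z)

lemma measurable_wt (R : RMdl L K m r) (p : MvPolynomial (Fin m) ℂ) (a : ℕ) :
    Measurable fun y : R.MK.Pts => wz p a (zp (R.MK.pz y)) :=
  ((continuous_wz p a).comp (continuous_zpz R)).measurable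

lemma measurable_int (R : RMdl L K m r) {q : ℝ} (b : R.MK.B) (p : MvPolynomial (Fin m) ℂ)
    (a : ℕ) : Measurable fun y : R.MK.Pts =>
      ENNReal.ofReal (‖y b‖ ^ q * wz p a (zp (R.MK.pz y))) := by
  have h1 : Measurable fun y : R.MK.Pts => y b := (continuous_ev b).measurable
  exact ((h1.norm.pow_const q).mul (measurable_wt R p a)).ennreal_ofReal

/-- comparison of integrals over the model -/
lemma lintM_le_add (R : RMdl L K m r) {g g1 g2 : R.MK.Pts → ℝ≥0∞} (hg : Measurable g)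
    (hg1 : Measurable g1) (hg2 : Measurable g2) {c : ℝ≥0∞} (hc : c ≠ ∞)
    (h : ∀ y, g y ≤ c * (g1 y + g2 y)) (h1 : lintM R.MK.z g1 < ∞) (h2 : lintM R.MK.z g2 < ∞) :
    lintM R.MK.z g < ∞ := by
  obtain ⟨μ, hμ⟩ := R.MK.exists_leb
  rw [R.MK.lintM_eq hμ hg1] at h1
  rw [R.MK.lintM_eq hμ hg2] at h2
  rw [R.MK.lintM_eq hμ hg]
  refine lt_of_le_of_lt (lintegral_mono h) ?_
  rw [lintegral_const_mul' _ _ hc, lintegral_add_left hg1]
  exact ENNReal.mul_lt_top hc.lt_top (ENNReal.add_lt_top.mpr ⟨h1, h2⟩)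

lemma Wq.zero {q : ℝ} (hq : 0 < q) : Wq R q 0 := by
  refine ⟨1, 0, one_ne_zero, ?_⟩
  have : (fun y : R.MK.Pts => ENNReal.ofReal (‖y 0‖ ^ q * wz 1 0 (zp (R.MK.pz y)))) =
      fun _ => 0 := by
    funext y
    rw [map_zero, norm_zero, Real.zero_rpow hq.ne', zero_mul, ENNReal.ofReal_zero]
  rw [this]
  simp [lintM]

lemma rpow_add_le {q : ℝ} (hq : 0 < q) {x y : ℝ} (hx : 0 ≤ x) (hy : 0 ≤ y) :
    (x + y) ^ q ≤ 2 ^ q * (x ^ q + y ^ q) := by
  have h1 : x + y ≤ 2 * max x y := by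
    have := le_max_left x y
    have := le_max_right x y
    linarith
  have h2 : (max x y) ^ q ≤ x ^ q + y ^ q := by
    rcases max_choice x y with h | h
    · rw [h]; have : 0 ≤ y ^ q := by positivity
      linarith
    · rw [h]; have : 0 ≤ x ^ q := by positivity
      linarith
  calc (x + y) ^ q ≤ (2 * max x y) ^ q := Real.rpow_le_rpow (by positivity) h1 hq.le
    _ = 2 ^ q * (max x y) ^ q := Real.mul_rpow (by norm_num) (le_max_of_le_left hx)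
    _ ≤ _ := by gcongr

/-- a pointwise bound by two integrable functions -/
lemma Wq_of_le {q q1 q2 : ℝ} {b b1 b2 : R.MK.B} {C : ℝ} (hC : 0 ≤ C)
    (h : ∀ y : R.MK.Pts, ‖y b‖ ^ q ≤ C * (‖y b1‖ ^ q1 + ‖y b2‖ ^ q2))
    (h1 : Wq R q1 b1) (h2 : Wq R q2 b2) : Wq R q b := by
  obtain ⟨p1, a1, hp1, i1⟩ := h1
  obtain ⟨p2, a2, hp2, i2⟩ := h2
  obtain ⟨p, a, C', hp, hC', c1, c2⟩ := wz_common hp1 hp2 a1 a2
  refine ⟨p, a, hp, lintM_le_add R (c := ENNReal.ofReal (C * C')) (measurable_int R b p a)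
    (measurable_int R b1 p1 a1) (measurable_int R b2 p2 a2) ENNReal.ofReal_ne_top ?_ i1 i2⟩
  intro y
  have w0 := wz_nonneg p a (zp (R.MK.pz y))
  have w1 := wz_nonneg p1 a1 (zp (R.MK.pz y))
  have w2 := wz_nonneg p2 a2 (zp (R.MK.pz y))
  rw [← ENNReal.ofReal_add (by positivity) (by positivity), ← ENNReal.ofReal_mul (by positivity)]
  apply ENNReal.ofReal_le_ofReal
  calc ‖y b‖ ^ q * wz p a (zp (R.MK.pz y))
      ≤ (C * (‖y b1‖ ^ q1 + ‖y b2‖ ^ q2)) * wz p a (zp (R.MK.pz y)) := by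
        gcongr; exact h y
    _ = C * (‖y b1‖ ^ q1 * wz p a (zp (R.MK.pz y)) + ‖y b2‖ ^ q2 * wz p a (zp (R.MK.pz y))) := by
        ring
    _ ≤ C * (‖y b1‖ ^ q1 * (C' * wz p1 a1 (zp (R.MK.pz y))) +
          ‖y b2‖ ^ q2 * (C' * wz p2 a2 (zp (R.MK.pz y)))) := by
        have e1 := c1 (zp (R.MK.pz y))
        have e2 := c2 (zp (R.MK.pz y))
        gcongr
    _ = _ := by ring

theorem Wq.add {q : ℝ} (hq : 0 < q) {b1 b2 : R.MK.B} (h1 : Wq R q b1) (h2 : Wq R q b2) :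
    Wq R q (b1 + b2) := by
  refine Wq_of_le (C := 2 ^ q) (by positivity) (fun y => ?_) h1 h2
  rw [map_add]
  exact (Real.rpow_le_rpow (norm_nonneg _) (norm_add_le _ _) hq.le).trans
    (rpow_add_le hq (norm_nonneg _) (norm_nonneg _))

/-- **products**: `W_{q₁} W_{q₂} ⊆ W_q` for `1/q = 1/q₁ + 1/q₂` -/
theorem Wq.mul {q q1 q2 : ℝ} (hq1 : 0 < q1) (hq2 : 0 < q2) (hq : 0 < q)
    (hqq : 1 / q = 1 / q1 + 1 / q2) {b1 b2 : R.MK.B} (h1 : Wq R q1 b1) (h2 : Wq R q2 b2) :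
    Wq R q (b1 * b2) := by
  refine Wq_of_le (C := 1) (by positivity) (fun y => ?_) h1 h2
  rw [map_mul, norm_mul, one_mul]
  set x := ‖y b1‖ with hx
  set w := ‖y b2‖ with hw
  have hx0 : 0 ≤ x := norm_nonneg _
  have hw0 : 0 ≤ w := norm_nonneg _
  have hsum : q / q1 + q / q2 = 1 := by
    have : q / q1 + q / q2 = q * (1 / q1 + 1 / q2) := by ring
    rw [this, ← hqq, mul_one_div_cancel hq.ne']
  have h3 := Real.geom_mean_le_arith_mean2_weighted (w₁ := q / q1) (w₂ := q / q2)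
    (p₁ := x ^ q1) (p₂ := w ^ q2) (by positivity) (by positivity) (by positivity)
    (by positivity) hsum
  rw [← Real.rpow_mul hx0, ← Real.rpow_mul hw0, mul_div_cancel₀ _ hq1.ne',
    mul_div_cancel₀ _ hq2.ne'] at h3
  rw [Real.mul_rpow hx0 hw0]
  refine h3.trans ?_
  have e1 : q / q1 ≤ 1 := by
    have : 0 ≤ q / q2 := by positivity
    linarith
  have e2 : q / q2 ≤ 1 := by
    have : 0 ≤ q / q1 := by positivity
    linarith
  have e3 : 0 ≤ x ^ q1 := by positivity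
  have e4 : 0 ≤ w ^ q2 := by positivity
  nlinarith

lemma zp_pz (y : R.MK.Pts) : zp (R.MK.pz y) = R.ML.pz (R.q y) := by
  funext i
  exact (R.pz_q y i).symm

/-- **multiplication by elements of `B_L`** -/
theorem Wq.mul_base {q : ℝ} (hq : 0 < q) {b : R.MK.B} (h : Wq R q b) (c : R.ML.B) :
    Wq R q (R.incl c * b) := by
  obtain ⟨p, a, hp, hi⟩ := h
  obtain ⟨N, hN⟩ := exists_nat_ge q
  obtain ⟨C0, k0, l, hC0, hc⟩ := R.ML.growth c
  obtain ⟨C1, k1, hC1, hh⟩ := poly_zz (R.ML.h ^ l)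
  set t : MvPolynomial (Fin m) ℂ := (R.ML.h ^ l) ^ N with ht
  have ht0 : t ≠ 0 := pow_ne_zero _ (pow_ne_zero _ R.ML.h_ne)
  have key : ∀ y : R.MK.Pts, ‖y (R.incl c)‖ ^ q * ‖MvPolynomial.eval (zp (R.MK.pz y)) t‖ ≤
      (C0 + C1) ^ N * zz (zp (R.MK.pz y)) ^ ((k0 + k1) * N) := by
    intro y
    set Z := zz (zp (R.MK.pz y)) with hZ
    have hZ1 : 1 ≤ Z := one_le_zz _
    set H := ‖MvPolynomial.eval (zp (R.MK.pz y)) (R.ML.h ^ l)‖ with hH
    have e0 : ‖y (R.incl c)‖ ^ q ≤ (1 + ‖y (R.incl c)‖) ^ N := by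
      calc ‖y (R.incl c)‖ ^ q ≤ (1 + ‖y (R.incl c)‖) ^ q :=
            Real.rpow_le_rpow (norm_nonneg _) (by linarith) hq.le
        _ ≤ (1 + ‖y (R.incl c)‖) ^ (N : ℝ) :=
            Real.rpow_le_rpow_of_exponent_le (by linarith [norm_nonneg (y (R.incl c))]) hN
        _ = _ := Real.rpow_natCast _ _
    have e1 : H * ‖y (R.incl c)‖ ≤ C0 * Z ^ k0 := by
      have := hc (R.q y)
      rw [hH, zp_pz, map_pow, norm_pow]
      have e2 : Z = 1 + ∑ i, ‖(R.q y) (R.ML.z i)‖ ^ 2 := by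
        rw [hZ, zp_pz]
        rfl
      rw [e2]
      exact this
    have e2 : H ≤ C1 * Z ^ k1 := hh _
    have e3 : (1 + ‖y (R.incl c)‖) * H ≤ (C0 + C1) * Z ^ (k0 + k1) := by
      have e4 : Z ^ k0 ≤ Z ^ (k0 + k1) := pow_le_pow_right₀ hZ1 (by omega)
      have e5 : Z ^ k1 ≤ Z ^ (k0 + k1) := pow_le_pow_right₀ hZ1 (by omega)
      nlinarith
    calc ‖y (R.incl c)‖ ^ q * ‖MvPolynomial.eval (zp (R.MK.pz y)) t‖
        ≤ (1 + ‖y (R.incl c)‖) ^ N * H ^ N := by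
          rw [ht, map_pow, norm_pow]
          gcongr
      _ = ((1 + ‖y (R.incl c)‖) * H) ^ N := by rw [mul_pow]
      _ ≤ ((C0 + C1) * Z ^ (k0 + k1)) ^ N := by gcongr
      _ = _ := by rw [mul_pow, ← pow_mul]
  refine ⟨p * t, a + (k0 + k1) * N, mul_ne_zero hp ht0, ?_⟩
  have h0 : ∀ y : R.MK.Pts, ENNReal.ofReal (‖y (R.incl c * b)‖ ^ q *
      wz (p * t) (a + (k0 + k1) * N) (zp (R.MK.pz y))) ≤ ENNReal.ofReal ((C0 + C1) ^ N) *
      (ENNReal.ofReal (‖y b‖ ^ q * wz p a (zp (R.MK.pz y))) +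
        ENNReal.ofReal (‖y b‖ ^ q * wz p a (zp (R.MK.pz y)))) := by
    intro y
    have w1 := wz_nonneg p a (zp (R.MK.pz y))
    rw [← ENNReal.ofReal_add (by positivity) (by positivity), ← ENNReal.ofReal_mul (by positivity)]
    apply ENNReal.ofReal_le_ofReal
    have e1 := wz_absorb p t a ((k0 + k1) * N) (key y)
    rw [map_mul, norm_mul, Real.mul_rpow (norm_nonneg _) (norm_nonneg _)]
    calc ‖y (R.incl c)‖ ^ q * ‖y b‖ ^ q * wz (p * t) (a + (k0 + k1) * N) (zp (R.MK.pz y))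
        = ‖y b‖ ^ q * (‖y (R.incl c)‖ ^ q *
            wz (p * t) (a + (k0 + k1) * N) (zp (R.MK.pz y))) := by ring
      _ ≤ ‖y b‖ ^ q * ((C0 + C1) ^ N * wz p a (zp (R.MK.pz y))) := by gcongr
      _ ≤ _ := by
        have : 0 ≤ (C0 + C1) ^ N * (‖y b‖ ^ q * wz p a (zp (R.MK.pz y))) := by positivity
        nlinarith
  exact lintM_le_add R (measurable_int R _ _ _) (measurable_int R b p a) (measurable_int R b p a)
    ENNReal.ofReal_ne_top h0 hi hi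

variable (R)

/-- the inclusion of polynomials in `z` -/
lemma incl_az (s : MvPolynomial (Fin m) ℂ) :
    ((R.incl (R271.Alg255.az R.ML.z s) : R.MK.B) : K) = algebraMap L K (R.ML.aK s) := by
  rw [RMdl.incl_coe, R.ML.aK_eq]

/-- **the `L`-space `V_q`** -/
def Vq (q : ℝ) (hq : 0 < q) : Submodule L K where
  carrier := {v | ∃ (s : MvPolynomial (Fin m) ℂ) (b : R.MK.B), s ≠ 0 ∧
    (b : K) = algebraMap L K (R.ML.aK s) * v ∧ Wq R q b}
  zero_mem' := ⟨1, 0, one_ne_zero, by simp, Wq.zero hq⟩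
  add_mem' := by
    rintro v1 v2 ⟨s1, b1, hs1, e1, w1⟩ ⟨s2, b2, hs2, e2, w2⟩
    refine ⟨s1 * s2, R.incl (R271.Alg255.az R.ML.z s2) * b1 +
      R.incl (R271.Alg255.az R.ML.z s1) * b2, mul_ne_zero hs1 hs2, ?_,
      Wq.add hq (w1.mul_base hq _) (w2.mul_base hq _)⟩
    rw [AddMemClass.coe_add, MulMemClass.coe_mul, MulMemClass.coe_mul, incl_az, incl_az, e1, e2,
      map_mul, map_mul]
    ring
  smul_mem' := by
    rintro l v ⟨s, b, hs, e, w⟩
    obtain ⟨c, d, hd, hl⟩ := R.ML.frac l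
    obtain ⟨t, ht, d', hd'⟩ := exists_poly_dvd R.ML.het hd
    refine ⟨s * t, R.incl (c * d') * b, mul_ne_zero hs ht, ?_, w.mul_base hq _⟩
    have h1 : (R.ML.aK t : L) = (d : L) * d' := by
      rw [R.ML.aK_eq]
      exact congrArg Subtype.val hd'
    have hd0 : (d : L) ≠ 0 := fun h => hd (Subtype.ext h)
    have h2 : R.ML.aK t * l = (c : L) * d' := by
      rw [h1, hl]; field_simp
    rw [MulMemClass.coe_mul, RMdl.incl_coe, Algebra.smul_def, e, map_mul R.ML.aK,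
      MulMemClass.coe_mul, ← h2, map_mul, map_mul]
    ring

lemma mem_Vq {q : ℝ} {hq : 0 < q} {v : K} : v ∈ Vq R q hq ↔
    ∃ (s : MvPolynomial (Fin m) ℂ) (b : R.MK.B), s ≠ 0 ∧
    (b : K) = algebraMap L K (R.ML.aK s) * v ∧ Wq R q b := Iff.rfl

lemma mem_Vq_of_Wq {q : ℝ} (hq : 0 < q) {b : R.MK.B} (h : Wq R q b) : (b : K) ∈ Vq R q hq :=
  ⟨1, b, one_ne_zero, by simp, h⟩

/-- **finite dimension of `V_q`** -/
theorem finite_Vq (q : ℝ) (hq : 0 < q) : FiniteDimensional L (Vq R q hq) := by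
  obtain ⟨ι, _, e, he⟩ := exists_span R q hq
  have hfin : FiniteDimensional L (Submodule.span L (Set.range e)) :=
    FiniteDimensional.span_of_finite L (Set.finite_range e)
  refine Submodule.finiteDimensional_of_le (S₂ := Submodule.span L (Set.range e)) ?_
  rintro v ⟨s, b, hs, hb, w⟩
  have h1 := he b w
  have h2 : algebraMap L K (R.ML.aK s) ≠ 0 := by
    rw [Ne, map_eq_zero, map_eq_zero_iff _ R.ML.aK_injective]; exact hs
  have h3 : v = (R.ML.aK s)⁻¹ • (b : K) := by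
    rw [Algebra.smul_def, hb, map_inv₀, inv_mul_cancel_left₀ h2]
  rw [h3]
  exact Submodule.smul_mem _ _ h1

/-- **products** -/
theorem mul_mem_Vq {q q1 q2 : ℝ} (hq1 : 0 < q1) (hq2 : 0 < q2) (hq : 0 < q)
    (hqq : 1 / q = 1 / q1 + 1 / q2) {v1 v2 : K} (h1 : v1 ∈ Vq R q1 hq1) (h2 : v2 ∈ Vq R q2 hq2) :
    v1 * v2 ∈ Vq R q hq := by
  obtain ⟨s1, b1, hs1, e1, w1⟩ := h1
  obtain ⟨s2, b2, hs2, e2, w2⟩ := h2
  refine ⟨s1 * s2, b1 * b2, mul_ne_zero hs1 hs2, ?_, Wq.mul hq1 hq2 hq hqq w1 w2⟩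
  rw [MulMemClass.coe_mul, e1, e2, map_mul, map_mul]
  ring

end Crest.Agent.R276.SatA_152
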