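import Crest.Agent.R276.AeAll_210
import Crest.Agent.R276.IpcModel_244

/-!
# Row 276 (S0419), leaf SAT (helper210), part E: fibre integrals depending on parameters

`F : FSp n d X Y`, `A` a parameter space.
* `lsc_fint` : `(x, a) ↦ ∫_{F_x} G(y, a)` is lower semicontinuous for continuous `G ≥ 0`;
* `continuous_fint` : if `0 ≤ G ≤ D` and `(x, a) ↦ ∫_{F_x} D(y, a)` is finite and continuous, then
  `(x, a) ↦ ∫_{F_x} G(y, a)` is finite and continuous.
-/

set_option autoImplicit false

noncomputable section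

open Set Filter Topology MeasureTheory
open Crest.Agent.R271.Ho51 Crest.Agent.R276.Top8_815
open scoped ENNReal

namespace Crest.Agent.R276.SatE_210

/-- sums over the fibres of a local homeomorphism are lower semicontinuous -/
theorem lsc_tsum {Z Y : Type*} [TopologicalSpace Z] [TopologicalSpace Y] [T2Space Y] {π : Y → Z}
    (hπ : IsLocalHomeomorph π) {g : Y → ℝ≥0∞} (hg : Continuous g) :
    LowerSemicontinuous fun z => ∑' y : {y : Y // π y = z}, g y.1 := by
  classical
  intro z₀ c hc
  change c < ∑' y : {y : Y // π y = z₀}, g y.1 at hc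
  change ∀ᶠ z in 𝓝 z₀, c < ∑' y : {y : Y // π y = z}, g y.1
  rw [ENNReal.tsum_eq_iSup_sum, lt_iSup_iff] at hc
  obtain ⟨s, hs⟩ := hc
  choose e he hfe using fun y => hπ y
  have e1 : ∀ y : {y : Y // π y = z₀}, ∀ᶠ z in 𝓝 z₀, π ((e y.1).symm z) = z := by
    intro y
    have h1 : z₀ ∈ (e y.1).target := by
      have := (e y.1).map_source (he y.1)
      rwa [← hfe, y.2] at this
    filter_upwards [(e y.1).open_target.mem_nhds h1] with z hz
    exact (congrFun (hfe y.1) _).trans ((e y.1).right_inv hz)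
  have e0 : ∀ y : {y : Y // π y = z₀}, (e y.1).symm z₀ = y.1 := by
    intro y
    have h1 := (e y.1).left_inv (he y.1)
    rwa [← hfe, y.2] at h1
  have e2 : ∀ y : {y : Y // π y = z₀}, Tendsto (e y.1).symm (𝓝 z₀) (𝓝 y.1) := by
    intro y
    have h1 : z₀ ∈ (e y.1).target := by
      have := (e y.1).map_source (he y.1)
      rwa [← hfe, y.2] at this
    have h2 := (e y.1).symm.continuousAt (x := z₀) h1
    rw [ContinuousAt, e0 y] at h2
    exact h2
  have e3 : ∀ᶠ z in 𝓝 z₀, ∀ y ∈ s, π ((e y.1).symm z) = z :=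
    (Filter.eventually_all_finset s).2 fun y _ => e1 y
  have e4 : ∀ᶠ z in 𝓝 z₀, ∀ y ∈ s, ∀ y' ∈ s, y ≠ y' → (e y.1).symm z ≠ (e y'.1).symm z := by
    refine (Filter.eventually_all_finset s).2 fun y _ =>
      (Filter.eventually_all_finset s).2 fun y' _ => ?_
    by_cases hyy : y = y'
    · exact Filter.Eventually.of_forall fun τ h => absurd hyy h
    · have hne : y.1 ≠ y'.1 := fun h => hyy (Subtype.ext h)
      obtain ⟨U, V, hU, hV, hyU, hyV, hUV⟩ := t2_separation hne
      filter_upwards [(e2 y).eventually (hU.mem_nhds hyU), (e2 y').eventually (hV.mem_nhds hyV)]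
        with τ h1 h2 _ h3
      exact Set.disjoint_left.1 hUV h1 (h3 ▸ h2)
  have e5 : Tendsto (fun z => ∑ y ∈ s, g ((e y.1).symm z)) (𝓝 z₀) (𝓝 (∑ y ∈ s, g y.1)) :=
    tendsto_finsetSum _ fun y _ => hg.continuousAt.tendsto.comp (e2 y)
  filter_upwards [e3, e4, e5.eventually (lt_mem_nhds hs)] with z h3 h4 h5
  refine lt_of_lt_of_le h5 ?_
  let j : {y // y ∈ s} → {y : Y // π y = z} := fun y => ⟨(e y.1.1).symm z, h3 y.1 y.2⟩
  have hj : Function.Injective j := by
    intro y y' h
    by_contra hne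
    have hne' : y.1 ≠ y'.1 := fun h => hne (Subtype.ext h)
    exact h4 y.1 y.2 y'.1 y'.2 hne' (congrArg Subtype.val h)
  have h6 : ∑ y ∈ s, g ((e y.1).symm z) = ∑ w ∈ s.attach.map ⟨j, hj⟩, g w.1 := by
    rw [Finset.sum_map, ← Finset.sum_attach]
    rfl
  rw [h6]
  exact ENNReal.sum_le_tsum _

/-- Fatou: integrals of lower semicontinuous functions are lower semicontinuous in the parameter -/
theorem lsc_lintegral {B : Type*} [TopologicalSpace B] [FirstCountableTopology B] {d : ℕ}
    {S : B × (Fin d → ℂ) → ℝ≥0∞} (hS : LowerSemicontinuous S) :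
    LowerSemicontinuous fun b => ∫⁻ τ, S (b, τ) := by
  have hm : ∀ b, Measurable fun τ : Fin d → ℂ => S (b, τ) := fun b =>
    (LowerSemicontinuous.measurable (fun τ c hc => by
      have h1 := hS (b, τ) c hc
      have h2 : Tendsto (fun τ : Fin d → ℂ => (b, τ)) (𝓝 τ) (𝓝 (b, τ)) :=
        (Continuous.prodMk_right b).continuousAt
      exact h2.eventually h1))
  intro b₀ c hc
  by_contra hcon
  have hcon' : ∃ᶠ b in 𝓝 b₀, ¬ c < ∫⁻ τ, S (b, τ) := Filter.not_eventually.mp hcon
  obtain ⟨b, hb, hbc⟩ := exists_seq_forall_of_frequently hcon'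
  have h1 : ∫⁻ τ, liminf (fun n => S (b n, τ)) atTop ≤ c := by
    refine (lintegral_liminf_le fun n => hm (b n)).trans ?_
    refine Filter.liminf_le_of_frequently_le' (Filter.Frequently.of_forall fun n => ?_)
    exact not_lt.mp (hbc n)
  have h2 : ∫⁻ τ, S (b₀, τ) ≤ ∫⁻ τ, liminf (fun n => S (b n, τ)) atTop := by
    refine lintegral_mono fun τ => ?_
    refine le_of_forall_lt fun c' hc' => ?_
    obtain ⟨c'', h3, h4⟩ := exists_between hc'
    have h5 := hS (b₀, τ) c'' h4
    have h6 : Tendsto (fun n => (b n, τ)) atTop (𝓝 (b₀, τ)) :=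
      hb.prodMk_nhds tendsto_const_nhds
    refine lt_of_lt_of_le h3 ?_
    refine le_liminf_of_le (by isBoundedDefault) ?_
    exact (h6.eventually h5).mono fun n h => le_of_lt h
  exact absurd hc (not_lt.mpr (h2.trans h1))

/-- `f + g` continuous and finite, `f`, `g` lower semicontinuous, then `f` is continuous -/
theorem continuous_of_add {B : Type*} [TopologicalSpace B] {f g G : B → ℝ≥0∞}
    (hf : LowerSemicontinuous f) (hg : LowerSemicontinuous g) (hG : Continuous G)
    (hfin : ∀ b, G b ≠ ∞) (h : ∀ b, f b + g b = G b) : Continuous f := by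
  rw [continuous_iff_lower_upperSemicontinuous]
  refine ⟨hf, fun b c hc => ?_⟩
  have hgt : g b ≠ ∞ := by
    intro h0
    apply hfin b
    rw [← h b, h0, add_top]
  have h1 : G b < c + g b := by
    rw [← h b]
    exact ENNReal.add_lt_add_right hgt hc
  obtain ⟨t, h2, h3⟩ := exists_between h1
  have h4 : LowerSemicontinuous fun b => c + g b := lowerSemicontinuous_const.add hg
  filter_upwards [h4 b t h3, hG.continuousAt.eventually (gt_mem_nhds h2)] with b' h5 h6
  have h7 : f b' + g b' < c + g b' := by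
    rw [h b']
    exact h6.trans h5
  exact lt_of_add_lt_add_right h7

instance instFC {n : ℕ} {X : Type*} [TopologicalSpace X] [RDom n X] : FirstCountableTopology X := by
  refine ⟨fun x => ?_⟩
  have h1 : 𝓝 x = Filter.map (ch x).symm (𝓝 (cp x)) := by
    have h2 := (ch x).symm.map_nhds_eq (x := cp x) (by simpa using (isCh_ch x).cp_mem (mem_ch x))
    rw [h2, (isCh_ch x).symm_cp (mem_ch x)]
  rw [h1]
  infer_instance

section fsp

variable {n d : ℕ} {X Y A : Type*} [TopologicalSpace X] [RDom n X] [TopologicalSpace Y]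
  [T2Space Y] [TopologicalSpace A] [T2Space A] [FirstCountableTopology A] (F : FSp n d X Y)

/-- the fibration with parameters -/
def pA (p : Y × A) : (X × A) × (Fin d → ℂ) := ((F.q p.1, p.2), F.t p.1)

omit [T2Space Y] [T2Space A] [FirstCountableTopology A] in
lemma lh_pA : IsLocalHomeomorph (pA (A := A) F) := by
  let c : (X × (Fin d → ℂ)) × A ≃ₜ (X × A) × (Fin d → ℂ) :=
    (Homeomorph.prodAssoc X (Fin d → ℂ) A).trans
      (((Homeomorph.refl X).prodCongr (Homeomorph.prodComm (Fin d → ℂ) A)).trans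
        (Homeomorph.prodAssoc X A (Fin d → ℂ)).symm)
  exact c.isLocalHomeomorph.comp (IpcModel_244.lh_prod_id (Z := A) F.lh)

/-- fibre sum with parameters -/
def fsA (G : Y × A → ℝ≥0∞) (p : (X × A) × (Fin d → ℂ)) : ℝ≥0∞ :=
  ∑' y : {y : Y // F.q y = p.1.1 ∧ F.t y = p.2}, G (y.1, p.1.2)

omit [FirstCountableTopology A] in
lemma lsc_fsA {G : Y × A → ℝ≥0∞} (hG : Continuous G) : LowerSemicontinuous (fsA F G) := by
  have h1 := lsc_tsum (lh_pA (A := A) F) hG
  have h2 : fsA F G = fun z => ∑' y : {y : Y × A // pA F y = z}, G y.1 := by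
    funext z
    let e : {y : Y × A // pA F y = z} ≃ {y : Y // F.q y = z.1.1 ∧ F.t y = z.2} :=
      { toFun := fun y => ⟨y.1.1, by
          have := y.2
          simp only [pA, Prod.ext_iff] at this
          exact ⟨this.1.1, this.2⟩⟩
        invFun := fun y => ⟨(y.1, z.1.2), by
          simp only [pA, y.2.1, y.2.2]⟩
        left_inv := fun y => by
          have := y.2
          simp only [pA, Prod.ext_iff] at this
          apply Subtype.ext
          exact Prod.ext rfl this.1.2.symm
        right_inv := fun y => rfl }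
    rw [← e.symm.tsum_eq (fun y : {y : Y × A // pA F y = z} => G y.1)]
    rfl
  rw [h2]
  exact h1

omit [T2Space Y] [TopologicalSpace A] [T2Space A] [FirstCountableTopology A] in
lemma fint_eq_fsA (G : Y × A → ℝ≥0∞) (p : X × A) :
    F.fint p.1 (fun y => G (y, p.2)) = ∫⁻ τ, fsA F G (p, τ) := rfl

/-- fibre integrals are lower semicontinuous -/
theorem lsc_fint {G : Y × A → ℝ≥0∞} (hG : Continuous G) :
    LowerSemicontinuous fun p : X × A => F.fint p.1 (fun y => G (y, p.2)) :=
  lsc_lintegral (lsc_fsA F hG)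

/-- **dominated convergence** for fibre integrals -/
theorem continuous_fint {G D : Y × A → ℝ} (hG : Continuous G) (hD : Continuous D)
    (h0 : ∀ p, 0 ≤ G p) (hGD : ∀ p, G p ≤ D p)
    (hfin : ∀ p : X × A, F.fint p.1 (fun y => ENNReal.ofReal (D (y, p.2))) ≠ ∞)
    (hcont : Continuous fun p : X × A => F.fint p.1 (fun y => ENNReal.ofReal (D (y, p.2)))) :
    (∀ p : X × A, F.fint p.1 (fun y => ENNReal.ofReal (G (y, p.2))) ≠ ∞) ∧
      Continuous fun p : X × A => F.fint p.1 (fun y => ENNReal.ofReal (G (y, p.2))) := by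
  have hG' : Continuous fun p : Y × A => ENNReal.ofReal (G p) := ENNReal.continuous_ofReal.comp hG
  have hE' : Continuous fun p : Y × A => ENNReal.ofReal (D p - G p) :=
    ENNReal.continuous_ofReal.comp (hD.sub hG)
  have hadd : ∀ p : X × A, F.fint p.1 (fun y => ENNReal.ofReal (G (y, p.2))) +
      F.fint p.1 (fun y => ENNReal.ofReal (D (y, p.2) - G (y, p.2))) =
      F.fint p.1 (fun y => ENNReal.ofReal (D (y, p.2))) := by
    intro p
    have hm : Measurable fun τ => fsA F (fun p => ENNReal.ofReal (G p)) (p, τ) :=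
      (LowerSemicontinuous.measurable (fun τ c hc => by
        have h1 := lsc_fsA F hG' (p, τ) c hc
        have h2 : Tendsto (fun τ : Fin d → ℂ => (p, τ)) (𝓝 τ) (𝓝 (p, τ)) :=
          (Continuous.prodMk_right p).continuousAt
        exact h2.eventually h1))
    rw [fint_eq_fsA F (fun p => ENNReal.ofReal (G p)) p,
      fint_eq_fsA F (fun p => ENNReal.ofReal (D p - G p)) p,
      fint_eq_fsA F (fun p => ENNReal.ofReal (D p)) p, ← lintegral_add_left hm]
    refine lintegral_congr fun τ => ?_
    unfold fsA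
    rw [← ENNReal.tsum_add]
    refine tsum_congr fun y => ?_
    rw [← ENNReal.ofReal_add (h0 _) (sub_nonneg.2 (hGD _))]
    congr 1
    ring
  refine ⟨fun p h => hfin p ?_, ?_⟩
  · rw [← hadd p, h, _root_.top_add]
  · exact continuous_of_add (lsc_fint F hG') (lsc_fint F hE') hcont hfin hadd

end fsp

end Crest.Agent.R276.SatE_210
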