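import Crest.Agent.R276.SatE_210
import Crest.Agent.R276.SatC_210
import Crest.Agent.R276.GeoY_519
import Crest.Agent.R276.IpcRMdl_244
import Crest.Agent.R276.Fri2_348

/-!
# Row 276 (S0419), leaf SAT (helper210), part F: root covers of relative models

`R : RMdl L K m r`, `δ ∈ B_K` without zeros on `M_K`, `N ≠ 0`.
* `FR` : the root cover `η^N = δ` as a space fibred over `M_L`;
* `fv v = v / η^(N-1)`, `pb_fv`, `fnorm_fv` : `‖v/η^(N-1)‖² = N ∫_{fibre} |v|² |δ|^(-2(N-1)/N)`;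
* `fin_cont_w` : if a variation is realised on the root cover and the integral is finite for a dense set of
  base points, then it is finite and continuous everywhere;
* `fin_cont_phi` : then `Φ(w, a) = ∫_{fibre} |∑ aᵢ uᵢ|^(2/N)` is finite and continuous on `M_L × ℂ^s`.
-/

set_option autoImplicit false
set_option linter.unusedSectionVars false

noncomputable section

open Set Filter Topology MeasureTheory
open Crest.Agent.R271.Ho51 Crest.Agent.R276.Ipc735 Crest.Agent.R276.Top8_815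
open Crest.Agent.R276.Mod1_987 Crest.Agent.R271.Rd692 Crest.Agent.R276.IpcRMdl_244
open Crest.Agent.R276.Rc_348 Crest.Agent.R276.GeoY_519
open scoped ENNReal

namespace Crest.Agent.R276.SatF_210

variable {L K : Type} [Field L] [Field K] [Algebra ℂ L] [Algebra ℂ K] [Algebra L K]
  [IsScalarTower ℂ L K] {m r : ℕ} {R : RMdl L K m r}

/-- elements of `B_K` are analytic in the coordinates -/
lemma pb_ev (b : R.MK.B) (y : R.MK.Pts) : PB (fF R).pc (fun y' => y' b) y := by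
  obtain ⟨G, hG1, hG2⟩ := Fri2_348.analytic_local R.MK b y
  have happ : ∀ y' : R.MK.Pts, R.MK.pz y' =
      Fin.append ((fF R).pc y').1 ((fF R).pc y').2 := by
    intro y'
    exact (R.append_eq y').symm
  refine ⟨fun z => G (Fin.append z.1 z.2), ?_, ?_⟩
  · have h1 : AnalyticAt ℂ (fun z : (Fin m → ℂ) × (Fin r → ℂ) =>
        (Fin.append z.1 z.2 : Fin (m + r) → ℂ)) ((fF R).pc y) := by
      rw [analyticAt_pi_iff]
      intro i
      refine Fin.addCases (fun i => ?_) (fun j => ?_) i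
      · simp only [Fin.append_left]
        exact ((ContinuousLinearMap.proj (R := ℂ) (φ := fun _ : Fin m => ℂ) i).comp
          (ContinuousLinearMap.fst ℂ (Fin m → ℂ) (Fin r → ℂ))).analyticAt _
      · simp only [Fin.append_right]
        exact ((ContinuousLinearMap.proj (R := ℂ) (φ := fun _ : Fin r => ℂ) j).comp
          (ContinuousLinearMap.snd ℂ (Fin m → ℂ) (Fin r → ℂ))).analyticAt _
    rw [happ] at hG1
    exact AnalyticAt.comp (g := G) (f := fun z : (Fin m → ℂ) × (Fin r → ℂ) =>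
        (Fin.append z.1 z.2 : Fin (m + r) → ℂ)) hG1 h1
  · filter_upwards [hG2] with y' hy'
    rw [hy', happ]

section root

variable {δ : R.MK.B} {N : ℕ}

/-- evaluation -/
abbrev dl (δ : R.MK.B) : R.MK.Pts → ℂ := fun y => y δ

/-- the root cover `η^N = δ` -/
abbrev YR (δ : R.MK.B) (N : ℕ) : Type := RC (dl δ) N

/-- the root cover, fibred over `M_L` -/
def FR (hδ : ∀ y : R.MK.Pts, y δ ≠ 0) (hN : N ≠ 0) : FSp m r R.ML.Pts (YR δ N) :=
  RF (fF R) hN (continuous_ev δ) hδ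

/-- `v / η^(N-1)` -/
def fv (v : R.MK.B) (q : YR δ N) : ℂ := q.pr v * (q.rt ^ (N - 1))⁻¹

lemma pb_fv (hδ : ∀ y : R.MK.Pts, y δ ≠ 0) (hN : N ≠ 0) (v : R.MK.B) (q : YR δ N) :
    PB (FR hδ hN).pc (fv v) q := by
  obtain ⟨G, hG1, hG2⟩ := pb_ev v q.pr
  obtain ⟨A, hA1, hA2⟩ := pb_ev δ q.pr
  have hpc : ∀ q' : YR δ N, (FR hδ hN).pc q' = (fF R).pc q'.pr := fun q' => rfl
  have hc : Tendsto (fun q' : YR δ N => q'.pr) (𝓝 q) (𝓝 q.pr) :=
    RC.continuous_pr.tendsto q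
  have h1 := hc.eventually hG2
  have h2 := hc.eventually hA2
  have h3 := RC.eventually_eq hN (continuous_ev δ) q (hδ q.pr)
  have hA3 : A ((fF R).pc q.pr) = dl δ q.pr := (hA2.self_of_nhds).symm
  have hL : AnalyticAt ℂ (fun z => lroot N q.rt (dl δ q.pr) (A z)) ((FR hδ hN).pc q) := by
    have h4 : AnalyticAt ℂ (lroot N q.rt (dl δ q.pr)) (A ((fF R).pc q.pr)) := by
      refine lroot_analyticAt (hδ _) ?_
      rw [hA3, div_self (hδ _)]
      exact Complex.one_mem_slitPlane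
    exact AnalyticAt.comp (g := lroot N q.rt (dl δ q.pr)) (f := A) h4 hA1
  refine ⟨fun z => G z * (lroot N q.rt (dl δ q.pr) (A z) ^ (N - 1))⁻¹, ?_, ?_⟩
  · refine AnalyticAt.mul hG1 (AnalyticAt.inv (hL.pow _) ?_)
    rw [hpc, hA3, lroot_self (hδ _)]
    exact pow_ne_zero _ (q.rt_ne hN (hδ _))
  · filter_upwards [h1, h2, h3] with q' h1 h2 h3
    rw [hpc, ← h2, fv, h1, h3]

/-- the integrand on the base -/
def wt (N : ℕ) (δ v : R.MK.B) (y : R.MK.Pts) : ℝ :=
  ‖y v‖ ^ 2 * ‖y δ‖ ^ (-(2 * (((N : ℝ) - 1) / N)))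

lemma wt_nonneg (N : ℕ) (δ v : R.MK.B) (y : R.MK.Pts) : 0 ≤ wt N δ v y := by
  unfold wt
  positivity

lemma continuous_wt (hδ : ∀ y : R.MK.Pts, y δ ≠ 0) (v : R.MK.B) : Continuous (wt N δ v) := by
  unfold wt
  refine ((continuous_ev v).norm.pow 2).mul ?_
  exact (continuous_ev δ).norm.rpow_const fun y => Or.inl (norm_ne_zero_iff.2 (hδ y))

lemma norm_fv (hN : N ≠ 0) (v : R.MK.B) (q : YR δ N) : ‖fv v q‖ ^ 2 = wt N δ v q.pr := by
  have h1 : ‖q.pr δ‖ = ‖q.rt‖ ^ N := by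
    rw [← norm_pow, q.rt_pow]
  have hN' : (N : ℝ) ≠ 0 := by exact_mod_cast hN
  unfold fv wt
  rw [norm_mul, norm_inv, norm_pow, mul_pow, h1, ← Real.rpow_natCast ‖q.rt‖ N,
    ← Real.rpow_mul (norm_nonneg _)]
  congr 1
  rw [inv_pow, ← pow_mul, ← Real.rpow_natCast, ← Real.rpow_neg (norm_nonneg _)]
  congr 1
  have h2 : ((N - 1 : ℕ) : ℝ) = (N : ℝ) - 1 := by
    rw [Nat.cast_sub (Nat.one_le_iff_ne_zero.2 hN), Nat.cast_one]
  push_cast
  rw [h2]
  field_simp

/-- the norm of `v / η^(N-1)` -/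
theorem fnorm_fv (hδ : ∀ y : R.MK.Pts, y δ ≠ 0) (hN : N ≠ 0) (v : R.MK.B) (w : R.ML.Pts) :
    (FR hδ hN).fnorm w (fv v) = N * (fF R).fint w (fun y => ENNReal.ofReal (wt N δ v y)) := by
  classical
  unfold FSp.fnorm FSp.fint
  have h1 : ∀ τ : Fin r → ℂ, (∑' y : {y : YR δ N // (FR hδ hN).q y = w ∧ (FR hδ hN).t y = τ},
      ‖fv v y.1‖ₑ ^ 2) =
      N * ∑' y : {y : R.MK.Pts // (fF R).q y = w ∧ (fF R).t y = τ},
        ENNReal.ofReal (wt N δ v y.1) := by
    intro τ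
    let e : {y : YR δ N // (FR hδ hN).q y = w ∧ (FR hδ hN).t y = τ} ≃
        Σ y : {y : R.MK.Pts // (fF R).q y = w ∧ (fF R).t y = τ}, {η : ℂ // η ^ N = y.1 δ} :=
      { toFun := fun q => ⟨⟨q.1.pr, q.2⟩, ⟨q.1.rt, q.1.rt_pow⟩⟩
        invFun := fun p => ⟨RC.mk p.1.1 p.2.1 p.2.2, p.1.2⟩
        left_inv := fun q => rfl
        right_inv := fun p => rfl }
    have h2 : ∀ q : {y : YR δ N // (FR hδ hN).q y = w ∧ (FR hδ hN).t y = τ},
        ‖fv v q.1‖ₑ ^ 2 = ENNReal.ofReal (wt N δ v (e q).1.1) := by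
      intro q
      change _ = ENNReal.ofReal (wt N δ v q.1.pr)
      rw [← norm_fv hN v q.1, ← ofReal_norm, ENNReal.ofReal_pow (norm_nonneg _)]
    rw [tsum_congr h2, e.tsum_eq (fun p : Σ y : {y : R.MK.Pts // (fF R).q y = w ∧
      (fF R).t y = τ}, {η : ℂ // η ^ N = y.1 δ} => ENNReal.ofReal (wt N δ v p.1.1)),
      ENNReal.tsum_sigma', ← ENNReal.tsum_mul_left]
    refine tsum_congr fun y => ?_
    have hcard := card_roots hN (hδ y.1)
    have hfin : Finite {η : ℂ // η ^ N = y.1 δ} := by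
      apply Nat.finite_of_card_ne_zero
      rw [hcard]; exact hN
    have := Fintype.ofFinite {η : ℂ // η ^ N = y.1 δ}
    change ∑' _ : {η : ℂ // η ^ N = y.1 δ}, ENNReal.ofReal (wt N δ v y.1) = _
    rw [tsum_fintype, Finset.sum_const, Finset.card_univ, ← Nat.card_eq_fintype_card, hcard,
      nsmul_eq_mul]
  simp_rw [h1]
  exact lintegral_const_mul' _ _ (ENNReal.natCast_ne_top N)

/-- **finiteness and continuity from the realisation** -/
theorem fin_cont_w (hδ : ∀ y : R.MK.Pts, y δ ≠ 0) (hN : N ≠ 0) {N' w' : ℕ}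
    {W : VHS m R.ML.Pts N' w'} {ι : R.ML.Pts → (Fin N' → ℂ) → YR δ N → ℂ}
    (hR : Rz W (FR hδ hN) ι) (v : R.MK.B) {D : Set R.ML.Pts} (hD : Dense D)
    (hfin : ∀ w ∈ D, (fF R).fint w (fun y => ENNReal.ofReal (wt N δ v y)) ≠ ∞) :
    (∀ w, (fF R).fint w (fun y => ENNReal.ofReal (wt N δ v y)) ≠ ∞) ∧
      Continuous fun w => (fF R).fint w (fun y => ENNReal.ofReal (wt N δ v y)) := by
  have hN0 : (N : ℝ≥0∞) ≠ 0 := by exact_mod_cast hN
  obtain ⟨h1, h2⟩ := AeAll_210.ae_all hR (f := fv v) (pb_fv hδ hN v) hD (fun w hw => by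
    rw [fnorm_fv]
    exact ENNReal.mul_lt_top (ENNReal.natCast_lt_top N) (lt_top_iff_ne_top.2 (hfin w hw)))
  simp only [fnorm_fv] at h1 h2
  refine ⟨fun w hw => ?_, ?_⟩
  · have h3 := h1 w
    rw [hw, ENNReal.mul_top hN0] at h3
    exact lt_irrefl _ h3
  · have h3 : (fun w => (fF R).fint w (fun y => ENNReal.ofReal (wt N δ v y))) =
        fun w => (N : ℝ≥0∞)⁻¹ * (N * (fF R).fint w (fun y => ENNReal.ofReal (wt N δ v y))) := by
      funext w
      rw [← mul_assoc, ENNReal.inv_mul_cancel hN0 (ENNReal.natCast_ne_top N), one_mul]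
    rw [h3]
    exact (ENNReal.continuous_const_mul (ENNReal.inv_ne_top.2 hN0)).comp h2

end root

/-! ### domination -/

section dom

variable {s : ℕ} (u : Fin s → R.MK.B) {N : ℕ}

/-- `∑ |c_i|²` -/
def sqn {s : ℕ} (c : Fin s → ℂ) : ℝ := ∑ i, ‖c i‖ ^ 2

lemma sqn_nonneg {s : ℕ} (c : Fin s → ℂ) : 0 ≤ sqn c := Finset.sum_nonneg fun i _ => by positivity

lemma continuous_sqn {s : ℕ} : Continuous (sqn (s := s)) :=
  continuous_finsetSum _ fun i _ => (continuous_apply i).norm.pow 2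

/-- the combination -/
def cmb (c : Fin s → ℂ) (y : R.MK.Pts) : ℂ := ∑ i, c i * y (u i)

lemma cmb_sq_le (c : Fin s → ℂ) (y : R.MK.Pts) :
    ‖cmb u c y‖ ^ 2 ≤ sqn c * ∑ i, ‖y (u i)‖ ^ 2 := by
  have h1 : ‖cmb u c y‖ ≤ ∑ i, ‖c i‖ * ‖y (u i)‖ := by
    refine (norm_sum_le _ _).trans (le_of_eq ?_)
    exact Finset.sum_congr rfl fun i _ => norm_mul _ _
  calc ‖cmb u c y‖ ^ 2 ≤ (∑ i, ‖c i‖ * ‖y (u i)‖) ^ 2 := by gcongr
    _ ≤ _ := Finset.sum_mul_sq_le_sq_mul_sq _ _ _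

lemma continuous_cmb : Continuous fun p : R.MK.Pts × (Fin s → ℂ) => cmb u p.2 p.1 := by
  unfold cmb
  refine continuous_finsetSum _ fun i _ => ?_
  exact ((continuous_apply i).comp continuous_snd).mul ((continuous_ev (u i)).comp continuous_fst)

/-- pointwise domination -/
lemma pt_le {N : ℕ} (hN : N ≠ 0) {x d : ℝ} (hx : 0 ≤ x) (hd : 0 < d) :
    x ^ (2 / (N : ℝ)) ≤ (x ^ 2 + d ^ 2) * d ^ (-(2 * (((N : ℝ) - 1) / N))) := by
  have hN' : (N : ℝ) ≠ 0 := by exact_mod_cast hN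
  have hN1 : (1 : ℝ) ≤ N := by exact_mod_cast Nat.one_le_iff_ne_zero.2 hN
  have hα : 0 ≤ 2 * (((N : ℝ) - 1) / N) := by
    have : 0 ≤ ((N : ℝ) - 1) / N := div_nonneg (by linarith) (by linarith)
    linarith
  have hdp : 0 < d ^ (-(2 * (((N : ℝ) - 1) / N))) := Real.rpow_pos_of_pos hd _
  have key : ∀ t : ℝ, 0 < t → t ^ (2 / (N : ℝ)) = t ^ 2 * t ^ (-(2 * (((N : ℝ) - 1) / N))) := by
    intro t ht
    rw [← Real.rpow_natCast t 2, ← Real.rpow_add ht]
    congr 1
    push_cast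
    field_simp
    ring
  rcases le_total x d with h | h
  · calc x ^ (2 / (N : ℝ)) ≤ d ^ (2 / (N : ℝ)) := Real.rpow_le_rpow hx h (by positivity)
      _ = d ^ 2 * d ^ (-(2 * (((N : ℝ) - 1) / N))) := key d hd
      _ ≤ _ := by
        refine mul_le_mul_of_nonneg_right ?_ hdp.le
        nlinarith [sq_nonneg x]
  · have hx' : 0 < x := hd.trans_le h
    calc x ^ (2 / (N : ℝ)) = x ^ 2 * x ^ (-(2 * (((N : ℝ) - 1) / N))) := key x hx'
      _ ≤ x ^ 2 * d ^ (-(2 * (((N : ℝ) - 1) / N))) := by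
        refine mul_le_mul_of_nonneg_left ?_ (by positivity)
        exact Real.rpow_le_rpow_of_nonpos hd h (by linarith)
      _ ≤ _ := by
        refine mul_le_mul_of_nonneg_right ?_ hdp.le
        nlinarith [sq_nonneg d]

/-- **finiteness and continuity of `Φ`** -/
theorem fin_cont_phi {δ : R.MK.B} (hδ : ∀ y : R.MK.Pts, y δ ≠ 0) (hN : N ≠ 0) (c : Fin s → ℂ)
    (hc : ∀ y : R.MK.Pts, y δ = cmb u c y)
    (hfin : ∀ k w, (fF R).fint w (fun y => ENNReal.ofReal (wt N δ (u k) y)) ≠ ∞)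
    (hcont : ∀ k, Continuous fun w => (fF R).fint w (fun y => ENNReal.ofReal (wt N δ (u k) y))) :
    (∀ w (a : Fin s → ℂ), (fF R).fint w
      (fun y => ENNReal.ofReal (‖cmb u a y‖ ^ (2 / (N : ℝ)))) ≠ ∞) ∧
    Continuous fun p : R.ML.Pts × (Fin s → ℂ) => (fF R).fint p.1
      (fun y => ENNReal.ofReal (‖cmb u p.2 y‖ ^ (2 / (N : ℝ)))) := by
  have hNr : 0 < 2 / (N : ℝ) := by
    have : (0 : ℝ) < N := by exact_mod_cast Nat.pos_of_ne_zero hN
    positivity
  let G : R.MK.Pts × (Fin s → ℂ) → ℝ := fun p => ‖cmb u p.2 p.1‖ ^ (2 / (N : ℝ))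
  let D : R.MK.Pts × (Fin s → ℂ) → ℝ := fun p => (sqn p.2 + sqn c) * ∑ k, wt N δ (u k) p.1
  have hG : Continuous G := (continuous_cmb u).norm.rpow_const fun _ => Or.inr hNr.le
  have hD : Continuous D := by
    refine ((continuous_sqn.comp continuous_snd).add continuous_const).mul ?_
    exact continuous_finsetSum _ fun k _ => (continuous_wt hδ (u k)).comp continuous_fst
  have hGD : ∀ p, G p ≤ D p := by
    rintro ⟨y, a⟩
    have h1 := pt_le hN (norm_nonneg (cmb u a y)) (norm_pos_iff.2 (hδ y))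
    refine h1.trans ?_
    have h2 : (∑ k, wt N δ (u k) y) =
        (∑ k, ‖y (u k)‖ ^ 2) * ‖y δ‖ ^ (-(2 * (((N : ℝ) - 1) / N))) := by
      rw [Finset.sum_mul]
      rfl
    change _ ≤ (sqn a + sqn c) * ∑ k, wt N δ (u k) y
    rw [h2, ← mul_assoc]
    refine mul_le_mul_of_nonneg_right ?_ (by positivity)
    rw [add_mul]
    refine add_le_add (cmb_sq_le u a y) ?_
    rw [hc y]
    exact cmb_sq_le u c y
  -- the integral of the bound
  have hsum : ∀ w, (fF R).fint w (fun y => ∑ k, ENNReal.ofReal (wt N δ (u k) y)) =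
      ∑ k, (fF R).fint w (fun y => ENNReal.ofReal (wt N δ (u k) y)) := by
    intro w
    obtain ⟨μ, hμ⟩ := exists_leb (M := R.Fib w)
    have hm : ∀ k, Measurable fun y : R.MK.Pts => ENNReal.ofReal (wt N δ (u k) y) := fun k =>
      (ENNReal.continuous_ofReal.comp (continuous_wt hδ (u k))).measurable
    change R.fint w (fun y => ∑ k, ENNReal.ofReal (wt N δ (u k) y)) =
      ∑ k, R.fint w (fun y => ENNReal.ofReal (wt N δ (u k) y))
    have hm' : ∀ k ∈ (Finset.univ : Finset (Fin s)), Measurable fun y : R.Fib w =>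
        ENNReal.ofReal (wt N δ (u k) (RMdl.Fib.val R y)) := fun k _ =>
      (hm k).comp (RMdl.Fib.continuous_val w).measurable
    rw [R.fint_eq hμ (Finset.measurable_fun_sum _ fun k _ => hm k),
      lintegral_finsetSum _ hm']
    exact Finset.sum_congr rfl fun k _ => (R.fint_eq hμ (hm k)).symm
  have hDi : ∀ p : R.ML.Pts × (Fin s → ℂ), (fF R).fint p.1 (fun y => ENNReal.ofReal (D (y, p.2))) =
      ENNReal.ofReal (sqn p.2 + sqn c) *
        ∑ k, (fF R).fint p.1 (fun y => ENNReal.ofReal (wt N δ (u k) y)) := by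
    intro p
    rw [← hsum]
    have h1 : (fun y => ENNReal.ofReal (D (y, p.2))) = fun y : R.MK.Pts =>
        ENNReal.ofReal (sqn p.2 + sqn c) * ∑ k, ENNReal.ofReal (wt N δ (u k) y) := by
      funext y
      rw [← ENNReal.ofReal_sum_of_nonneg fun k _ => wt_nonneg N δ (u k) y,
        ← ENNReal.ofReal_mul (add_nonneg (sqn_nonneg _) (sqn_nonneg _))]
    rw [h1]
    unfold FSp.fint
    rw [← lintegral_const_mul' _ _ ENNReal.ofReal_ne_top]
    refine lintegral_congr fun τ => ?_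
    rw [ENNReal.tsum_mul_left]
  have hS : Continuous fun w => ∑ k, (fF R).fint w (fun y => ENNReal.ofReal (wt N δ (u k) y)) :=
    continuous_finsetSum _ fun k _ => hcont k
  have hSf : ∀ w, (∑ k, (fF R).fint w (fun y => ENNReal.ofReal (wt N δ (u k) y))) ≠ ∞ := fun w =>
    ENNReal.sum_ne_top.2 fun k _ => hfin k w
  have key := SatE_210.continuous_fint (fF R) hG hD (fun p => by positivity) hGD (fun p => ?_) ?_
  · exact ⟨fun w a => key.1 (w, a), key.2⟩
  · rw [hDi]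
    exact ENNReal.mul_ne_top ENNReal.ofReal_ne_top (hSf _)
  · simp_rw [hDi]
    refine continuous_iff_continuousAt.2 fun p => ?_
    refine ENNReal.Tendsto.mul ?_ (Or.inr (hSf p.1)) ?_ (Or.inr ENNReal.ofReal_ne_top)
    · exact (ENNReal.continuous_ofReal.comp
        ((continuous_sqn.comp continuous_snd).add continuous_const)).continuousAt
    · exact (hS.comp continuous_fst).continuousAt

end dom

end Crest.Agent.R276.SatF_210
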