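import Crest.Agent.R276.SatG_152
import Crest.Agent.R276.PFin_337

/-!
# Row 276 (S0419), SAT (helper152), part H: regularity at the horizontal divisors, end

* `regAt_of_inE` : `u_i` regular relative `N`-forms at `R₀` (`IsDiv L r R₀`), `b ∈ B_K` with
  `InE R (‖b‖² · kw N u)`, then `b` is a regular relative `N`-form at `R₀`;
* `pluri_of_inE` : the same with `Pluri`;
* `sat_B` : **saturation of the whole fibration**: `u_i` span `{v | Pluri L bK N v}` over `L`,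
  `G` holomorphic with `InE R (‖G‖² · kw N u)`; then `d G = ∑ a_i u_i`, `d ≠ 0`, `a_i ∈ B_L`.
-/

set_option autoImplicit false

noncomputable section

open Set Filter Topology Metric MeasureTheory
open scoped ENNReal

namespace Crest.Agent.R276.SatG_152

open Crest.Agent.R271 Crest.Agent.R271.Defs710 Crest.Agent.R271.Alg255
open Crest.Agent.R276.Mod1_987 Crest.Agent.R276.FKDefs_779 Crest.Agent.R276.BC_986 Crest.Agent.R276.AB2_590
open Crest.Agent.R276.DivVal_858 Crest.Agent.R276.SatB_210 Crest.Agent.R276.SatC_210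

section chart

variable {n : ℕ} {K : Type} [Field K] [Algebra ℂ K] {D : DivModel n K}
  {B : Type} [CommRing B] [Algebra ℂ B] [Algebra B K]

/-- bound of a regular form on the half polydisc, in the coordinates of the chart -/
lemma bound_form (X : BChart D B) (z : Fin n → B) (b : Fin n → Ω[K⁄ℂ])
    (hb : ∀ j, b j = KaehlerDifferential.D ℂ K (algebraMap B K (z j))) {c : ℤ} {GJ : Cn n → ℂ}
    (hJ : Good D X (D.dw.toMatrix b).det c GJ) (u : B) {a : ℤ} {G : Cn n → ℂ}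
    (hu : Good D X (algebraMap B K u) a G) (N : ℕ) (h0 : 0 ≤ a + N * c) :
    ∃ C : ℝ, 0 ≤ C ∧ ∀ ζ ∈ ball (0 : Cn n) (X.r / 2), ζ D.i₀ ≠ 0 → ‖ζ‖ ≤ 1 →
      ‖X.s ζ u‖ * ‖(fderiv ℂ (X.ψ z) ζ).det‖ ^ N ≤ C := by
  obtain ⟨C, hC, hC'⟩ := hu.exists_upper
  obtain ⟨CJ, hCJ, hCJ'⟩ := hJ.exists_upper
  refine ⟨C * CJ ^ N, by positivity, fun ζ hζ hζ0 hζ1 => ?_⟩
  have hr := X.r_pos
  have hV : ζ ∈ X.V := ⟨ball_subset_ball (by linarith) hζ, hζ0⟩
  rw [hu.eq₁ hV u rfl, X.det_eq z b hb hJ hV, norm_mul, norm_mul, norm_zpow, norm_zpow]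
  have ht : 0 < ‖ζ D.i₀‖ := norm_pos_iff.2 hζ0
  have ht1 : ‖ζ D.i₀‖ ≤ 1 := (norm_le_pi_norm ζ _).trans hζ1
  have e1 : ‖ζ D.i₀‖ ^ a * ‖G ζ‖ * (‖ζ D.i₀‖ ^ c * ‖GJ ζ‖) ^ N =
      ‖ζ D.i₀‖ ^ (a + N * c) * (‖G ζ‖ * ‖GJ ζ‖ ^ N) := by
    rw [mul_pow, ← zpow_natCast (‖ζ D.i₀‖ ^ c), ← zpow_mul, zpow_add₀ ht.ne', mul_comm c]
    ring
  rw [e1]
  have e2 : ‖ζ D.i₀‖ ^ (a + N * c) ≤ 1 := by
    obtain ⟨k, hk⟩ := Int.eq_ofNat_of_zero_le h0
    rw [hk, zpow_natCast]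
    exact pow_le_one₀ ht.le ht1
  calc ‖ζ D.i₀‖ ^ (a + N * c) * (‖G ζ‖ * ‖GJ ζ‖ ^ N)
      ≤ 1 * (‖G ζ‖ * ‖GJ ζ‖ ^ N) := mul_le_mul_of_nonneg_right e2 (by positivity)
    _ = ‖G ζ‖ * ‖GJ ζ‖ ^ N := one_mul _
    _ ≤ C * CJ ^ N := mul_le_mul (hC' ζ hζ) (pow_le_pow_left₀ (norm_nonneg _) (hCJ' ζ hζ) N)
        (by positivity) hC.le

end chart

variable {L K : Type} [Field L] [Field K] [Algebra ℂ L] [Algebra ℂ K] [Algebra L K]
  [IsScalarTower ℂ L K] {m r : ℕ} {R : RMdl L K m r} {s : ℕ}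

/-- lower bound of the weight `kw` from an upper bound of `kk` in a frame -/
lemma kw_lower {N : ℕ} (hN : 0 < N) (u : Fin s → R.MK.B) (y : R.MK.Pts) {J S : ℝ} (hJ : 0 < J)
    (hS : 0 < S) (h : kk u y * (J ^ N) ^ 2 ≤ S) :
    ENNReal.ofReal (S ^ (-((N - 1 : ℝ) / N)) * (J ^ ((N : ℤ) - 1)) ^ 2) ≤ kw N u y := by
  have hN1 : (1 : ℝ) ≤ N := by exact_mod_cast hN
  have hN0 : (0 : ℝ) < N := by linarith
  have ha : 0 ≤ (N - 1 : ℝ) / N := div_nonneg (by linarith) hN0.le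
  have hJN : 0 < (J ^ N) ^ 2 := by positivity
  have hT : 0 < S / (J ^ N) ^ 2 := by positivity
  have h1 : kk u y ≤ S / (J ^ N) ^ 2 := by rwa [le_div_iff₀ hJN]
  have h2 : ENNReal.ofReal ((S / (J ^ N) ^ 2) ^ (-((N - 1 : ℝ) / N))) ≤ kw N u y := by
    rw [← ENNReal.ofReal_rpow_of_pos hT]
    unfold kw
    rw [ENNReal.rpow_neg, ENNReal.rpow_neg]
    apply ENNReal.inv_le_inv.2
    exact ENNReal.rpow_le_rpow (ENNReal.ofReal_le_ofReal h1) ha
  refine le_trans (le_of_eq ?_) h2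
  congr 1
  rw [Real.div_rpow hS.le hJN.le, div_eq_mul_inv]
  congr 1
  rw [Real.rpow_neg hJN.le, inv_inv]
  have e1 : (J ^ N) ^ 2 = J ^ (2 * N : ℝ) := by
    rw [← pow_mul, ← Real.rpow_natCast]
    congr 1
    push_cast
    ring
  have e2 : (J ^ ((N : ℤ) - 1)) ^ 2 = J ^ (2 * (N - 1) : ℝ) := by
    rw [← zpow_natCast, ← zpow_mul, ← Real.rpow_intCast]
    congr 1
    push_cast
    ring
  rw [e1, e2, ← Real.rpow_mul hJ.le]
  congr 1
  field_simp

/-- lower bound of the weights of the base near a general point of a horizontal divisor -/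
lemma wL_lower {R₀ : ValuationSubring K} {D : DivModel (m + r) K} (hD : D.ModelOf R₀)
    (hL : ∀ c : L, algebraMap L K c ∈ R₀) (X : BChart D R.MK.B) (p : MvPolynomial (Fin m) ℂ)
    (a : ℕ) {kp : ℤ} {Gp : Cn (m + r) → ℂ}
    (hp : Good D X (algebraMap L K (R.ML.aK p)) kp Gp)
    (hz : ∀ i, ∃ (k : ℤ) (G : Cn (m + r) → ℂ), Good D X (algebraMap L K (R.ML.zK i)) k G) :
    ∃ c : ℝ, 0 < c ∧ ∀ ζ ∈ ball (0 : Cn (m + r)) (X.r / 2), ζ D.i₀ ≠ 0 →
      c ≤ wL R p a (R.q (X.s ζ)) := by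
  obtain rfl : kp = 0 := ord_zero hD hL hp.hasOrd
  obtain ⟨cp, hcp, hcp'⟩ := hp.exists_lower
  choose k G hG using hz
  have hk : ∀ i, k i = 0 := fun i => ord_zero hD hL (hG i).hasOrd
  choose Cz hCz hCz' using fun i => (hG i).exists_upper
  set Z : ℝ := 1 + ∑ i, Cz i with hZ
  have hsum0 : 0 ≤ ∑ i, Cz i := Finset.sum_nonneg fun i _ => (hCz i).le
  have hZ0 : 0 < Z := by rw [hZ]; linarith
  refine ⟨cp / Z ^ a, by positivity, fun ζ hζ hζ0 => ?_⟩
  have hr := X.r_pos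
  have hV : ζ ∈ X.V := ⟨ball_subset_ball (by linarith) hζ, hζ0⟩
  have e1 : MvPolynomial.eval (R.ML.pz (R.q (X.s ζ))) p = Gp ζ := by
    rw [← R.ML.apply_az', R.q_apply]
    have h1 := hp.eq₁ hV (R.incl (az R.ML.z p)) (by
      change ((R.incl (az R.ML.z p) : R.MK.B) : K) = _
      rw [R.incl_coe, ← R.ML.aK_eq])
    rw [h1, zpow_zero, one_mul]
  have e2 : ∀ i, R.ML.pz (R.q (X.s ζ)) i = G i ζ := by
    intro i
    have h1 := (hG i).eq₁ hV (R.incl (R.ML.z i)) rfl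
    change X.s ζ (R.incl (R.ML.z i)) = _
    rw [h1, hk i, zpow_zero, one_mul]
  have e3 : 1 + ‖R.ML.pz (R.q (X.s ζ))‖ ≤ Z := by
    rw [hZ]
    have h1 : ‖R.ML.pz (R.q (X.s ζ))‖ ≤ ∑ i, Cz i := by
      refine (pi_norm_le_iff_of_nonneg hsum0).2 fun i => ?_
      rw [e2 i]
      exact (hCz' i ζ hζ).trans (Finset.single_le_sum (f := Cz) (fun j _ => (hCz j).le)
        (Finset.mem_univ i))
    linarith
  unfold wL
  rw [e1]
  have h0 : 0 < 1 + ‖R.ML.pz (R.q (X.s ζ))‖ := by positivity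
  exact div_le_div₀ (norm_nonneg _) (hcp' ζ hζ) (by positivity)
    (pow_le_pow_left₀ h0.le e3 a)

/-- **(B2)**: regularity at the horizontal divisorial valuation rings -/
theorem regAt_of_inE {N : ℕ} (hN : 0 < N) (bK : Module.Basis (Fin r) K (Ω[K⁄L]))
    (hbK : ∀ j, bK j = KaehlerDifferential.D L K (R.MK.zK (Fin.natAdd m j)))
    (u : Fin s → R.MK.B) {R₀ : ValuationSubring K} (hR₀ : IsDiv L r R₀)
    (hu : ∀ i, RegAt L R₀ bK N (u i : K)) (g : R.MK.B)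
    (h : InE R fun y => ‖y g‖ₑ ^ 2 * kw N u y) : RegAt L R₀ bK N (g : K) := by
  classical
  obtain ⟨b, D, hb, hD, hiff⟩ := regAt_iff_abs R hR₀ bK hbK
  rw [hiff]
  have hu' : ∀ i, RegAt ℂ R₀ b N (u i : K) := fun i => (hiff N _).1 (hu i)
  obtain ⟨p, a, hp, hi⟩ := h
  have hL := hR₀.alg
  have hA := etChart R.MK
  have hzA : zA hA = R.MK.z := rfl
  have hpK : algebraMap L K (R.ML.aK p) ≠ 0 := by
    rw [Ne, map_eq_zero_iff _ (algebraMap L K).injective, map_eq_zero_iff _ R.ML.aK_injective]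
    exact hp
  have hzK : ∀ i, algebraMap L K (R.ML.zK i) ≠ 0 := by
    intro i h0
    have h1 := (Cmp_595.isTranscendenceBasis R.ML).1.ne_zero i
    exact h1 ((map_eq_zero_iff _ (algebraMap L K).injective).1 h0)
  refine regAt_of_lintM hA hb hD g N
    (fun y => kw N u y * ENNReal.ofReal (wL R p a (R.q y))) ?_ ?_
  · intro F hF
    obtain ⟨X0, -, -, hX0⟩ := exists_bchart (B := R.MK.B) D R.MK.ft
      (F ∪ ({algebraMap L K (R.ML.aK p), (D.dw.toMatrix b).det} ∪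
        (Finset.univ.image fun i => algebraMap L K (R.ML.zK i)) ∪
        (Finset.univ.image fun i => ((u i : R.MK.B) : K)).filter (· ≠ 0)))
      (by
        intro f hf
        simp only [Finset.mem_union, Finset.mem_insert, Finset.mem_singleton, Finset.mem_image,
          Finset.mem_univ, true_and, Finset.mem_filter] at hf
        rcases hf with hf | ((rfl | rfl) | ⟨i, rfl⟩) | ⟨-, hf⟩
        · exact hF f hf
        · exact hpK
        · exact DivModel.det_ne_zero _ _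
        · exact hzK i
        · exact hf)
      1 (fun hd => D.prime.not_isUnit (isUnit_of_dvd_one hd)) 1 one_pos
    obtain ⟨kp, Gp, -, hGp⟩ := hX0 (algebraMap L K (R.ML.aK p)) (by simp)
    obtain ⟨c, GJ, -, hJ⟩ := hX0 (D.dw.toMatrix b).det (by simp)
    have hz : ∀ i, ∃ (k : ℤ) (G : Cn (m + r) → ℂ),
        Good D X0 (algebraMap L K (R.ML.zK i)) k G := by
      intro i
      obtain ⟨k, G, -, hG⟩ := hX0 (algebraMap L K (R.ML.zK i)) (by simp)
      exact ⟨k, G, hG⟩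
    have hb' : ∀ j, b j = KaehlerDifferential.D ℂ K (algebraMap R.MK.B K (R.MK.z j)) := hb
    have hr := X0.r_pos
    -- the bounds of the forms
    have hC : ∀ i, ∃ C : ℝ, 0 ≤ C ∧ ∀ ζ ∈ ball (0 : Cn (m + r)) (X0.r / 2), ζ D.i₀ ≠ 0 →
        ‖ζ‖ ≤ 1 → ‖X0.s ζ (u i)‖ * ‖(fderiv ℂ (X0.ψ R.MK.z) ζ).det‖ ^ N ≤ C := by
      intro i
      rcases eq_or_ne ((u i : R.MK.B) : K) 0 with h0 | h0
      · have h1 : u i = 0 := Subtype.ext h0
        refine ⟨0, le_rfl, fun ζ _ _ _ => ?_⟩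
        rw [h1, map_zero, norm_zero, zero_mul]
      · obtain ⟨ai, Gi, ho, hGi⟩ := hX0 ((u i : R.MK.B) : K) (by
          simp only [Finset.mem_union, Finset.mem_filter, Finset.mem_image, Finset.mem_univ,
            true_and]
          exact Or.inr (Or.inr ⟨⟨i, rfl⟩, h0⟩))
        exact bound_form X0 R.MK.z b hb' hJ (u i) hGi N
          ((hD.regAt_iff b hGi.hasOrd hJ.hasOrd N).1 (hu' i))
    choose C hC0 hC using hC
    obtain ⟨cw, hcw, hcw'⟩ := wL_lower hD hL X0 p a hGp hz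
    set S : ℝ := 1 + ∑ i, C i ^ 2 with hS
    have hS0 : 0 < S := by
      have : 0 ≤ ∑ i, C i ^ 2 := Finset.sum_nonneg fun i _ => by positivity
      rw [hS]; linarith
    have hρ : 0 < min (X0.r / 2) 1 := lt_min (by linarith) one_pos
    have hρr : min (X0.r / 2) 1 ≤ X0.r := (min_le_left _ _).trans (by linarith)
    refine ⟨X0.shrink (min (X0.r / 2) 1) hρ hρr, ?_, ?_⟩
    · intro f hf
      obtain ⟨a', G', -, hG'⟩ := hX0 f (Finset.mem_union_left _ hf)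
      exact ⟨a', G', hG'.shrink _ hρ hρr⟩
    · refine ⟨S ^ (-((N - 1 : ℝ) / N)) * cw, by positivity, fun ζ hζ => ?_⟩
      have hζ1 : ζ ∈ ball (0 : Cn (m + r)) (X0.r / 2) :=
        ball_subset_ball (min_le_left _ _) hζ.1
      have hζ2 : ‖ζ‖ ≤ 1 := by
        have := hζ.1
        rw [show (X0.shrink (min (X0.r / 2) 1) hρ hρr).r = min (X0.r / 2) 1 from rfl,
          mem_ball_zero_iff] at this
        exact this.le.trans (min_le_right _ _)
      have hζ0 : ζ D.i₀ ≠ 0 := hζ.2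
      have hV : ζ ∈ X0.V := ⟨ball_subset_ball (by linarith) hζ1, hζ0⟩
      have hJ0 : 0 < ‖(fderiv ℂ (X0.ψ R.MK.z) ζ).det‖ :=
        norm_pos_iff.2 (X0.det_ne R.MK.z b hb' hJ hV)
      have hkk : kk u (X0.s ζ) * (‖(fderiv ℂ (X0.ψ R.MK.z) ζ).det‖ ^ N) ^ 2 ≤ S := by
        unfold kk
        rw [Finset.sum_mul]
        have h1 : ∑ i, ‖X0.s ζ (u i)‖ ^ 2 * (‖(fderiv ℂ (X0.ψ R.MK.z) ζ).det‖ ^ N) ^ 2 ≤
            ∑ i, C i ^ 2 := by
          refine Finset.sum_le_sum fun i _ => ?_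
          rw [← mul_pow]
          exact pow_le_pow_left₀ (by positivity) (hC i ζ hζ1 hζ0 hζ2) 2
        rw [hS]
        linarith
      have h1 := kw_lower hN u (X0.s ζ) hJ0 hS0 hkk
      have h2 : ENNReal.ofReal cw ≤ ENNReal.ofReal (wL R p a (R.q (X0.s ζ))) :=
        ENNReal.ofReal_le_ofReal (hcw' ζ hζ1 hζ0)
      have h3 := mul_le_mul' h1 h2
      rw [← ENNReal.ofReal_mul (by positivity)] at h3
      refine le_trans (le_of_eq ?_) h3
      congr 1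
      change S ^ (-((N - 1 : ℝ) / N)) * cw *
        (‖(fderiv ℂ (X0.ψ (zA hA)) ζ).det‖ ^ ((N : ℤ) - 1)) ^ 2 = _
      rw [hzA]
      ring
  · refine lt_of_le_of_lt (le_of_eq ?_) hi
    rw [hzA]
    congr 1
    funext y
    rw [ENNReal.ofReal_pow (norm_nonneg _), ofReal_norm, mul_assoc]

/-- (B2) for `Pluri` -/
theorem pluri_of_inE {N : ℕ} (hN : 0 < N) (bK : Module.Basis (Fin r) K (Ω[K⁄L]))
    (hbK : ∀ j, bK j = KaehlerDifferential.D L K (R.MK.zK (Fin.natAdd m j)))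
    (u : Fin s → R.MK.B) (hu : ∀ i, Pluri L bK N (u i : K)) (g : R.MK.B)
    (h : InE R fun y => ‖y g‖ₑ ^ 2 * kw N u y) : Pluri L bK N (g : K) :=
  fun R₀ hR₀ => regAt_of_inE hN bK hbK u hR₀ (fun i => hu i R₀ hR₀) g h

/-- clearing denominators in a relation over `L` -/
lemma exists_clear (u : Fin s → R.MK.B) (g : R.MK.B)
    (h : (g : K) ∈ Submodule.span L (Set.range fun i => ((u i : R.MK.B) : K))) :
    ∃ d : R.ML.B, d ≠ 0 ∧ ∃ a : Fin s → R.ML.B,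
      R.incl d * g = ∑ i, R.incl (a i) * u i := by
  classical
  obtain ⟨l, hl⟩ := (Submodule.mem_span_range_iff_exists_fun L).1 h
  have hfrac : ∃ d : R.ML.B, d ≠ 0 ∧ ∀ i, ∃ a : R.ML.B, (a : L) = d * l i := by
    choose b c hc hbc using fun i => R.ML.frac (l i)
    refine ⟨∏ i, c i, Finset.prod_ne_zero_iff.2 fun i _ => hc i, fun i => ?_⟩
    refine ⟨(∏ j ∈ Finset.univ.erase i, c j) * b i, ?_⟩
    have hci : (c i : L) ≠ 0 := fun h0 => hc i (Subtype.ext h0)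
    rw [hbc i, ← Finset.mul_prod_erase Finset.univ c (Finset.mem_univ i)]
    push_cast
    field_simp
  obtain ⟨d, hd, ha⟩ := hfrac
  choose a ha using ha
  refine ⟨d, hd, a, Subtype.ext ?_⟩
  rw [MulMemClass.coe_mul, R.incl_coe, AddSubmonoidClass.coe_finsetSum, ← hl, Finset.mul_sum]
  refine Finset.sum_congr rfl fun i _ => ?_
  rw [MulMemClass.coe_mul, R.incl_coe, ha, map_mul, Algebra.smul_def, mul_assoc]

/-- **SATURATION (B)**, total space form (consumer: 886). -/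
theorem sat_B {N : ℕ} (hN : 0 < N) (bK : Module.Basis (Fin r) K (Ω[K⁄L]))
    (hbK : ∀ j, bK j = KaehlerDifferential.D L K (R.MK.zK (Fin.natAdd m j)))
    (u : Fin s → R.MK.B) (hu : ∀ i, Pluri L bK N (u i : K))
    (hspan : ∀ v : K, Pluri L bK N v →
      v ∈ Submodule.span L (Set.range fun i => ((u i : R.MK.B) : K)))
    {G : R.MK.Pts → ℂ} (hG : HolB R.MK.z G) (h : InE R fun y => ‖G y‖ₑ ^ 2 * kw N u y) :
    ∃ d : R.ML.B, d ≠ 0 ∧ ∃ a : Fin s → R.ML.B, ∀ y : R.MK.Pts,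
      R.q y d * G y = ∑ i, R.q y (a i) * y (u i) := by
  obtain ⟨g, hg⟩ := alg_of_inE hN hG h
  have h1 : InE R fun y => ‖y g‖ₑ ^ 2 * kw N u y := by
    have e : (fun y : R.MK.Pts => ‖y g‖ₑ ^ 2 * kw N u y) = fun y => ‖G y‖ₑ ^ 2 * kw N u y :=
      funext fun y => by rw [hg y]
    rw [e]; exact h
  obtain ⟨d, hd, a, ha⟩ := exists_clear u g (hspan _ (pluri_of_inE hN bK hbK u hu g h1))
  refine ⟨d, hd, a, fun y => ?_⟩
  have h2 := congrArg y ha
  rw [map_mul, map_sum] at h2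
  rw [hg y, R.q_apply, h2]
  exact Finset.sum_congr rfl fun i _ => by rw [map_mul, R.q_apply]

end Crest.Agent.R276.SatG_152
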