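import Crest.Agent.R276.SatG_210
import Crest.Agent.R276.IntH_448
import Crest.Agent.R276.SatI_152
import Crest.Agent.R276.LocH_454
import Crest.Agent.R276.CmpA_595

/-!
# Row 276 (S0419), leaf SAT (helper210), part H: the saturated family of the regular `N`-forms

* `inW_of_pluriS`: strongly regular relative `N`-forms `v` satisfy `∫ |v|^{2/N} × (weight) < ∞` (448's `hon`);
* `sat_pluri`: `SatG_210.sat` with the hypotheses `hO` (454), `hW` (448) and `hB` (152) discharged.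
-/

set_option autoImplicit false
set_option linter.unusedSectionVars false

noncomputable section

open Set Filter Topology MeasureTheory
open Crest.Agent.R271.Ho51 Crest.Agent.R276.Ipc735
open Crest.Agent.R276.Mod1_987 Crest.Agent.R271.Rd692
open Crest.Agent.R276.SatF_210 Crest.Agent.R276.SatG_210
open Crest.Agent.R276.SatB_210 Crest.Agent.R276.SatC_210 Crest.Agent.R276.FlatDefs_236
open Crest.Agent.R276.FKDefs_779 Crest.Agent.R271.Defs710 Crest.Agent.R271.Alg255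
open Crest.Agent.R276.IntG_448
open scoped ENNReal

namespace Crest.Agent.R276.SatH_210

variable {L K : Type} [Field L] [Field K] [Algebra ℂ L] [Algebra ℂ K] [Algebra L K]
  [IsScalarTower ℂ L K] {m r : ℕ} (R : RMdl L K m r)

/-- the growth weight on the total space is the one of the base -/
lemma oz_le (y : R.MK.Pts) : oz (fun i => R.MK.z (Fin.castAdd r i)) y ≤
    (1 + m) * (1 + ‖R.ML.pz (R.q y)‖) ^ 2 := by
  unfold oz
  have h1 : ∀ i : Fin m, ‖(y : R.MK.B →ₐ[ℂ] ℂ) (R.MK.z (Fin.castAdd r i))‖ ^ 2 ≤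
      ‖R.ML.pz (R.q y)‖ ^ 2 := by
    intro i
    have h2 : (y : R.MK.B →ₐ[ℂ] ℂ) (R.MK.z (Fin.castAdd r i)) = R.ML.pz (R.q y) i :=
      (R.pz_q y i).symm
    rw [h2]
    gcongr
    exact norm_le_pi_norm _ i
  have h3 := Finset.sum_le_sum fun (i : Fin m) (_ : i ∈ Finset.univ) => h1 i
  rw [Finset.sum_const, Finset.card_univ, Fintype.card_fin, nsmul_eq_mul] at h3
  have h4 : 0 ≤ ‖R.ML.pz (R.q y)‖ := norm_nonneg _
  have h5 : (0 : ℝ) ≤ m := Nat.cast_nonneg m
  nlinarith [mul_nonneg h5 h4]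

/-- **honest forms are in the class `W_N`** -/
theorem inW_of_pluriS (b : Module.Basis (Fin r) K (Ω[K⁄L]))
    (hb : ∀ j, b j = KaehlerDifferential.D L K (R.MK.zK (Fin.natAdd m j))) {N : ℕ} (hN : 0 < N)
    (v : R.MK.B) (hv : PluriS L b N (v : K)) : InW R N fun y => y v := by
  obtain ⟨p, hp, κ, α, hfin⟩ := hon R.ML.zK (Cmp_595.isTranscendenceBasis R.ML) R.MK
    (fun i => R.z_eq i) b hb hN v hv
  refine ⟨p ^ κ, 2 * α, pow_ne_zero _ hp, ?_⟩
  set C : ℝ := (1 + (m : ℝ)) ^ α with hC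
  have hC0 : 0 < C := by positivity
  refine lt_of_le_of_lt (lintM_mono _ (g := fun y => ENNReal.ofReal C *
    wint (fun i => R.MK.z (Fin.castAdd r i)) v (2 / (N : ℝ)) p κ α y) fun y => ?_) ?_
  · unfold wint
    rw [← ENNReal.ofReal_mul hC0.le]
    apply ENNReal.ofReal_le_ofReal
    have hpz : (fun i => (y : R.MK.B →ₐ[ℂ] ℂ) (R.MK.z (Fin.castAdd r i))) = R.ML.pz (R.q y) := by
      funext i
      exact (R.pz_q y i).symm
    rw [hpz]
    unfold SatB_210.wL
    rw [map_pow, norm_pow]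
    have ho1 := one_le_oz (fun i => R.MK.z (Fin.castAdd r i)) y
    have ho := oz_le R y
    set o := oz (fun i => R.MK.z (Fin.castAdd r i)) y with hodef
    have ho0 : 0 < o := by linarith
    have h4 : o ^ α ≤ C * (1 + ‖R.ML.pz (R.q y)‖) ^ (2 * α) := by
      calc o ^ α ≤ ((1 + m) * (1 + ‖R.ML.pz (R.q y)‖) ^ 2) ^ α :=
            pow_le_pow_left₀ ho0.le ho α
        _ = _ := by rw [mul_pow, ← pow_mul]
    have h5 : ‖MvPolynomial.eval (R.ML.pz (R.q y)) p‖ ^ κ / (1 + ‖R.ML.pz (R.q y)‖) ^ (2 * α) ≤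
        C * (‖MvPolynomial.eval (R.ML.pz (R.q y)) p‖ ^ κ / o ^ α) := by
      rw [← mul_div_assoc, div_le_div_iff₀ (by positivity) (by positivity)]
      calc ‖MvPolynomial.eval (R.ML.pz (R.q y)) p‖ ^ κ * o ^ α
          ≤ ‖MvPolynomial.eval (R.ML.pz (R.q y)) p‖ ^ κ *
            (C * (1 + ‖R.ML.pz (R.q y)‖) ^ (2 * α)) := by gcongr
        _ = _ := by ring
    calc ‖(y : R.MK.B →ₐ[ℂ] ℂ) v‖ ^ (2 / N : ℝ) *
          (‖MvPolynomial.eval (R.ML.pz (R.q y)) p‖ ^ κ / (1 + ‖R.ML.pz (R.q y)‖) ^ (2 * α))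
        ≤ ‖(y : R.MK.B →ₐ[ℂ] ℂ) v‖ ^ (2 / N : ℝ) *
          (C * (‖MvPolynomial.eval (R.ML.pz (R.q y)) p‖ ^ κ / o ^ α)) := by gcongr
      _ = _ := by ring
  · rw [SatB_210.lintM_const_mul _ _ ENNReal.ofReal_ne_top]
    exact ENNReal.mul_lt_top ENNReal.ofReal_lt_top hfin

variable {R} in
/-- the coordinates do not change on `R.shK g` -/
lemma zK_shK (g : MvPolynomial (Fin (m + r)) ℂ) (hg : g ≠ 0) : (R.shK g hg).MK.zK = R.MK.zK :=
  rfl

/-- **SAT**: the regular `N`-forms are a saturated family off a hypersurface -/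
theorem sat_pluri (hac : BN1_143.AC L K) {N : ℕ} (hNe : Even N)
    (hN4 : 4 ≤ N) {s : ℕ} (hs : 0 < s) (b : Module.Basis (Fin r) K (Ω[K⁄L]))
    (hb : ∀ j, b j = KaehlerDifferential.D L K (R.MK.zK (Fin.natAdd m j)))
    (u : Fin s → R.MK.B) (hu : LinearIndependent L fun i => (u i : K))
    (hP : ∀ i, PluriS L b N (u i : K)) (hPl : ∀ i, Pluri L b N (u i : K))
    (hspan : ∀ g : K, Pluri L b N g → g ∈ Submodule.span L (range fun i => (u i : K))) :
    ∃ (p : MvPolynomial (Fin m) ℂ) (hp : p ≠ 0) (g : MvPolynomial (Fin (m + r)) ℂ) (hg : g ≠ 0),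
      SatFam (R.shrink p hp g hg) N (resS R p hp g hg u) := by
  refine sat Step_454.oneStep R hac hNe hN4 hs u hu
    (fun i => inW_of_pluriS R b hb (by omega) (u i) (hP i)) fun g hg c hc => hspan _ ?_
  exact SatG_152.pluri_of_inE (R := R.shK g hg) (by omega) b hb (resK R g hg u) hPl c hc

end Crest.Agent.R276.SatH_210
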