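import Mathlib

/-!
# SKO (row 276): uniform Skoda integrability of negative powers of polynomials (helper567)

`sko` : for `p ≥ 0`, `p * d < 2`, `R` there is a constant `C < ∞` such that for all polynomials `P` in `n`
variables, of degree `≤ d` in each variable, and every monomial `m`,
`∫_{|y| ≤ R} |P(y)|^{-p} ≤ C * |coeff m P|^{-p}`.
-/

set_option autoImplicit false

noncomputable section

open Set Filter Topology MeasureTheory ENNReal

namespace Crest.Agent.R276.SkoA_567

/-! ### products and maxima -/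

/-- a product of at most `d` factors is at most `1 +` the sum of the `d`-th powers -/
theorem prod_le_one_add_sum (s : Multiset ℝ≥0∞) (d : ℕ) (hs : Multiset.card s ≤ d) :
    s.prod ≤ 1 + (s.map (fun x => x ^ d)).sum := by
  classical
  -- the maximum of `1` and the elements
  obtain ⟨M, hM1, hM, hMe⟩ : ∃ M : ℝ≥0∞, 1 ≤ M ∧ (∀ x ∈ s, x ≤ M) ∧ (M = 1 ∨ M ∈ s) := by
    induction s using Multiset.induction_on with
    | empty => exact ⟨1, le_rfl, by simp, Or.inl rfl⟩
    | cons a s ih =>
      obtain ⟨M, h1, h2, h3⟩ := ih ((Multiset.card_le_card (Multiset.le_cons_self s a)).trans hs)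
      by_cases haM : a ≤ M
      · refine ⟨M, h1, ?_, ?_⟩
        · intro x hx
          rcases Multiset.mem_cons.mp hx with rfl | hx
          · exact haM
          · exact h2 x hx
        · rcases h3 with h3 | h3
          · exact Or.inl h3
          · exact Or.inr (Multiset.mem_cons_of_mem h3)
      · refine ⟨a, h1.trans (le_of_not_ge haM), ?_, Or.inr (Multiset.mem_cons_self a s)⟩
        intro x hx
        rcases Multiset.mem_cons.mp hx with rfl | hx
        · exact le_rfl
        · exact (h2 x hx).trans (le_of_not_ge haM)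
  have h1 : s.prod ≤ M ^ Multiset.card s := Multiset.prod_le_pow_card s M hM
  have h2 : M ^ Multiset.card s ≤ M ^ d := pow_le_pow_right₀ hM1 hs
  refine (h1.trans h2).trans ?_
  rcases hMe with rfl | hMe
  · simp
  · have h3 : M ^ d ≤ (s.map (fun x => x ^ d)).sum :=
      Multiset.single_le_sum (by simp) _ (Multiset.mem_map_of_mem _ hMe)
    exact h3.trans le_add_self

/-! ### one variable -/

theorem lint_ball (q : ℝ) (hq : q < 2) (R : ℝ) :
    ∫⁻ u in Metric.closedBall (0 : ℂ) R, ‖u‖ₑ ^ (-q) < ∞ := by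
  rw [← lintegral_indicator Metric.isClosed_closedBall.measurableSet,
    ← Complex.lintegral_comp_polarCoord_symm]
  have h1 : ∀ p ∈ polarCoord.target, ENNReal.ofReal p.1 •
      (Metric.closedBall (0 : ℂ) R).indicator (fun u => ‖u‖ₑ ^ (-q)) (Complex.polarCoord.symm p)
      ≤ ((Ioc (0 : ℝ) R).indicator (fun r => ENNReal.ofReal (r ^ (1 - q))) p.1) *
        ((Ioo (-Real.pi) Real.pi).indicator (fun _ => (1 : ℝ≥0∞)) p.2) := by
    intro p hp
    rw [polarCoord_target] at hp
    obtain ⟨hp1, hp2⟩ := hp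
    have hp1' : 0 < p.1 := hp1
    have hn : ‖Complex.polarCoord.symm p‖ = p.1 := by
      rw [Complex.norm_polarCoord_symm, abs_of_pos hp1']
    rw [Set.indicator_of_mem (s := Ioo (-Real.pi) Real.pi) hp2, mul_one, smul_eq_mul]
    by_cases hR : p.1 ≤ R
    · rw [Set.indicator_of_mem (s := Ioc (0 : ℝ) R) ⟨hp1', hR⟩, Set.indicator_of_mem (by
        rw [mem_closedBall_zero_iff, hn]; exact hR)]
      have h2 : ‖Complex.polarCoord.symm p‖ₑ = ENNReal.ofReal p.1 := by
        rw [← ofReal_norm, hn]
      rw [h2, ENNReal.ofReal_rpow_of_pos hp1', ← ENNReal.ofReal_mul hp1'.le]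
      apply le_of_eq
      congr 1
      rw [sub_eq_add_neg, Real.rpow_add hp1', Real.rpow_one]
    · rw [Set.indicator_of_notMem (s := Metric.closedBall (0 : ℂ) R) (by
        rw [mem_closedBall_zero_iff, hn]; exact hR)]
      simp
  have h2 : ∫⁻ p in polarCoord.target, ENNReal.ofReal p.1 •
      (Metric.closedBall (0 : ℂ) R).indicator (fun u => ‖u‖ₑ ^ (-q)) (Complex.polarCoord.symm p)
      ≤ ∫⁻ p : ℝ × ℝ, ((Ioc (0 : ℝ) R).indicator (fun r => ENNReal.ofReal (r ^ (1 - q))) p.1) *
        ((Ioo (-Real.pi) Real.pi).indicator (fun _ => (1 : ℝ≥0∞)) p.2) := by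
    refine (setLIntegral_mono' ?_ h1).trans (setLIntegral_le_lintegral _ _)
    exact polarCoord.open_target.measurableSet
  refine lt_of_le_of_lt h2 ?_
  have hm1 : Measurable ((Ioc (0 : ℝ) R).indicator (fun r : ℝ => ENNReal.ofReal (r ^ (1 - q)))) :=
    (by fun_prop : Measurable fun r : ℝ => ENNReal.ofReal (r ^ (1 - q))).indicator measurableSet_Ioc
  have hm2 : Measurable ((Ioo (-Real.pi) Real.pi).indicator (fun _ : ℝ => (1 : ℝ≥0∞))) :=
    measurable_const.indicator measurableSet_Ioo
  have h3 := lintegral_prod_mul (μ := (volume : Measure ℝ)) (ν := (volume : Measure ℝ))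
    hm1.aemeasurable hm2.aemeasurable
  have h4 : (volume : Measure (ℝ × ℝ)) = (volume : Measure ℝ).prod volume := rfl
  rw [h4, h3, lintegral_indicator measurableSet_Ioc, lintegral_indicator measurableSet_Ioo]
  refine ENNReal.mul_lt_top ?_ ?_
  · by_cases hR : 0 ≤ R
    · have h5 : IntervalIntegrable (fun r : ℝ => r ^ (1 - q)) volume 0 R :=
        intervalIntegral.intervalIntegrable_rpow' (by linarith)
      rw [intervalIntegrable_iff_integrableOn_Ioc_of_le hR] at h5
      exact h5.lintegral_lt_top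
    · rw [Ioc_eq_empty (by intro h; exact hR h.le)]
      simp
  · simp

/-- the normalised distance to `α` -/
def bb (α t : ℂ) : ℝ≥0∞ := ‖t - α‖ₑ / (1 + ‖α‖ₑ)

lemma measurable_bb (α : ℂ) : Measurable (bb α) := by
  unfold bb; fun_prop

theorem lint_bb (q : ℝ) (hq0 : 0 ≤ q) (hq : q < 2) (R : ℝ) : ∃ C : ℝ≥0∞, C < ∞ ∧ ∀ α : ℂ,
    ∫⁻ t in Metric.closedBall (0 : ℂ) R, bb α t ^ (-q) ≤ C := by
  wlog hR : 1 ≤ R generalizing R
  · obtain ⟨C, hC, h⟩ := this 1 le_rfl
    refine ⟨C, hC, fun α => le_trans (lintegral_mono_set ?_) (h α)⟩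
    exact Metric.closedBall_subset_closedBall (le_of_not_ge hR)
  set C1 : ℝ≥0∞ := ENNReal.ofReal ((1 + 2 * R) ^ q) *
    ∫⁻ u in Metric.closedBall (0 : ℂ) (3 * R), ‖u‖ₑ ^ (-q) with hC1
  set C2 : ℝ≥0∞ := ENNReal.ofReal (4 ^ q) * volume (Metric.closedBall (0 : ℂ) R) with hC2
  refine ⟨C1 + C2, ?_, ?_⟩
  · refine ENNReal.add_lt_top.mpr ⟨?_, ?_⟩
    · exact ENNReal.mul_lt_top ENNReal.ofReal_lt_top (lint_ball q hq _)
    · exact ENNReal.mul_lt_top ENNReal.ofReal_lt_top measure_closedBall_lt_top
  · intro α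
    have hbb : ∀ t, bb α t = ENNReal.ofReal (‖t - α‖ / (1 + ‖α‖)) := by
      intro t
      have h0 : (0 : ℝ) < 1 + ‖α‖ := by positivity
      rw [bb, ENNReal.ofReal_div_of_pos h0, ofReal_norm,
        ENNReal.ofReal_add zero_le_one (norm_nonneg _), ofReal_norm, ENNReal.ofReal_one]
    by_cases hα : ‖α‖ ≤ 2 * R
    · refine le_trans ?_ le_self_add
      have h1 : ∀ t, bb α t ^ (-q) ≤ ENNReal.ofReal ((1 + 2 * R) ^ q) * ‖t - α‖ₑ ^ (-q) := by
        intro t
        have h2 : ‖t - α‖ₑ / (1 + ENNReal.ofReal (2 * R)) ≤ bb α t := by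
          unfold bb
          gcongr
          rw [← ofReal_norm]
          exact ENNReal.ofReal_le_ofReal hα
        have h3 : bb α t ^ (-q) ≤ (‖t - α‖ₑ / (1 + ENNReal.ofReal (2 * R))) ^ (-q) := by
          rw [ENNReal.rpow_neg, ENNReal.rpow_neg]
          exact ENNReal.inv_le_inv.mpr (ENNReal.rpow_le_rpow h2 hq0)
        refine h3.trans (le_of_eq ?_)
        have h4 : (1 : ℝ≥0∞) + ENNReal.ofReal (2 * R) = ENNReal.ofReal (1 + 2 * R) := by
          rw [ENNReal.ofReal_add zero_le_one (by linarith), ENNReal.ofReal_one]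
        have h5 : (0 : ℝ) < 1 + 2 * R := by linarith
        rw [h4, div_eq_mul_inv, ENNReal.rpow_neg, ENNReal.mul_rpow_of_nonneg _ _ hq0,
          ENNReal.inv_rpow, ENNReal.mul_inv, inv_inv, ENNReal.ofReal_rpow_of_pos h5,
          ENNReal.rpow_neg, mul_comm]
        · right
          simp only [ne_eq, ENNReal.inv_eq_top]
          exact (ENNReal.rpow_pos (ENNReal.ofReal_pos.mpr h5) ENNReal.ofReal_ne_top).ne'
        · right
          simp only [ne_eq, ENNReal.inv_eq_zero]
          exact ENNReal.rpow_ne_top_of_nonneg hq0 ENNReal.ofReal_ne_top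
      calc ∫⁻ t in Metric.closedBall (0 : ℂ) R, bb α t ^ (-q)
          ≤ ∫⁻ t in Metric.closedBall (0 : ℂ) R,
              ENNReal.ofReal ((1 + 2 * R) ^ q) * ‖t - α‖ₑ ^ (-q) := lintegral_mono fun t => h1 t
        _ = ENNReal.ofReal ((1 + 2 * R) ^ q) *
              ∫⁻ t in Metric.closedBall (0 : ℂ) R, ‖t - α‖ₑ ^ (-q) := by
            rw [lintegral_const_mul]; fun_prop
        _ ≤ C1 := by
            rw [hC1]
            refine mul_le_mul_right ?_ _
            have h6 : ∫⁻ u in Metric.closedBall (0 : ℂ) (3 * R), ‖u‖ₑ ^ (-q) =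
                ∫⁻ t : ℂ, (Metric.closedBall (0 : ℂ) (3 * R)).indicator
                  (fun u => ‖u‖ₑ ^ (-q)) (t - α) := by
              rw [lintegral_sub_right_eq_self
                ((Metric.closedBall (0 : ℂ) (3 * R)).indicator (fun u => ‖u‖ₑ ^ (-q))) α,
                lintegral_indicator Metric.isClosed_closedBall.measurableSet]
            rw [h6, ← lintegral_indicator Metric.isClosed_closedBall.measurableSet]
            apply lintegral_mono
            intro t
            by_cases ht : t ∈ Metric.closedBall (0 : ℂ) R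
            · rw [Set.indicator_of_mem ht]
              show _ ≤ (Metric.closedBall (0 : ℂ) (3 * R)).indicator _ _
              rw [Set.indicator_of_mem]
              rw [mem_closedBall_zero_iff] at ht ⊢
              calc ‖t - α‖ ≤ ‖t‖ + ‖α‖ := norm_sub_le _ _
                _ ≤ 3 * R := by linarith
            · rw [Set.indicator_of_notMem ht]; simp
    · refine le_trans ?_ le_add_self
      push Not at hα
      have h1 : ∀ t ∈ Metric.closedBall (0 : ℂ) R, bb α t ^ (-q) ≤ ENNReal.ofReal (4 ^ q) := by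
        intro t ht
        rw [mem_closedBall_zero_iff] at ht
        have h2 : (1 : ℝ) / 4 ≤ ‖t - α‖ / (1 + ‖α‖) := by
          rw [div_le_div_iff₀ (by norm_num) (by positivity)]
          have h3 : ‖α‖ - ‖t‖ ≤ ‖t - α‖ := by
            have := norm_sub_norm_le α t
            rwa [norm_sub_rev] at this
          nlinarith
        have h3 : ENNReal.ofReal (1 / 4) ≤ bb α t := by
          rw [hbb]; exact ENNReal.ofReal_le_ofReal h2
        have h4 : bb α t ^ (-q) ≤ ENNReal.ofReal (1 / 4) ^ (-q) := by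
          rw [ENNReal.rpow_neg, ENNReal.rpow_neg]
          exact ENNReal.inv_le_inv.mpr (ENNReal.rpow_le_rpow h3 hq0)
        refine h4.trans (le_of_eq ?_)
        rw [ENNReal.ofReal_rpow_of_pos (by norm_num)]
        congr 1
        rw [one_div, Real.inv_rpow (by norm_num), Real.rpow_neg (by norm_num), inv_inv]
      calc ∫⁻ t in Metric.closedBall (0 : ℂ) R, bb α t ^ (-q)
          ≤ ∫⁻ _ in Metric.closedBall (0 : ℂ) R, ENNReal.ofReal (4 ^ q) :=
            setLIntegral_mono' Metric.isClosed_closedBall.measurableSet h1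
        _ = C2 := by rw [setLIntegral_const, hC2]

lemma prod_rpow_neg (s : Multiset ℂ) (f : ℂ → ℝ≥0∞) (hf : ∀ a, f a ≠ ∞) (p : ℝ) (hp : 0 ≤ p) :
    (s.map f).prod ≠ ∞ ∧ (s.map f).prod ^ (-p) = (s.map fun a => f a ^ (-p)).prod := by
  induction s using Multiset.induction_on with
  | empty => simp
  | cons a s ih =>
    rw [Multiset.map_cons, Multiset.prod_cons, Multiset.map_cons, Multiset.prod_cons, ← ih.2]
    refine ⟨ENNReal.mul_ne_top (hf a) ih.1, ?_⟩
    rw [ENNReal.rpow_neg, ENNReal.mul_rpow_of_nonneg _ _ hp, ENNReal.mul_inv, ENNReal.rpow_neg,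
      ENNReal.rpow_neg]
    · exact Or.inr (ENNReal.rpow_ne_top_of_nonneg hp ih.1)
    · exact Or.inl (ENNReal.rpow_ne_top_of_nonneg hp (hf a))

lemma coeff_le (s : Multiset ℂ) (k : ℕ) :
    ‖(s.map fun a => (Polynomial.X - Polynomial.C a)).prod.coeff k‖ₑ ≤
      (s.map fun a => 1 + ‖a‖ₑ).prod := by
  induction s using Multiset.induction_on generalizing k with
  | empty =>
    simp only [Multiset.map_zero, Multiset.prod_zero, Polynomial.coeff_one]
    split_ifs <;> simp
  | cons a s ih =>
    rw [Multiset.map_cons, Multiset.prod_cons, Multiset.map_cons, Multiset.prod_cons, sub_mul,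
      Polynomial.coeff_sub, Polynomial.coeff_C_mul, add_mul, one_mul]
    refine (enorm_sub_le).trans (add_le_add ?_ ?_)
    · cases k with
      | zero => simp
      | succ k => rw [Polynomial.coeff_X_mul]; exact ih k
    · rw [enorm_mul]
      exact mul_le_mul_right (ih k) _

lemma lint_sum_le (s : Multiset ℂ) (q : ℝ) (R : ℝ) (C : ℝ≥0∞)
    (hC : ∀ α : ℂ, ∫⁻ t in Metric.closedBall (0 : ℂ) R, bb α t ^ (-q) ≤ C) :
    (Measurable fun t => (s.map fun a => bb a t ^ (-q)).sum) ∧
    ∫⁻ t in Metric.closedBall (0 : ℂ) R, (s.map fun a => bb a t ^ (-q)).sum ≤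
      Multiset.card s * C := by
  induction s using Multiset.induction_on with
  | empty => simp
  | cons a s ih =>
    simp only [Multiset.map_cons, Multiset.sum_cons, Multiset.card_cons]
    have h1 : Measurable fun t => bb a t ^ (-q) := (measurable_bb a).pow_const _
    refine ⟨h1.add ih.1, ?_⟩
    rw [lintegral_add_left h1]
    push_cast
    rw [add_mul, one_mul, add_comm]
    exact add_le_add ih.2 (hC a)

lemma enorm_prod (s : Multiset ℂ) (f : ℂ → ℂ) :
    ‖(s.map f).prod‖ₑ = (s.map fun a => ‖f a‖ₑ).prod := by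
  induction s using Multiset.induction_on with
  | empty => simp
  | cons a s ih =>
    rw [Multiset.map_cons, Multiset.prod_cons, Multiset.map_cons, Multiset.prod_cons, enorm_mul, ih]

/-- one variable -/
theorem sko1 (d : ℕ) (p : ℝ) (hp : 0 ≤ p) (hpd : p * d < 2) (R : ℝ) : ∃ C : ℝ≥0∞, C < ∞ ∧
    ∀ P : Polynomial ℂ, P.natDegree ≤ d → ∀ k,
      ∫⁻ t in Metric.closedBall (0 : ℂ) R, ‖P.eval t‖ₑ ^ (-p) ≤ C * ‖P.coeff k‖ₑ ^ (-p) := by
  obtain ⟨C0, hC0, h0⟩ := lint_bb (p * d) (by positivity) hpd R
  set v : ℝ≥0∞ := volume (Metric.closedBall (0 : ℂ) R) with hv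
  refine ⟨v + d * C0, ?_, ?_⟩
  · refine ENNReal.add_lt_top.mpr ⟨measure_closedBall_lt_top, ?_⟩
    exact ENNReal.mul_lt_top (ENNReal.natCast_lt_top _) hC0
  · intro P hP k
    by_cases hP0 : P = 0
    · subst hP0
      simp only [Polynomial.eval_zero, Polynomial.coeff_zero, setLIntegral_const]
      rw [mul_comm, ← hv]
      exact mul_le_mul_left le_self_add _
    · have hs := (IsAlgClosed.splits P).eq_prod_roots
      have hcard : Multiset.card P.roots ≤ d := (P.card_roots').trans hP
      set s := P.roots with hsdef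
      set c := P.leadingCoeff with hc
      have hc0 : c ≠ 0 := Polynomial.leadingCoeff_ne_zero.mpr hP0
      set A : ℝ≥0∞ := ‖c‖ₑ * (s.map fun a => 1 + ‖a‖ₑ).prod with hA
      have hA1 : (s.map fun a => 1 + ‖a‖ₑ).prod ≠ ∞ :=
        (prod_rpow_neg s (fun a => 1 + ‖a‖ₑ) (by intro a; simp) 0 le_rfl).1
      have hcoef : ‖P.coeff k‖ₑ ≤ A := by
        rw [hs, Polynomial.coeff_C_mul, enorm_mul, hA]
        exact mul_le_mul_right (coeff_le s k) _
      have hprod : ∀ t : ℂ, (s.map fun a => ‖t - a‖ₑ).prod =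
          (s.map fun a => 1 + ‖a‖ₑ).prod * (s.map fun a => bb a t).prod := by
        intro t
        rw [← Multiset.prod_map_mul]
        congr 1
        apply Multiset.map_congr rfl
        intro a _
        rw [bb, ENNReal.mul_div_cancel]
        · simp
        · simp
      have heval : ∀ t : ℂ, ‖P.eval t‖ₑ = A * (s.map fun a => bb a t).prod := by
        intro t
        have h1 : P.eval t = c * (s.map fun a => t - a).prod := by
          conv_lhs => rw [hs]
          rw [Polynomial.eval_mul, Polynomial.eval_C, Polynomial.eval_multiset_prod,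
            Multiset.map_map]
          simp
        rw [h1, enorm_mul, enorm_prod s (fun a => t - a), hprod, hA, mul_assoc]
      have hAtop : A ≠ ∞ := ENNReal.mul_ne_top enorm_ne_top hA1
      have hAk : A ^ (-p) ≤ ‖P.coeff k‖ₑ ^ (-p) := by
        rw [ENNReal.rpow_neg, ENNReal.rpow_neg]
        exact ENNReal.inv_le_inv.mpr (ENNReal.rpow_le_rpow hcoef hp)
      have hpt : ∀ t : ℂ, ‖P.eval t‖ₑ ^ (-p) ≤
          A ^ (-p) * (1 + (s.map fun a => bb a t ^ (-(p * d))).sum) := by
        intro t
        have hbt : ∀ a, bb a t ≠ ∞ := by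
          intro a
          unfold bb
          exact ENNReal.div_ne_top enorm_ne_top (by simp)
        have h1 := prod_rpow_neg s (fun a => bb a t) hbt p hp
        have h2 : ‖P.eval t‖ₑ ^ (-p) = A ^ (-p) * (s.map fun a => bb a t ^ (-p)).prod := by
          rw [heval, ← h1.2, ENNReal.rpow_neg, ENNReal.mul_rpow_of_nonneg _ _ hp, ENNReal.mul_inv,
            ← ENNReal.rpow_neg, ← ENNReal.rpow_neg]
          · exact Or.inr (ENNReal.rpow_ne_top_of_nonneg hp h1.1)
          · exact Or.inl (ENNReal.rpow_ne_top_of_nonneg hp hAtop)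
        rw [h2]
        refine mul_le_mul_right ?_ _
        refine (prod_le_one_add_sum _ d (by rwa [Multiset.card_map])).trans (le_of_eq ?_)
        rw [Multiset.map_map]
        congr 2
        apply Multiset.map_congr rfl
        intro a _
        simp only [Function.comp_apply]
        rw [← ENNReal.rpow_natCast, ← ENNReal.rpow_mul, neg_mul]
      have h3 := lint_sum_le s (p * d) R C0 h0
      calc ∫⁻ t in Metric.closedBall (0 : ℂ) R, ‖P.eval t‖ₑ ^ (-p)
          ≤ ∫⁻ t in Metric.closedBall (0 : ℂ) R,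
              A ^ (-p) * (1 + (s.map fun a => bb a t ^ (-(p * d))).sum) :=
            lintegral_mono fun t => hpt t
        _ = A ^ (-p) * (v + ∫⁻ t in Metric.closedBall (0 : ℂ) R,
              (s.map fun a => bb a t ^ (-(p * d))).sum) := by
            have hm : Measurable fun t : ℂ =>
                (1 : ℝ≥0∞) + (s.map fun a => bb a t ^ (-(p * d))).sum := measurable_const.add h3.1
            rw [lintegral_const_mul _ hm, lintegral_add_left measurable_const, setLIntegral_const,
              one_mul]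
        _ ≤ A ^ (-p) * (v + d * C0) := by
            gcongr
            exact h3.2.trans (by gcongr)
        _ ≤ (v + d * C0) * ‖P.coeff k‖ₑ ^ (-p) := by
            rw [mul_comm]
            exact mul_le_mul_right hAk _

/-! ### several variables -/

lemma measurable_eval {n : ℕ} (P : MvPolynomial (Fin n) ℂ) :
    Measurable fun y : Fin n → ℂ => MvPolynomial.eval y P :=
  (MvPolynomial.continuous_eval P).measurable

/-- the uniform Skoda estimate for polynomials -/
theorem sko (n d : ℕ) (p R : ℝ) (hp : 0 ≤ p) (hpd : p * d < 2) : ∃ C : ℝ≥0∞, C < ∞ ∧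
    ∀ P : MvPolynomial (Fin n) ℂ, (∀ i, P.degreeOf i ≤ d) → ∀ m,
      ∫⁻ y in Metric.closedBall (0 : Fin n → ℂ) R, ‖MvPolynomial.eval y P‖ₑ ^ (-p) ≤
        C * ‖MvPolynomial.coeff m P‖ₑ ^ (-p) := by
  wlog hR : 0 ≤ R generalizing R
  · obtain ⟨C, hC, h⟩ := this 0 le_rfl
    refine ⟨C, hC, fun P hP m => le_trans (lintegral_mono_set ?_) (h P hP m)⟩
    exact Metric.closedBall_subset_closedBall (le_of_not_ge hR)
  induction n with
  | zero =>
    refine ⟨volume (Metric.closedBall (0 : Fin 0 → ℂ) R), measure_closedBall_lt_top, ?_⟩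
    intro P _ m
    have h1 : ∀ y : Fin 0 → ℂ, MvPolynomial.eval y P = MvPolynomial.coeff m P := by
      intro y
      rw [MvPolynomial.eq_C_of_isEmpty P, MvPolynomial.eval_C, Subsingleton.elim m 0]
      simp
    simp only [h1, setLIntegral_const]
    rw [mul_comm]
  | succ n ih =>
    obtain ⟨Cn, hCn, hn⟩ := ih
    obtain ⟨C1, hC1, h1⟩ := sko1 d p hp hpd R
    refine ⟨C1 * Cn, ENNReal.mul_lt_top hC1 hCn, ?_⟩
    intro P hP m
    set G : (Fin (n + 1) → ℂ) → ℝ≥0∞ := (Metric.closedBall (0 : Fin (n + 1) → ℂ) R).indicator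
      (fun y => ‖MvPolynomial.eval y P‖ₑ ^ (-p)) with hG
    have hGm : Measurable G :=
      ((measurable_eval P).enorm.pow_const _).indicator Metric.isClosed_closedBall.measurableSet
    have hmp := (volume_preserving_piFinSuccAbove (fun _ : Fin (n + 1) => ℂ) 0).symm
    have h2 : ∫⁻ y in Metric.closedBall (0 : Fin (n + 1) → ℂ) R,
        ‖MvPolynomial.eval y P‖ₑ ^ (-p) =
        ∫⁻ y' : Fin n → ℂ, ∫⁻ t : ℂ, G (Fin.cons t y') := by
      rw [← lintegral_indicator Metric.isClosed_closedBall.measurableSet, ← hG,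
        ← hmp.lintegral_comp hGm]
      have h3 : (volume : Measure (ℂ × (Fin n → ℂ))) = (volume : Measure ℂ).prod volume := rfl
      rw [h3, lintegral_prod_symm]
      · refine lintegral_congr fun y' => lintegral_congr fun t => ?_
        congr 1
        exact Fin.insertNth_zero' t y'
      · exact (hGm.comp hmp.measurable).aemeasurable
    rw [h2]
    set f := MvPolynomial.finSuccEquiv ℂ n P with hf
    -- the monomial `m` is `cons (m 0) (tail m)`
    have hm : MvPolynomial.coeff m P = MvPolynomial.coeff m.tail (f.coeff (m 0)) := by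
      rw [hf, MvPolynomial.finSuccEquiv_coeff_coeff, Finsupp.cons_tail]
    have hdeg : ∀ i, (f.coeff (m 0)).degreeOf i ≤ d := fun i =>
      (MvPolynomial.degreeOf_coeff_finSuccEquiv P i (m 0)).trans (hP _)
    have hnat : f.natDegree ≤ d := by
      rw [hf, MvPolynomial.natDegree_finSuccEquiv]; exact hP 0
    have h4 : ∀ y' : Fin n → ℂ, ∫⁻ t : ℂ, G (Fin.cons t y') ≤
        (Metric.closedBall (0 : Fin n → ℂ) R).indicator
          (fun y' => C1 * ‖MvPolynomial.eval y' (f.coeff (m 0))‖ₑ ^ (-p)) y' := by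
      intro y'
      by_cases hy : y' ∈ Metric.closedBall (0 : Fin n → ℂ) R
      · rw [Set.indicator_of_mem hy]
        have h5 := h1 (f.map (MvPolynomial.eval y')) (Polynomial.natDegree_map_le.trans hnat) (m 0)
        rw [Polynomial.coeff_map] at h5
        refine le_trans ?_ h5
        rw [← lintegral_indicator Metric.isClosed_closedBall.measurableSet]
        apply lintegral_mono
        intro t
        by_cases ht : t ∈ Metric.closedBall (0 : ℂ) R
        · rw [Set.indicator_of_mem ht, hG]
          refine (Set.indicator_le_self _ _ _).trans (le_of_eq ?_)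
          simp only
          rw [MvPolynomial.eval_eq_eval_mv_eval']
        · rw [Set.indicator_of_notMem ht]
          show G (Fin.cons t y') ≤ 0
          rw [hG, Set.indicator_of_notMem]
          intro h
          apply ht
          rw [mem_closedBall_zero_iff] at h ⊢
          have := (pi_norm_le_iff_of_nonneg hR).mp h 0
          simpa using this
      · rw [Set.indicator_of_notMem hy]
        have h5 : ∀ t : ℂ, G (Fin.cons t y') = 0 := by
          intro t
          rw [hG, Set.indicator_of_notMem]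
          intro h
          apply hy
          rw [mem_closedBall_zero_iff] at h ⊢
          rw [pi_norm_le_iff_of_nonneg hR] at h ⊢
          intro i
          simpa using h i.succ
        simp [h5]
    refine (lintegral_mono h4).trans ?_
    rw [lintegral_indicator Metric.isClosed_closedBall.measurableSet, lintegral_const_mul, hm,
      mul_assoc]
    · exact mul_le_mul_right (hn _ hdeg _) _
    · exact (measurable_eval _).enorm.pow_const _

/-- sublevel sets -/
theorem sublevel (n d : ℕ) (p R : ℝ) (hp : 0 ≤ p) (hpd : p * d < 2) : ∃ C : ℝ≥0∞, C < ∞ ∧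
    ∀ P : MvPolynomial (Fin n) ℂ, (∀ i, P.degreeOf i ≤ d) → ∀ m, ∀ η : ℝ≥0∞,
      η ^ (-p) * volume {y ∈ Metric.closedBall (0 : Fin n → ℂ) R | ‖MvPolynomial.eval y P‖ₑ ≤ η} ≤
        C * ‖MvPolynomial.coeff m P‖ₑ ^ (-p) := by
  obtain ⟨C, hC, h⟩ := sko n d p R hp hpd
  refine ⟨C, hC, ?_⟩
  intro P hP m η
  refine le_trans ?_ (h P hP m)
  have hm : Measurable fun y : Fin n → ℂ => ‖MvPolynomial.eval y P‖ₑ ^ (-p) :=
    (measurable_eval P).enorm.pow_const _
  refine le_trans ?_ (mul_meas_ge_le_lintegral hm (η ^ (-p)))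
  refine mul_le_mul_right ?_ _
  rw [Measure.restrict_apply (measurableSet_le measurable_const hm)]
  apply measure_mono
  rintro y ⟨hy1, hy2⟩
  refine ⟨?_, hy1⟩
  show η ^ (-p) ≤ ‖MvPolynomial.eval y P‖ₑ ^ (-p)
  rw [ENNReal.rpow_neg, ENNReal.rpow_neg]
  exact ENNReal.inv_le_inv.mpr (ENNReal.rpow_le_rpow hy2 hp)

end Crest.Agent.R276.SkoA_567
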