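import Mathlib

/-!
# SKO-UNI (row 276), part C: the norm of a generic combination (helper317)

`lin_disj`: `L` algebraically closed in `K` (char 0), `w` independent over `L` ⟹ independent over the algebraic
closure of `L` inside `AlgebraicClosure K`.
`exists_null` (**NULL**, algebraic form): `y : Fin r → K`, `w : Fin s → K` independent over `L` and algebraic over
`L(y)`.  Then there are `P_0, …, P_d ∈ L[A][y]` with `∑_k P_k(A, y) (∑_i A_i w_i)^k = 0` in `K[A]`, and the
coefficients (in `L[A]`) of `P_0` generate an ideal containing a power of every variable `A_i`.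
-/


set_option autoImplicit false

noncomputable section

open MvPolynomial

namespace Crest.Agent.R276.SkoC_317

/-- linear disjointness: `L` algebraically closed in `K`, `w` independent over `L`, then `w` is independent over
the algebraic closure of `L` in `AlgebraicClosure K`. -/
theorem lin_disj {L K : Type*} [Field L] [Field K] [Algebra L K] [CharZero K]
    (hac : ∀ x : K, IsAlgebraic L x → x ∈ Set.range (algebraMap L K))
    {s : ℕ} (w : Fin s → K) (hw : LinearIndependent L w) (c : Fin s → AlgebraicClosure K)
    (hc : ∀ i, IsAlgebraic L (c i)) (h : ∑ i, c i * algebraMap K (AlgebraicClosure K) (w i) = 0) :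
    c = 0 := by
  classical
  by_contra hne
  -- minimal support
  have key : ∀ n : ℕ, ∀ c : Fin s → AlgebraicClosure K, (∀ i, IsAlgebraic L (c i)) →
      ∑ i, c i * algebraMap K (AlgebraicClosure K) (w i) = 0 →
      (Finset.univ.filter fun i => c i ≠ 0).card ≤ n → c = 0 := by
    intro n
    induction n with
    | zero =>
      intro c _ _ h0
      funext i
      by_contra hi
      have h1 : i ∈ Finset.univ.filter fun i => c i ≠ 0 := by simpa using hi
      rw [Finset.card_eq_zero.mp (Nat.le_zero.mp h0)] at h1
      exact absurd h1 (Finset.notMem_empty _)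
    | succ n ih =>
      intro c hc h hcard
      by_contra hne
      obtain ⟨i0, hi0⟩ : ∃ i, c i ≠ 0 := by
        by_contra hcon
        push Not at hcon
        exact hne (funext hcon)
      set c' : Fin s → AlgebraicClosure K := fun i => c i * (c i0)⁻¹ with hc'
      have hc'0 : c' i0 = 1 := mul_inv_cancel₀ hi0
      have hc'alg : ∀ i, IsAlgebraic L (c' i) := fun i => (hc i).mul (hc i0).inv
      have hrel : ∑ i, c' i * algebraMap K (AlgebraicClosure K) (w i) = 0 := by
        have : ∑ i, c' i * algebraMap K (AlgebraicClosure K) (w i) =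
            (c i0)⁻¹ * ∑ i, c i * algebraMap K (AlgebraicClosure K) (w i) := by
          rw [Finset.mul_sum]
          exact Finset.sum_congr rfl fun i _ => by rw [hc']; ring
        rw [this, h, mul_zero]
      have hfix : ∀ τ : AlgebraicClosure K ≃ₐ[K] AlgebraicClosure K, ∀ i, τ (c' i) = c' i := by
        intro τ
        have h1 : (fun i => τ (c' i) - c' i) = 0 := by
          refine ih _ (fun i => ?_) ?_ ?_
          · refine IsAlgebraic.sub ?_ (hc'alg i)
            have := (hc'alg i).algHom (τ.toAlgHom.restrictScalars L)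
            simpa using this
          · have h2 : ∑ i, τ (c' i) * algebraMap K (AlgebraicClosure K) (w i) = 0 := by
              have := congrArg τ hrel
              rw [map_sum, map_zero] at this
              simpa [map_mul] using this
            simp only [sub_mul, Finset.sum_sub_distrib, h2, hrel, sub_zero]
          · refine Nat.lt_succ_iff.mp (lt_of_lt_of_le (Finset.card_lt_card ?_) hcard)
            refine ⟨fun i hi => ?_, fun hsub => ?_⟩
            · simp only [Finset.mem_filter, Finset.mem_univ, true_and] at hi ⊢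
              intro hci
              apply hi
              simp [hc', hci]
            · have h3 : i0 ∈ Finset.univ.filter fun i => c i ≠ 0 := by simpa using hi0
              have h4 := hsub h3
              simp only [Finset.mem_filter, Finset.mem_univ, true_and, hc'0, map_one, sub_self,
                ne_eq, not_true_eq_false] at h4
        intro i
        have := congrFun h1 i
        exact sub_eq_zero.mp this
      have hmem : ∀ i, ∃ l : L, algebraMap K (AlgebraicClosure K) (algebraMap L K l) = c' i := by
        intro i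
        have h1 : c' i ∈ (⊥ : IntermediateField K (AlgebraicClosure K)) :=
          (InfiniteGalois.mem_bot_iff_fixed (c' i)).mpr fun τ => hfix τ i
        obtain ⟨k, hk⟩ := IntermediateField.mem_bot.mp h1
        have h2 : IsAlgebraic L k := by
          have h3 := hc'alg i
          rw [← hk] at h3
          exact (isAlgebraic_algebraMap_iff (FaithfulSMul.algebraMap_injective K (AlgebraicClosure K))).mp h3
        obtain ⟨l, hl⟩ := hac k h2
        exact ⟨l, by rw [hl, hk]⟩
      choose l hl using hmem
      have h5 : ∑ i, l i • w i = 0 := by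
        apply FaithfulSMul.algebraMap_injective K (AlgebraicClosure K)
        rw [map_zero, ← hrel, map_sum]
        exact Finset.sum_congr rfl fun i _ => by rw [Algebra.smul_def, map_mul, hl]
      have h6 := (Fintype.linearIndependent_iff.mp hw) l h5 i0
      have h7 := hl i0
      rw [h6, map_zero, map_zero, hc'0] at h7
      exact zero_ne_one h7
  exact hne (key _ c hc h le_rfl)

variable {F K : Type*} [Field F] [Field K] [Algebra F K]

/-- multiplication by `∑ A_i w_i` -/
def mulW {s : ℕ} (w : Fin s → K) : (Fin s → F) →ₗ[F] Module.End F K :=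
  (Algebra.lmul F K).toLinearMap ∘ₗ Fintype.linearCombination F w

theorem mulW_apply {s : ℕ} (w : Fin s → K) (A : Fin s → F) :
    mulW w A = Algebra.lmul F K (∑ i, A i • w i) := by
  simp [mulW, Fintype.linearCombination_apply]

theorem eval_map_range {R S : Type*} [CommSemiring R] [CommSemiring S] (f : R →+* S) {σ : Type*}
    (A : σ → R) (p : MvPolynomial σ R) :
    MvPolynomial.eval (fun i => f (A i)) (MvPolynomial.map f p) = f (MvPolynomial.eval A p) := by
  rw [MvPolynomial.eval_map]
  exact (MvPolynomial.eval₂_comp f A p).symm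

/-- the characteristic polynomial of the generic combination -/
theorem exists_char [CharZero K] [FiniteDimensional F K] {s : ℕ} (w : Fin s → K) :
    ∃ (d : ℕ) (χ : ℕ → MvPolynomial (Fin s) F),
      (∑ k ∈ Finset.range (d + 1), MvPolynomial.map (algebraMap F K) (χ k) *
        (∑ i, X i * C (w i)) ^ k = 0) ∧
      (∀ α : Fin s → AlgebraicClosure K, aeval α (χ 0) = 0 →
        ∃ σ : K →ₐ[F] AlgebraicClosure K, ∑ i, α i * σ (w i) = 0) := by
  classical
  have hF : CharZero F := (algebraMap F K).charZero_iff (algebraMap F K).injective |>.mpr inferInstance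
  set Q := (mulW (F := F) w).polyCharpoly (Pi.basisFun F (Fin s)) with hQ
  have hdeg : Q.natDegree = Module.finrank F K := LinearMap.polyCharpoly_natDegree _ _
  have hev : ∀ (A : Fin s → F) (k : ℕ), MvPolynomial.eval A (Q.coeff k) =
      (Algebra.lmul F K (∑ i, A i • w i)).charpoly.coeff k := by
    intro A k
    have := LinearMap.polyCharpoly_coeff_eval (mulW (F := F) w) (Pi.basisFun F (Fin s)) A k
    rw [mulW_apply] at this
    rw [← this]
    congr 1
  refine ⟨Module.finrank F K, fun k => Q.coeff k, ?_, ?_⟩
  · apply MvPolynomial.funext_set (fun _ => Set.range (algebraMap F K))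
      (fun _ => Set.infinite_range_of_injective (algebraMap F K).injective)
    intro x hx
    have hx' : ∀ i, ∃ a : F, algebraMap F K a = x i := fun i => hx i (Set.mem_univ _)
    choose A hA using hx'
    obtain rfl : x = fun i => algebraMap F K (A i) := funext fun i => (hA i).symm
    rw [map_zero, map_sum]
    have h1 : Polynomial.aeval (∑ i, A i • w i)
        (Algebra.lmul F K (∑ i, A i • w i)).charpoly = 0 := by
      apply Algebra.lmul_injective (R := F)
      rw [← Polynomial.aeval_algHom_apply, LinearMap.aeval_self_charpoly, map_zero]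
    have hd2 : (Algebra.lmul F K (∑ i, A i • w i)).charpoly.natDegree = Module.finrank F K :=
      LinearMap.charpoly_natDegree _
    rw [Polynomial.aeval_eq_sum_range, hd2] at h1
    rw [← h1]
    refine Finset.sum_congr rfl fun k _ => ?_
    rw [map_mul, map_pow, map_sum, Algebra.smul_def, ← hev A k, eval_map_range]
    congr 2
    exact Finset.sum_congr rfl fun i _ => by rw [map_mul, eval_X, eval_C, Algebra.smul_def]
  · intro α hα
    have hid : MvPolynomial.map (algebraMap F (AlgebraicClosure K)) (Q.coeff 0) =
        C ((-1) ^ Module.finrank F K) *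
          ∏ σ : K →ₐ[F] AlgebraicClosure K, ∑ i, X i * C (σ (w i)) := by
      apply MvPolynomial.funext_set (fun _ => Set.range (algebraMap F (AlgebraicClosure K)))
        (fun _ => Set.infinite_range_of_injective (algebraMap F (AlgebraicClosure K)).injective)
      intro x hx
      have hx' : ∀ i, ∃ a : F, algebraMap F (AlgebraicClosure K) a = x i :=
        fun i => hx i (Set.mem_univ _)
      choose A hA using hx'
      obtain rfl : x = fun i => algebraMap F (AlgebraicClosure K) (A i) :=
        funext fun i => (hA i).symm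
      rw [eval_map_range, hev A 0]
      have h2 : Algebra.norm F (∑ i, A i • w i) = (-1) ^ Module.finrank F K *
          (Algebra.lmul F K (∑ i, A i • w i)).charpoly.coeff 0 := by
        rw [Algebra.norm_apply]
        exact LinearMap.det_eq_sign_charpoly_coeff _
      have h3 : (Algebra.lmul F K (∑ i, A i • w i)).charpoly.coeff 0 =
          (-1) ^ Module.finrank F K * Algebra.norm F (∑ i, A i • w i) := by
        rw [h2, ← mul_assoc, ← pow_add, ← two_mul, pow_mul, neg_one_sq, one_pow, one_mul]
      rw [h3, map_mul, map_pow, map_neg, map_one, map_mul, eval_C, map_prod,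
        Algebra.norm_eq_prod_embeddings F (AlgebraicClosure K)]
      congr 1
      refine Finset.prod_congr rfl fun σ _ => ?_
      rw [map_sum, map_sum]
      exact Finset.sum_congr rfl fun i _ => by
        rw [map_mul, eval_X, eval_C, Algebra.smul_def, map_mul, AlgHom.commutes]
    have h4 : MvPolynomial.eval α (MvPolynomial.map (algebraMap F (AlgebraicClosure K))
        (Q.coeff 0)) = 0 := by
      rw [MvPolynomial.eval_map, ← MvPolynomial.aeval_def]
      exact hα
    rw [hid, map_mul, eval_C, map_prod, mul_eq_zero, Finset.prod_eq_zero_iff] at h4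
    rcases h4 with h4 | ⟨σ, _, h4⟩
    · exact absurd h4 (pow_ne_zero _ (neg_ne_zero.mpr one_ne_zero))
    · refine ⟨σ, ?_⟩
      rw [map_sum] at h4
      rw [← h4]
      exact Finset.sum_congr rfl fun i _ => by rw [map_mul, eval_X, eval_C]


section Null

/-- clearing denominators of finitely many elements -/
theorem exists_common {L F : Type*} [Field L] [Field F] [Algebra L F] {r : ℕ} (y : Fin r → F)
    (hy : ∀ t : F, ∃ p q : MvPolynomial (Fin r) L, aeval y q ≠ 0 ∧ t * aeval y q = aeval y p)
    (T : Finset F) :
    ∃ g : MvPolynomial (Fin r) L, aeval y g ≠ 0 ∧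
      ∀ t ∈ T, ∃ c : MvPolynomial (Fin r) L, aeval y c = aeval y g * t := by
  classical
  induction T using Finset.induction_on with
  | empty => exact ⟨1, by simp, by simp⟩
  | insert t T _ ih =>
    obtain ⟨g, hg, hgT⟩ := ih
    obtain ⟨p, q, hq, hpq⟩ := hy t
    refine ⟨g * q, by rw [map_mul]; exact mul_ne_zero hg hq, ?_⟩
    intro u hu
    rcases Finset.mem_insert.mp hu with rfl | hu
    · exact ⟨g * p, by rw [map_mul, map_mul, ← hpq]; ring⟩
    · obtain ⟨c, hc⟩ := hgT u hu
      exact ⟨c * q, by rw [map_mul, map_mul, hc]; ring⟩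

/-- evaluation of polynomials in `y` with coefficients in `L[A]` -/
def Th {R S : Type*} [CommSemiring R] [CommSemiring S] (f : R →+* S) {r s : ℕ} (y : Fin r → S) :
    MvPolynomial (Fin r) (MvPolynomial (Fin s) R) →+* MvPolynomial (Fin s) S :=
  eval₂Hom (MvPolynomial.map f) (fun j => C (y j))

theorem Th_map_C {R S : Type*} [CommSemiring R] [CommSemiring S] (f : R →+* S) {r s : ℕ}
    (y : Fin r → S) (c : MvPolynomial (Fin r) R) :
    Th (s := s) f y (MvPolynomial.map C c) = C (eval₂ f y c) := by
  rw [Th, coe_eval₂Hom, eval₂_map]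
  have h3 : (MvPolynomial.map f).comp (C : R →+* MvPolynomial (Fin s) R) =
      (C : S →+* MvPolynomial (Fin s) S).comp f := by
    ext1 l
    simp
  rw [h3, MvPolynomial.eval₂_comp_left]
  rfl

theorem Th_C {R S : Type*} [CommSemiring R] [CommSemiring S] (f : R →+* S) {r s : ℕ}
    (y : Fin r → S) (c : MvPolynomial (Fin s) R) :
    Th f y (C c) = MvPolynomial.map f c := by
  rw [Th, coe_eval₂Hom, eval₂_C]

variable {L F K : Type*} [Field L] [Field F] [Field K] [Algebra L F] [Algebra F K] [Algebra L K]
  [IsScalarTower L F K]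

theorem zero_locus [CharZero K] [FiniteDimensional F K]
    (hac : ∀ x : K, IsAlgebraic L x → x ∈ Set.range (algebraMap L K))
    {s : ℕ} (w : Fin s → K) (hw : LinearIndependent L w) (χ : MvPolynomial (Fin s) F)
    (hnorm : ∀ α : Fin s → AlgebraicClosure K, aeval α χ = 0 →
        ∃ σ : K →ₐ[F] AlgebraicClosure K, ∑ i, α i * σ (w i) = 0)
    (α : Fin s → AlgebraicClosure K) (hα : ∀ i, IsAlgebraic L (α i)) (h : aeval α χ = 0) :
    α = 0 := by
  have halg1 : Algebra.IsAlgebraic F (AlgebraicClosure K) :=
    Algebra.IsAlgebraic.trans F K (AlgebraicClosure K)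
  obtain ⟨σ, hσ⟩ := hnorm α h
  obtain ⟨τ, hτ⟩ := IsAlgClosed.surjective_domRestrict_of_isAlgebraic (K := F) (L := K)
    (E := AlgebraicClosure K) (M := AlgebraicClosure K) σ
  have hbij := Algebra.IsAlgebraic.algHom_bijective τ
  set τ' := AlgEquiv.ofBijective τ hbij with hτ'
  have hτσ : ∀ x : K, τ (algebraMap K (AlgebraicClosure K) x) = σ x := by
    intro x
    rw [← hτ]
    rfl
  set cc : Fin s → AlgebraicClosure K := fun i => τ'.symm (α i) with hcc
  have h12 : ∑ i, cc i * algebraMap K (AlgebraicClosure K) (w i) = 0 := by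
    apply τ'.injective
    rw [map_zero, map_sum, ← hσ]
    refine Finset.sum_congr rfl fun i _ => ?_
    rw [map_mul, hcc]
    simp only [AlgEquiv.apply_symm_apply]
    congr 1
    exact hτσ (w i)
  have hccalg : ∀ i, IsAlgebraic L (cc i) := fun i =>
    (hα i).algHom (τ'.symm.toAlgHom.restrictScalars L)
  have h15 := lin_disj hac w hw cc hccalg h12
  funext i
  have h16 : cc i = 0 := congrFun h15 i
  exact (map_eq_zero_iff τ'.symm τ'.symm.injective).mp h16

theorem core [CharZero K] [FiniteDimensional F K]
    (hac : ∀ x : K, IsAlgebraic L x → x ∈ Set.range (algebraMap L K))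
    {r s : ℕ} (y : Fin r → F)
    (hy : ∀ t : F, ∃ p q : MvPolynomial (Fin r) L, aeval y q ≠ 0 ∧ t * aeval y q = aeval y p)
    (w : Fin s → K) (hw : LinearIndependent L w) :
    ∃ (d : ℕ) (P : ℕ → MvPolynomial (Fin r) (MvPolynomial (Fin s) L)),
      (∑ k ∈ Finset.range (d + 1), Th (algebraMap L K) (fun j => algebraMap F K (y j)) (P k) *
        (∑ i, X i * C (w i)) ^ k = 0) ∧
      ∀ i : Fin s, ∃ (M : ℕ) (Q : (Fin r →₀ ℕ) →₀ MvPolynomial (Fin s) L),
        (Q.sum fun β q => q * coeff β (P 0)) = X i ^ M := by
  classical
  obtain ⟨d, χ, hrel, hnorm⟩ := exists_char (F := F) w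
  obtain ⟨g, hg, hgT⟩ := exists_common y hy
    ((Finset.range (d + 1)).biUnion fun k => (χ k).support.image fun m => (χ k).coeff m)
  have hc : ∀ k m, ∃ c : MvPolynomial (Fin r) L, k ∈ Finset.range (d + 1) →
      m ∈ (χ k).support → aeval y c = aeval y g * (χ k).coeff m := by
    intro k m
    by_cases h : k ∈ Finset.range (d + 1) ∧ m ∈ (χ k).support
    · obtain ⟨c, hc⟩ := hgT ((χ k).coeff m) (Finset.mem_biUnion.mpr
        ⟨k, h.1, Finset.mem_image_of_mem _ h.2⟩)
      exact ⟨c, fun _ _ => hc⟩
    · exact ⟨0, fun h1 h2 => absurd ⟨h1, h2⟩ h⟩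
  choose c hc using hc
  set P : ℕ → MvPolynomial (Fin r) (MvPolynomial (Fin s) L) := fun k =>
    ∑ m ∈ (χ k).support, MvPolynomial.map C (c k m) * C (monomial m 1) with hP
  have hev2 : ∀ p : MvPolynomial (Fin r) L, eval₂ (algebraMap L K) (fun j => algebraMap F K (y j)) p
      = algebraMap F K (aeval y p) := by
    intro p
    rw [aeval_def, MvPolynomial.eval₂_comp_left, ← IsScalarTower.algebraMap_eq]
    rfl
  refine ⟨d, P, ?_, ?_⟩
  · -- the relation
    have h1 : ∀ k ∈ Finset.range (d + 1), Th (algebraMap L K) (fun j => algebraMap F K (y j)) (P k) =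
        C (algebraMap F K (aeval y g)) * MvPolynomial.map (algebraMap F K) (χ k) := by
      intro k hk
      rw [hP]
      simp only [map_sum, map_mul]
      conv_rhs => rw [(χ k).as_sum]
      rw [map_sum, Finset.mul_sum]
      refine Finset.sum_congr rfl fun m hm => ?_
      rw [Th_map_C, Th_C, hev2, hc k m hk hm, map_monomial, map_monomial, map_one, map_mul,
        C_mul_monomial, C_mul_monomial, mul_one]
    calc ∑ k ∈ Finset.range (d + 1), Th (algebraMap L K) (fun j => algebraMap F K (y j)) (P k) *
          (∑ i, X i * C (w i)) ^ k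
        = C (algebraMap F K (aeval y g)) * ∑ k ∈ Finset.range (d + 1),
            MvPolynomial.map (algebraMap F K) (χ k) * (∑ i, X i * C (w i)) ^ k := by
          rw [Finset.mul_sum]
          refine Finset.sum_congr rfl fun k hk => ?_
          rw [h1 k hk, mul_assoc]
      _ = 0 := by rw [hrel, mul_zero]
  · -- the Nullstellensatz
    set I : Ideal (MvPolynomial (Fin s) L) := Ideal.span (Set.range fun β => coeff β (P 0)) with hI
    have hz : ∀ a ∈ zeroLocus (AlgebraicClosure L) I, a = 0 := by
      intro a ha
      set ι : AlgebraicClosure L →ₐ[L] AlgebraicClosure K := IsAlgClosed.lift with hι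
      set α : Fin s → AlgebraicClosure K := fun i => ι (a i) with hα
      have h1 : ∀ β, aeval α (coeff β (P 0)) = 0 := by
        intro β
        have h2 := ha (coeff β (P 0)) (Ideal.subset_span ⟨β, rfl⟩)
        have h3 : ι (aeval a (coeff β (P 0))) = aeval α (coeff β (P 0)) :=
          MvPolynomial.comp_aeval_apply a ι (coeff β (P 0))
        rw [← h3, h2, map_zero]
      set Ψ : MvPolynomial (Fin r) (MvPolynomial (Fin s) L) →+* AlgebraicClosure K :=
        eval₂Hom (aeval α : MvPolynomial (Fin s) L →ₐ[L] AlgebraicClosure K).toRingHom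
          (fun j => algebraMap F (AlgebraicClosure K) (y j)) with hΨ
      have h4 : Ψ (P 0) = 0 := by
        rw [hΨ, coe_eval₂Hom, eval₂_eq]
        refine Finset.sum_eq_zero fun β _ => ?_
        have : (aeval α : MvPolynomial (Fin s) L →ₐ[L] AlgebraicClosure K).toRingHom
          (coeff β (P 0)) = 0 := h1 β
        rw [this, zero_mul]
      have h0 : (0 : ℕ) ∈ Finset.range (d + 1) := Finset.mem_range.mpr (Nat.succ_pos d)
      have h7 : Ψ (P 0) = algebraMap F (AlgebraicClosure K) (aeval y g) * aeval α (χ 0) := by
        have h70 : aeval α (χ 0) = ∑ m ∈ (χ 0).support,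
            algebraMap F (AlgebraicClosure K) (coeff m (χ 0)) * ∏ i, α i ^ m i := by
          rw [aeval_def, eval₂_eq']
        rw [hP, h70, Finset.mul_sum]
        simp only [map_sum, map_mul]
        refine Finset.sum_congr rfl fun m hm => ?_
        have h8 : Ψ (MvPolynomial.map C (c 0 m)) =
            algebraMap F (AlgebraicClosure K) (aeval y (c 0 m)) := by
          rw [hΨ, coe_eval₂Hom, eval₂_map]
          have h9 : ((aeval α : MvPolynomial (Fin s) L →ₐ[L] AlgebraicClosure K).toRingHom).comp
              (C : L →+* MvPolynomial (Fin s) L) =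
              (algebraMap F (AlgebraicClosure K)).comp (algebraMap L F) := by
            ext1 l
            have h91 : (aeval α : MvPolynomial (Fin s) L →ₐ[L] AlgebraicClosure K) (C l) =
              algebraMap L (AlgebraicClosure K) l := MvPolynomial.aeval_C _ _
            change (aeval α : MvPolynomial (Fin s) L →ₐ[L] AlgebraicClosure K) (C l) = _
            rw [h91]
            exact IsScalarTower.algebraMap_apply L F (AlgebraicClosure K) l
          rw [h9, aeval_def, MvPolynomial.eval₂_comp_left]
          rfl
        have h10 : Ψ (C (monomial m 1)) = ∏ i, α i ^ m i := by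
          rw [hΨ, coe_eval₂Hom, eval₂_C]
          change (aeval α : MvPolynomial (Fin s) L →ₐ[L] AlgebraicClosure K) (monomial m 1) = _
          rw [aeval_monomial, map_one, one_mul, Finsupp.prod_fintype _ _ (fun i => pow_zero _)]
        rw [h8, h10, hc 0 m h0 hm, map_mul]
        ring
      rw [h7, mul_eq_zero] at h4
      have h11 : aeval α (χ 0) = 0 := by
        rcases h4 with h4 | h4
        · exact absurd ((map_eq_zero _).mp h4) hg
        · exact h4
      have hαalg : ∀ i, IsAlgebraic L (α i) := fun i =>
        (Algebra.IsAlgebraic.isAlgebraic (R := L) (a i)).algHom ι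
      have h16 := zero_locus hac w hw (χ 0) hnorm α hαalg h11
      funext i
      have h17 : α i = 0 := congrFun h16 i
      exact (map_eq_zero_iff ι ι.injective).mp h17
    intro i
    have h18 : X i ∈ I.radical := by
      rw [← vanishingIdeal_zeroLocus_eq_radical (K := AlgebraicClosure L) I]
      rw [mem_vanishingIdeal_iff]
      intro a ha
      rw [hz a ha, aeval_X]
      rfl
    obtain ⟨M, hM⟩ := h18
    obtain ⟨Q, hQ⟩ := (Finsupp.mem_span_range_iff_exists_finsupp).mp hM
    exact ⟨M, Q, hQ⟩

end Null


section Wrap

variable {L K : Type*} [Field L] [Field K] [Algebra L K]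

/-- clearing denominators of one element -/
theorem exists_frac {r : ℕ} (y : Fin r → K) (yF : Fin r → IntermediateField.adjoin L (Set.range y))
    (hyF : ∀ j, (yF j : K) = y j) (t : IntermediateField.adjoin L (Set.range y)) :
    ∃ p q : MvPolynomial (Fin r) L, aeval yF q ≠ 0 ∧ t * aeval yF q = aeval yF p := by
  have hev : ∀ p : MvPolynomial (Fin r) L, ((aeval yF p : IntermediateField.adjoin L (Set.range y)) : K)
      = aeval y p := by
    intro p
    have h := MvPolynomial.comp_aeval_apply yF (IntermediateField.val _) p
    have h2 : (fun i => (IntermediateField.adjoin L (Set.range y)).val (yF i)) = y := funext hyF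
    rw [h2] at h
    exact h
  obtain ⟨p, q, h⟩ := (IntermediateField.mem_adjoin_range_iff L y (t : K)).mp t.2
  by_cases hq : aeval y q = 0
  · refine ⟨0, 1, by simp, ?_⟩
    apply Subtype.ext
    rw [hq, div_zero] at h
    rw [IntermediateField.coe_mul, h]
    simp
  · refine ⟨p, q, fun h0 => hq (by rw [← hev q, h0]; rfl), ?_⟩
    apply Subtype.ext
    rw [IntermediateField.coe_mul, hev, hev, h, div_mul_cancel₀ _ hq]

/-- **(NULL), algebraic form** -/
theorem exists_null [CharZero K] (hac : ∀ x : K, IsAlgebraic L x → x ∈ Set.range (algebraMap L K))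
    {r s : ℕ} (y : Fin r → K) (w : Fin s → K)
    (hal : ∀ i, IsAlgebraic (IntermediateField.adjoin L (Set.range y)) (w i))
    (hw : LinearIndependent L w) :
    ∃ (d : ℕ) (P : ℕ → MvPolynomial (Fin r) (MvPolynomial (Fin s) L)),
      (∑ k ∈ Finset.range (d + 1), Th (algebraMap L K) y (P k) * (∑ i, X i * C (w i)) ^ k = 0) ∧
      ∀ i : Fin s, ∃ (M : ℕ) (Q : (Fin r →₀ ℕ) →₀ MvPolynomial (Fin s) L),
        (Q.sum fun β q => q * coeff β (P 0)) = X i ^ M := by
  classical
  let F := IntermediateField.adjoin L (Set.range y)
  let K1 := IntermediateField.adjoin F (Set.range w)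
  have hfin : FiniteDimensional F K1 :=
    IntermediateField.finiteDimensional_adjoin fun x hx => by
      obtain ⟨i, rfl⟩ := hx
      exact (hal i).isIntegral
  have hyF : ∀ j, y j ∈ F := fun j => IntermediateField.subset_adjoin _ _ ⟨j, rfl⟩
  have hwK : ∀ i, w i ∈ K1 := fun i => IntermediateField.subset_adjoin _ _ ⟨i, rfl⟩
  let w1 : Fin s → K1 := fun i => ⟨w i, hwK i⟩
  let yF : Fin r → F := fun j => ⟨y j, hyF j⟩
  have tow : IsScalarTower L F K1 := IsScalarTower.of_algebraMap_eq fun l => rfl
  have hmap : (algebraMap K1 K).comp (algebraMap L K1) = algebraMap L K := by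
    ext1 l
    rfl
  have tow2 : IsScalarTower L K1 K := IsScalarTower.of_algebraMap_eq' hmap.symm
  have hch : CharZero K1 := (algebraMap K1 K).charZero_iff (algebraMap K1 K).injective |>.mpr
    inferInstance
  have hacK1 : ∀ x : K1, IsAlgebraic L x → x ∈ Set.range (algebraMap L K1) := by
    intro x hx
    have h13 : IsAlgebraic L (algebraMap K1 K x) := hx.algebraMap
    obtain ⟨l, hl⟩ := hac _ h13
    exact ⟨l, (algebraMap K1 K).injective (by rw [← hl, ← hmap]; rfl)⟩
  have hwL : LinearIndependent L w1 := by
    apply LinearIndependent.of_comp (IsScalarTower.toAlgHom L K1 K).toLinearMap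
    exact hw
  obtain ⟨d, P, hrel, hnull⟩ := core (L := L) (F := F) (K := K1) hacK1 yF
    (fun t => exists_frac y yF (fun _ => rfl) t) w1 hwL
  refine ⟨d, P, ?_, hnull⟩
  have h1 := congrArg (MvPolynomial.map (algebraMap K1 K)) hrel
  rw [map_zero, map_sum] at h1
  rw [← h1]
  refine Finset.sum_congr rfl fun k _ => ?_
  rw [map_mul, map_pow, map_sum]
  congr 1
  · have h2 : (MvPolynomial.map (algebraMap K1 K)).comp
        (Th (s := s) (algebraMap L K1) fun j => algebraMap F K1 (yF j)) = Th (algebraMap L K) y := by
      apply MvPolynomial.ringHom_ext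
      · intro p
        rw [RingHom.comp_apply, Th_C, Th_C, MvPolynomial.map_map, hmap]
      · intro j
        rw [RingHom.comp_apply, Th, Th, coe_eval₂Hom, coe_eval₂Hom, eval₂_X, eval₂_X, map_C]
        rfl
    rw [← h2]
    rfl
  · congr 1
    exact Finset.sum_congr rfl fun i _ => by rw [map_mul, map_X, map_C]; rfl

end Wrap

end Crest.Agent.R276.SkoC_317
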