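import Mathlib
import Crest.Agent.R276.SkoP_845
import Crest.Agent.R276.SkoQ_425

/-!
# SKO (row 276), part R (helper845): main theorem on the fibres of relative models

* `sko` : for a family `u` of `L`-linearly independent pluricanonical forms of weight `N` there is `p0 > 0` (depending
  only on `u`) such that for `0 < p < p0`, on all sufficiently small relative models, the integrals
  `∫_{M_w} (∑ |u_i|)^((2+pN)/N) |∑ A_i u_i|^(-p)` and `∫_{M_w} |P^a v|^t |∑ A_i u_i|^(-p)` (`v` of weight `N1`,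
  `N1 t = 2 + pN`, `N1` arbitrary) are bounded by `C(w) ‖A‖^(-p)`, `C` locally bounded on the WHOLE base.
-/

set_option autoImplicit false
set_option linter.unusedSectionVars false

open Topology Filter MeasureTheory
open scoped ENNReal

noncomputable section

namespace Crest.Agent.R276.SkoR_845

open Crest.Agent.R271.Defs710 Crest.Agent.R271.Ho51
open Crest.Agent.R276.Mod1_987 Crest.Agent.R276.FKDefs_779 Crest.Agent.R276.SkoT_845
open Crest.Agent.R276.SkoM_845 Crest.Agent.R276.SkoN_845 Crest.Agent.R276.SkoP_845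
open Crest.Agent.R276.UHon_845

variable {L K : Type} [Field L] [Field K] [Algebra ℂ L] [Algebra ℂ K] [Algebra L K]
  [IsScalarTower ℂ L K] {r : ℕ}

lemma Units'.mono {m : ℕ} {R : RMdl L K m r} {AA AA' : Finset L} {BB BB' : Finset K}
    (h : Units' R AA' BB') (hA : AA ⊆ AA') (hB : BB ⊆ BB') : Units' R AA BB :=
  ⟨fun a ha => h.1 a (hA ha), fun b hb => h.2 b (hB hb)⟩

/-- **SKO** -/
theorem sko (hac : ∀ x : K, IsAlgebraic L x → x ∈ Set.range (algebraMap L K)) (hUH : UHon L K)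
    (bas : Module.Basis (Fin r) K (Ω[K⁄L])) {N : ℕ} (hN : 0 < N) {s : ℕ} {u : Fin s → K}
    (hu : LinearIndependent L u) (huP : ∀ i, Pluri L bas N (u i)) :
    ∃ (p0 : ℝ) (AA : Finset L) (BB : Finset K), 0 < p0 ∧ ∀ p : ℝ, 0 < p → p < p0 →
      ∀ (m : ℕ) (R : RMdl L K m r), Compat bas R → Units' R AA BB →
        ∀ u' : Fin s → R.MK.B, (∀ i, (u' i : K) = u i) →
          LB R u' p (fun y => (∑ i, ‖y (u' i)‖ₑ) ^ ((2 + p * N) / N)) ∧
          ∀ (v : R.MK.B) (N1 : ℕ) (t : ℝ), 0 < t → N1 * t = 2 + p * N → Pluri L bas N1 (v : K) →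
            ∃ (P : R.ML.B) (a0 : ℕ), P ≠ 0 ∧ ∀ (P' : R.ML.B), P ∣ P' → ∀ a : ℕ, a0 ≤ a →
              LB R u' p (fun y => ‖y (R.incl P' ^ a * v)‖ₑ ^ t) := by
  classical
  obtain ⟨Y, hY⟩ := exists_frames hUH bas
  obtain ⟨A0, hA0⟩ := lb_u hY hN huP
  obtain ⟨p0, hp0, AA1, BB1, hPE⟩ := SkoQ_425.exists_pe_all hac bas N Y (fun y hy => hY.jac_ne y hy) hu
  let AA : Finset L := A0 ∪ AA1
  let BB : Finset K := bb bas Y N u ∪ BB1
  have hhas : Has bas Y N u BB := has_bb Finset.subset_union_left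
  refine ⟨p0, AA, BB, hp0, fun p hp hpp m R hR hU u' hu' => ?_⟩
  have hPE' : ∀ y ∈ Y, PE bas N u y AA BB p := fun y hy =>
    hPE AA BB Finset.subset_union_right Finset.subset_union_right p hp.le hpp y hy
  refine ⟨hA0 AA BB Finset.subset_union_left hhas p hp.le hPE' m R hR hU u' hu', ?_⟩
  intro v N1 t ht hNt hv
  exact lb_v hY huP hhas hPE' R hR hU hu' v ht hNt hv

end Crest.Agent.R276.SkoR_845
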