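import Mathlib
import Crest.Agent.R276.SkoR_845
import Crest.Agent.R276.SkoE_317
import Crest.Agent.R276.RelC_870

/-!
# SKO (row 276), part S (helper845): `s`-fold fibre integrals of `SkelDefs_220`

* `lbS` : `∫_{M_z^s} ∏ g_j(x_j) |δ|^(-p)` is locally bounded if the `g_j` satisfy `LB`;
* `lb_hom` : `LB` for powers of homogeneous polynomials in the sections `u`; `lb_mono` for monomials;
* `ieps_lt` : `Ieps H N k u ε z (evs u P) < ∞` for EVERY `z`, `k`, `P` (helper464's `hSKO`);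
* `bound_family` : helper185's hypothesis (B).
-/

set_option autoImplicit false
set_option linter.unusedSectionVars false

open Topology Filter MeasureTheory
open scoped ENNReal

noncomputable section

namespace Crest.Agent.R276.SkoS_845

open Crest.Agent.R271 Crest.Agent.R271.Ho51
open Crest.Agent.R271.Rd692 hiding evs
open Crest.Agent.R271.Defs710 hiding glue
open Crest.Agent.R276.Mod1_987 Crest.Agent.R276.FKDefs_779 Crest.Agent.R276.SkoT_845
open Crest.Agent.R276.SkoM_845 Crest.Agent.R276.SkoN_845 Crest.Agent.R276.SkoP_845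
open Crest.Agent.R276.SkoR_845 Crest.Agent.R276.UHon_845
open Crest.Agent.R276.SkelDefs_220 Crest.Agent.R276.CInd_870 Crest.Agent.R276.RelC_870

variable {L K : Type} [Field L] [Field K] [Algebra ℂ L] [Algebra ℂ K] [Algebra L K]
  [IsScalarTower ℂ L K] {m r : ℕ} {ML : Mdl L m} {MK : Mdl K (m + r)} (H : Rel ML MK)

lemma measurable_evP (b : MK.B) : Measurable fun y : MK.Pts => y b := (continuous_ev b).measurable

/-- `s`-fold integrals -/
theorem lbS {s : ℕ} (u : Fin s → MK.B) {p : ℝ} (hp : 0 ≤ p) (g : Fin s → MK.Pts → ℝ≥0∞)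
    (hgm : ∀ j, Measurable (g j)) (hg : ∀ j, LB (rm H) u p (g j)) (z0 : ML.Pts) :
    ∃ C : ℝ≥0∞, C ≠ ⊤ ∧ ∀ᶠ z in 𝓝 z0,
      H.fintS s z (fun y => (∏ j, g j (y j)) * ‖dl u y‖ₑ ^ (-p)) ≤ C := by
  choose C hC h using fun j => hg j z0
  refine ⟨∏ j, C j, ENNReal.prod_ne_top fun j _ => hC j, ?_⟩
  have h1 : ∀ᶠ z in 𝓝 z0, ∀ j, ∀ μ : Measure ((rm H).Fib z), IsLeb μ →
      ∀ A : Fin s → ℂ, ∫⁻ x, g j x.val * ‖∑ i, A i * (x.val) (u i)‖ₑ ^ (-p) ∂μ ≤
        C j * ‖A‖ₑ ^ (-p) := by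
    rw [eventually_all]
    exact h
  filter_upwards [h1] with z hz
  obtain ⟨μ, hμ⟩ := Ho51.exists_leb (M := FibR H z)
  have := IsLeb.locallyFinite hμ
  have hval : Measurable fun y : FibR H z => y.val :=
    (RMdl.Fib.continuous_val (R := rm H) z).measurable
  have hum : ∀ i, Measurable fun y : FibR H z => (y.val) (u i) := fun i =>
    (measurable_evP (u i)).comp hval
  have hdl : Measurable fun y : Fin s → MK.Pts => dl u y := by
    unfold dl
    simp only [Matrix.det_apply]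
    refine Finset.measurable_sum _ fun σ _ => ?_
    refine Measurable.const_smul ?_ _
    refine Finset.measurable_prod _ fun i _ => ?_
    exact (measurable_evP _).comp (measurable_pi_apply _)
  have hG : Measurable fun y : Fin s → MK.Pts => (∏ j, g j (y j)) * ‖dl u y‖ₑ ^ (-p) := by
    refine Measurable.mul (Finset.measurable_prod _ fun j _ => ?_) (hdl.enorm.pow_const _)
    exact (hgm j).comp (measurable_pi_apply j)
  rw [fintS_pi H hμ hG]
  exact SkoE_317.det_int μ p hp s (fun i (y : FibR H z) => (y.val) (u i)) hum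
    (fun j (y : FibR H z) => g j y.val) (fun j => (hgm j).comp hval) C (fun j A => hz j μ hμ A)

/-- values of homogeneous polynomials -/
lemma enorm_evs_le {s k : ℕ} (u : Fin s → MK.B) {P : MvPolynomial (Fin s) ℂ}
    (hP : P.IsHomogeneous k) : ∃ c : ℝ≥0∞, c ≠ ⊤ ∧ ∀ y : MK.Pts,
      ‖evs u P y‖ₑ ≤ c * (∑ i, ‖y (u i)‖ₑ) ^ k := by
  refine ⟨∑ α ∈ P.support, ‖P.coeff α‖ₑ, ?_, fun y => ?_⟩
  · exact ENNReal.sum_ne_top.2 fun α _ => enorm_ne_top
  · unfold evs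
    rw [MvPolynomial.eval_eq', Finset.sum_mul]
    refine (enorm_sum_le _ _).trans (Finset.sum_le_sum fun α hα => ?_)
    rw [enorm_mul]
    refine mul_le_mul_right ?_ _
    have hdeg : ∑ i, α i = k := by
      have h1 := hP (MvPolynomial.mem_support_iff.1 hα)
      rw [Finsupp.weight_apply, Finsupp.sum_fintype _ _ (by simp)] at h1
      simpa using h1
    have h2 : ‖∏ i, (y (u i)) ^ α i‖ₑ = ∏ i, ‖y (u i)‖ₑ ^ α i := by
      rw [← ofReal_norm, norm_prod, ENNReal.ofReal_prod_of_nonneg (fun _ _ => norm_nonneg _)]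
      refine Finset.prod_congr rfl fun i _ => ?_
      rw [ofReal_norm, enorm_pow]
    rw [h2, ← hdeg, ← Finset.prod_pow_eq_pow_sum]
    refine Finset.prod_le_prod' fun i _ => pow_le_pow_left' ?_ _
    exact Finset.single_le_sum (f := fun i => ‖y (u i)‖ₑ) (fun _ _ => zero_le) (Finset.mem_univ i)

/-- `LB` for a power of a homogeneous polynomial in the sections -/
theorem lb_hom {s N k : ℕ} (u : Fin s → MK.B) {p t : ℝ}
    (hu : LB (rm H) u p (fun y => (∑ i, ‖y (u i)‖ₑ) ^ ((2 + p * N) / N)))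
    {P : MvPolynomial (Fin s) ℂ} (hP : P.IsHomogeneous k) (ht : 0 ≤ t)
    (hkt : k * t = (2 + p * N) / N) :
    LB (rm H) u p (fun y => ‖evs u P y‖ₑ ^ t) := by
  obtain ⟨c, hc, h⟩ := enorm_evs_le u hP
  refine hu.mono (c := c ^ t) (ENNReal.rpow_ne_top_of_nonneg ht hc) fun y => ?_
  calc ‖evs u P y‖ₑ ^ t ≤ (c * (∑ i, ‖y (u i)‖ₑ) ^ k) ^ t := ENNReal.rpow_le_rpow (h y) ht
    _ = c ^ t * (∑ i, ‖y (u i)‖ₑ) ^ ((2 + p * N) / N) := by
        rw [ENNReal.mul_rpow_of_nonneg _ _ ht, ← ENNReal.rpow_natCast, ← ENNReal.rpow_mul, hkt]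

/-- `LB` for a power of a monomial in the sections -/
theorem lb_mono {s N k : ℕ} (u : Fin s → MK.B) {p t : ℝ}
    (hu : LB (rm H) u p (fun y => (∑ i, ‖y (u i)‖ₑ) ^ ((2 + p * N) / N)))
    {α : Fin s → ℕ} (hα : ∑ i, α i = k) (ht : 0 ≤ t) (hkt : k * t = (2 + p * N) / N)
    {v : MK.B} (hv : v = ∏ i, u i ^ α i) :
    LB (rm H) u p (fun y => ‖y v‖ₑ ^ t) := by
  refine hu.mono (c := 1) ENNReal.one_ne_top fun y => ?_
  rw [one_mul]
  calc ‖y v‖ₑ ^ t ≤ ((∑ i, ‖y (u i)‖ₑ) ^ k) ^ t := by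
        refine ENNReal.rpow_le_rpow ?_ ht
        have h2 : ‖y v‖ₑ = ∏ i, ‖y (u i)‖ₑ ^ α i := by
          rw [hv, map_prod, ← ofReal_norm, norm_prod,
            ENNReal.ofReal_prod_of_nonneg (fun _ _ => norm_nonneg _)]
          refine Finset.prod_congr rfl fun i _ => ?_
          rw [ofReal_norm, map_pow, enorm_pow]
        rw [h2, ← hα, ← Finset.prod_pow_eq_pow_sum]
        refine Finset.prod_le_prod' fun i _ => pow_le_pow_left' ?_ _
        exact Finset.single_le_sum (f := fun i => ‖y (u i)‖ₑ) (fun _ _ => zero_le)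
          (Finset.mem_univ i)
    _ = (∑ i, ‖y (u i)‖ₑ) ^ ((2 + p * N) / N) := by
        rw [← ENNReal.rpow_natCast, ← ENNReal.rpow_mul, hkt]

/-- **finiteness of `Ieps` at EVERY point** -/
theorem ieps_lt {s N : ℕ} (hN : 0 < N) (u : Fin s → MK.B) {ε : ℝ} (hε : 0 ≤ ε)
    (hu : LB (rm H) u (2 * ε) (fun y => (∑ i, ‖y (u i)‖ₑ) ^ ((2 + 2 * ε * N) / N)))
    (z : ML.Pts) {k : ℕ} (hk : 0 < k) {P : MvPolynomial (Fin s) ℂ} (hP : P.IsHomogeneous k) :
    Ieps H N k u ε z (evs u P) < ⊤ := by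
  have hN0 : (0 : ℝ) < N := by exact_mod_cast hN
  have hk0 : (0 : ℝ) < k := by exact_mod_cast hk
  have ht : 0 ≤ 2 * (1 + ε * N) / (k * N) := by positivity
  have h1 := lb_hom H u hu hP (t := 2 * (1 + ε * N) / (k * N)) ht (by field_simp)
  have hm : Measurable fun y : MK.Pts => ‖evs u P y‖ₑ ^ (2 * (1 + ε * N) / (k * N)) := by
    refine Measurable.pow_const (Measurable.enorm ?_) _
    unfold evs
    simp only [MvPolynomial.eval_eq']
    refine Finset.measurable_sum _ fun α _ => ?_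
    refine Measurable.const_mul ?_ _
    exact Finset.measurable_prod _ fun i _ => (measurable_evP (u i)).pow_const _
  obtain ⟨C, hC, h2⟩ := lbS H u (p := 2 * ε) (by positivity)
    (fun _ y => ‖evs u P y‖ₑ ^ (2 * (1 + ε * N) / (k * N))) (fun _ => hm) (fun _ => h1) z
  exact lt_of_le_of_lt h2.self_of_nhds hC.lt_top

/-- **helper185's hypothesis (B)** -/
theorem bound_family {s n : ℕ} (u : Fin s → MK.B) {ε t : ℝ} (hε : 0 ≤ ε) (v : Fin n → MK.B)
    (hv : ∀ i, LB (rm H) u (2 * ε) (fun y => ‖y (v i)‖ₑ ^ t)) (z0 : ML.Pts) :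
    ∃ C : ℝ≥0∞, C ≠ ⊤ ∧ ∀ᶠ z in 𝓝 z0, ∀ I : Fin s → Fin n,
      H.fintS s z (fun y => (∏ j, ‖y j (v (I j))‖ₑ ^ t) * ‖dl u y‖ₑ ^ (-(2 * ε))) ≤ C := by
  classical
  have h1 : ∀ I : Fin s → Fin n, ∃ C : ℝ≥0∞, C ≠ ⊤ ∧ ∀ᶠ z in 𝓝 z0,
      H.fintS s z (fun y => (∏ j, ‖y j (v (I j))‖ₑ ^ t) * ‖dl u y‖ₑ ^ (-(2 * ε))) ≤ C := fun I =>
    lbS H u (p := 2 * ε) (by positivity) (fun j y => ‖y (v (I j))‖ₑ ^ t)
      (fun j => (measurable_evP _).enorm.pow_const _) (fun j => hv (I j)) z0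
  choose C hC h using h1
  refine ⟨∑ I, C I, ENNReal.sum_ne_top.2 fun I _ => hC I, ?_⟩
  have h2 : ∀ᶠ z in 𝓝 z0, ∀ I, H.fintS s z
      (fun y => (∏ j, ‖y j (v (I j))‖ₑ ^ t) * ‖dl u y‖ₑ ^ (-(2 * ε))) ≤ C I := by
    rw [eventually_all]
    exact h
  filter_upwards [h2] with z hz I
  exact (hz I).trans (Finset.single_le_sum (f := C) (fun _ _ => zero_le) (Finset.mem_univ I))

lemma rm_incl (b : ML.B) : (rm H).incl b = H.incl b := Subtype.ext rfl

/-- **SKO, FINAL FORM.**  `ε0`, `AA`, `BB` depend only on the sections `u`, not on the weight `N1` and not on the model;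
both conclusions hold at EVERY point of the base. -/
theorem sko_final (hac : ∀ x : K, IsAlgebraic L x → x ∈ Set.range (algebraMap L K)) (hUH : UHon L K)
    (bas : Module.Basis (Fin r) K (Ω[K⁄L])) {N : ℕ} (hN : 0 < N) {s : ℕ} {u : Fin s → K}
    (hu : LinearIndependent L u) (huP : ∀ i, Pluri L bas N (u i)) :
    ∃ (ε0 : ℝ) (AA : Finset L) (BB : Finset K), 0 < ε0 ∧ ∀ ε : ℝ, 0 < ε → ε < ε0 →
      ∀ {m : ℕ} {ML : Mdl L m} {MK : Mdl K (m + r)} (H : Rel ML MK), IsRelBasis MK bas →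
        Units' (rm H) AA BB → ∀ u' : Fin s → MK.B, (∀ i, (u' i : K) = u i) →
          (∀ (z : ML.Pts) (k : ℕ) (P : MvPolynomial (Fin s) ℂ), 0 < k → P.IsHomogeneous k →
            Ieps H N k u' ε z (evs u' P) < ⊤) ∧
          ∀ (N' N1 k : ℕ), 0 < N' → (N1 : ℝ) = N' * (1 + ε * N) → N1 = N * k →
            ∀ (n' : ℕ) (v : Fin n' → MK.B), (∀ i, Pluri L bas N1 (v i : K)) →
              ∃ (P : ML.B) (a0 : ℕ), P ≠ 0 ∧ ∀ P' : ML.B, P ∣ P' → ∀ a : ℕ, a0 ≤ a →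
                ∀ (n : ℕ) (w : Fin n → MK.B),
                  (∀ i, (∃ α : Fin s → ℕ, ∑ j, α j = k ∧ w i = ∏ j, u' j ^ α j) ∨
                    ∃ j, w i = H.incl P' ^ a * v j) →
                  ∀ z0 : ML.Pts, ∃ C : ℝ≥0∞, C ≠ ⊤ ∧ ∀ᶠ z in 𝓝 z0, ∀ I : Fin s → Fin n,
                    H.fintS s z (fun y => (∏ j, ‖y j (w (I j))‖ₑ ^ (2 / (N' : ℝ))) *
                      ‖dl u' y‖ₑ ^ (-(2 * ε))) ≤ C := by
  classical
  obtain ⟨p0, AA, BB, hp0, hmain⟩ := sko hac hUH bas hN hu huP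
  refine ⟨p0 / 2, AA, BB, by positivity, fun ε hε hε0 m ML MK H hb hU u' hu' => ?_⟩
  obtain ⟨h1, h2⟩ := hmain (2 * ε) (by positivity) (by linarith) m (rm H) (fun j => hb j) hU u' hu'
  refine ⟨fun z k P hk hP => ieps_lt H hN u' hε.le h1 z hk hP, ?_⟩
  intro N' N1 k hN' hN1 hk n' v hv
  have hN'0 : (0 : ℝ) < N' := by exact_mod_cast hN'
  have hN0 : (0 : ℝ) < N := by exact_mod_cast hN
  have ht : (0 : ℝ) < 2 / N' := by positivity
  have hNt : (N1 : ℝ) * (2 / N') = 2 + 2 * ε * N := by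
    rw [hN1]; field_simp
  have hkt : (k : ℝ) * (2 / N') = (2 + 2 * ε * N) / N := by
    have h3 : (N1 : ℝ) = N * k := by rw [hk]; push_cast; ring
    rw [h3] at hNt
    rw [eq_div_iff hN0.ne', ← hNt]
    ring
  choose P a0 hP0 hP using fun j => h2 (v j) N1 (2 / N') ht hNt (hv j)
  refine ⟨∏ j, P j, ∑ j, a0 j, Finset.prod_ne_zero_iff.2 fun j _ => hP0 j, ?_⟩
  intro P' hPP' a ha n w hw z0
  refine bound_family H u' hε.le w (fun i => ?_) z0
  rcases hw i with ⟨α, hα, hwα⟩ | ⟨j, hwj⟩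
  · exact lb_mono H u' h1 hα ht.le hkt hwα
  · rw [hwj, ← rm_incl]
    exact hP j P' ((Finset.dvd_prod_of_mem P (Finset.mem_univ j)).trans hPP') a
      ((Finset.single_le_sum (f := a0) (fun _ _ => Nat.zero_le _) (Finset.mem_univ j)).trans ha)

end Crest.Agent.R276.SkoS_845
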