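import Mathlib
import Crest.Agent.R276.K4b_817

/-!
# R276 / IPC: the weak Kähler identity (`stab` of `HsB_817.Types`) at one parameter value

`F : FB V X` flat bundle, `T` a field of grading operators with `[T, ∂T] = -∂T`, `[T, ∂̄T] = ∂̄T`
(flat connection).  If `T φ = q φ` then `∂φ` has types `q, q-1` and `∂̄φ` has types `q, q+1`; so the
one-form `(∂φ, ∂̄φ)` has total types `q, q+1`.
-/

set_option autoImplicit false
set_option linter.unusedSectionVars false

open Set Filter Topology MeasureTheory UniformSpace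
open scoped ContDiff ComplexConjugate

namespace Crest.Agent.R276.Stab_817

open Crest.Agent.R276.VCalc_442 Crest.Agent.R276.IpcGr_975 Crest.Agent.R276.IpcG1_975
  Crest.Agent.R276.HsB_817 Crest.Agent.R276.K4_817 Crest.Agent.R276.K4b_817

variable {V : Type*} [NormedAddCommGroup V] [NormedSpace ℂ V] {X : Set ℂ}

/-! ### linear algebra of a grading operator -/

/-- components of an eigenvector -/
lemma pr_eig {w : ℕ} {T : V →L[ℂ] V} (hT : Sp w T) {y : V} {l : ℂ} (hy : T y = l • y) (p : ℕ)
    (hp : l ≠ (p : ℂ)) : pr w p T y = 0 := by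
  have h1 : (pr w p T * T) y = ((p : ℂ) • pr w p T) y := by rw [pr_mul_T hT]
  have h2 : pr w p T (l • y) = (p : ℂ) • pr w p T y := by
    rw [← hy]
    exact h1
  rw [map_smul] at h2
  have h3 : (l - (p : ℂ)) • pr w p T y = 0 := by rw [sub_smul, h2, sub_self]
  rcases smul_eq_zero.mp h3 with h | h
  · exact absurd (sub_eq_zero.mp h) hp
  · exact h

lemma sum_pr_apply {w : ℕ} {T : V →L[ℂ] V} (hT : Sp w T) (y : V) :
    ∑ p ∈ Finset.range (w + 1), pr w p T y = y := by
  have h := sum_pr hT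
  have h2 := congrArg (fun A : V →L[ℂ] V => A y) h
  simpa [sum_apply] using h2

lemma pr_self {w : ℕ} {T : V →L[ℂ] V} (hT : Sp w T) {y : V} {q : ℕ} (hq : q ≤ w)
    (hy : T y = (q : ℂ) • y) : pr w q T y = y := by
  conv_rhs => rw [← sum_pr_apply hT y]
  rw [Finset.sum_eq_single q]
  · intro p _ hne
    exact pr_eig hT hy p (by exact_mod_cast (Ne.symm hne))
  · intro h
    exact absurd (Finset.mem_range.mpr (Nat.lt_succ_of_le hq)) h

lemma eig_zero {w : ℕ} {T : V →L[ℂ] V} (hT : Sp w T) {y : V} {l : ℂ} (hy : T y = l • y)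
    (hl : ∀ p : ℕ, p ≤ w → l ≠ (p : ℂ)) : y = 0 := by
  rw [← sum_pr_apply hT y]
  refine Finset.sum_eq_zero fun p hp => ?_
  exact pr_eig hT hy p (hl p (by simpa [Nat.lt_succ_iff] using hp))

/-- projector on the total type `P` of one-forms `(a, b) = a dx + b dx̄` -/
noncomputable def tp (w : ℕ) (T : V →L[ℂ] V) (P : ℕ) : (V × V) →L[ℂ] (V × V) :=
  (if P = 0 then 0 else pr w (P - 1) T).prodMap (pr w P T)

lemma tp_apply (w : ℕ) (T : V →L[ℂ] V) (P : ℕ) (a b : V) :
    tp w T P (a, b) = ((if P = 0 then 0 else pr w (P - 1) T a), pr w P T b) := by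
  unfold tp
  by_cases hP : P = 0 <;> simp [hP]

/-- the algebraic core -/
lemma tp_split {w : ℕ} {T A B : V →L[ℂ] V} (hT : Sp w T) {q : ℕ} (hq : q ≤ w) {f v u : V}
    (hA : T * A - A * T = -A) (hB : T * B - B * T = B)
    (hf : T f = (q : ℂ) • f) (hv : A f + T v = (q : ℂ) • v) (hu : B f + T u = (q : ℂ) • u) :
    tp w T q (v, u) + tp w T (q + 1) (v, u) = (v, u) := by
  set y := A f with hy
  set x := B f with hx
  have hTv : T v = (q : ℂ) • v - y := eq_sub_of_add_eq' hv
  have hTu : T u = (q : ℂ) • u - x := eq_sub_of_add_eq' hu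
  have hTy : T y = ((q : ℂ) - 1) • y := by
    have h1 := congrArg (fun Z : V →L[ℂ] V => Z f) hA
    have h2 : T (A f) - A (T f) = -(A f) := h1
    rw [hf, map_smul, ← hy] at h2
    rw [sub_smul, one_smul]
    have h3 : T y = (q : ℂ) • y + -y := by
      rw [← h2]
      abel
    rw [h3]
    abel
  have hTx : T x = ((q : ℂ) + 1) • x := by
    have h1 := congrArg (fun Z : V →L[ℂ] V => Z f) hB
    have h2 : T (B f) - B (T f) = B f := h1
    rw [hf, map_smul, ← hx] at h2
    rw [add_smul, one_smul]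
    have h3 : T x = (q : ℂ) • x + x := by
      nth_rw 3 [← h2]
      abel
    exact h3
  -- `v - y` and `u + x` have eigenvalue `q`
  have hvy : T (v - y) = (q : ℂ) • (v - y) := by
    rw [map_sub, hTv, hTy]
    module
  have hux : T (u + x) = (q : ℂ) • (u + x) := by
    rw [map_add, hTu, hTx]
    module
  have hv1 : pr w q T (v - y) = v - y := pr_self hT hq hvy
  have hu1 : pr w q T (u + x) = u + x := pr_self hT hq hux
  have hy1 : pr w q T y = 0 := pr_eig hT hTy q (by
    intro h
    have : (1 : ℂ) = 0 := by linear_combination -h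
    exact one_ne_zero this)
  have hx1 : pr w q T x = 0 := pr_eig hT hTx q (by
    intro h
    have : (1 : ℂ) = 0 := by linear_combination h
    exact one_ne_zero this)
  have hv2 : pr w q T v = v - y := by
    have : pr w q T v = pr w q T (v - y) + pr w q T y := by rw [← map_add, sub_add_cancel]
    rw [this, hv1, hy1, add_zero]
  have hu2 : pr w q T u = u + x := by
    have : pr w q T u = pr w q T (u + x) - pr w q T x := by rw [← map_sub, add_sub_cancel_right]
    rw [this, hu1, hx1, sub_zero]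
  -- the other components
  have hv3 : (if q = 0 then 0 else pr w (q - 1) T v) = y := by
    by_cases h0 : q = 0
    · rw [if_pos h0]
      symm
      refine eig_zero hT hTy fun p _ h => ?_
      rw [h0] at h
      have h1 : (-1 : ℝ) = (p : ℝ) := by
        have h2 := congrArg Complex.re h
        simpa using h2
      have h3 : (0 : ℝ) ≤ (p : ℝ) := Nat.cast_nonneg p
      linarith
    · rw [if_neg h0]
      obtain ⟨r, rfl⟩ : ∃ r, q = r + 1 := ⟨q - 1, by omega⟩
      have e1 : ((r + 1 : ℕ) : ℂ) - 1 = (r : ℂ) := by push_cast; ring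
      rw [e1] at hTy
      have h1 : pr w r T (v - y) = 0 := pr_eig hT hvy r (by
        intro h
        have h2 : ((r + 1 : ℕ) : ℂ) = (r : ℂ) := h
        have : r + 1 = r := by exact_mod_cast h2
        omega)
      have h2 : pr w r T y = y := pr_self hT (by omega) hTy
      show pr w (r + 1 - 1) T v = y
      rw [Nat.add_sub_cancel]
      have : pr w r T v = pr w r T (v - y) + pr w r T y := by rw [← map_add, sub_add_cancel]
      rw [this, h1, h2, zero_add]
  have hu3 : pr w (q + 1) T u = -x := by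
    have h1 : pr w (q + 1) T (u + x) = 0 := pr_eig hT hux (q + 1) (by
      intro h
      have : q = q + 1 := by exact_mod_cast h
      omega)
    have h0 : pr w (q + 1) T u = pr w (q + 1) T (u + x) - pr w (q + 1) T x := by
      rw [← map_sub, add_sub_cancel_right]
    have e1 : (q : ℂ) + 1 = ((q + 1 : ℕ) : ℂ) := by push_cast; ring
    by_cases hqw : q + 1 ≤ w
    · have h2 : pr w (q + 1) T x = x := pr_self hT hqw (by rw [hTx, e1])
      rw [h0, h1, h2, zero_sub]
    · have h2 : x = 0 := by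
        refine eig_zero hT hTx fun p hp h => ?_
        rw [e1] at h
        have : q + 1 = p := by exact_mod_cast h
        omega
      rw [h0, h1, h2, map_zero, sub_zero, neg_zero]
  rw [tp_apply, tp_apply, hv3, hu2, if_neg (Nat.succ_ne_zero q), Nat.add_sub_cancel, hv2, hu3]
  ext
  · show y + (v - y) = v
    abel
  · show (u + x) + -x = u
    abel

/-! ### sections -/

variable {F : FB V X} {T : ℂ → (V →L[ℂ] V)} {w : ℕ}

lemma smO_mul {A B : ℂ → (V →L[ℂ] V)} (hA : F.SmO A) (hB : F.SmO B) :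
    F.SmO (fun x => A x * B x) := by
  intro z hz
  obtain ⟨U, hU⟩ := F.exists_nb hz
  have h1 : F.trO z (fun x => A x * B x) =ᶠ[𝓝 z] fun y => F.trO z A y * F.trO z B y := by
    filter_upwards [hU.op.mem_nhds hU.mem] with y hy
    unfold FB.trO
    have h2 := hU.inv hy hU.mem
    calc F.P z y * (A y * B y) * F.P y z = F.P z y * A y * 1 * B y * F.P y z := by
          rw [mul_one]
          simp only [mul_assoc]
      _ = F.P z y * A y * (F.P y z * F.P z y) * B y * F.P y z := by rw [h2]
      _ = _ := by simp only [mul_assoc]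
  exact ((hA z hz).mul (hB z hz)).congr_of_eventuallyEq h1

lemma smO_add {A B : ℂ → (V →L[ℂ] V)} (hA : F.SmO A) (hB : F.SmO B) :
    F.SmO (fun x => A x + B x) := by
  intro z hz
  have : F.trO z (fun x => A x + B x) = fun y => F.trO z A y + F.trO z B y := by
    funext y
    unfold FB.trO
    rw [mul_add, add_mul]
  rw [this]
  exact (hA z hz).add (hB z hz)

lemma smO_smul {A : ℂ → (V →L[ℂ] V)} (hA : F.SmO A) (c : ℂ) : F.SmO (fun x => c • A x) := by
  intro z hz
  have : F.trO z (fun x => c • A x) = fun y => c • F.trO z A y := by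
    funext y
    unfold FB.trO
    rw [mul_smul_comm, smul_mul_assoc]
  rw [this]
  exact (hA z hz).const_smul c

lemma smO_one : F.SmO (fun _ => (1 : V →L[ℂ] V)) := by
  intro z hz
  obtain ⟨U, hU⟩ := F.exists_nb hz
  refine (contDiffAt_const (c := (1 : V →L[ℂ] V))).congr_of_eventuallyEq ?_
  filter_upwards [hU.op.mem_nhds hU.mem] with y hy
  unfold FB.trO
  rw [mul_one]
  exact hU.inv hU.mem hy

/-- polynomials of a smooth field are smooth -/
lemma smO_aeval (hT : F.SmO T) (f : Polynomial ℂ) : F.SmO (fun x => Polynomial.aeval (T x) f) := by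
  induction f using Polynomial.induction_on' with
  | add f g hf hg =>
    simp only [map_add]
    exact smO_add hf hg
  | monomial n a =>
    have h1 : ∀ n : ℕ, F.SmO (fun x => T x ^ n) := by
      intro n
      induction n with
      | zero => simpa using smO_one (F := F)
      | succ n ih =>
        simp only [pow_succ]
        exact smO_mul ih hT
    have h2 : (fun x => Polynomial.aeval (T x) (Polynomial.monomial n a)) =
        fun x => a • T x ^ n := by
      funext x
      rw [Polynomial.aeval_monomial, Algebra.smul_def]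
    rw [h2]
    exact smO_smul (h1 n) a

lemma smO_pr (hT : F.SmO T) (q : ℕ) : F.SmO (fun x => pr w q (T x)) := smO_aeval hT _

/-- `d1`, `d2` of a component -/
lemma comp_split (hsm : F.SmO T) (hsp : ∀ z ∈ X, Sp w (T z))
    (tr1 : ∀ z ∈ X, T z * F.D1 T z - F.D1 T z * T z = - F.D1 T z)
    (tr2 : ∀ z ∈ X, T z * F.D2 T z - F.D2 T z * T z = F.D2 T z)
    {φ : ℂ → V} (hφ : F.Sm φ) {q : ℕ} (hq : q ≤ w) (he : ∀ z ∈ X, T z (φ z) = (q : ℂ) • φ z)
    {z : ℂ} (hz : z ∈ X) :
    tp w (T z) q (F.d1 φ z, F.d2 φ z) + tp w (T z) (q + 1) (F.d1 φ z, F.d2 φ z) =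
      (F.d1 φ z, F.d2 φ z) := by
  have hcong : F.tr z (fun z => T z (φ z)) =ᶠ[𝓝 z] F.tr z (fun z => (q : ℂ) • φ z) := by
    filter_upwards [F.op.mem_nhds hz] with y hy
    unfold FB.tr
    simp only [he y hy]
  have h1 : F.D1 T z (φ z) + T z (F.d1 φ z) = (q : ℂ) • F.d1 φ z := by
    rw [← FB.d1_app hsm hφ hz]
    have : F.d1 (fun z => T z (φ z)) z = F.d1 ((q : ℂ) • φ) z := by
      unfold FB.d1
      exact dW_congr hcong 1
    rw [this, FB.d1_smul hφ _ hz]
  have h2 : F.D2 T z (φ z) + T z (F.d2 φ z) = (q : ℂ) • F.d2 φ z := by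
    rw [← FB.d2_app hsm hφ hz]
    have : F.d2 (fun z => T z (φ z)) z = F.d2 ((q : ℂ) • φ) z := by
      unfold FB.d2
      exact dB_congr hcong 1
    rw [this, FB.d2_smul hφ _ hz]
  exact tp_split (hsp z hz) hq (tr1 z hz) (tr2 z hz) (he z hz) h1 h2

/-! ### the form bundle -/

/-- `M` is a metric on the bundle of one-forms `(a, b)` with values in `F` -/
def FormOf (M : MB (V × V) X) (F : FB V X) : Prop :=
  ∀ x y u, M.P x y u = (F.P x y u.1, F.P x y u.2)

variable {M : MB (V × V) X}

lemma tr_pair (hM : FormOf M F) (z : ℂ) (a b : ℂ → V) :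
    M.tr z (fun y => (a y, b y)) = fun y => (F.tr z a y, F.tr z b y) := by
  funext y
  unfold FB.tr
  rw [hM]

lemma sm_pair (hM : FormOf M F) {a b : ℂ → V} (ha : F.Sm a) (hb : F.Sm b) :
    M.Sm (fun y => (a y, b y)) := by
  intro z hz
  rw [tr_pair hM]
  exact (ha z hz).prodMk (hb z hz)

/-- the differential of a section -/
noncomputable def dd (F : FB V X) (f : ℂ → V) (z : ℂ) : V × V := (F.d1 f z, F.d2 f z)

lemma dd_mem (hM : FormOf M F) {f : ℂ → V} (hf : f ∈ F.A0) : dd F f ∈ M.A0 := by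
  have h1 := FB.d1_mem hf
  have h2 := FB.d2_mem hf
  refine ⟨sm_pair hM h1.1 h2.1, ?_⟩
  obtain ⟨K, hK, hKc, h0⟩ := h1.2
  obtain ⟨K', hK', hKc', h0'⟩ := h2.2
  refine ⟨K ∪ K', union_subset hK hK', hKc.union hKc', fun x hx => ?_⟩
  unfold dd
  rw [h0 x (fun h => hx (Or.inl h)), h0' x (fun h => hx (Or.inr h))]
  rfl

/-- the class of `D f` in `L²` -/
noncomputable def De (hM : FormOf M F) (f : ℂ → V) (hf : f ∈ F.A0) : M.L2 :=
  ((M.s0 (dd F f) (dd_mem hM hf) : M.H0) : M.L2)

/-- `f ↦ D f` as a set -/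
def DSet (hM : FormOf M F) : Set M.L2 := {u | ∃ f, ∃ hf : f ∈ F.A0, u = De hM f hf}

/-- type projectors on forms -/
noncomputable def tpf (w : ℕ) (T : ℂ → (V →L[ℂ] V)) (P : ℕ) (x : ℂ) : (V × V) →L[ℂ] (V × V) :=
  tp w (T x) P

lemma De_sum (hM : FormOf M F) {ι : Type*} (s : Finset ι) {f : ι → ℂ → V}
    (hf : ∀ i ∈ s, f i ∈ F.A0) (hs : (fun z => ∑ i ∈ s, f i z) ∈ F.A0) :
    De hM (fun z => ∑ i ∈ s, f i z) hs ∈ Submodule.span ℂ
      {u | ∃ i ∈ s, ∃ h : f i ∈ F.A0, u = De hM (f i) h} := by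
  classical
  induction s using Finset.induction_on with
  | empty =>
    have : De hM (fun z => ∑ i ∈ (∅ : Finset ι), f i z) hs = 0 := by
      unfold De
      have h0 : M.s0 (dd F (fun z => ∑ i ∈ (∅ : Finset ι), f i z)) (dd_mem hM hs) = 0 := by
        refine MB.H0.ext ?_
        funext z
        simp only [MB.s0_f, MB.zero_f]
        unfold dd
        have e : (fun z : ℂ => ∑ i ∈ (∅ : Finset ι), f i z) = fun _ => 0 := by
          funext z
          simp
        rw [e]
        have h1 : F.tr z (fun _ => (0 : V)) = fun _ => 0 := by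
          funext y
          unfold FB.tr
          rw [map_zero]
        unfold FB.d1 FB.d2
        rw [h1, dW_const, dB_const]
        rfl
      rw [h0, Completion.coe_zero]
    rw [this]
    exact Submodule.zero_mem _
  | insert a s ha ih =>
    have ha0 := hf a (Finset.mem_insert_self _ _)
    have hs' : (fun z => ∑ i ∈ s, f i z) ∈ F.A0 := by
      have := Submodule.sum_mem F.A0 (t := s) (f := f)
        fun i hi => hf i (Finset.mem_insert_of_mem hi)
      have e : (∑ i ∈ s, f i) = fun z => ∑ i ∈ s, f i z := by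
        funext z
        simp
      rwa [e] at this
    have h1 : De hM (fun z => ∑ i ∈ insert a s, f i z) hs =
        De hM (f a) ha0 + De hM (fun z => ∑ i ∈ s, f i z) hs' := by
      unfold De
      rw [← Completion.coe_add]
      congr 1
      refine MB.H0.ext ?_
      funext z
      simp only [MB.s0_f, MB.add_f]
      have e : (fun z : ℂ => ∑ i ∈ insert a s, f i z) = f a + fun z => ∑ i ∈ s, f i z := by
        funext z
        simp [Finset.sum_insert ha]
      rw [e]
      unfold dd
      by_cases hz : z ∈ X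
      · rw [FB.d1_add ha0.1 hs'.1 hz, FB.d2_add ha0.1 hs'.1 hz]
        rfl
      · -- off `X` both sides vanish
        have hA := (FB.d1_mem (F := F) (Submodule.add_mem _ ha0 hs')).2
        have hB := (FB.d2_mem (F := F) (Submodule.add_mem _ ha0 hs')).2
        have hA1 := (FB.d1_mem ha0).2
        have hA2 := (FB.d1_mem hs').2
        have hB1 := (FB.d2_mem ha0).2
        have hB2 := (FB.d2_mem hs').2
        have off : ∀ {g : ℂ → V}, FB.Cpt X g → g z = 0 := by
          rintro g ⟨K, hK, -, h0⟩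
          exact h0 z fun h => hz (hK h)
        rw [off hA, off hB, off hA1, off hA2, off hB1, off hB2]
        simp
    rw [h1]
    refine Submodule.add_mem _ ?_ ?_
    · exact Submodule.subset_span ⟨a, Finset.mem_insert_self _ _, ha0, rfl⟩
    · refine Submodule.span_mono ?_ (ih (fun i hi => hf i (Finset.mem_insert_of_mem hi)) hs')
      rintro u ⟨i, hi, h, rfl⟩
      exact ⟨i, Finset.mem_insert_of_mem hi, h, rfl⟩

lemma op_sum_types {n : ℕ} {p : ℕ → ℂ → ((V × V) →L[ℂ] (V × V))}
    {b : ℂ → ((V × V) →L[ℂ] (V × V))} {c : ℝ} (PT : PtTypes M n p b c) (u : M.L2) :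
    ∑ P ∈ Finset.range (n + 1), M.opL (p P) u = u := by
  rw [← op_sum (A := fun P x => p P x) _ fun P hP =>
    PT.okp P (by simpa [Nat.lt_succ_iff] using hP)]
  have h1 : M.Ok (fun x => ∑ P ∈ Finset.range (n + 1), p P x) :=
    ok_sum _ fun P hP => PT.okp P (by simpa [Nat.lt_succ_iff] using hP)
  have h2 : M.opL (fun x => ∑ P ∈ Finset.range (n + 1), p P x) =
      M.opL (fun _ => (1 : (V × V) →L[ℂ] (V × V))) := by
    refine M.op_congr h1 PT.ok_one fun x hx => ?_
    refine ContinuousLinearMap.ext fun v => ?_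
    rw [sum_apply]
    exact PT.sum x hx v
  rw [h2, op_one PT.ok_one]

variable {W : Type*} [NormedAddCommGroup W] [NormedSpace ℂ W]

/-- **Weak Kähler identity.** -/
theorem stab (hM : FormOf M F) (hsm : F.SmO T) (hsp : ∀ z ∈ X, Sp w (T z))
    (tr1 : ∀ z ∈ X, T z * F.D1 T z - F.D1 T z * T z = - F.D1 T z)
    (tr2 : ∀ z ∈ X, T z * F.D2 T z - F.D2 T z * T z = F.D2 T z)
    {b : ℂ → ((V × V) →L[ℂ] (V × V))} {c : ℝ} (PT : PtTypes M (w + 1) (tpf w T) b c)
    (D : Fix M.L2 W) (hβ : D.β = M.opL b) (h1 : DSet hM ⊆ D.Ex)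
    (h2 : (D.Ex : Set M.L2) ⊆ closure (Submodule.span ℂ (DSet hM) : Set M.L2)) :
    ∀ u ∈ D.Zc, Jop (w + 1) (fun P => M.opL (tpf w T P)) u ∈ D.Zc →
      ∀ P ≤ w + 1, M.opL (tpf w T P) u ∈ D.Zc := by
  -- components of a section
  have hcomp : ∀ f ∈ F.A0, ∀ q, (fun z => pr w q (T z) (f z)) ∈ F.A0 := fun f hf q =>
    FB.app_mem_A0 (smO_pr hsm q) hf
  let G : Set M.L2 := {u | ∃ f, ∃ hf : f ∈ F.A0, ∃ q, ∃ _ : q ≤ w,
    u = De hM (fun z => pr w q (T z) (f z)) (hcomp f hf q)}
  refine stab_of_generators (π := fun P => M.opL (tpf w T P)) (op_sum_types PT) ?_ G ?_ ?_ ?_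
  · intro P hP Q hQ hne u v
    rw [hβ, op_mul' PT.okb (PT.okp P hP)]
    exact inner_op_op (ok_mul PT.okb (PT.okp P hP)) (PT.okp Q hQ)
      (fun x hx u v => PT.orth x hx P hP Q hQ hne u v) u v
  · refine h2.trans (closure_mono ?_)
    rw [SetLike.coe_subset_coe, Submodule.span_le]
    rintro u ⟨f, hf, rfl⟩
    have e : f = fun z => ∑ q ∈ Finset.range (w + 1), pr w q (T z) (f z) := by
      funext z
      by_cases hz : z ∈ X
      · rw [sum_pr_apply (hsp z hz)]
      · obtain ⟨K, hK, -, h0⟩ := hf.2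
        rw [h0 z fun h => hz (hK h)]
        simp
    have hs : (fun z => ∑ q ∈ Finset.range (w + 1), pr w q (T z) (f z)) ∈ F.A0 := by
      rw [← e]
      exact hf
    have h3 := De_sum hM (Finset.range (w + 1)) (f := fun q z => pr w q (T z) (f z))
      (fun q _ => hcomp f hf q) hs
    have h4 : De hM f hf = De hM (fun z => ∑ q ∈ Finset.range (w + 1), pr w q (T z) (f z)) hs := by
      congr 1
    rw [SetLike.mem_coe, h4]
    refine Submodule.span_mono ?_ h3
    rintro u ⟨q, hq, h, rfl⟩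
    exact ⟨f, hf, q, by simpa [Nat.lt_succ_iff] using hq, rfl⟩
  · rintro u ⟨f, hf, q, hq, rfl⟩
    exact h1 ⟨_, _, rfl⟩
  · rintro u ⟨f, hf, q, hq, rfl⟩
    refine ⟨q, by omega, ?_⟩
    unfold De
    rw [M.op_coe (PT.okp q (by omega)), M.op_coe (PT.okp (q + 1) (by omega)),
      ← Completion.coe_add]
    congr 1
    refine MB.H0.ext ?_
    funext z
    simp only [MB.s0_f, MB.add_f]
    by_cases hz : z ∈ X
    · have he : ∀ z ∈ X, T z (pr w q (T z) (f z)) = (q : ℂ) • pr w q (T z) (f z) := by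
        intro z hz
        have h3 := T_mul_pr (hsp z hz) q
        exact congrArg (fun A : V →L[ℂ] V => A (f z)) h3
      exact (comp_split hsm hsp tr1 tr2 (hcomp f hf q).1 hq he hz).symm
    · have h3 := (dd_mem hM (hcomp f hf q)).2
      obtain ⟨K, hK, -, h0⟩ := h3
      rw [h0 z fun h => hz (hK h)]
      simp

end Crest.Agent.R276.Stab_817
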