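import Crest.Agent.R276.TrB_617
import Crest.Agent.R276.VPull2_327
import Crest.Agent.R276.Par_425

/-!
# R276, GVHS-SUB (helper605): sub-variation with lattice

* `ic B` : an integral matrix as complex matrix.
* `isHS_sub`, `hpr_sub`, `weil_sub`, `hodge_sub` : linear algebra of a sub Hodge structure.
* `IsSub V B C V'` : `V'` is the sub-variation of `V` with (saturated) lattice basis `B`.
* `exists_isSub` : existence from a flat, `E`-stable `B`.
* `IsSub.*` : Hodge norm, sections, derivatives, chain transports.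
-/

set_option autoImplicit false

noncomputable section

open Set Filter Topology Matrix

namespace Crest.Agent.R276.Sub_605

open Crest.Agent.R271.Ho51 Crest.Agent.R276.Ipc735 Crest.Agent.R276.Hull_574
  Crest.Agent.R276.Tr_617 Crest.Agent.R276.Top8_815 Crest.Agent.R276.VPull_327

/-! ### integral matrices -/

/-- an integral matrix as complex matrix -/
def ic {a b : Type*} (B : Matrix a b ℤ) : Matrix a b ℂ := B.map (fun n : ℤ => (n : ℂ))

section ic

variable {a b c : Type*}

theorem ic_apply (B : Matrix a b ℤ) (i : a) (j : b) : ic B i j = (B i j : ℂ) := rfl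

theorem ic_mul [Fintype b] (A : Matrix a b ℤ) (B : Matrix b c ℤ) : ic (A * B) = ic A * ic B :=
  Matrix.map_mul (f := Int.castRingHom ℂ)

theorem ic_one [DecidableEq a] : ic (1 : Matrix a a ℤ) = 1 := by
  ext i j
  by_cases h : i = j
  · subst h; simp [ic]
  · simp [ic, Matrix.one_apply_ne h]

theorem ic_injective : Function.Injective (ic : Matrix a b ℤ → Matrix a b ℂ) := by
  intro A B h
  ext i j
  have h1 : ic A i j = ic B i j := by rw [h]
  rw [ic_apply, ic_apply] at h1
  exact_mod_cast h1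

theorem ic_gl {N : ℕ} (g : GL (Fin N) ℤ) : ic (g : Matrix (Fin N) (Fin N) ℤ) = cm g := rfl

theorem ic_mulVec_zv {N r : ℕ} (B : Matrix (Fin N) (Fin r) ℤ) (v : Fin r → ℤ) :
    ic B *ᵥ zv v = zv (B *ᵥ v) := by
  ext i
  simp [zv, ic, Matrix.mulVec, dotProduct]

end ic

/-! ### linear algebra of a sub Hodge structure -/

section lin

variable {N r w : ℕ} {S E : Matrix (Fin N) (Fin N) ℂ} {B : Matrix (Fin N) (Fin r) ℂ}
  {C : Matrix (Fin r) (Fin N) ℂ} {E' : Matrix (Fin r) (Fin r) ℂ}

theorem pow_sub (h : E * B = B * E') (n : ℕ) : E ^ n * B = B * E' ^ n := by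
  induction n with
  | zero => rw [pow_zero, pow_zero, Matrix.one_mul, Matrix.mul_one]
  | succ n ih =>
    rw [pow_succ, pow_succ, Matrix.mul_assoc, h, ← Matrix.mul_assoc, ih, Matrix.mul_assoc]

theorem aeval_sub (h : E * B = B * E') (q : Polynomial ℂ) :
    Polynomial.aeval E q * B = B * Polynomial.aeval E' q := by
  rw [Polynomial.aeval_eq_sum_range, Polynomial.aeval_eq_sum_range, Matrix.sum_mul,
    Matrix.mul_sum]
  refine Finset.sum_congr rfl fun i _ => ?_
  rw [Matrix.smul_mul, Matrix.mul_smul, pow_sub h]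

theorem hpr_sub (h : E * B = B * E') (p : ℕ) : hpr w p E * B = B * hpr w p E' := aeval_sub h _

theorem weil_sub (h : E * B = B * E') : weil w E * B = B * weil w E' := by
  rw [weil, weil, Matrix.sum_mul, Matrix.mul_sum]
  refine Finset.sum_congr rfl fun p _ => ?_
  rw [Matrix.smul_mul, Matrix.mul_smul, hpr_sub h]

theorem hodge_sub (h : E * B = B * E') :
    hodge w (Bᴴ * S * B) E' = Bᴴ * hodge w S E * B := by
  have h1 := weil_sub (w := w) h
  calc Bᴴ * S * B * weil w E' = Bᴴ * S * (B * weil w E') := by rw [Matrix.mul_assoc]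
    _ = Bᴴ * (S * weil w E) * B := by rw [← h1]; simp only [Matrix.mul_assoc]

theorem dot_sub (A : Matrix (Fin N) (Fin N) ℂ) (u v : Fin r → ℂ) :
    star u ⬝ᵥ (Bᴴ * A * B) *ᵥ v = star (B *ᵥ u) ⬝ᵥ A *ᵥ (B *ᵥ v) := by
  rw [star_mulVec, ← mulVec_mulVec, ← mulVec_mulVec, ← dotProduct_mulVec]

theorem mulVec_inj (hCB : C * B = 1) {u v : Fin r → ℂ} (h : B *ᵥ u = B *ᵥ v) : u = v := by
  have h1 := congrArg (fun t => C *ᵥ t) h
  simpa only [mulVec_mulVec, hCB, one_mulVec] using h1

theorem mul_inj (hCB : C * B = 1) {k : ℕ} {A A' : Matrix (Fin r) (Fin k) ℂ} (h : B * A = B * A') :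
    A = A' := by
  have h1 := congrArg (fun t => C * t) h
  simpa only [← Matrix.mul_assoc, hCB, Matrix.one_mul] using h1

theorem isHS_sub (hs : IsHS w S E) (hCB : C * B = 1) (hE : E * B = B * E') :
    IsHS w (Bᴴ * S * B) E' := by
  constructor
  · have h1 := hs.herm
    unfold Matrix.IsHermitian at h1 ⊢
    rw [conjTranspose_mul, conjTranspose_mul, conjTranspose_conjTranspose, h1, Matrix.mul_assoc]
  · have e1 : Bᴴ * S * B * E' = Bᴴ * (S * E) * B := by
      rw [Matrix.mul_assoc (Bᴴ * S), ← hE]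
      simp only [Matrix.mul_assoc]
    have e2 : E'ᴴ * (Bᴴ * S * B) = Bᴴ * (Eᴴ * S) * B := by
      have h2 : E'ᴴ * Bᴴ = Bᴴ * Eᴴ := by
        rw [← conjTranspose_mul, ← hE, conjTranspose_mul]
      calc E'ᴴ * (Bᴴ * S * B) = (E'ᴴ * Bᴴ) * S * B := by simp only [Matrix.mul_assoc]
        _ = Bᴴ * (Eᴴ * S) * B := by rw [h2]; simp only [Matrix.mul_assoc]
    rw [e1, e2, hs.adj]
  · apply mul_inj hCB
    rw [← aeval_sub hE, hs.eig, Matrix.zero_mul, Matrix.mul_zero]
  · intro p v hp hv he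
    have h1 : B *ᵥ v ≠ 0 := by
      intro h0
      exact hv (mulVec_inj hCB (by rw [h0, mulVec_zero]))
    have h2 : E *ᵥ (B *ᵥ v) = (p : ℂ) • (B *ᵥ v) := by
      rw [mulVec_mulVec, hE, ← mulVec_mulVec, he, mulVec_smul]
    have h3 := hs.pos p _ hp h1 h2
    rw [dot_sub]
    exact h3

theorem isTop_sub (hCB : C * B = 1) (hE : E * B = B * E') {v : Fin r → ℂ} :
    Top8_815.IsTop w E' v ↔ Top8_815.IsTop w E (B *ᵥ v) := by
  unfold Top8_815.IsTop
  rw [mulVec_mulVec, hE, ← mulVec_mulVec, ← mulVec_smul]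
  exact ⟨fun h => by rw [h], fun h => mulVec_inj hCB h⟩

end lin

/-! ### rules for `SmAt`, `HolAt`, `dz` -/

section rules

variable {m : ℕ} {X : Type*} [TopologicalSpace X] [RDom m X]

theorem tendsto_ch (z : X) : Tendsto (ch z).symm (𝓝 (cp z)) (𝓝 z) := by
  have := (ch z).symm.continuousAt (x := cp z) (by simpa using (isCh_ch z).cp_mem (mem_ch z))
  rwa [ContinuousAt, (isCh_ch z).symm_cp (mem_ch z)] at this

theorem smAt_congr {G : Type*} [NormedAddCommGroup G] [NormedSpace ℝ G] {f g : X → G} {z : X}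
    (h : SmAt f z) (hfg : f =ᶠ[𝓝 z] g) : SmAt g z := by
  refine ContDiffAt.congr_of_eventuallyEq h ?_
  filter_upwards [(tendsto_ch z).eventually hfg] with c hc
  simpa using hc.symm

theorem holAt_congr {G : Type*} [NormedAddCommGroup G] [NormedSpace ℂ G] {f g : X → G} {z : X}
    (h : HolAt f z) (hfg : f =ᶠ[𝓝 z] g) : HolAt g z := by
  refine AnalyticAt.congr h ?_
  filter_upwards [(tendsto_ch z).eventually hfg] with c hc
  simpa using hc

theorem smAt_sum {κ : Type*} (s : Finset κ) {f : κ → X → ℂ} {z : X}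
    (h : ∀ i ∈ s, SmAt (f i) z) : SmAt (fun y => ∑ i ∈ s, f i y) z := by
  have h2 : (fun y => ∑ i ∈ s, f i y) ∘ (ch z).symm =
      fun c => ∑ i ∈ s, (f i ∘ (ch z).symm) c := rfl
  unfold SmAt
  rw [h2]
  exact ContDiffAt.sum fun i hi => h i hi

theorem smAt_const_mul (c : ℂ) {f : X → ℂ} {z : X} (h : SmAt f z) :
    SmAt (fun y => c * f y) z := SmAt.mul (SmAt.const c) h

theorem smAt_mul_const (c : ℂ) {f : X → ℂ} {z : X} (h : SmAt f z) :
    SmAt (fun y => f y * c) z := SmAt.mul h (SmAt.const c)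

theorem dz_const_mul_at (c : ℂ) {f : X → ℂ} {z : X} (h : SmAt f z) (j : Fin m) :
    dz j (fun y => c * f y) z = c * dz j f z := by
  rw [dz_mul_at (SmAt.const c) h, dz_const, zero_mul, zero_add]

theorem dz_mul_const_at (c : ℂ) {f : X → ℂ} {z : X} (h : SmAt f z) (j : Fin m) :
    dz j (fun y => f y * c) z = dz j f z * c := by
  rw [dz_mul_at h (SmAt.const c), dz_const, mul_zero, add_zero]

/-- entrywise smooth matrix functions -/
theorem smAt_mul_left {a b c : Type*} [Fintype b] (A : Matrix a b ℂ) {F : X → Matrix b c ℂ} {z : X}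
    (h : ∀ i k, SmAt (fun y => F y i k) z) (i : a) (k : c) : SmAt (fun y => (A * F y) i k) z := by
  simp only [Matrix.mul_apply]
  exact smAt_sum _ fun l _ => smAt_const_mul _ (h l k)

theorem smAt_mul_right {a b c : Type*} [Fintype b] {F : X → Matrix a b ℂ} (A : Matrix b c ℂ) {z : X}
    (h : ∀ i k, SmAt (fun y => F y i k) z) (i : a) (k : c) : SmAt (fun y => (F y * A) i k) z := by
  simp only [Matrix.mul_apply]
  exact smAt_sum _ fun l _ => smAt_mul_const _ (h i l)

/-- entrywise `dz` of a matrix function -/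
def dzM {a b : Type*} (j : Fin m) (F : X → Matrix a b ℂ) (z : X) : Matrix a b ℂ :=
  Matrix.of fun i k => dz j (fun y => F y i k) z

theorem dzM_congr {a b : Type*} {F G : X → Matrix a b ℂ} {z : X} (h : F =ᶠ[𝓝 z] G) (j : Fin m) :
    dzM j F z = dzM j G z := by
  ext i k
  exact dz_congr (h.mono fun y hy => by simp only [hy]) j

theorem dzM_mul_left {a b c : Type*} [Fintype b] (A : Matrix a b ℂ) {F : X → Matrix b c ℂ} {z : X}
    (h : ∀ i k, SmAt (fun y => F y i k) z) (j : Fin m) :
    dzM j (fun y => A * F y) z = A * dzM j F z := by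
  ext i k
  simp only [dzM, Matrix.of_apply, Matrix.mul_apply]
  rw [dz_sum_at _ (fun l _ => smAt_const_mul _ (h l k))]
  exact Finset.sum_congr rfl fun l _ => dz_const_mul_at _ (h l k) j

theorem dzM_mul_right {a b c : Type*} [Fintype b] {F : X → Matrix a b ℂ} (A : Matrix b c ℂ) {z : X}
    (h : ∀ i k, SmAt (fun y => F y i k) z) (j : Fin m) :
    dzM j (fun y => F y * A) z = dzM j F z * A := by
  ext i k
  simp only [dzM, Matrix.of_apply, Matrix.mul_apply]
  rw [dz_sum_at _ (fun l _ => smAt_mul_const _ (h i l))]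
  exact Finset.sum_congr rfl fun l _ => dz_mul_const_at _ (h i l) j

theorem dM_eq_dzM {N : ℕ} (P : X → X → GL (Fin N) ℤ) (A : X → Matrix (Fin N) (Fin N) ℂ)
    (j : Fin m) (z : X) : dM P A j z = dzM j (fun y => lM P A z y) z := rfl

end rules

end Crest.Agent.R276.Sub_605
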