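import Crest.Agent.R276.SubA_605

/-!
# R276, GVHS-SUB (helper605): construction of the sub-variation, transfer lemmas
-/

set_option autoImplicit false

noncomputable section

open Set Filter Topology Matrix

namespace Crest.Agent.R276.Sub_605

open Crest.Agent.R271.Ho51 Crest.Agent.R276.Ipc735 Crest.Agent.R276.Hull_574
  Crest.Agent.R276.Tr_617 Crest.Agent.R276.Top8_815 Crest.Agent.R276.VPull_327

section cocycle

variable {X : Type*} {N r : ℕ} {P : X → X → GL (Fin N) ℤ}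
  {B : X → Matrix (Fin N) (Fin r) ℤ} {C : X → Matrix (Fin r) (Fin N) ℤ}

theorem zmul_inj {C : Matrix (Fin r) (Fin N) ℤ} {B : Matrix (Fin N) (Fin r) ℤ} (hCB : C * B = 1)
    {k : ℕ} {A A' : Matrix (Fin r) (Fin k) ℤ} (h : B * A = B * A') : A = A' := by
  have h1 := congrArg (fun t => C * t) h
  simpa only [← Matrix.mul_assoc, hCB, Matrix.one_mul] using h1

open Classical in
/-- the transports of the sub-variation -/
def subP (P : X → X → GL (Fin N) ℤ) (B : X → Matrix (Fin N) (Fin r) ℤ) (x y : X) :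
    GL (Fin r) ℤ :=
  if h : ∃ g : GL (Fin r) ℤ, (P x y : Matrix (Fin N) (Fin N) ℤ) * B y
      = B x * (g : Matrix (Fin r) (Fin r) ℤ) then h.choose else 1

theorem subP_spec {x y : X} (h : ∃ g : GL (Fin r) ℤ, (P x y : Matrix (Fin N) (Fin N) ℤ) * B y
      = B x * (g : Matrix (Fin r) (Fin r) ℤ)) :
    (P x y : Matrix (Fin N) (Fin N) ℤ) * B y
      = B x * (subP P B x y : Matrix (Fin r) (Fin r) ℤ) := by
  rw [subP, dif_pos h]
  exact h.choose_spec

/-- near every point `P x y B y = B x P' x y` -/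
theorem subP_near [TopologicalSpace X] (h : NDC P)
    (hflat : ∀ z, ∀ᶠ y in 𝓝 z, ∃ k : Matrix (Fin r) (Fin r) ℤ, IsUnit k.det ∧
      (P z y : Matrix (Fin N) (Fin N) ℤ) * B y = B z * k) (z : X) :
    ∃ U ∈ 𝓝 z, (∀ x ∈ U, ∀ y ∈ U, ∀ w ∈ U, P x y * P y w = P x w) ∧
      ∀ x ∈ U, ∀ y ∈ U, (P x y : Matrix (Fin N) (Fin N) ℤ) * B y
        = B x * (subP P B x y : Matrix (Fin r) (Fin r) ℤ) := by
  obtain ⟨U, hU, hc⟩ := h z
  refine ⟨U ∩ {y | ∃ k : Matrix (Fin r) (Fin r) ℤ, IsUnit k.det ∧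
      (P z y : Matrix (Fin N) (Fin N) ℤ) * B y = B z * k}, inter_mem hU (hflat z),
    fun x hx y hy w hw => hc x hx.1 y hy.1 w hw.1, ?_⟩
  rintro x ⟨hx, k, hk, hkx⟩ y ⟨hy, l, hl, hly⟩
  have hz : z ∈ U := mem_of_mem_nhds hU
  apply subP_spec
  obtain ⟨k', rfl⟩ : ∃ k' : GL (Fin r) ℤ, (k' : Matrix (Fin r) (Fin r) ℤ) = k :=
    (Matrix.isUnit_iff_isUnit_det k).2 hk
  obtain ⟨l', rfl⟩ : ∃ l' : GL (Fin r) ℤ, (l' : Matrix (Fin r) (Fin r) ℤ) = l :=
    (Matrix.isUnit_iff_isUnit_det l).2 hl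
  refine ⟨k'⁻¹ * l', ?_⟩
  have hxx : P x x = 1 := mul_eq_left.1 (hc x hx x hx x hx)
  have h1 : P x y = P x z * P z y := (hc x hx z hz y hy).symm
  have h2 : P x z * P z x = 1 := by rw [hc x hx z hz x hx, hxx]
  -- P x z B z = B x k'⁻¹
  have h3 : (P x z : Matrix (Fin N) (Fin N) ℤ) * B z
      = B x * ((k'⁻¹ : GL (Fin r) ℤ) : Matrix (Fin r) (Fin r) ℤ) := by
    have h4 : (P x z : Matrix (Fin N) (Fin N) ℤ) * (B z * (k' : Matrix (Fin r) (Fin r) ℤ)) = B x := by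
      rw [← hkx, ← Matrix.mul_assoc, ← Units.val_mul, h2, Units.val_one, Matrix.one_mul]
    calc (P x z : Matrix (Fin N) (Fin N) ℤ) * B z
        = (P x z : Matrix (Fin N) (Fin N) ℤ) * (B z * ((k' : Matrix (Fin r) (Fin r) ℤ)
          * ((k'⁻¹ : GL (Fin r) ℤ) : Matrix (Fin r) (Fin r) ℤ))) := by
          rw [← Units.val_mul, mul_inv_cancel, Units.val_one, Matrix.mul_one]
      _ = (P x z : Matrix (Fin N) (Fin N) ℤ) * (B z * (k' : Matrix (Fin r) (Fin r) ℤ))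
          * ((k'⁻¹ : GL (Fin r) ℤ) : Matrix (Fin r) (Fin r) ℤ) := by
          simp only [Matrix.mul_assoc]
      _ = _ := by rw [h4]
  rw [h1, Units.val_mul, Matrix.mul_assoc, hly, ← Matrix.mul_assoc, h3, Units.val_mul,
    Matrix.mul_assoc]

end cocycle

variable {m N r w : ℕ} {X : Type*} [TopologicalSpace X] [RDom m X]

/-- `V'` is the sub-variation of `V` with lattice basis `B` (and retraction `C`) -/
structure IsSub (V : VHS m X N w) (B : X → Matrix (Fin N) (Fin r) ℤ)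
    (C : X → Matrix (Fin r) (Fin N) ℤ) (V' : VHS m X r w) : Prop where
  CB : ∀ x, C x * B x = 1
  E : ∀ x, V.E x * ic (B x) = ic (B x) * V'.E x
  S : ∀ x, V'.S x = (ic (B x))ᴴ * V.S x * ic (B x)
  P : ∀ z, ∀ᶠ y in 𝓝 z, (V.P z y : Matrix (Fin N) (Fin N) ℤ) * B y
    = B z * (V'.P z y : Matrix (Fin r) (Fin r) ℤ)

theorem ic_CB {B : Matrix (Fin N) (Fin r) ℤ} {C : Matrix (Fin r) (Fin N) ℤ} (h : C * B = 1) :
    ic C * ic B = 1 := by rw [← ic_mul, h, ic_one]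

omit [TopologicalSpace X] in
/-- seen from `z` -/
theorem lM_sub {P : X → X → GL (Fin N) ℤ} {P' : X → X → GL (Fin r) ℤ}
    {B : X → Matrix (Fin N) (Fin r) ℤ} {A : X → Matrix (Fin N) (Fin N) ℂ}
    {A' : X → Matrix (Fin r) (Fin r) ℂ} {z y : X}
    (hA : A y * ic (B y) = ic (B y) * A' y)
    (h : (P z y : Matrix (Fin N) (Fin N) ℤ) * B y = B z * (P' z y : Matrix (Fin r) (Fin r) ℤ)) :
    lM P A z y * ic (B z) = ic (B z) * lM P' A' z y := by
  have h1 : cm (P z y) * ic (B y) = ic (B z) * cm (P' z y) := by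
    rw [← ic_gl, ← ic_gl, ← ic_mul, ← ic_mul, h]
  have h2 : cm (P z y)⁻¹ * ic (B z) = ic (B y) * cm (P' z y)⁻¹ := by
    calc cm (P z y)⁻¹ * ic (B z) = cm (P z y)⁻¹ * (ic (B z) * cm (P' z y)) * cm (P' z y)⁻¹ := by
          rw [Matrix.mul_assoc, Matrix.mul_assoc (ic (B z)), cm_mul_inv, Matrix.mul_one]
      _ = (cm (P z y)⁻¹ * cm (P z y)) * ic (B y) * cm (P' z y)⁻¹ := by
          rw [← h1]; simp only [Matrix.mul_assoc]
      _ = _ := by rw [cm_inv_mul, Matrix.one_mul]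
  calc lM P A z y * ic (B z) = cm (P z y) * A y * (cm (P z y)⁻¹ * ic (B z)) := by
        rw [lM, Matrix.mul_assoc]
    _ = cm (P z y) * (A y * ic (B y)) * cm (P' z y)⁻¹ := by rw [h2]; simp only [Matrix.mul_assoc]
    _ = (cm (P z y) * ic (B y)) * A' y * cm (P' z y)⁻¹ := by rw [hA]; simp only [Matrix.mul_assoc]
    _ = ic (B z) * lM P' A' z y := by rw [h1, lM]; simp only [Matrix.mul_assoc]

/-- **the sub-variation** -/
def sub (V : VHS m X N w) (B : X → Matrix (Fin N) (Fin r) ℤ) (C : X → Matrix (Fin r) (Fin N) ℤ)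
    (hCB : ∀ x, C x * B x = 1)
    (hflat : ∀ z, ∀ᶠ y in 𝓝 z, ∃ k : Matrix (Fin r) (Fin r) ℤ, IsUnit k.det ∧
      (V.P z y : Matrix (Fin N) (Fin N) ℤ) * B y = B z * k)
    (hE : ∀ x, ∃ e : Matrix (Fin r) (Fin r) ℂ, V.E x * ic (B x) = ic (B x) * e) :
    VHS m X r w :=
  have hE' : ∀ x, V.E x * ic (B x) = ic (B x) * (ic (C x) * V.E x * ic (B x)) := by
    intro x
    obtain ⟨e, he⟩ := hE x
    rw [Matrix.mul_assoc (ic (C x)), he, ← Matrix.mul_assoc (ic (C x)), ic_CB (hCB x),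
      Matrix.one_mul]
  have hP : ∀ z, ∀ᶠ y in 𝓝 z, (V.P z y : Matrix (Fin N) (Fin N) ℤ) * B y
      = B z * (subP V.P B z y : Matrix (Fin r) (Fin r) ℤ) := by
    intro z
    obtain ⟨U, hU, -, h2⟩ := subP_near V.ndc hflat z
    filter_upwards [hU] with y hy
    exact h2 z (mem_of_mem_nhds hU) y hy
  have hlM : ∀ z, ∀ᶠ y in 𝓝 z, lM V.P V.E z y * ic (B z)
      = ic (B z) * lM (subP V.P B) (fun x => ic (C x) * V.E x * ic (B x)) z y := by
    intro z
    filter_upwards [hP z] with y hy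
    exact lM_sub (hE' y) hy
  have hlM2 : ∀ z, (fun y => lM (subP V.P B) (fun x => ic (C x) * V.E x * ic (B x)) z y)
      =ᶠ[𝓝 z] fun y => ic (C z) * lM V.P V.E z y * ic (B z) := by
    intro z
    filter_upwards [hlM z] with y hy
    rw [Matrix.mul_assoc, hy, ← Matrix.mul_assoc, ic_CB (hCB z), Matrix.one_mul]
  have hsm1 : ∀ z i k, SmAt (fun y => (lM V.P V.E z y * ic (B z)) i k) z := fun z i k =>
    smAt_mul_right _ (V.smE z) i k
  have hsm : ∀ z i k, SmAt (fun y => lM (subP V.P B)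
      (fun x => ic (C x) * V.E x * ic (B x)) z y i k) z := by
    intro z i k
    have h1 := smAt_mul_right (ic (B z)) (smAt_mul_left (ic (C z)) (V.smE z)) i k
    exact smAt_congr h1 ((hlM2 z).symm.mono fun y hy => congrFun (congrFun hy i) k)
  { P := subP V.P B
    S := fun x => (ic (B x))ᴴ * V.S x * ic (B x)
    E := fun x => ic (C x) * V.E x * ic (B x)
    ndc := by
      intro z
      obtain ⟨U, hU, h1, h2⟩ := subP_near V.ndc hflat z
      refine ⟨U, hU, fun x hx y hy u hu => ?_⟩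
      apply Units.ext
      apply zmul_inj (hCB x)
      rw [Units.val_mul, ← Matrix.mul_assoc, ← h2 x hx y hy, Matrix.mul_assoc, ← h2 y hy u hu,
        ← Matrix.mul_assoc, ← Units.val_mul, h1 x hx y hy u hu, h2 x hx u hu]
    hs := fun x => isHS_sub (V.hs x) (ic_CB (hCB x)) (hE' x)
    flatS := by
      intro z
      filter_upwards [V.flatS z, hP z] with y h1 h2
      have h3 : cm (V.P z y) * ic (B y) = ic (B z) * cm (subP V.P B z y) := by
        rw [← ic_gl, ← ic_gl, ← ic_mul, ← ic_mul, h2]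
      have h4 : (ic (B y))ᴴ * (cm (V.P z y))ᴴ = (cm (subP V.P B z y))ᴴ * (ic (B z))ᴴ := by
        rw [← conjTranspose_mul, h3, conjTranspose_mul]
      calc (ic (B y))ᴴ * V.S y * ic (B y)
          = ((ic (B y))ᴴ * (cm (V.P z y))ᴴ) * V.S z * (cm (V.P z y) * ic (B y)) := by
            rw [h1]; simp only [Matrix.mul_assoc]
        _ = _ := by rw [h4, h3]; simp only [Matrix.mul_assoc]
    smE := hsm
    tr := by
      intro z j
      set E' : X → Matrix (Fin r) (Fin r) ℂ := fun x => ic (C x) * V.E x * ic (B x) with hE'def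
      set D := dM V.P V.E j z with hD
      set D' := dM (subP V.P B) E' j z with hD'
      have h1 : D * ic (B z) = ic (B z) * D' := by
        have h2 := dzM_congr (hlM z) j
        rw [dzM_mul_right _ (V.smE z) j, dzM_mul_left _ (hsm z) j] at h2
        exact h2
      have h3 := V.tr z j
      apply mul_inj (ic_CB (hCB z))
      have e1 : ic (B z) * (E' z * D' - D' * E' z)
          = (V.E z * D - D * V.E z) * ic (B z) := by
        rw [Matrix.mul_sub, Matrix.sub_mul, ← Matrix.mul_assoc, ← hE' z, Matrix.mul_assoc (V.E z),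
          ← h1, ← Matrix.mul_assoc (ic (B z)) D', ← h1, Matrix.mul_assoc D, Matrix.mul_assoc D,
          ← hE' z, Matrix.mul_assoc]
      rw [e1, h3, Matrix.neg_mul, Matrix.mul_neg, h1] }

theorem isSub_sub (V : VHS m X N w) (B : X → Matrix (Fin N) (Fin r) ℤ)
    (C : X → Matrix (Fin r) (Fin N) ℤ) (hCB : ∀ x, C x * B x = 1)
    (hflat : ∀ z, ∀ᶠ y in 𝓝 z, ∃ k : Matrix (Fin r) (Fin r) ℤ, IsUnit k.det ∧
      (V.P z y : Matrix (Fin N) (Fin N) ℤ) * B y = B z * k)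
    (hE : ∀ x, ∃ e : Matrix (Fin r) (Fin r) ℂ, V.E x * ic (B x) = ic (B x) * e) :
    IsSub V B C (sub V B C hCB hflat hE) where
  CB := hCB
  E := by
    intro x
    obtain ⟨e, he⟩ := hE x
    show V.E x * ic (B x) = ic (B x) * (ic (C x) * V.E x * ic (B x))
    rw [Matrix.mul_assoc (ic (C x)), he, ← Matrix.mul_assoc (ic (C x)), ic_CB (hCB x),
      Matrix.one_mul]
  S := fun x => rfl
  P := by
    intro z
    obtain ⟨U, hU, -, h2⟩ := subP_near V.ndc hflat z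
    filter_upwards [hU] with y hy
    exact h2 z (mem_of_mem_nhds hU) y hy


/-! ### transfer -/

namespace IsSub

variable {V : VHS m X N w} {B : X → Matrix (Fin N) (Fin r) ℤ} {C : X → Matrix (Fin r) (Fin N) ℤ}
  {V' : VHS m X r w}

theorem icCB (h : IsSub V B C V') (x : X) : ic (C x) * ic (B x) = 1 := ic_CB (h.CB x)

theorem mulVec_CB (h : IsSub V B C V') (x : X) (v : Fin r → ℂ) :
    ic (C x) *ᵥ (ic (B x) *ᵥ v) = v := by
  rw [mulVec_mulVec, h.icCB, one_mulVec]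

theorem inj (h : IsSub V B C V') (x : X) {u v : Fin r → ℂ} (he : ic (B x) *ᵥ u = ic (B x) *ᵥ v) :
    u = v := mulVec_inj (h.icCB x) he

theorem E_eq (h : IsSub V B C V') (x : X) : V'.E x = ic (C x) * V.E x * ic (B x) := by
  rw [Matrix.mul_assoc, h.E, ← Matrix.mul_assoc, h.icCB, Matrix.one_mul]

theorem hpr (h : IsSub V B C V') (x : X) (p : ℕ) :
    Ipc735.hpr w p (V.E x) * ic (B x) = ic (B x) * Ipc735.hpr w p (V'.E x) := hpr_sub (h.E x) p

theorem weil (h : IsSub V B C V') (x : X) :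
    Ipc735.weil w (V.E x) * ic (B x) = ic (B x) * Ipc735.weil w (V'.E x) := weil_sub (h.E x)

theorem hodge (h : IsSub V B C V') (x : X) :
    Ipc735.hodge w (V'.S x) (V'.E x)
      = (ic (B x))ᴴ * Ipc735.hodge w (V.S x) (V.E x) * ic (B x) := by
  rw [h.S]
  exact hodge_sub (h.E x)

/-- the Hodge forms -/
theorem hodge_dot (h : IsSub V B C V') (x : X) (u v : Fin r → ℂ) :
    star u ⬝ᵥ Ipc735.hodge w (V'.S x) (V'.E x) *ᵥ v
      = star (ic (B x) *ᵥ u) ⬝ᵥ Ipc735.hodge w (V.S x) (V.E x) *ᵥ (ic (B x) *ᵥ v) := by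
  rw [h.hodge, dot_sub]

theorem S_dot (h : IsSub V B C V') (x : X) (u v : Fin r → ℂ) :
    star u ⬝ᵥ V'.S x *ᵥ v = star (ic (B x) *ᵥ u) ⬝ᵥ V.S x *ᵥ (ic (B x) *ᵥ v) := by
  rw [h.S, dot_sub]

theorem hnsq (h : IsSub V B C V') (x : X) (v : Fin r → ℂ) :
    Top8_815.hnsq V' x v = Top8_815.hnsq V x (ic (B x) *ᵥ v) := by
  rw [Top8_815.hnsq, Top8_815.hnsq, h.hodge_dot]

theorem isTop (h : IsSub V B C V') (x : X) (v : Fin r → ℂ) :
    Top8_815.IsTop w (V'.E x) v ↔ Top8_815.IsTop w (V.E x) (ic (B x) *ᵥ v) :=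
  isTop_sub (h.icCB x) (h.E x)

theorem S_herm_eq (h : IsSub V B C V') (x : X) (v : Fin r → ℂ) (p : ℕ) :
    V'.E x *ᵥ v = (p : ℂ) • v ↔ V.E x *ᵥ (ic (B x) *ᵥ v) = (p : ℂ) • (ic (B x) *ᵥ v) := by
  rw [mulVec_mulVec, h.E, ← mulVec_mulVec, ← mulVec_smul]
  exact ⟨fun h1 => by rw [h1], fun h1 => h.inj x h1⟩

/-- the transports near the diagonal -/
theorem near (h : IsSub V B C V') (z : X) : ∃ U ∈ 𝓝 z, ∀ x ∈ U, ∀ y ∈ U,
    (V.P x y : Matrix (Fin N) (Fin N) ℤ) * B y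
      = B x * (V'.P x y : Matrix (Fin r) (Fin r) ℤ) := by
  obtain ⟨U, hU, h1⟩ := V.ndc z
  obtain ⟨U', hU', h1'⟩ := V'.ndc z
  refine ⟨(U ∩ U') ∩ {y | (V.P z y : Matrix (Fin N) (Fin N) ℤ) * B y
    = B z * (V'.P z y : Matrix (Fin r) (Fin r) ℤ)}, inter_mem (inter_mem hU hU') (h.P z), ?_⟩
  rintro x ⟨⟨hx, hx'⟩, hxz⟩ y ⟨⟨hy, hy'⟩, hyz⟩
  have hz := mem_of_mem_nhds hU
  have hz' := mem_of_mem_nhds hU'
  have e1 : V.P x z * V.P z x = 1 := by
    rw [h1 x hx z hz x hx]; exact mul_eq_left.1 (h1 x hx x hx x hx)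
  have e1' : V'.P z x * V'.P x z = 1 := by
    rw [h1' z hz' x hx' z hz']; exact mul_eq_left.1 (h1' z hz' z hz' z hz')
  have e2 : (V.P x z : Matrix (Fin N) (Fin N) ℤ) * B z
      = B x * (V'.P x z : Matrix (Fin r) (Fin r) ℤ) := by
    calc (V.P x z : Matrix (Fin N) (Fin N) ℤ) * B z
        = (V.P x z : Matrix (Fin N) (Fin N) ℤ) * (B z * ((V'.P z x : Matrix (Fin r) (Fin r) ℤ)
          * (V'.P x z : Matrix (Fin r) (Fin r) ℤ))) := by
          rw [← Units.val_mul, e1', Units.val_one, Matrix.mul_one]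
      _ = (V.P x z : Matrix (Fin N) (Fin N) ℤ) * (B z * (V'.P z x : Matrix (Fin r) (Fin r) ℤ))
          * (V'.P x z : Matrix (Fin r) (Fin r) ℤ) := by simp only [Matrix.mul_assoc]
      _ = _ := by
          rw [← hxz, ← Matrix.mul_assoc (V.P x z : Matrix (Fin N) (Fin N) ℤ), ← Units.val_mul,
            e1, Units.val_one, Matrix.one_mul]
  rw [← h1 x hx z hz y hy, ← h1' x hx' z hz' y hy', Units.val_mul, Units.val_mul,
    Matrix.mul_assoc, hyz, ← Matrix.mul_assoc, e2, Matrix.mul_assoc]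

theorem P_cm (h : IsSub V B C V') (z : X) : ∀ᶠ y in 𝓝 z,
    cm (V.P z y) * ic (B y) = ic (B z) * cm (V'.P z y) := by
  filter_upwards [h.P z] with y hy
  rw [← ic_gl, ← ic_gl, ← ic_mul, ← ic_mul, hy]

/-- sections: near `z`, seen from `z` -/
theorem lV (h : IsSub V B C V') (φ : X → Fin r → ℂ) (z : X) : ∀ᶠ y in 𝓝 z,
    Ipc735.lV V.P (fun x => ic (B x) *ᵥ φ x) z y = ic (B z) *ᵥ Ipc735.lV V'.P φ z y := by
  filter_upwards [h.P_cm z] with y hy
  rw [Ipc735.lV, Ipc735.lV, mulVec_mulVec, mulVec_mulVec, hy]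

/-- endomorphism fields which preserve the subbundle -/
theorem lM (h : IsSub V B C V') {A : X → Matrix (Fin N) (Fin N) ℂ}
    {A' : X → Matrix (Fin r) (Fin r) ℂ} (hA : ∀ x, A x * ic (B x) = ic (B x) * A' x) (z : X) :
    ∀ᶠ y in 𝓝 z, Ipc735.lM V.P A z y * ic (B z) = ic (B z) * Ipc735.lM V'.P A' z y := by
  filter_upwards [h.P z] with y hy
  exact lM_sub (hA y) hy

theorem dM (h : IsSub V B C V') (z : X) (j : Fin m) :
    Ipc735.dM V.P V.E j z * ic (B z) = ic (B z) * Ipc735.dM V'.P V'.E j z := by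
  have h2 := dzM_congr (h.lM h.E z) j
  rw [dzM_mul_right _ (V.smE z) j, dzM_mul_left _ (V'.smE z) j] at h2
  exact h2

theorem dM_eq (h : IsSub V B C V') (z : X) (j : Fin m) :
    Ipc735.dM V'.P V'.E j z = ic (C z) * Ipc735.dM V.P V.E j z * ic (B z) := by
  rw [Matrix.mul_assoc, h.dM, ← Matrix.mul_assoc, h.icCB, Matrix.one_mul]

/-- holomorphic sections -/
theorem holAt (h : IsSub V B C V') (φ : X → Fin r → ℂ) (z : X) :
    HolAt (Ipc735.lV V'.P φ z) z ↔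
      HolAt (Ipc735.lV V.P (fun x => ic (B x) *ᵥ φ x) z) z := by
  constructor
  · intro h1
    have h2 : HolAt (fun y => ic (B z) *ᵥ Ipc735.lV V'.P φ z y) z :=
      ((LinearMap.toContinuousLinearMap (Matrix.mulVecLin (ic (B z)))).analyticAt _).comp
        (f := Ipc735.lV V'.P φ z ∘ (ch z).symm) h1
    refine holAt_congr h2 ?_
    filter_upwards [h.lV φ z] with y hy
    exact hy.symm
  · intro h1
    have h2 : HolAt (fun y => ic (C z) *ᵥ Ipc735.lV V.P (fun x => ic (B x) *ᵥ φ x) z y) z :=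
      ((LinearMap.toContinuousLinearMap (Matrix.mulVecLin (ic (C z)))).analyticAt _).comp
        (f := Ipc735.lV V.P (fun x => ic (B x) *ᵥ φ x) z ∘ (ch z).symm) h1
    refine holAt_congr h2 ?_
    filter_upwards [h.lV φ z] with y hy
    show ic (C z) *ᵥ Ipc735.lV V.P (fun x => ic (B x) *ᵥ φ x) z y = _
    rw [hy, h.mulVec_CB]

/-- a holomorphic section of `V` with values in the subbundle -/
theorem holAt_of (h : IsSub V B C V') {φ : X → Fin N → ℂ}
    (hφ : ∀ x, φ x ∈ LinearMap.range (ic (B x)).mulVecLin) (z : X)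
    (h1 : HolAt (Ipc735.lV V.P φ z) z) :
    HolAt (Ipc735.lV V'.P (fun x => ic (C x) *ᵥ φ x) z) z := by
  have h2 : φ = fun x => ic (B x) *ᵥ (ic (C x) *ᵥ φ x) := by
    funext x
    obtain ⟨u, hu⟩ := hφ x
    rw [← hu, mulVecLin_apply, h.mulVec_CB]
  rw [h.holAt]
  rw [h2] at h1
  exact h1

theorem eq_of_range (h : IsSub V B C V') {x : X} {v : Fin N → ℂ}
    (hv : v ∈ LinearMap.range (ic (B x)).mulVecLin) : ic (B x) *ᵥ (ic (C x) *ᵥ v) = v := by
  obtain ⟨u, hu⟩ := hv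
  rw [← hu, mulVecLin_apply, h.mulVec_CB]

/-- flat derivatives of sections -/
theorem Dv (h : IsSub V B C V') (φ : X → Fin r → ℂ) (z : X)
    (hφ : ∀ i, SmAt (fun y => Ipc735.lV V'.P φ z y i) z) (j : Fin m) :
    Par_425.Dv V.P (fun x => ic (B x) *ᵥ φ x) j z = ic (B z) *ᵥ Par_425.Dv V'.P φ j z := by
  funext i
  have h1 : (fun y => Ipc735.lV V.P (fun x => ic (B x) *ᵥ φ x) z y i)
      =ᶠ[𝓝 z] fun y => ∑ k, ic (B z) i k * Ipc735.lV V'.P φ z y k := by
    filter_upwards [h.lV φ z] with y hy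
    rw [hy]
    rfl
  rw [Par_425.Dv, dz_congr h1 j, dz_sum_at _ (fun l _ => smAt_const_mul _ (hφ l))]
  exact Finset.sum_congr rfl fun l _ => dz_const_mul_at _ (hφ l) j

theorem Dv_hol (h : IsSub V B C V') (φ : X → Fin r → ℂ) (z : X)
    (hφ : HolAt (Ipc735.lV V'.P φ z) z) (j : Fin m) :
    Par_425.Dv V.P (fun x => ic (B x) *ᵥ φ x) j z = ic (B z) *ᵥ Par_425.Dv V'.P φ j z := by
  refine h.Dv φ z (fun i => ?_) j
  have h1 : SmAt (Ipc735.lV V'.P φ z) z := HolAt.smAt hφ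
  exact (contDiff_apply ℝ ℂ i).contDiffAt.comp _ h1

/-! #### chain transports -/

theorem tr (h : IsSub V B C V') {x y : X} {g : GL (Fin N) ℤ} (hg : Tr V.P x y g) :
    ∃ g' : GL (Fin r) ℤ, Tr V'.P x y g' ∧
      (g : Matrix (Fin N) (Fin N) ℤ) * B y = B x * (g' : Matrix (Fin r) (Fin r) ℤ) := by
  have := rdom_lc (X := X)
  refine Tr.rel V'.ndc (fun x y (g : GL (Fin N) ℤ) (g' : GL (Fin r) ℤ) => (g : Matrix (Fin N) (Fin N) ℤ) * B y
    = B x * (g' : Matrix (Fin r) (Fin r) ℤ)) (fun x => ?_) ?_ ?_ h.P hg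
  · rw [Units.val_one, Units.val_one, Matrix.one_mul, Matrix.mul_one]
  · intro x y z g k g' k' h1 h2
    rw [Units.val_mul, Units.val_mul, Matrix.mul_assoc, h2, ← Matrix.mul_assoc, h1,
      Matrix.mul_assoc]
  · intro x y g g' h1
    calc ((g⁻¹ : GL (Fin N) ℤ) : Matrix (Fin N) (Fin N) ℤ) * B x
        = ((g⁻¹ : GL (Fin N) ℤ) : Matrix (Fin N) (Fin N) ℤ) * (B x
          * ((g' : Matrix (Fin r) (Fin r) ℤ) * ((g'⁻¹ : GL (Fin r) ℤ) : Matrix (Fin r) (Fin r) ℤ))) := by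
          rw [← Units.val_mul, mul_inv_cancel, Units.val_one, Matrix.mul_one]
      _ = ((g⁻¹ : GL (Fin N) ℤ) : Matrix (Fin N) (Fin N) ℤ) * (B x * (g' : Matrix (Fin r) (Fin r) ℤ))
          * ((g'⁻¹ : GL (Fin r) ℤ) : Matrix (Fin r) (Fin r) ℤ) := by simp only [Matrix.mul_assoc]
      _ = _ := by
          rw [← h1, ← Matrix.mul_assoc ((g⁻¹ : GL (Fin N) ℤ) : Matrix (Fin N) (Fin N) ℤ),
            ← Units.val_mul, inv_mul_cancel, Units.val_one, Matrix.one_mul]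

theorem tr' (h : IsSub V B C V') {x y : X} {g' : GL (Fin r) ℤ} (hg : Tr V'.P x y g') :
    ∃ g : GL (Fin N) ℤ, Tr V.P x y g ∧
      (g : Matrix (Fin N) (Fin N) ℤ) * B y = B x * (g' : Matrix (Fin r) (Fin r) ℤ) := by
  have := rdom_lc (X := X)
  refine Tr.rel V.ndc (fun x y (g' : GL (Fin r) ℤ) (g : GL (Fin N) ℤ) => (g : Matrix (Fin N) (Fin N) ℤ) * B y
    = B x * (g' : Matrix (Fin r) (Fin r) ℤ)) (fun x => ?_) ?_ ?_ h.P hg
  · rw [Units.val_one, Units.val_one, Matrix.one_mul, Matrix.mul_one]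
  · intro x y z g' k' g k h1 h2
    rw [Units.val_mul, Units.val_mul, Matrix.mul_assoc, h2, ← Matrix.mul_assoc, h1,
      Matrix.mul_assoc]
  · intro x y g' g h1
    calc ((g⁻¹ : GL (Fin N) ℤ) : Matrix (Fin N) (Fin N) ℤ) * B x
        = ((g⁻¹ : GL (Fin N) ℤ) : Matrix (Fin N) (Fin N) ℤ) * (B x
          * ((g' : Matrix (Fin r) (Fin r) ℤ) * ((g'⁻¹ : GL (Fin r) ℤ) : Matrix (Fin r) (Fin r) ℤ))) := by
          rw [← Units.val_mul, mul_inv_cancel, Units.val_one, Matrix.mul_one]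
      _ = ((g⁻¹ : GL (Fin N) ℤ) : Matrix (Fin N) (Fin N) ℤ) * (B x * (g' : Matrix (Fin r) (Fin r) ℤ))
          * ((g'⁻¹ : GL (Fin r) ℤ) : Matrix (Fin r) (Fin r) ℤ) := by simp only [Matrix.mul_assoc]
      _ = _ := by
          rw [← h1, ← Matrix.mul_assoc ((g⁻¹ : GL (Fin N) ℤ) : Matrix (Fin N) (Fin N) ℤ),
            ← Units.val_mul, inv_mul_cancel, Units.val_one, Matrix.one_mul]

end IsSub

end Crest.Agent.R276.Sub_605
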