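import Mathlib

/-!
# TOP1 (row 276, IPC): near-diagonal cocycles

A near-diagonal cocycle on a topological space `X` with values in a group `G` is a function
`P : X → X → G` such that every point has a neighbourhood `U` with `P x y * P y w = P x w` for
all `x y w ∈ U`.  (This is a local system: a frame is chosen at every point, `P x y` is the
matrix of the parallel transport from `y` to `x`, for `x` and `y` close to each other.)

Main results.
* `IsNDC.exists_triv_Icc` : triviality on the unit interval.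
* `IsNDC.homotopy` : on `X × I`, `c (x,t) (y,t') = A (x,t) * c (x,0) (y,0) * (A (y,t'))⁻¹` near
  the diagonal.
* `IsNDC.triv_of_contraction` : triviality on contractible spaces.
* `transport` along paths, homotopy invariance, concatenation.
-/

set_option autoImplicit false

open Set Topology unitInterval Filter

namespace Crest.Agent.R276.Top1_175

variable {X Y : Type*} [TopologicalSpace X] [TopologicalSpace Y] {G : Type*} [Group G]

/-- near-diagonal cocycle -/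
def IsNDC (P : X → X → G) : Prop :=
  ∀ z, ∃ U ∈ 𝓝 z, ∀ x ∈ U, ∀ y ∈ U, ∀ w ∈ U, P x y * P y w = P x w

/-- `P` is trivialised near the diagonal by `A` -/
def Triv (P : X → X → G) (A : X → G) : Prop :=
  ∀ z, ∃ U ∈ 𝓝 z, ∀ x ∈ U, ∀ y ∈ U, P x y = A x * (A y)⁻¹

/-- two cocycles agree near the diagonal -/
def NearEq (P Q : X → X → G) : Prop :=
  ∀ z, ∃ U ∈ 𝓝 z, ∀ x ∈ U, ∀ y ∈ U, P x y = Q x y

theorem IsNDC.self {P : X → X → G} (h : IsNDC P) (x : X) : P x x = 1 := by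
  obtain ⟨U, hU, hc⟩ := h x
  have hx := mem_of_mem_nhds hU
  have := hc x hx x hx x hx
  simpa using this

theorem IsNDC.comp {P : X → X → G} (h : IsNDC P) {f : Y → X} (hf : Continuous f) :
    IsNDC (fun a b => P (f a) (f b)) := by
  intro z
  obtain ⟨U, hU, hc⟩ := h (f z)
  exact ⟨f ⁻¹' U, hf.continuousAt.preimage_mem_nhds hU, fun x hx y hy w hw => hc _ hx _ hy _ hw⟩

theorem IsNDC.of_triv {P : X → X → G} {A : X → G} (h : Triv P A) : IsNDC P := by
  intro z
  obtain ⟨U, hU, hc⟩ := h z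
  refine ⟨U, hU, fun x hx y hy w hw => ?_⟩
  rw [hc x hx y hy, hc y hy w hw, hc x hx w hw]
  group

theorem IsNDC.map {H : Type*} [Group H] {P : X → X → G} (h : IsNDC P) (φ : G →* H) :
    IsNDC (fun a b => φ (P a b)) := by
  intro z
  obtain ⟨U, hU, hc⟩ := h z
  exact ⟨U, hU, fun x hx y hy w hw => by rw [← map_mul, hc x hx y hy w hw]⟩

theorem NearEq.isNDC {P Q : X → X → G} (h : NearEq P Q) (hP : IsNDC P) : IsNDC Q := by
  intro z
  obtain ⟨U, hU, hc⟩ := h z
  obtain ⟨V, hV, hd⟩ := hP z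
  refine ⟨U ∩ V, inter_mem hU hV, fun x hx y hy w hw => ?_⟩
  rw [← hc x hx.1 y hy.1, ← hc y hy.1 w hw.1, ← hc x hx.1 w hw.1]
  exact hd x hx.2 y hy.2 w hw.2

/-- conjugation by a gauge -/
theorem IsNDC.gauge {P : X → X → G} (h : IsNDC P) (A : X → G) :
    IsNDC (fun x y => A x * P x y * (A y)⁻¹) := by
  intro z
  obtain ⟨U, hU, hc⟩ := h z
  refine ⟨U, hU, fun x hx y hy w hw => ?_⟩
  have := hc x hx y hy w hw
  show A x * P x y * (A y)⁻¹ * (A y * P y w * (A w)⁻¹) = A x * P x w * (A w)⁻¹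
  rw [← this]
  group

/-- uniqueness of trivialisations on preconnected spaces -/
theorem Triv.unique [PreconnectedSpace X] {P : X → X → G} {A B : X → G} (hA : Triv P A)
    (hB : Triv P B) (x y : X) : (A x)⁻¹ * B x = (A y)⁻¹ * B y := by
  have hlc : IsLocallyConstant (fun x => (A x)⁻¹ * B x) := by
    rw [IsLocallyConstant.iff_exists_open]
    intro z
    obtain ⟨U, hU, hc⟩ := hA z
    obtain ⟨V, hV, hd⟩ := hB z
    obtain ⟨W, hWs, hWo, hzW⟩ := mem_nhds_iff.1 (inter_mem hU hV)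
    refine ⟨W, hWo, hzW, fun x hx => ?_⟩
    have hzU : z ∈ U := (hWs hzW).1
    have hzV : z ∈ V := (hWs hzW).2
    have h1 := hc x (hWs hx).1 z hzU
    have h2 := hd x (hWs hx).2 z hzV
    have h3 : A x * (A z)⁻¹ = B x * (B z)⁻¹ := by rw [← h1, ← h2]
    show (A x)⁻¹ * B x = (A z)⁻¹ * B z
    have h4 : B x = A x * (A z)⁻¹ * B z := by rw [h3]; group
    rw [h4]; group
  exact hlc.apply_eq_of_preconnectedSpace x y

theorem Triv.unique' [PreconnectedSpace X] {P : X → X → G} {A B : X → G} (hA : Triv P A)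
    (hB : Triv P B) {x₀ : X} (h0 : A x₀ = B x₀) : A = B := by
  funext x
  have := Triv.unique hA hB x x₀
  rw [h0, inv_mul_cancel, inv_mul_eq_one] at this
  exact this

theorem Triv.mul_right {P : X → X → G} {A : X → G} (hA : Triv P A) (g : G) :
    Triv P (fun x => A x * g) := by
  intro z
  obtain ⟨U, hU, hc⟩ := hA z
  exact ⟨U, hU, fun x hx y hy => by rw [hc x hx y hy]; group⟩

theorem Triv.comp {P : X → X → G} {A : X → G} (h : Triv P A) {f : Y → X} (hf : Continuous f) :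
    Triv (fun a b => P (f a) (f b)) (fun a => A (f a)) := by
  intro z
  obtain ⟨U, hU, hc⟩ := h (f z)
  exact ⟨f ⁻¹' U, hf.continuousAt.preimage_mem_nhds hU, fun x hx y hy => hc _ hx _ hy⟩

/-! ### the unit interval -/

/-- partial trivialisation on `[0,T]` -/
def PTriv (c : I → I → G) (T : I) (A : I → G) : Prop :=
  A 0 = 1 ∧ ∀ z, z ≤ T → ∃ U ∈ 𝓝 z, ∀ s ∈ U, ∀ t ∈ U, s ≤ T → t ≤ T → c s t = A s * (A t)⁻¹

/-- an order-connected neighbourhood inside a given one (in `I`) -/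
theorem exists_ordConnected_nhds {z : I} {U : Set I} (hU : U ∈ 𝓝 z) :
    ∃ J ∈ 𝓝 z, J ⊆ U ∧ J.OrdConnected ∧ IsOpen J := by
  obtain ⟨ε, hε, hb⟩ := Metric.mem_nhds_iff.1 hU
  refine ⟨Metric.ball z ε, Metric.ball_mem_nhds _ hε, hb, ?_, Metric.isOpen_ball⟩
  constructor
  intro a ha b hb' c hc
  rw [Metric.mem_ball, Subtype.dist_eq, Real.dist_eq, abs_lt] at *
  have h1 : (a : ℝ) ≤ c := hc.1
  have h2 : (c : ℝ) ≤ b := hc.2
  constructor <;> linarith [ha.1, ha.2, hb'.1, hb'.2]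

theorem IsNDC.exists_ptriv {c : I → I → G} (hc : IsNDC c) (T : I) : ∃ A, PTriv c T A := by
  classical
  -- the set of good `T` is clopen
  set S : Set I := {T | ∃ A, PTriv c T A} with hS
  have key : ∀ z : I, ∃ J ∈ 𝓝 z, IsOpen J ∧ ∀ T₁ ∈ J, T₁ ∈ S → ∀ T ∈ J, T ∈ S := by
    intro z
    obtain ⟨U, hU, hcU⟩ := hc z
    obtain ⟨J, hJ, hJU, hJo, hJop⟩ := exists_ordConnected_nhds hU
    refine ⟨J, hJ, hJop, ?_⟩
    rintro T₁ hT₁ ⟨A, hA0, hA⟩ T hT
    rcases le_or_gt T T₁ with hle | hlt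
    · refine ⟨A, hA0, fun z hz => ?_⟩
      obtain ⟨V, hV, hAV⟩ := hA z (hz.trans hle)
      exact ⟨V, hV, fun s hs t ht hsT htT => hAV s hs t ht (hsT.trans hle) (htT.trans hle)⟩
    · refine ⟨fun t => if t ≤ T₁ then A t else c t T₁ * A T₁, ?_, fun z hz => ?_⟩
      · have : (0 : I) ≤ T₁ := T₁.2.1
        simp [this, hA0]
      · rcases lt_trichotomy z T₁ with hz1 | hz1 | hz1
        · obtain ⟨V, hV, hAV⟩ := hA z hz1.le
          refine ⟨V ∩ Iio T₁, inter_mem hV (Iio_mem_nhds hz1), ?_⟩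
          intro s hs t ht _ _
          have h1 : s ≤ T₁ := le_of_lt hs.2
          have h2 : t ≤ T₁ := le_of_lt ht.2
          simp only [h1, h2, if_true]
          exact hAV s hs.1 t ht.1 h1 h2
        · subst hz1
          obtain ⟨V, hV, hAV⟩ := hA z le_rfl
          have hJz : J ∈ 𝓝 z := hJop.mem_nhds hT₁
          refine ⟨V ∩ J, inter_mem hV hJz, ?_⟩
          intro s hs t ht _ _
          have hzV : z ∈ V := mem_of_mem_nhds hV
          have hzU := hJU hT₁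
          by_cases h1 : s ≤ z <;> by_cases h2 : t ≤ z
          · simp only [h1, h2, if_true]
            exact hAV s hs.1 t ht.1 h1 h2
          · simp only [h1, h2, if_true, if_false]
            rw [← hcU s (hJU hs.2) z hzU t (hJU ht.2), hAV s hs.1 z hzV h1 le_rfl]
            have : c z t = (c t z)⁻¹ := by
              rw [eq_inv_iff_mul_eq_one, hcU z hzU t (hJU ht.2) z hzU, hc.self]
            rw [this]; group
          · simp only [h1, h2, if_true, if_false]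
            rw [← hcU s (hJU hs.2) z hzU t (hJU ht.2), hAV z hzV t ht.1 le_rfl h2]
            group
          · simp only [h1, h2, if_false]
            rw [← hcU s (hJU hs.2) z hzU t (hJU ht.2)]
            have : c z t = (c t z)⁻¹ := by
              rw [eq_inv_iff_mul_eq_one, hcU z hzU t (hJU ht.2) z hzU, hc.self]
            rw [this]; group
        · have hzJ : z ∈ J := hJo.out hT₁ hT ⟨hz1.le, hz⟩
          have hJz : J ∈ 𝓝 z := hJop.mem_nhds hzJ
          refine ⟨J ∩ Ioi T₁, inter_mem hJz (Ioi_mem_nhds hz1), ?_⟩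
          intro s hs t ht _ _
          have h1 : ¬ s ≤ T₁ := not_le.2 hs.2
          have h2 : ¬ t ≤ T₁ := not_le.2 ht.2
          simp only [h1, h2, if_false]
          have hT₁U := hJU hT₁
          rw [← hcU s (hJU hs.1) T₁ hT₁U t (hJU ht.1)]
          have : c T₁ t = (c t T₁)⁻¹ := by
            rw [eq_inv_iff_mul_eq_one, hcU T₁ hT₁U t (hJU ht.1) T₁ hT₁U, hc.self]
          rw [this]; group
  have h0 : (0 : I) ∈ S := by
    obtain ⟨U, hU, hcU⟩ := hc 0
    refine ⟨fun _ => 1, rfl, fun z hz => ⟨univ, univ_mem, fun s _ t _ hs ht => ?_⟩⟩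
    have hs0 : s = 0 := le_antisymm hs s.2.1
    have ht0 : t = 0 := le_antisymm ht t.2.1
    subst hs0; subst ht0
    simp [hc.self]
  have hopen : IsOpen S := by
    rw [isOpen_iff_mem_nhds]
    intro T hT
    obtain ⟨J, hJ, -, hJS⟩ := key T
    exact mem_of_superset hJ fun T' hT' => hJS T (mem_of_mem_nhds hJ) hT T' hT'
  have hclosed : IsClosed S := by
    rw [← isOpen_compl_iff, isOpen_iff_mem_nhds]
    intro T hT
    obtain ⟨J, hJ, -, hJS⟩ := key T
    exact mem_of_superset hJ fun T' hT' hT'S => hT (hJS T' hT' hT'S T (mem_of_mem_nhds hJ))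
  have huniv : S = univ := IsClopen.eq_univ ⟨hclosed, hopen⟩ ⟨0, h0⟩
  have : T ∈ S := by rw [huniv]; trivial
  exact this

/-- **Triviality on the unit interval.** -/
theorem IsNDC.exists_triv_I {c : I → I → G} (hc : IsNDC c) : ∃ A, A 0 = 1 ∧ Triv c A := by
  obtain ⟨A, hA0, hA⟩ := hc.exists_ptriv 1
  refine ⟨A, hA0, fun z => ?_⟩
  obtain ⟨U, hU, hc⟩ := hA z z.2.2
  exact ⟨U, hU, fun x hx y hy => hc x hx y hy x.2.2 y.2.2⟩

/-- the normalised trivialisation on the interval -/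
noncomputable def lift (c : I → I → G) : I → G := by
  classical
  exact if h : IsNDC c then h.exists_triv_I.choose else fun _ => 1

theorem lift_zero {c : I → I → G} (hc : IsNDC c) : lift c 0 = 1 := by
  rw [lift, dif_pos hc]; exact hc.exists_triv_I.choose_spec.1

theorem lift_triv {c : I → I → G} (hc : IsNDC c) : Triv c (lift c) := by
  rw [lift, dif_pos hc]; exact hc.exists_triv_I.choose_spec.2

theorem lift_unique {c : I → I → G} (hc : IsNDC c) {A : I → G} (h0 : A 0 = 1) (hA : Triv c A) :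
    A = lift c :=
  Triv.unique' hA (lift_triv hc) (by rw [h0, lift_zero hc])

/-- on an order-connected set on which `c` is a cocycle, the lift is given by `c` -/
theorem lift_eq_of_cocycle {c : I → I → G} (hc : IsNDC c) {J : Set I} (hJ : J.OrdConnected)
    (hcJ : ∀ x ∈ J, ∀ y ∈ J, ∀ w ∈ J, c x y * c y w = c x w) {s t : I} (hs : s ∈ J) (ht : t ∈ J) :
    c s t = lift c s * (lift c t)⁻¹ := by
  -- `s ↦ (lift s)⁻¹ * c s t` is locally constant on `J`
  have hpre : IsPreconnected J := hJ.isPreconnected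
  have hlc : ∀ x ∈ J, ∀ y ∈ J, (lift c x)⁻¹ * c x t = (lift c y)⁻¹ * c y t := by
    intro x hx y hy
    have : PreconnectedSpace J := isPreconnected_iff_preconnectedSpace.1 hpre
    have hl : IsLocallyConstant (fun x : J => (lift c x)⁻¹ * c x t) := by
      rw [IsLocallyConstant.iff_exists_open]
      rintro ⟨z, hz⟩
      obtain ⟨U, hU, hA⟩ := lift_triv hc z
      obtain ⟨W, hWs, hWo, hzW⟩ := mem_nhds_iff.1 hU
      refine ⟨Subtype.val ⁻¹' W, hWo.preimage continuous_subtype_val, hzW, ?_⟩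
      rintro ⟨x, hx⟩ hxW
      have hxU := hWs hxW
      have hzU := hWs hzW
      show (lift c x)⁻¹ * c x t = (lift c z)⁻¹ * c z t
      rw [← hcJ x hx z hz t ht, hA x hxU z hzU]; group
    exact hl.apply_eq_of_preconnectedSpace ⟨x, hx⟩ ⟨y, hy⟩
  have h1 := hlc s hs t ht
  rw [hc.self, mul_one] at h1
  rw [← h1]; group

/-! ### the homotopy theorem -/

/-- the lift in the `I` direction of a cocycle on `X × I` -/
noncomputable def hlift (c : X × I → X × I → G) (p : X × I) : G :=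
  lift (fun s t => c (p.1, s) (p.1, t)) p.2

theorem isNDC_slice {c : X × I → X × I → G} (hc : IsNDC c) (x : X) :
    IsNDC (fun s t => c (x, s) (x, t)) := by
  have hcont : Continuous (fun s : I => (x, s)) := by fun_prop
  exact hc.comp hcont

theorem hlift_zero {c : X × I → X × I → G} (hc : IsNDC c) (x : X) : hlift c (x, 0) = 1 :=
  lift_zero (isNDC_slice hc x)

/-- **Homotopy theorem for near-diagonal cocycles.** -/
theorem IsNDC.homotopy {c : X × I → X × I → G} (hc : IsNDC c) :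
    NearEq c (fun p q => hlift c p * c (p.1, 0) (q.1, 0) * (hlift c q)⁻¹) := by
  -- local boxes
  have box : ∀ (x₀ : X) (t₀ : I), ∃ W ∈ 𝓝 x₀, ∃ J : Set I, IsOpen J ∧ J.OrdConnected ∧ t₀ ∈ J ∧
      ∀ p ∈ W ×ˢ J, ∀ q ∈ W ×ˢ J, ∀ r ∈ W ×ˢ J, c p q * c q r = c p r := by
    intro x₀ t₀
    obtain ⟨U, hU, hcU⟩ := hc (x₀, t₀)
    rw [nhds_prod_eq, mem_prod_iff] at hU
    obtain ⟨W, hW, V, hV, hWV⟩ := hU
    obtain ⟨J, hJ, hJV, hJo, hJop⟩ := exists_ordConnected_nhds hV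
    refine ⟨W, hW, J, hJop, hJo, mem_of_mem_nhds hJ, fun p hp q hq r hr => ?_⟩
    exact hcU p (hWV ⟨hp.1, hJV hp.2⟩) q (hWV ⟨hq.1, hJV hq.2⟩) r (hWV ⟨hr.1, hJV hr.2⟩)
  have rel : ∀ (W : Set X) (J : Set I), J.OrdConnected →
      (∀ p ∈ W ×ˢ J, ∀ q ∈ W ×ˢ J, ∀ r ∈ W ×ˢ J, c p q * c q r = c p r) →
      ∀ x ∈ W, ∀ s ∈ J, ∀ t ∈ J, c (x, s) (x, t) = hlift c (x, s) * (hlift c (x, t))⁻¹ := by
    intro W J hJ hcJ x hx s hs t ht
    exact lift_eq_of_cocycle (c := fun s t => c (x, s) (x, t)) (isNDC_slice hc x) hJ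
      (fun a ha b hb d hd => hcJ (x, a) ⟨hx, ha⟩ (x, b) ⟨hx, hb⟩ (x, d) ⟨hx, hd⟩) hs ht
  intro z
  obtain ⟨x₀, t₀⟩ := z
  set f : X × I → X × I → G := fun p q => hlift c p * c (p.1, 0) (q.1, 0) * (hlift c q)⁻¹ with hf
  -- the set of good `t` for the fixed point `x₀`
  set S : Set I := {t | ∃ W ∈ 𝓝 x₀, ∀ x ∈ W, ∀ y ∈ W, c (x, t) (y, t) = f (x, t) (y, t)} with hS
  have key : ∀ t : I, ∃ J : Set I, IsOpen J ∧ t ∈ J ∧ ∀ t₁ ∈ J, t₁ ∈ S →
      ∃ W ∈ 𝓝 x₀, ∀ p ∈ W ×ˢ J, ∀ q ∈ W ×ˢ J, c p q = f p q := by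
    intro t
    obtain ⟨W, hW, J, hJo, hJ, htJ, hcJ⟩ := box x₀ t
    refine ⟨J, hJo, htJ, ?_⟩
    rintro t₁ ht₁ ⟨W₁, hW₁, hf₁⟩
    refine ⟨W ∩ W₁, inter_mem hW hW₁, ?_⟩
    rintro ⟨x, s⟩ ⟨hx, hs⟩ ⟨y, s'⟩ ⟨hy, hs'⟩
    have e1 := hcJ (x, s) ⟨hx.1, hs⟩ (x, t₁) ⟨hx.1, ht₁⟩ (y, t₁) ⟨hy.1, ht₁⟩
    have e2 := hcJ (x, s) ⟨hx.1, hs⟩ (y, t₁) ⟨hy.1, ht₁⟩ (y, s') ⟨hy.1, hs'⟩
    rw [← e2, ← e1, hf₁ x hx.2 y hy.2, rel W J hJ hcJ x hx.1 s hs t₁ ht₁,
      rel W J hJ hcJ y hy.1 t₁ ht₁ s' hs']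
    simp only [hf]
    group
  have h0 : (0 : I) ∈ S := by
    refine ⟨univ, univ_mem, fun x _ y _ => ?_⟩
    simp only [hf, hlift_zero hc]
    group
  have hmem : ∀ t : I, ∃ J : Set I, IsOpen J ∧ t ∈ J ∧ ∀ t₁ ∈ J, t₁ ∈ S → ∀ t₂ ∈ J, t₂ ∈ S := by
    intro t
    obtain ⟨J, hJo, htJ, hJ⟩ := key t
    refine ⟨J, hJo, htJ, fun t₁ ht₁ ht₁S t₂ ht₂ => ?_⟩
    obtain ⟨W, hW, hcf⟩ := hJ t₁ ht₁ ht₁S
    exact ⟨W, hW, fun x hx y hy => hcf (x, t₂) ⟨hx, ht₂⟩ (y, t₂) ⟨hy, ht₂⟩⟩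
  have hopen : IsOpen S := by
    rw [isOpen_iff_mem_nhds]
    intro T hT
    obtain ⟨J, hJo, hTJ, hJS⟩ := hmem T
    exact mem_of_superset (hJo.mem_nhds hTJ) fun T' hT' => hJS T hTJ hT T' hT'
  have hclosed : IsClosed S := by
    rw [← isOpen_compl_iff, isOpen_iff_mem_nhds]
    intro T hT
    obtain ⟨J, hJo, hTJ, hJS⟩ := hmem T
    exact mem_of_superset (hJo.mem_nhds hTJ) fun T' hT' hT'S => hT (hJS T' hT' hT'S T hTJ)
  have huniv : S = univ := IsClopen.eq_univ ⟨hclosed, hopen⟩ ⟨0, h0⟩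
  have ht₀ : t₀ ∈ S := by rw [huniv]; trivial
  obtain ⟨J, hJo, htJ, hJ⟩ := key t₀
  obtain ⟨W, hW, hcf⟩ := hJ t₀ htJ ht₀
  exact ⟨W ×ˢ J, prod_mem_nhds hW (hJo.mem_nhds htJ), hcf⟩

/-- **Triviality on contractible spaces** (with an explicit contraction). -/
theorem IsNDC.triv_of_contraction {P : X → X → G} (hP : IsNDC P) (H : X × I → X)
    (hH : Continuous H) (x₀ : X) (h0 : ∀ x, H (x, 0) = x₀) (h1 : ∀ x, H (x, 1) = x) :
    ∃ A, Triv P A := by
  set c : X × I → X × I → G := fun p q => P (H p) (H q) with hc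
  have hcn : IsNDC c := hP.comp hH
  refine ⟨fun x => hlift c (x, 1), fun z => ?_⟩
  obtain ⟨U, hU, hcU⟩ := hcn.homotopy (z, 1)
  have hcont : Continuous (fun x : X => (x, (1 : I))) := by fun_prop
  refine ⟨(fun x : X => (x, (1 : I))) ⁻¹' U, hcont.continuousAt.preimage_mem_nhds hU, ?_⟩
  intro x hx y hy
  have := hcU (x, 1) hx (y, 1) hy
  simp only [hc, h0, h1, hP.self, mul_one] at this
  exact this

theorem IsNDC.triv_of_contractible [ContractibleSpace X] {P : X → X → G} (hP : IsNDC P) :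
    ∃ A, Triv P A := by
  obtain ⟨x₀, ⟨h⟩⟩ := (id_nullhomotopic X : (ContinuousMap.id X).Nullhomotopic)
  refine hP.triv_of_contraction (fun p => h (σ p.2, p.1)) ?_ x₀ ?_ ?_
  · exact h.continuous.comp (by fun_prop)
  · intro x; simp
  · intro x; simp

/-! ### transport along paths -/

/-- transport along a path: `transport P γ : G` is the transport from `γ 0` to `γ 1` -/
noncomputable def transport (P : X → X → G) (γ : C(I, X)) : G :=
  lift (fun s t => P (γ s) (γ t)) 1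

theorem transport_of_triv {P : X → X → G} (hP : IsNDC P) {A : X → G} (hA : Triv P A)
    (γ : C(I, X)) : transport P γ = A (γ 1) * (A (γ 0))⁻¹ := by
  have hc : IsNDC (fun s t => P (γ s) (γ t)) := hP.comp γ.continuous
  have h1 : Triv (fun s t => P (γ s) (γ t)) (fun t => A (γ t) * (A (γ 0))⁻¹) :=
    (hA.comp γ.continuous).mul_right _
  have := lift_unique hc (A := fun t => A (γ t) * (A (γ 0))⁻¹) (by simp) h1
  rw [transport, ← this]

/-- **Homotopy invariance of the transport** -/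
theorem transport_homotopy {P : X → X → G} (hP : IsNDC P) (H : I × I → X) (hH : Continuous H)
    (γ₀ γ₁ : C(I, X)) (x₀ x₁ : X) (h0 : ∀ s, H (s, 0) = x₀) (h1 : ∀ s, H (s, 1) = x₁)
    (hγ₀ : ∀ t, γ₀ t = H (0, t)) (hγ₁ : ∀ t, γ₁ t = H (1, t)) :
    transport P γ₀ = transport P γ₁ := by
  set c : I × I → I × I → G := fun p q => P (H p) (H q) with hc
  have hcn : IsNDC c := hP.comp hH
  have hlc : IsLocallyConstant (fun s : I => hlift c (s, 1)) := by
    rw [IsLocallyConstant.iff_exists_open]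
    intro s
    obtain ⟨U, hU, hcU⟩ := hcn.homotopy (s, 1)
    have hcont : Continuous (fun x : I => (x, (1 : I))) := by fun_prop
    have := hcont.continuousAt.preimage_mem_nhds (x := s) hU
    obtain ⟨W, hWs, hWo, hsW⟩ := mem_nhds_iff.1 this
    refine ⟨W, hWo, hsW, fun x hx => ?_⟩
    have h2 := hcU (x, 1) (hWs hx) (s, 1) (hWs hsW)
    simp only [hc, h0, h1, hP.self, mul_one] at h2
    exact (mul_inv_eq_one.1 h2.symm)
  have e := hlc.apply_eq_of_preconnectedSpace 0 1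
  have e0 : hlift c ((0 : I), 1) = transport P γ₀ := by
    simp only [hlift, transport, hc, hγ₀]
  have e1 : hlift c ((1 : I), 1) = transport P γ₁ := by
    simp only [hlift, transport, hc, hγ₁]
  rw [← e0, ← e1]; exact e

/-- a general fact: the lift along a reparametrised path -/
theorem lift_comp {c : I → I → G} (hc : IsNDC c) (φ : C(I, I)) (t : I) :
    lift (fun a b => c (φ a) (φ b)) t = lift c (φ t) * (lift c (φ 0))⁻¹ := by
  have h1 : Triv (fun a b => c (φ a) (φ b)) (fun t => lift c (φ t) * (lift c (φ 0))⁻¹) :=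
    ((lift_triv hc).comp φ.continuous).mul_right _
  have := lift_unique (hc.comp φ.continuous) (A := fun t => lift c (φ t) * (lift c (φ 0))⁻¹)
    (by simp) h1
  rw [← this]

/-- transport of a constant path -/
theorem transport_const {P : X → X → G} (hP : IsNDC P) (x : X) :
    transport P (ContinuousMap.const I x) = 1 := by
  have hc : IsNDC (fun s t => P ((ContinuousMap.const I x) s) ((ContinuousMap.const I x) t)) :=
    hP.comp (ContinuousMap.const I x).continuous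
  have : (fun _ : I => (1 : G)) = lift (fun s t : I => P ((ContinuousMap.const I x) s)
      ((ContinuousMap.const I x) t)) := by
    refine lift_unique hc rfl (fun z => ⟨univ, univ_mem, fun a _ b _ => ?_⟩)
    simp [hP.self]
  rw [transport, ← this]

/-- **additivity**: if a path `γ` restricted to `[0,1/2]`, `[1/2,1]` is `γ₁`, `γ₂` -/
theorem transport_trans {P : X → X → G} (hP : IsNDC P) (γ γ₁ γ₂ : C(I, X))
    (φ₁ φ₂ : C(I, I)) (h10 : φ₁ 0 = 0) (h12 : φ₁ 1 = φ₂ 0) (h21 : φ₂ 1 = 1)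
    (h1 : ∀ t, γ₁ t = γ (φ₁ t)) (h2 : ∀ t, γ₂ t = γ (φ₂ t)) :
    transport P γ = transport P γ₂ * transport P γ₁ := by
  have hc : IsNDC (fun s t => P (γ s) (γ t)) := hP.comp γ.continuous
  have e1 : transport P γ₁ = lift (fun s t => P (γ s) (γ t)) (φ₁ 1) *
      (lift (fun s t => P (γ s) (γ t)) (φ₁ 0))⁻¹ := by
    rw [← lift_comp hc φ₁ 1]; simp only [transport, h1]
  have e2 : transport P γ₂ = lift (fun s t => P (γ s) (γ t)) (φ₂ 1) *
      (lift (fun s t => P (γ s) (γ t)) (φ₂ 0))⁻¹ := by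
    rw [← lift_comp hc φ₂ 1]; simp only [transport, h2]
  rw [e1, e2, h10, h12, h21, lift_zero hc, transport]
  group

/-! ### star-shaped and convex sets -/

section star
variable {E : Type*} [AddCommGroup E] [Module ℝ E] [TopologicalSpace E] [ContinuousAdd E]
  [ContinuousSMul ℝ E]

/-- a cocycle on a star-shaped set is trivial; `P` need only be defined (and a cocycle) on `S` -/
theorem triv_of_starConvex {P : E → E → G} {S : Set E} {x₀ : E} (hS : StarConvex ℝ x₀ S)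
    (hne : S.Nonempty) (hP : IsNDC (fun a b : S => P a b)) :
    ∃ A : E → G, ∀ z ∈ S, ∃ U ∈ 𝓝[S] z, ∀ x ∈ U ∩ S, ∀ y ∈ U ∩ S, P x y = A x * (A y)⁻¹ := by
  classical
  have hcs : ContractibleSpace S := hS.contractibleSpace hne
  obtain ⟨A, hA⟩ := hP.triv_of_contractible
  refine ⟨fun x => if h : x ∈ S then A ⟨x, h⟩ else 1, fun z hz => ?_⟩
  obtain ⟨U, hU, hc⟩ := hA ⟨z, hz⟩
  refine ⟨Subtype.val '' U, ?_, ?_⟩
  · rw [nhdsWithin_eq_map_subtype_coe hz]
    exact image_mem_map hU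
  · rintro x ⟨⟨⟨x, hx⟩, hxU, rfl⟩, -⟩ y ⟨⟨⟨y, hy⟩, hyU, rfl⟩, -⟩
    simp only [hx, hy, dif_pos]
    exact hc _ hxU _ hyU

/-- version for open star-shaped sets: full neighbourhoods -/
theorem triv_of_starConvex_open {P : E → E → G} {S : Set E} {x₀ : E} (hS : StarConvex ℝ x₀ S)
    (hne : S.Nonempty) (hSo : IsOpen S)
    (hP : ∀ z ∈ S, ∃ U ∈ 𝓝 z, ∀ x ∈ U, ∀ y ∈ U, ∀ w ∈ U, P x y * P y w = P x w) :
    ∃ A : E → G, ∀ z ∈ S, ∃ U ∈ 𝓝 z, ∀ x ∈ U, ∀ y ∈ U, P x y = A x * (A y)⁻¹ := by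
  have hP' : IsNDC (fun a b : S => P a b) := by
    rintro ⟨z, hz⟩
    obtain ⟨U, hU, hc⟩ := hP z hz
    exact ⟨Subtype.val ⁻¹' U, continuous_subtype_val.continuousAt.preimage_mem_nhds hU,
      fun x hx y hy w hw => hc _ hx _ hy _ hw⟩
  obtain ⟨A, hA⟩ := triv_of_starConvex hS hne hP'
  refine ⟨A, fun z hz => ?_⟩
  obtain ⟨U, hU, hc⟩ := hA z hz
  rw [hSo.nhdsWithin_eq hz] at hU
  exact ⟨U ∩ S, inter_mem hU (hSo.mem_nhds hz), fun x hx y hy => hc x hx y hy⟩

theorem triv_of_convex_open {P : E → E → G} {S : Set E} (hS : Convex ℝ S)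
    (hSo : IsOpen S)
    (hP : ∀ z ∈ S, ∃ U ∈ 𝓝 z, ∀ x ∈ U, ∀ y ∈ U, ∀ w ∈ U, P x y * P y w = P x w) :
    ∃ A : E → G, ∀ z ∈ S, ∃ U ∈ 𝓝 z, ∀ x ∈ U, ∀ y ∈ U, P x y = A x * (A y)⁻¹ := by
  rcases S.eq_empty_or_nonempty with rfl | ⟨x₀, hx₀⟩
  · exact ⟨fun _ => 1, fun z hz => absurd hz (notMem_empty z)⟩
  · exact triv_of_starConvex_open (hS.starConvex hx₀) ⟨x₀, hx₀⟩ hSo hP

end star

/-! ### flat sections -/

section flat
variable {V : Type*} [MulAction G V]

/-- `v` is a flat section of the local system `P` -/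
def IsFlat (P : X → X → G) (v : X → V) : Prop :=
  ∀ z, ∃ U ∈ 𝓝 z, ∀ x ∈ U, ∀ y ∈ U, v x = P x y • v y

theorem IsFlat.of_triv {P : X → X → G} {A : X → G} (hA : Triv P A) (v : V) :
    IsFlat P (fun x => A x • v) := by
  intro z
  obtain ⟨U, hU, hc⟩ := hA z
  refine ⟨U, hU, fun x hx y hy => ?_⟩
  rw [hc x hx y hy, smul_smul, inv_mul_cancel_right]

theorem IsFlat.eq_of_triv [PreconnectedSpace X] {P : X → X → G} {A : X → G} (hA : Triv P A)
    {v : X → V} (hv : IsFlat P v) (x y : X) : (A x)⁻¹ • v x = (A y)⁻¹ • v y := by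
  have hlc : IsLocallyConstant (fun x => (A x)⁻¹ • v x) := by
    rw [IsLocallyConstant.iff_exists_open]
    intro z
    obtain ⟨U, hU, hc⟩ := hA z
    obtain ⟨U', hU', hd⟩ := hv z
    obtain ⟨W, hWs, hWo, hzW⟩ := mem_nhds_iff.1 (inter_mem hU hU')
    refine ⟨W, hWo, hzW, fun x hx => ?_⟩
    show (A x)⁻¹ • v x = (A z)⁻¹ • v z
    rw [hd x (hWs hx).2 z (hWs hzW).2, hc x (hWs hx).1 z (hWs hzW).1, smul_smul]
    congr 1
    group
  exact hlc.apply_eq_of_preconnectedSpace x y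

/-- flat sections of two flat sections agreeing at one point agree (preconnected spaces, any
cocycle) -/
theorem IsFlat.unique [PreconnectedSpace X] {P : X → X → G} {v w : X → V} (hv : IsFlat P v)
    (hw : IsFlat P w) {x₀ : X} (h0 : v x₀ = w x₀) : v = w := by
  classical
  have hS : IsClopen {x | v x = w x} := by
    have key : ∀ z, ∃ U ∈ 𝓝 z, ∀ x ∈ U, ∀ y ∈ U, v x = w x → v y = w y := by
      intro z
      obtain ⟨U, hU, hc⟩ := hv z
      obtain ⟨U', hU', hd⟩ := hw z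
      refine ⟨U ∩ U', inter_mem hU hU', fun x hx y hy he => ?_⟩
      rw [hc y hy.1 x hx.1, hd y hy.2 x hx.2, he]
    constructor
    · rw [← isOpen_compl_iff, isOpen_iff_mem_nhds]
      intro z hz
      obtain ⟨U, hU, hc⟩ := key z
      exact mem_of_superset hU fun x hx hx' => hz (hc x hx z (mem_of_mem_nhds hU) hx')
    · rw [isOpen_iff_mem_nhds]
      intro z hz
      obtain ⟨U, hU, hc⟩ := key z
      exact mem_of_superset hU fun x hx => hc z (mem_of_mem_nhds hU) x hx hz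
  have := hS.eq_univ ⟨x₀, h0⟩
  funext x
  have hx : x ∈ {x | v x = w x} := by rw [this]; trivial
  exact hx

end flat

end Crest.Agent.R276.Top1_175
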