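import Crest.Agent.R276.IpcDefs_735
import Crest.Agent.R276.Top1_816
import Crest.Agent.R276.Top2_937

/-!
# R276, leaf TOP2 (helper937), part 2: one-forms with values in a near-diagonal cocycle

`P : ℂ → ℂ → GL_N(ℤ)` a near-diagonal cocycle near the points of an open set.
`Fam P` : finitely many convex open sets with trivialisations of `P`.
`Fam.cc` : the Čech data; `Fam.form` : the form on the pieces given by a smooth closed 1-form
`a dx + b dx̄`; `Fam.exOn_iff` : exactness on the union of the pieces.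
-/

set_option autoImplicit false
set_option linter.unusedSectionVars false

open Set Filter Topology MeasureTheory Matrix
open scoped ContDiff

namespace Crest.Agent.R276.Top2_937

open Ipc735

noncomputable section

variable {N : ℕ}

/-! ### the action of `GL_N(ℤ)` on `ℂ^N` -/

theorem cm_mul (g h : GL (Fin N) ℤ) : cm (g * h) = cm g * cm h := by
  ext i j
  simp [cm, Matrix.mul_apply]

theorem cm_one : cm (1 : GL (Fin N) ℤ) = 1 := by
  ext i j
  by_cases h : i = j <;> simp [cm, Matrix.one_apply, h]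

/-- complex linear version of the action -/
def actC (g : GL (Fin N) ℤ) : (Fin N → ℂ) →L[ℂ] (Fin N → ℂ) :=
  LinearMap.toContinuousLinearMap (Matrix.mulVecLin (cm g))

/-- the action -/
def act (g : GL (Fin N) ℤ) : (Fin N → ℂ) →L[ℝ] (Fin N → ℂ) := (actC g).restrictScalars ℝ

@[simp] theorem act_apply (g : GL (Fin N) ℤ) (v : Fin N → ℂ) : act g v = cm g *ᵥ v := rfl

theorem act_mul_apply (g h : GL (Fin N) ℤ) (v : Fin N → ℂ) : act (g * h) v = act g (act h v) := by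
  simp [cm_mul, Matrix.mulVec_mulVec]

theorem act_mul (g h : GL (Fin N) ℤ) : act (g * h) = (act g).comp (act h) := by
  ext v : 1
  exact act_mul_apply g h v

theorem act_one : act (1 : GL (Fin N) ℤ) = ContinuousLinearMap.id ℝ _ := by
  ext v : 1
  simp [cm_one]

theorem act_inv_act (g : GL (Fin N) ℤ) (v : Fin N → ℂ) : act g⁻¹ (act g v) = v := by
  rw [← act_mul_apply, inv_mul_cancel, act_one]; rfl

theorem act_act_inv (g : GL (Fin N) ℤ) (v : Fin N → ℂ) : act g (act g⁻¹ v) = v := by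
  rw [← act_mul_apply, mul_inv_cancel, act_one]; rfl

theorem act_smul (g : GL (Fin N) ℤ) (c : ℂ) (v : Fin N → ℂ) : act g (c • v) = c • act g v := by
  simp [Matrix.mulVec_smul]

/-! ### one-forms on the plane -/

/-- the one-form `a dx + b dx̄` -/
def frm : ((Fin N → ℂ) × (Fin N → ℂ)) →L[ℝ] (ℂ →L[ℝ] (Fin N → ℂ)) :=
  LinearMap.toContinuousLinearMap
    { toFun := fun p => (ContinuousLinearMap.id ℝ ℂ).smulRight p.1 +
        (Complex.conjCLE : ℂ →L[ℝ] ℂ).smulRight p.2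
      map_add' := fun p q => by
        ext v : 1
        simp only [Prod.fst_add, Prod.snd_add, _root_.add_apply,
          ContinuousLinearMap.smulRight_apply, smul_add]
        abel
      map_smul' := fun c p => by
        ext v : 1
        simp only [Prod.smul_fst, Prod.smul_snd, RingHom.id_apply, _root_.add_apply,
          ContinuousLinearMap.smulRight_apply, smul_add, _root_.smul_apply]
        rw [smul_comm (((Complex.conjCLE : ℂ ≃L[ℝ] ℂ) : ℂ →L[ℝ] ℂ) v) c p.2,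
          smul_comm ((ContinuousLinearMap.id ℝ ℂ) v) c p.1] }

theorem frm_apply (a b : Fin N → ℂ) (v : ℂ) :
    frm (a, b) v = v • a + (starRingEnd ℂ) v • b := rfl

theorem frm_act (g : GL (Fin N) ℤ) (a b : Fin N → ℂ) :
    frm (act g a, act g b) = (act g).comp (frm (a, b)) := by
  ext v : 1
  rw [frm_apply, ContinuousLinearMap.comp_apply, frm_apply, map_add, act_smul, act_smul]

theorem frm_inj {a b a' b' : Fin N → ℂ} (h : frm (a, b) = frm (a', b')) : a = a' ∧ b = b' := by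
  have h1 : ∀ v : ℂ, v • a + (starRingEnd ℂ) v • b = v • a' + (starRingEnd ℂ) v • b' := fun v => by
    rw [← frm_apply, ← frm_apply, h]
  have h2 := h1 1
  have h3 := h1 Complex.I
  simp only [map_one, one_smul, Complex.conj_I, neg_smul] at h2 h3
  have h4 : Complex.I • (a - b) = Complex.I • (a' - b') := by
    rw [smul_sub, smul_sub, sub_eq_add_neg, sub_eq_add_neg]; exact h3
  have h5 : a - b = a' - b' := smul_right_injective _ Complex.I_ne_zero h4
  have h6 : (2 : ℂ) • a = (2 : ℂ) • a' := by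
    have : (2 : ℂ) • a = (a + b) + (a - b) := by rw [two_smul]; abel
    rw [this, h2, h5, two_smul]; abel
  have h7 : a = a' := smul_right_injective _ (two_ne_zero' ℂ) h6
  refine ⟨h7, ?_⟩
  rw [h7] at h2
  exact add_left_cancel h2

theorem fderiv_eq_frm {f : ℂ → Fin N → ℂ} (z : ℂ) :
    fderiv ℝ f z = frm (wz f z, wb f z) := by
  ext v : 1
  rw [frm_apply]
  have h1 : v = (v.re : ℝ) • (1 : ℂ) + (v.im : ℝ) • Complex.I := by
    simp [Complex.re_add_im]
  conv_lhs => rw [h1]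
  rw [map_add, map_smul, map_smul]
  simp only [wz, wb]
  set p := fderiv ℝ f z 1
  set q := fderiv ℝ f z Complex.I
  funext i
  simp only [Pi.add_apply, Pi.smul_apply, Pi.sub_apply, smul_eq_mul, Complex.real_smul]
  have hv : v = v.re + v.im * Complex.I := (Complex.re_add_im v).symm
  have hc : (starRingEnd ℂ) v = v.re - v.im * Complex.I := by
    apply Complex.ext <;> simp
  rw [hc]
  nth_rewrite 3 [hv]
  have hI : Complex.I * Complex.I = -1 := Complex.I_mul_I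
  linear_combination ((v.im : ℂ) * q i) * hI

theorem wz_act {g : GL (Fin N) ℤ} {f : ℂ → Fin N → ℂ} {z : ℂ} (hf : DifferentiableAt ℝ f z) :
    wz (fun y => act g (f y)) z = act g (wz f z) ∧ wb (fun y => act g (f y)) z = act g (wb f z) := by
  have h1 : fderiv ℝ (fun y => act g (f y)) z = (act g).comp (fderiv ℝ f z) :=
    ((act g).hasFDerivAt.comp z hf.hasFDerivAt).fderiv
  rw [fderiv_eq_frm, fderiv_eq_frm, ← frm_act] at h1
  exact frm_inj h1

/-- closedness of `a dx + b dx̄` -/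
theorem closed_frm {a b : ℂ → Fin N → ℂ} {z : ℂ} (ha : DifferentiableAt ℝ a z)
    (hb : DifferentiableAt ℝ b z) :
    (∀ u v, fderiv ℝ (fun x => frm (a x, b x)) z u v = fderiv ℝ (fun x => frm (a x, b x)) z v u) ↔
      wb a z = wz b z := by
  have h1 : fderiv ℝ (fun x => frm (a x, b x)) z =
      frm.comp ((fderiv ℝ a z).prod (fderiv ℝ b z)) :=
    (frm.hasFDerivAt.comp z (ha.hasFDerivAt.prodMk hb.hasFDerivAt)).fderiv
  have h2 : ∀ u v, fderiv ℝ (fun x => frm (a x, b x)) z u v =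
      v • (u • wz a z + (starRingEnd ℂ) u • wb a z) +
        (starRingEnd ℂ) v • (u • wz b z + (starRingEnd ℂ) u • wb b z) := by
    intro u v
    rw [h1]
    show frm (fderiv ℝ a z u, fderiv ℝ b z u) v = _
    rw [frm_apply, fderiv_eq_frm (f := a), fderiv_eq_frm (f := b), frm_apply, frm_apply]
  constructor
  · intro h
    have h3 := h 1 Complex.I
    rw [h2, h2] at h3
    funext i
    have h4 := congrFun h3 i
    simp only [Pi.add_apply, Pi.smul_apply, smul_eq_mul, map_one, one_mul, Complex.conj_I] at h4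
    have hI : Complex.I * Complex.I = -1 := Complex.I_mul_I
    linear_combination (-Complex.I / 2) * h4 + (wb a z i - wz b z i) * hI
  · intro h u v
    rw [h2, h2, h]
    funext i
    simp only [Pi.add_apply, Pi.smul_apply, smul_eq_mul]
    ring

/-! ### local trivialisations -/

variable {P : ℂ → ℂ → GL (Fin N) ℤ} {O W : Set ℂ} {T : ℂ → GL (Fin N) ℤ}

/-- `T` trivialises `P` on `W` -/
def Tri (P : ℂ → ℂ → GL (Fin N) ℤ) (W : Set ℂ) (T : ℂ → GL (Fin N) ℤ) : Prop :=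
  ∀ z ∈ W, ∃ U ∈ 𝓝 z, ∀ x ∈ U, ∀ y ∈ U, P x y = T x * (T y)⁻¹

theorem Tri.mono {W' : Set ℂ} (h : Tri P W T) (hW : W' ⊆ W) : Tri P W' T := fun z hz => h z (hW hz)

theorem exists_tri (hP : Ipc735.NDCOn O P) (hW : IsOpen W) (hc : Convex ℝ W) (hWO : W ⊆ O) :
    ∃ T : ℂ → GL (Fin N) ℤ, Tri P W T := by
  have h1 : Top1_816.NDCOn P W := fun z hz => by
    obtain ⟨U, hU, h⟩ := hP z (hWO hz)
    exact ⟨U, mem_nhdsWithin_of_mem_nhds hU, h⟩
  obtain ⟨T, hT⟩ := Top1_816.NDCOn.exists_trivByOn_convex hc h1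
  refine ⟨T, fun z hz => ?_⟩
  obtain ⟨U, hU, h⟩ := hT z hz
  rw [hW.nhdsWithin_eq hz] at hU
  exact ⟨U, hU, h⟩

/-- the section `φ` in the flat frame `T` -/
def tl (T : ℂ → GL (Fin N) ℤ) (φ : ℂ → Fin N → ℂ) (x : ℂ) : Fin N → ℂ := act (T x)⁻¹ (φ x)

theorem act_tl (T : ℂ → GL (Fin N) ℤ) (φ : ℂ → Fin N → ℂ) (x : ℂ) : act (T x) (tl T φ x) = φ x :=
  act_act_inv _ _

theorem lV_eventually (hT : Tri P W T) {z : ℂ} (hz : z ∈ W) (φ : ℂ → Fin N → ℂ) :
    lV P φ z =ᶠ[𝓝 z] fun y => act (T z) (tl T φ y) := by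
  obtain ⟨U, hU, h⟩ := hT z hz
  filter_upwards [hU] with y hy
  show act (P z y) (φ y) = _
  rw [h z (mem_of_mem_nhds hU) y hy, act_mul_apply]
  rfl

theorem tl_eventually (hT : Tri P W T) {z : ℂ} (hz : z ∈ W) (φ : ℂ → Fin N → ℂ) :
    tl T φ =ᶠ[𝓝 z] fun y => act (T z)⁻¹ (lV P φ z y) := by
  filter_upwards [lV_eventually hT hz φ] with y hy
  rw [hy, act_inv_act]

theorem sm_iff (hT : Tri P W T) {z : ℂ} (hz : z ∈ W) (φ : ℂ → Fin N → ℂ) :
    ContDiffAt ℝ (⊤ : ℕ∞) (lV P φ z) z ↔ ContDiffAt ℝ (⊤ : ℕ∞) (tl T φ) z := by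
  constructor
  · intro h
    exact ((act (T z)⁻¹).contDiff.contDiffAt.comp z h).congr_of_eventuallyEq
      (tl_eventually hT hz φ)
  · intro h
    exact ((act (T z)).contDiff.contDiffAt.comp z h).congr_of_eventuallyEq
      (lV_eventually hT hz φ)

theorem wz_congr {f g : ℂ → Fin N → ℂ} {z : ℂ} (h : f =ᶠ[𝓝 z] g) : wz f z = wz g z ∧
    wb f z = wb g z := by
  simp only [wz, wb, h.fderiv_eq, and_self]

theorem wz_lV (hT : Tri P W T) {z : ℂ} (hz : z ∈ W) {φ : ℂ → Fin N → ℂ}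
    (hφ : DifferentiableAt ℝ (tl T φ) z) :
    wz (lV P φ z) z = act (T z) (wz (tl T φ) z) ∧ wb (lV P φ z) z = act (T z) (wb (tl T φ) z) := by
  have h1 := wz_congr (lV_eventually hT hz φ)
  have h2 := wz_act (g := T z) hφ
  exact ⟨h1.1.trans h2.1, h1.2.trans h2.2⟩

/-- smooth sections on `O` -/
def SmOn (P : ℂ → ℂ → GL (Fin N) ℤ) (O : Set ℂ) (φ : ℂ → Fin N → ℂ) : Prop :=
  ∀ z ∈ O, ContDiffAt ℝ (⊤ : ℕ∞) (lV P φ z) z

/-- closed one-forms on `O` -/
def ClOn (P : ℂ → ℂ → GL (Fin N) ℤ) (O : Set ℂ) (a b : ℂ → Fin N → ℂ) : Prop :=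
  ∀ z ∈ O, wb (lV P a z) z = wz (lV P b z) z

/-- exact one-forms on `O` -/
def ExOn (P : ℂ → ℂ → GL (Fin N) ℤ) (O : Set ℂ) (a b : ℂ → Fin N → ℂ) : Prop :=
  ∃ φ : ℂ → Fin N → ℂ, ∀ z ∈ O, ContDiffAt ℝ (⊤ : ℕ∞) (lV P φ z) z ∧
    wz (lV P φ z) z = a z ∧ wb (lV P φ z) z = b z

/-- finitely many convex open sets with trivialisations of `P` -/
structure Fam (P : ℂ → ℂ → GL (Fin N) ℤ) (ι : Type) where
  W : ι → Set ℂ
  T : ι → ℂ → GL (Fin N) ℤ
  isOpen : ∀ i, IsOpen (W i)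
  convex : ∀ i, Convex ℝ (W i)
  tri : ∀ i, Tri P (W i) (T i)

namespace Fam

variable {ι : Type} (D : Fam P ι)

/-- two trivialisations differ by a constant -/
theorem const {i j : ι} {x y : ℂ} (hx : x ∈ D.W i ∩ D.W j) (hy : y ∈ D.W i ∩ D.W j) :
    (D.T i x)⁻¹ * D.T j x = (D.T i y)⁻¹ * D.T j y := by
  have h1 : ∀ z ∈ D.W i ∩ D.W j, ∀ᶠ w in 𝓝 z, (D.T i w)⁻¹ * D.T j w = (D.T i z)⁻¹ * D.T j z := by
    intro z hz
    obtain ⟨U, hU, h⟩ := D.tri i z hz.1
    obtain ⟨U', hU', h'⟩ := D.tri j z hz.2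
    filter_upwards [hU, hU'] with w hw hw'
    have e1 := h w hw z (mem_of_mem_nhds hU)
    have e2 := h' w hw' z (mem_of_mem_nhds hU')
    rw [e1] at e2
    -- T i w * (T i z)⁻¹ = T j w * (T j z)⁻¹
    have e3 : D.T j w = D.T i w * (D.T i z)⁻¹ * D.T j z := by
      rw [e2]; group
    rw [e3]; group
  have h2 : IsPreconnected (D.W i ∩ D.W j) := ((D.convex i).inter (D.convex j)).isPreconnected
  -- the set where the value equals the value at `y`
  by_contra hne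
  let A : Set ℂ := {w | w ∈ D.W i ∩ D.W j ∧ (D.T i w)⁻¹ * D.T j w = (D.T i y)⁻¹ * D.T j y}
  let B : Set ℂ := {w | w ∈ D.W i ∩ D.W j ∧ (D.T i w)⁻¹ * D.T j w ≠ (D.T i y)⁻¹ * D.T j y}
  have hO : IsOpen (D.W i ∩ D.W j) := (D.isOpen i).inter (D.isOpen j)
  have hA : IsOpen A := by
    rw [isOpen_iff_mem_nhds]
    rintro w ⟨hw, hw'⟩
    filter_upwards [h1 w hw, hO.mem_nhds hw] with u hu hu'
    exact ⟨hu', by rw [hu, hw']⟩
  have hB : IsOpen B := by
    rw [isOpen_iff_mem_nhds]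
    rintro w ⟨hw, hw'⟩
    filter_upwards [h1 w hw, hO.mem_nhds hw] with u hu hu'
    exact ⟨hu', by rw [hu]; exact hw'⟩
  obtain ⟨w, -, hwA, hwB⟩ := h2 A B hA hB (fun w hw => by
    by_cases h : (D.T i w)⁻¹ * D.T j w = (D.T i y)⁻¹ * D.T j y
    · exact Or.inl ⟨hw, h⟩
    · exact Or.inr ⟨hw, h⟩) ⟨y, hy, hy, rfl⟩ ⟨x, hx, hx, hne⟩
  exact hwB.2 hwA.2

open Classical in
/-- transition matrices -/
def G (i j : ι) : GL (Fin N) ℤ :=
  if h : (D.W i ∩ D.W j).Nonempty then (D.T i h.some)⁻¹ * D.T j h.some else 1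

theorem G_eq {i j : ι} {x : ℂ} (hx : x ∈ D.W i ∩ D.W j) : D.G i j = (D.T i x)⁻¹ * D.T j x := by
  have h : (D.W i ∩ D.W j).Nonempty := ⟨x, hx⟩
  rw [G, dif_pos h]
  exact D.const h.some_mem hx

/-- the Čech data -/
def cc : CC ℂ (Fin N → ℂ) where
  ι := ι
  W := D.W
  g i j := act (D.G i j)
  isOpen := D.isOpen
  convex := D.convex
  g_mul i j l h := by
    obtain ⟨x, ⟨hi, hj⟩, hl⟩ := h
    rw [← act_mul, D.G_eq ⟨hi, hj⟩, D.G_eq ⟨hj, hl⟩, D.G_eq ⟨hi, hl⟩]
    congr 1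
    group
  g_self i h := by
    obtain ⟨x, hx⟩ := h
    rw [D.G_eq ⟨hx, hx⟩, inv_mul_cancel, act_one]

/-- change of frame of sections -/
theorem tl_change {i j : ι} {x : ℂ} (hx : x ∈ D.W i ∩ D.W j) (φ : ℂ → Fin N → ℂ) :
    tl (D.T i) φ x = act (D.G i j) (tl (D.T j) φ x) := by
  rw [D.G_eq hx, tl, tl, ← act_mul_apply]
  congr 2
  group

/-- the form on the pieces -/
def form {a b : ℂ → Fin N → ℂ} (ha : SmOn P (⋃ i, D.W i) a) (hb : SmOn P (⋃ i, D.W i) b)
    (hab : ClOn P (⋃ i, D.W i) a b) : Form D.cc where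
  η i x := frm (tl (D.T i) a x, tl (D.T i) b x)
  smooth i x hx := by
    have hx' := mem_iUnion.2 ⟨i, hx⟩
    have h1 := (sm_iff (D.tri i) hx a).1 (ha x hx')
    have h2 := (sm_iff (D.tri i) hx b).1 (hb x hx')
    exact (frm.contDiff.contDiffAt.comp x (h1.prodMk h2)).contDiffWithinAt
  closed i x hx := by
    have hx' := mem_iUnion.2 ⟨i, hx⟩
    have h1 := ((sm_iff (D.tri i) hx a).1 (ha x hx')).differentiableAt (by simp)
    have h2 := ((sm_iff (D.tri i) hx b).1 (hb x hx')).differentiableAt (by simp)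
    rw [closed_frm h1 h2]
    have h3 := hab x hx'
    rw [(wz_lV (D.tri i) hx h1).2, (wz_lV (D.tri i) hx h2).1] at h3
    have h4 := congrArg (act (D.T i x)⁻¹) h3
    rwa [act_inv_act, act_inv_act] at h4
  compat i j x hx := by
    show frm (_, _) = (act (D.G i j)).comp (frm (_, _))
    rw [← frm_act, ← D.tl_change hx, ← D.tl_change hx]

/-- exactness on the union of the pieces is exactness of the Čech form -/
theorem exOn_iff {a b : ℂ → Fin N → ℂ} (ha : SmOn P (⋃ i, D.W i) a)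
    (hb : SmOn P (⋃ i, D.W i) b) (hab : ClOn P (⋃ i, D.W i) a b) :
    ExOn P (⋃ i, D.W i) a b ↔ (D.form ha hb hab).Exact := by
  classical
  constructor
  · rintro ⟨φ, h⟩
    refine ⟨fun i => tl (D.T i) φ, fun i x hx => ?_, fun i j x hx => D.tl_change hx φ⟩
    have hx' := mem_iUnion.2 ⟨i, hx⟩
    obtain ⟨h1, h2, h3⟩ := h x hx'
    have h4 := ((sm_iff (D.tri i) hx φ).1 h1).differentiableAt (by simp)
    have h5 := wz_lV (D.tri i) hx h4
    have h6 : fderiv ℝ (tl (D.T i) φ) x = frm (tl (D.T i) a x, tl (D.T i) b x) := by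
      rw [fderiv_eq_frm]
      congr 2
      · rw [tl, ← h2, h5.1, act_inv_act]
      · rw [tl, ← h3, h5.2, act_inv_act]
    have h7 := h4.hasFDerivAt
    rw [h6] at h7
    exact h7
  · rintro ⟨f, h1, h2⟩
    let φ : ℂ → Fin N → ℂ := fun x => if h : ∃ i, x ∈ D.W i then act (D.T h.choose x) (f h.choose x)
      else 0
    have hφ : ∀ i, ∀ x ∈ D.W i, φ x = act (D.T i x) (f i x) := by
      intro i x hx
      have h : ∃ i, x ∈ D.W i := ⟨i, hx⟩
      simp only [φ]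
      rw [dif_pos h]
      have h3 := h2 h.choose i x ⟨h.choose_spec, hx⟩
      rw [h3]
      show act _ (act (D.G _ _) _) = _
      rw [← act_mul_apply, D.G_eq ⟨h.choose_spec, hx⟩, mul_inv_cancel_left]
    have hφ' : ∀ i, ∀ x ∈ D.W i, tl (D.T i) φ =ᶠ[𝓝 x] f i := by
      intro i x hx
      filter_upwards [(D.isOpen i).mem_nhds hx] with y hy
      rw [tl, hφ i y hy, act_inv_act]
    refine ⟨φ, fun x hx => ?_⟩
    obtain ⟨i, hi⟩ := mem_iUnion.1 hx
    have hsm : ContDiffOn ℝ ∞ (f i) (D.W i) :=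
      contDiffOn_of_hasFDerivAt (D.isOpen i) (h1 i) ((D.form ha hb hab).smooth i)
    have h3 : ContDiffAt ℝ (⊤ : ℕ∞) (tl (D.T i) φ) x :=
      (hsm.contDiffAt ((D.isOpen i).mem_nhds hi)).congr_of_eventuallyEq (hφ' i x hi)
    have h4 := h3.differentiableAt (by simp)
    have h5 := wz_lV (D.tri i) hi h4
    have h6 : fderiv ℝ (tl (D.T i) φ) x = frm (tl (D.T i) a x, tl (D.T i) b x) := by
      rw [(hφ' i x hi).fderiv_eq]
      exact (h1 i x hi).fderiv
    rw [fderiv_eq_frm] at h6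
    obtain ⟨h7, h8⟩ := frm_inj h6
    refine ⟨(sm_iff (D.tri i) hi φ).2 h3, ?_, ?_⟩
    · rw [h5.1, h7, act_tl]
    · rw [h5.2, h8, act_tl]

/-- `P`-smooth closed form restricted to smaller pieces -/
def refine {ι' : Type} (r : ι' → ι) (W' : ι' → Set ℂ) (ho : ∀ j, IsOpen (W' j))
    (hc : ∀ j, Convex ℝ (W' j)) (hs : ∀ j, W' j ⊆ D.W (r j)) : Fam P ι' where
  W := W'
  T j := D.T (r j)
  isOpen := ho
  convex := hc
  tri j := (D.tri (r j)).mono (hs j)

theorem refine_G {ι' : Type} (r : ι' → ι) (W' : ι' → Set ℂ) (ho : ∀ j, IsOpen (W' j))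
    (hc : ∀ j, Convex ℝ (W' j)) (hs : ∀ j, W' j ⊆ D.W (r j)) (i j : ι')
    (h : (W' i ∩ W' j).Nonempty) :
    (D.refine r W' ho hc hs).G i j = D.G (r i) (r j) := by
  obtain ⟨x, hx⟩ := h
  rw [(D.refine r W' ho hc hs).G_eq hx, D.G_eq ⟨hs i hx.1, hs j hx.2⟩]
  rfl

theorem iUnion_refine {ι' : Type} (r : ι' → ι) (W' : ι' → Set ℂ)
    (hs : ∀ j, W' j ⊆ D.W (r j)) : (⋃ j, W' j) ⊆ ⋃ i, D.W i :=
  iUnion_subset fun j => (hs j).trans (subset_iUnion D.W (r j))

/-- restriction of primitives -/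
def refinePrim {a b : ℂ → Fin N → ℂ} (ha : SmOn P (⋃ i, D.W i) a)
    (hb : SmOn P (⋃ i, D.W i) b) (hab : ClOn P (⋃ i, D.W i) a b)
    (Q : Prim (D.form ha hb hab)) {ι' : Type} (r : ι' → ι) (W' : ι' → Set ℂ)
    (ho : ∀ j, IsOpen (W' j)) (hc : ∀ j, Convex ℝ (W' j)) (hs : ∀ j, W' j ⊆ D.W (r j)) :
    Prim ((D.refine r W' ho hc hs).form
      (fun z hz => ha z (D.iUnion_refine r W' hs hz)) (fun z hz => hb z (D.iUnion_refine r W' hs hz))
      (fun z hz => hab z (D.iUnion_refine r W' hs hz))) where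
  ψ j := Q.ψ (r j)
  c i j := Q.c (r i) (r j)
  der j x hx := Q.der (r j) x (hs j hx)
  rel i j x hx := by
    show _ = act ((D.refine r W' ho hc hs).G i j) _ + _
    rw [D.refine_G r W' ho hc hs i j ⟨x, hx⟩]
    exact Q.rel (r i) (r j) x ⟨hs i hx.1, hs j hx.2⟩

/-- exactness on a smaller open set covered by smaller pieces -/
theorem exOn_refine_iff {a b : ℂ → Fin N → ℂ} (ha : SmOn P (⋃ i, D.W i) a)
    (hb : SmOn P (⋃ i, D.W i) b) (hab : ClOn P (⋃ i, D.W i) a b)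
    (Q : Prim (D.form ha hb hab)) {ι' : Type} (r : ι' → ι) (W' : ι' → Set ℂ)
    (ho : ∀ j, IsOpen (W' j)) (hc : ∀ j, Convex ℝ (W' j)) (hs : ∀ j, W' j ⊆ D.W (r j)) :
    ExOn P (⋃ j, W' j) a b ↔ ∃ v : ι' → Fin N → ℂ, ∀ i j, (W' i ∩ W' j).Nonempty →
      Q.c (r i) (r j) = act (D.G (r i) (r j)) (v j) - v i := by
  have h1 := (D.refine r W' ho hc hs).exOn_iff
    (fun z hz => ha z (D.iUnion_refine r W' hs hz)) (fun z hz => hb z (D.iUnion_refine r W' hs hz))
    (fun z hz => hab z (D.iUnion_refine r W' hs hz))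
  have h2 := (D.refinePrim ha hb hab Q r W' ho hc hs).exact_iff
  refine h1.trans (h2.trans ?_)
  constructor
  · rintro ⟨v, hv⟩
    refine ⟨v, fun i j hij => ?_⟩
    have h3 := hv i j hij
    change Q.c (r i) (r j) = act ((D.refine r W' ho hc hs).G i j) (v j) - v i at h3
    rwa [D.refine_G r W' ho hc hs i j hij] at h3
  · rintro ⟨v, hv⟩
    refine ⟨v, fun i j hij => ?_⟩
    show Q.c (r i) (r j) = act ((D.refine r W' ho hc hs).G i j) (v j) - v i
    rw [D.refine_G r W' ho hc hs i j hij]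
    exact hv i j hij

end Fam

end

end Crest.Agent.R276.Top2_937
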