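import Crest.Agent.R276.Top2b_937
import Crest.Agent.R276.Lat2_348

/-!
# R276, leaf TOP2 (helper937), part 3: the cover of the punctured plane, the ends
-/

set_option autoImplicit false
set_option linter.unusedSectionVars false

open Set Filter Topology MeasureTheory Matrix
open scoped ContDiff

namespace Crest.Agent.R276.Top2_937

open Ipc735

noncomputable section

variable {N : ℕ}

/-! ### exactness near an end -/

section ends

variable {P : ℂ → ℂ → GL (Fin N) ℤ} {ι : Type} [Finite ι] (D : Fam P ι) {M : Type} [Finite M]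
  (B : ℕ → M → Set ℂ)

/-- the pieces near an end -/
def Fam.piece (n : ℕ) (i : ι × M) : Set ℂ := D.W i.1 ∩ B n i.2

/-- two pieces meet arbitrarily near the end -/
def Fam.meet (i j : ι × M) : Prop := ∀ n, (D.piece B n i ∩ D.piece B n j).Nonempty

theorem Fam.exists_stable (hB : ∀ m, Antitone fun n => B n m) :
    ∃ n₀, ∀ n, n₀ ≤ n → ∀ i j, (D.piece B n i ∩ D.piece B n j).Nonempty ↔ D.meet B i j := by
  classical
  have h1 : ∀ i j, ∀ᶠ n in atTop, ((D.piece B n i ∩ D.piece B n j).Nonempty ↔ D.meet B i j) := by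
    intro i j
    by_cases h : D.meet B i j
    · exact Eventually.of_forall fun n => ⟨fun _ => h, fun _ => h n⟩
    · have h' := h
      rw [Fam.meet] at h'
      push Not at h'
      obtain ⟨n, hn⟩ := h'
      filter_upwards [eventually_ge_atTop n] with k hk
      refine ⟨fun h2 => ?_, fun h2 => absurd h2 h⟩
      exfalso
      have h3 : D.piece B k i ∩ D.piece B k j ⊆ D.piece B n i ∩ D.piece B n j :=
        inter_subset_inter (inter_subset_inter le_rfl (hB i.2 hk))
          (inter_subset_inter le_rfl (hB j.2 hk))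
      have h4 := h2.mono h3
      rw [hn] at h4
      exact Set.not_nonempty_empty h4
  have h2 : ∀ᶠ n in atTop, ∀ i j, ((D.piece B n i ∩ D.piece B n j).Nonempty ↔ D.meet B i j) := by
    rw [eventually_all]; intro i
    rw [eventually_all]; intro j
    exact h1 i j
  obtain ⟨n₀, h⟩ := eventually_atTop.1 h2
  exact ⟨n₀, h⟩

variable {a b : ℂ → Fin N → ℂ}

theorem ExOn.mono {O O' : Set ℂ} (h : ExOn P O a b) (hO : O' ⊆ O) : ExOn P O' a b := by
  obtain ⟨φ, hφ⟩ := h
  exact ⟨φ, fun z hz => hφ z (hO hz)⟩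

/-- a form is exact near the end iff its Čech cochain satisfies the end condition -/
theorem Fam.end_iff (ho : ∀ n m, IsOpen (B n m)) (hc : ∀ n m, Convex ℝ (B n m))
    (hB : ∀ m, Antitone fun n => B n m)
    (ha : SmOn P (⋃ i, D.W i) a) (hb : SmOn P (⋃ i, D.W i) b)
    (hab : ClOn P (⋃ i, D.W i) a b) (Q : Prim (D.form ha hb hab)) :
    (∃ n, ExOn P (⋃ i, D.piece B n i) a b) ↔ ∃ v : ι × M → Fin N → ℂ, ∀ i j, D.meet B i j →
      Q.c i.1 j.1 = act (D.G i.1 j.1) (v j) - v i := by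
  obtain ⟨n₀, hn₀⟩ := D.exists_stable B hB
  have key : ∀ n, ExOn P (⋃ i, D.piece B n i) a b ↔ ∃ v : ι × M → Fin N → ℂ, ∀ i j,
      (D.piece B n i ∩ D.piece B n j).Nonempty →
        Q.c i.1 j.1 = act (D.G i.1 j.1) (v j) - v i := fun n =>
    D.exOn_refine_iff ha hb hab Q (fun i : ι × M => i.1) (D.piece B n)
      (fun i => (D.isOpen i.1).inter (ho n i.2)) (fun i => (D.convex i.1).inter (hc n i.2))
      (fun i => inter_subset_left)
  constructor
  · rintro ⟨n, hn⟩
    have h1 : ExOn P (⋃ i, D.piece B (max n n₀) i) a b := hn.mono (by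
      refine iUnion_mono fun i => inter_subset_inter le_rfl (hB i.2 (le_max_left _ _)))
    obtain ⟨v, hv⟩ := (key _).1 h1
    exact ⟨v, fun i j hij => hv i j ((hn₀ _ (le_max_right _ _) i j).2 hij)⟩
  · rintro ⟨v, hv⟩
    exact ⟨n₀, (key n₀).2 ⟨v, fun i j hij => hv i j ((hn₀ _ le_rfl i j).1 hij)⟩⟩

end ends

/-! ### half planes -/

/-- the four functionals `Re`, `-Re`, `Im`, `-Im` -/
def lf (m : Fin 4) : ℂ →L[ℝ] ℝ :=
  match m with
  | 0 => Complex.reCLM
  | 1 => -Complex.reCLM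
  | 2 => Complex.imCLM
  | 3 => -Complex.imCLM

theorem exists_lf_pos {z : ℂ} (hz : z ≠ 0) : ∃ m, 0 < lf m z := by
  by_contra h
  push Not at h
  have h0 := h 0
  have h1 := h 1
  have h2 := h 2
  have h3 := h 3
  simp only [lf, Complex.reCLM_apply, Complex.imCLM_apply, _root_.neg_apply] at h0 h1 h2 h3
  apply hz
  apply Complex.ext
  · simp only [Complex.zero_re]; linarith
  · simp only [Complex.zero_im]; linarith

theorem lf_le (m : Fin 4) (z : ℂ) : lf m z ≤ ‖z‖ := by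
  have h1 := Complex.abs_re_le_norm z
  have h2 := Complex.abs_im_le_norm z
  have h3 := abs_le.1 h1
  have h4 := abs_le.1 h2
  fin_cases m <;> simp [lf] <;> linarith

theorem exists_lf_gt {z : ℂ} {R : ℝ} (hz : 2 * R < ‖z‖) : ∃ m, R < lf m z := by
  by_contra h
  push Not at h
  have h0 := h 0
  have h1 := h 1
  have h2 := h 2
  have h3 := h 3
  simp only [lf, Complex.reCLM_apply, Complex.imCLM_apply, _root_.neg_apply] at h0 h1 h2 h3
  have h4 := Complex.norm_le_abs_re_add_abs_im z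
  have h5 : |z.re| ≤ R := abs_le.2 ⟨by linarith, h0⟩
  have h6 : |z.im| ≤ R := abs_le.2 ⟨by linarith, h2⟩
  linarith

theorem isOpen_lf (m : Fin 4) (t : ℝ) : IsOpen {z | t < lf m z} :=
  isOpen_lt continuous_const (lf m).continuous

theorem convex_lf (m : Fin 4) (t : ℝ) : Convex ℝ {z | t < lf m z} :=
  convex_halfSpace_gt (lf m).isLinear t

/-- the pieces of the cover of `ℂ \ A` -/
def Wf (A : Finset ℂ) (f : A → Fin 4) : Set ℂ := ⋂ p : A, {z | lf (f p) p < lf (f p) z}

theorem isOpen_Wf (A : Finset ℂ) (f : A → Fin 4) : IsOpen (Wf A f) :=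
  isOpen_iInter_of_finite fun _ => isOpen_lf _ _

theorem convex_Wf (A : Finset ℂ) (f : A → Fin 4) : Convex ℝ (Wf A f) :=
  convex_iInter fun _ => convex_lf _ _

theorem iUnion_Wf (A : Finset ℂ) : ⋃ f, Wf A f = (A : Set ℂ)ᶜ := by
  ext z
  constructor
  · intro h hz
    obtain ⟨f, hf⟩ := mem_iUnion.1 h
    have h1 : lf (f ⟨z, hz⟩) z < lf (f ⟨z, hz⟩) z := mem_iInter.1 hf ⟨z, hz⟩
    exact lt_irrefl _ h1
  · intro hz
    have h1 : ∀ p : A, ∃ m, 0 < lf m (z - p) := fun p => exists_lf_pos (by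
      intro h
      apply hz
      rw [sub_eq_zero] at h
      rw [h]
      exact p.2)
    choose f hf using h1
    refine mem_iUnion.2 ⟨f, mem_iInter.2 fun p => ?_⟩
    have h2 := hf p
    rw [map_sub] at h2
    show lf (f p) p < lf (f p) z
    linarith

section main

variable {A : Finset ℂ} {P : ℂ → ℂ → GL (Fin N) ℤ}

theorem exists_mainT (hP : NDCOn (A : Set ℂ)ᶜ P) (f : A → Fin 4) :
    ∃ T : ℂ → GL (Fin N) ℤ, Tri P (Wf A f) T :=
  exists_tri hP (isOpen_Wf A f) (convex_Wf A f)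
    ((subset_iUnion (Wf A) f).trans (iUnion_Wf A).le)

/-- the main cover, with trivialisations -/
def mainFam (hP : NDCOn (A : Set ℂ)ᶜ P) : Fam P (A → Fin 4) where
  W := Wf A
  T f := (exists_mainT hP f).choose
  isOpen := isOpen_Wf A
  convex := convex_Wf A
  tri f := (exists_mainT hP f).choose_spec

theorem iUnion_main (hP : NDCOn (A : Set ℂ)ᶜ P) : ⋃ f, (mainFam hP).W f = (A : Set ℂ)ᶜ :=
  iUnion_Wf A

/-- pieces near the ends: `some p` = the puncture `p`, `none` = infinity -/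
def EB (e : Option ℂ) (n : ℕ) (m : Fin 4) : Set ℂ :=
  match e with
  | some p => Metric.ball p (1 / ((n : ℝ) + 1))
  | none => {z | (n : ℝ) < lf m z}

theorem isOpen_EB (e : Option ℂ) (n : ℕ) (m : Fin 4) : IsOpen (EB e n m) := by
  cases e with
  | none => exact isOpen_lf m n
  | some p => exact Metric.isOpen_ball

theorem convex_EB (e : Option ℂ) (n : ℕ) (m : Fin 4) : Convex ℝ (EB e n m) := by
  cases e with
  | none => exact convex_lf m n
  | some p => exact convex_ball _ _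

theorem antitone_EB (e : Option ℂ) (m : Fin 4) : Antitone fun n => EB e n m := by
  intro n k hnk
  have h : (n : ℝ) ≤ k := Nat.cast_le.2 hnk
  cases e with
  | none =>
    intro z (hz : (k : ℝ) < lf m z)
    exact lt_of_le_of_lt h hz
  | some p =>
    apply Metric.ball_subset_ball
    exact one_div_le_one_div_of_le (by positivity) (by linarith)

/-- neighbourhoods of the ends -/
def EE (e : Option ℂ) (n : ℕ) : Set ℂ := ⋃ m, EB e n m

theorem EE_some (p : ℂ) (n : ℕ) : EE (some p) n = Metric.ball p (1 / ((n : ℝ) + 1)) := by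
  ext z
  simp only [EE, mem_iUnion]
  exact ⟨fun ⟨_, h⟩ => h, fun h => ⟨0, h⟩⟩

theorem iUnion_piece (hP : NDCOn (A : Set ℂ)ᶜ P) (e : Option ℂ) (n : ℕ) :
    ⋃ i, (mainFam hP).piece (EB e) n i = EE e n ∩ (A : Set ℂ)ᶜ := by
  ext z
  simp only [mem_iUnion, Fam.piece, EE, mem_inter_iff, ← iUnion_main hP, Prod.exists]
  constructor
  · rintro ⟨i, m, h1, h2⟩
    exact ⟨⟨m, h2⟩, ⟨i, h1⟩⟩
  · rintro ⟨⟨m, h2⟩, ⟨i, h1⟩⟩
    exact ⟨i, m, h1, h2⟩

/-- exact near all ends -/
def ParOn (P : ℂ → ℂ → GL (Fin N) ℤ) (A : Finset ℂ) (a b : ℂ → Fin N → ℂ) : Prop :=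
  (∀ p ∈ A, ∃ U ∈ 𝓝 p, ExOn P (U ∩ (A : Set ℂ)ᶜ) a b) ∧
    ∃ R : ℝ, ExOn P ({z | R < ‖z‖} ∩ (A : Set ℂ)ᶜ) a b

/-- the index set of the ends -/
def endOf (A : Finset ℂ) (e : Option A) : Option ℂ := e.map (fun p => (p : ℂ))

theorem parOn_iff (a b : ℂ → Fin N → ℂ) :
    ParOn P A a b ↔ ∀ e : Option A, ∃ n, ExOn P (EE (endOf A e) n ∩ (A : Set ℂ)ᶜ) a b := by
  constructor
  · rintro ⟨h1, R, hR⟩ (_ | p)
    · obtain ⟨n, hn⟩ := exists_nat_ge R
      refine ⟨n, hR.mono (inter_subset_inter ?_ le_rfl)⟩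
      intro z hz
      obtain ⟨m, hm⟩ := mem_iUnion.1 hz
      have hm' : (n : ℝ) < lf m z := hm
      exact lt_of_le_of_lt hn (lt_of_lt_of_le hm' (lf_le m z))
    · obtain ⟨U, hU, hex⟩ := h1 p p.2
      obtain ⟨r, hr, hrU⟩ := Metric.mem_nhds_iff.1 hU
      obtain ⟨n, hn⟩ := exists_nat_one_div_lt hr
      refine ⟨n, hex.mono (inter_subset_inter ?_ le_rfl)⟩
      show EE (some (p : ℂ)) n ⊆ U
      rw [EE_some]
      exact (Metric.ball_subset_ball hn.le).trans hrU
  · intro h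
    constructor
    · intro p hp
      obtain ⟨n, hn⟩ := h (some ⟨p, hp⟩)
      refine ⟨Metric.ball p (1 / ((n : ℝ) + 1)), Metric.ball_mem_nhds _ (by positivity), ?_⟩
      have h2 : EE (endOf A (some ⟨p, hp⟩)) n = Metric.ball p (1 / ((n : ℝ) + 1)) := EE_some p n
      rwa [h2] at hn
    · obtain ⟨n, hn⟩ := h none
      refine ⟨2 * n, hn.mono (inter_subset_inter ?_ le_rfl)⟩
      intro z hz
      obtain ⟨m, hm⟩ := exists_lf_gt hz
      exact mem_iUnion.2 ⟨m, hm⟩

end main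

end

end Crest.Agent.R276.Top2_937
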