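import Crest.Agent.R276.Top2c_937

/-!
# R276, leaf TOP2 (helper937), part 4: integral structure of the parabolic Čech cohomology
-/

set_option autoImplicit false
set_option linter.unusedSectionVars false
set_option linter.unusedVariables false

open Set Filter Topology MeasureTheory Matrix
open scoped ContDiff

namespace Crest.Agent.R276.Top2_937

open Ipc735 Lat_348

noncomputable section

variable {N : ℕ}

/-- integral vectors are preserved by `GL_N(ℤ)` -/
theorem act_mem_std (g : GL (Fin N) ℤ) {v : Fin N → ℂ} (hv : v ∈ stdLat (Fin N)) :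
    act g v ∈ stdLat (Fin N) :=
  Lat2_348.mulVec_mem (g : Matrix (Fin N) (Fin N) ℤ) hv

section alg

variable {ι κ J : Type} [Finite ι] [Finite κ] [Finite J] (G : ι → ι → GL (Fin N) ℤ)
  (R2 : ι → ι → Prop) (R3 : ι → ι → ι → Prop) (r : κ → ι) (mt : J → κ → κ → Prop)

/-- Čech 1-cochains -/
abbrev Co (N : ℕ) (ι : Type) : Type := ι → ι → Fin N → ℂ

/-- integral cochains -/
abbrev coLat (N : ℕ) (ι : Type) : AddSubgroup (Co N ι) := piLat ι (piLat ι (stdLat (Fin N)))

theorem mem_coLat {c : Co N ι} : c ∈ coLat N ι ↔ ∀ i j, c i j ∈ stdLat (Fin N) := by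
  simp only [coLat, mem_piLat]

theorem isCLat_co : IsCLat (coLat N ι) := ((isCLat_std (Fin N)).pi ι).pi ι

/-- the cocycle functional -/
def zf (i j l : ι) : Co N ι →ₗ[ℂ] (Fin N → ℂ) where
  toFun c := c i j + act (G i j) (c j l) - c i l
  map_add' c d := by
    simp only [Pi.add_apply, map_add]; abel
  map_smul' a c := by
    simp only [Pi.smul_apply, act_smul, RingHom.id_apply, smul_sub, smul_add]

/-- evaluation -/
def ef (i j : ι) : Co N ι →ₗ[ℂ] (Fin N → ℂ) where
  toFun c := c i j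
  map_add' c d := rfl
  map_smul' a c := rfl

/-- restriction to an end -/
def rf (mt : κ → κ → Prop) : Co N ι →ₗ[ℂ] ({p : κ × κ // mt p.1 p.2} → Fin N → ℂ) where
  toFun c p := c (r p.1.1) (r p.1.2)
  map_add' c d := rfl
  map_smul' a c := rfl

/-- coboundaries at an end -/
def df (mt : κ → κ → Prop) : (κ → Fin N → ℂ) →ₗ[ℂ] ({p : κ × κ // mt p.1 p.2} → Fin N → ℂ) where
  toFun v p := act (G (r p.1.1) (r p.1.2)) (v p.1.2) - v p.1.1
  map_add' c d := by
    funext p
    simp only [Pi.add_apply, map_add]; abel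
  map_smul' a c := by
    funext p
    simp only [Pi.smul_apply, act_smul, RingHom.id_apply, smul_sub]

open Classical in
/-- global coboundaries -/
def Df : (ι → Fin N → ℂ) →ₗ[ℂ] Co N ι where
  toFun v i j := if R2 i j then act (G i j) (v j) - v i else 0
  map_add' c d := by
    funext i j
    simp only [Pi.add_apply, map_add]
    split_ifs
    · abel
    · simp
  map_smul' a c := by
    funext i j
    simp only [Pi.smul_apply, act_smul, RingHom.id_apply]
    split_ifs
    · rw [smul_sub]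
    · simp

theorem Df_pos {i j : ι} (h : R2 i j) (v : ι → Fin N → ℂ) :
    Df G R2 v i j = act (G i j) (v j) - v i := if_pos h

theorem Df_neg {i j : ι} (h : ¬ R2 i j) (v : ι → Fin N → ℂ) : Df G R2 v i j = 0 := if_neg h

/-- parabolic cocycles -/
def parZ : Submodule ℂ (Co N ι) :=
  (⨅ p : {p : ι × ι // ¬ R2 p.1 p.2}, LinearMap.ker (ef p.1.1 p.1.2)) ⊓
  (⨅ p : {p : ι × ι × ι // R3 p.1 p.2.1 p.2.2}, LinearMap.ker (zf G p.1.1 p.1.2.1 p.1.2.2)) ⊓
  (⨅ e : J, (LinearMap.range (df G r (mt e))).comap (rf r (mt e)))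

theorem mem_parZ {c : Co N ι} : c ∈ parZ G R2 R3 r mt ↔
    (∀ i j, ¬ R2 i j → c i j = 0) ∧
    (∀ i j l, R3 i j l → c i j + act (G i j) (c j l) = c i l) ∧
    ∀ e, ∃ v : κ → Fin N → ℂ, ∀ i j, mt e i j →
      c (r i) (r j) = act (G (r i) (r j)) (v j) - v i := by
  rw [parZ, Submodule.mem_inf, Submodule.mem_inf, Submodule.mem_iInf, Submodule.mem_iInf,
    Submodule.mem_iInf, and_assoc]
  refine and_congr ?_ (and_congr ?_ ?_)
  · constructor
    · intro h i j hij
      exact h ⟨(i, j), hij⟩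
    · intro h p
      exact h p.1.1 p.1.2 p.2
  · constructor
    · intro h i j l hijl
      exact sub_eq_zero.1 (h ⟨(i, j, l), hijl⟩)
    · intro h p
      exact sub_eq_zero.2 (h p.1.1 p.1.2.1 p.1.2.2 p.2)
  · refine forall_congr' fun e => ?_
    rw [Submodule.mem_comap, LinearMap.mem_range]
    refine exists_congr fun v => ?_
    constructor
    · intro h i j hij
      exact (congrFun h ⟨(i, j), hij⟩).symm
    · intro h
      funext p
      exact (h p.1.1 p.1.2 p.2).symm

theorem ratSub_parZ : RatSub (coLat N ι) (parZ G R2 R3 r mt) := by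
  have hL := isCLat_co (N := N) (ι := ι)
  have h0 := isCLat_std (Fin N)
  have hact : ∀ (g : GL (Fin N) ℤ) (v : Fin N → ℂ), v ∈ stdLat (Fin N) →
      act g v ∈ stdLat (Fin N) := fun g v hv => act_mem_std g hv
  refine hL.ratSub_inf (hL.ratSub_inf (hL.ratSub_iInf fun p => ?_) (hL.ratSub_iInf fun p => ?_))
    (hL.ratSub_iInf fun e => ?_)
  · exact hL.ratSub_ker h0 _ fun l hl => mem_coLat.1 hl _ _
  · refine hL.ratSub_ker h0 _ fun l hl => ?_
    have hl' := mem_coLat.1 hl
    exact sub_mem (add_mem (hl' _ _) (hact _ _ (hl' _ _))) (hl' _ _)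
  · refine hL.ratSub_comap (h0.pi _) _ (fun l hl => ?_)
      ((h0.pi κ).ratSub_range _ fun l hl => ?_)
    · rw [mem_piLat]
      exact fun p => mem_coLat.1 hl _ _
    · rw [mem_piLat] at hl ⊢
      exact fun p => sub_mem (hact _ _ (hl _)) (hl _)

theorem ratSub_Df : RatSub (coLat N ι) (LinearMap.range (Df G R2)) := by
  refine ((isCLat_std (Fin N)).pi ι).ratSub_range _ fun l hl => ?_
  rw [mem_piLat] at hl
  rw [mem_coLat]
  intro i j
  by_cases hij : R2 i j
  · rw [Df_pos G R2 hij]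
    exact sub_mem (act_mem_std _ (hl _)) (hl _)
  · rw [Df_neg G R2 hij]
    exact zero_mem _

/-- **integral basis of the parabolic cohomology** -/
theorem exists_basis_co : ∃ (n : ℕ) (w : Fin n → Co N ι),
    (∀ k, w k ∈ parZ G R2 R3 r mt) ∧ (∀ k i j, w k i j ∈ stdLat (Fin N)) ∧
    (∀ x ∈ parZ G R2 R3 r mt, ∃! c : Fin n → ℂ, ∃ v : ι → Fin N → ℂ, ∀ i j, R2 i j →
      x i j - ∑ k, c k • w k i j = act (G i j) (v j) - v i) ∧
    (∀ x ∈ parZ G R2 R3 r mt, ∀ c : Fin n → ℂ, (∃ v : ι → Fin N → ℂ, ∀ i j, R2 i j →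
      x i j - ∑ k, c k • w k i j = act (G i j) (v j) - v i) →
      ((∃ l ∈ parZ G R2 R3 r mt, (∀ i j, l i j ∈ stdLat (Fin N)) ∧
        ∃ v : ι → Fin N → ℂ, ∀ i j, R2 i j → x i j - l i j = act (G i j) (v j) - v i) ↔
          ∀ k, ∃ m : ℤ, c k = m)) := by
  obtain ⟨n, w, h1, h2, h3, h4⟩ := Lat2_348.exists_int_basis (isCLat_co (N := N) (ι := ι))
    (ratSub_parZ G R2 R3 r mt) (ratSub_Df G R2)
  have hz : ∀ x ∈ parZ G R2 R3 r mt, ∀ i j, ¬ R2 i j → x i j = 0 := fun x hx =>
    ((mem_parZ G R2 R3 r mt).1 hx).1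
  have key : ∀ y ∈ parZ G R2 R3 r mt, y ∈ LinearMap.range (Df G R2) ↔
      ∃ v : ι → Fin N → ℂ, ∀ i j, R2 i j → y i j = act (G i j) (v j) - v i := by
    intro y hy
    rw [LinearMap.mem_range]
    refine exists_congr fun v => ?_
    constructor
    · intro h i j hij
      rw [← h, Df_pos G R2 hij]
    · intro h
      funext i j
      by_cases hij : R2 i j
      · rw [Df_pos G R2 hij]
        exact (h i j hij).symm
      · rw [Df_neg G R2 hij]
        exact (hz y hy i j hij).symm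
  have hsum : ∀ c : Fin n → ℂ, ∑ k, c k • w k ∈ parZ G R2 R3 r mt := fun c =>
    Submodule.sum_mem _ fun k _ => Submodule.smul_mem _ _ (h1 k)
  have hap : ∀ (c : Fin n → ℂ) (i j : ι), (∑ k, c k • w k) i j = ∑ k, c k • w k i j := by
    intro c i j
    rw [Finset.sum_apply, Finset.sum_apply]
    rfl
  refine ⟨n, w, h1, fun k => mem_coLat.1 (h2 k), ?_, ?_⟩
  · intro x hx
    have h5 : ∀ c : Fin n → ℂ, (∃ v : ι → Fin N → ℂ, ∀ i j, R2 i j →
        x i j - ∑ k, c k • w k i j = act (G i j) (v j) - v i) ↔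
        x - ∑ k, c k • w k ∈ LinearMap.range (Df G R2) := by
      intro c
      rw [key _ (Submodule.sub_mem _ hx (hsum c))]
      simp only [Pi.sub_apply, hap]
    simp only [h5]
    exact h3 x hx
  · intro x hx c hc
    have h5 : x - ∑ k, c k • w k ∈ LinearMap.range (Df G R2) := by
      rw [key _ (Submodule.sub_mem _ hx (hsum c))]
      simpa only [Pi.sub_apply, hap] using hc
    rw [← h4 x hx c h5]
    constructor
    · rintro ⟨l, hl, hl2, v, hv⟩
      refine ⟨l, hl, mem_coLat.2 hl2, ?_⟩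
      rw [key _ (Submodule.sub_mem _ hx hl)]
      exact ⟨v, hv⟩
    · rintro ⟨l, hl, hl2, hv⟩
      refine ⟨l, hl, mem_coLat.1 hl2, ?_⟩
      rw [key _ (Submodule.sub_mem _ hx hl)] at hv
      exact hv

end alg

end

end Crest.Agent.R276.Top2_937
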