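import Crest.Agent.R276.Top2d_937

/-!
# R276, leaf TOP2 (helper937), part 5: global forms, linear structure, cut-off
-/

set_option autoImplicit false
set_option linter.unusedSectionVars false
set_option linter.unusedVariables false

open Set Filter Topology MeasureTheory Matrix
open scoped ContDiff Manifold

namespace Crest.Agent.R276.Top2_937

open Ipc735 Lat_348

noncomputable section

variable {N : ℕ}

/-! ### linearity -/

section lin

variable {P : ℂ → ℂ → GL (Fin N) ℤ}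

theorem lV_add (φ ψ : ℂ → Fin N → ℂ) (z : ℂ) : lV P (φ + ψ) z = lV P φ z + lV P ψ z := by
  funext y
  exact Matrix.mulVec_add _ _ _

theorem lV_sub (φ ψ : ℂ → Fin N → ℂ) (z : ℂ) : lV P (φ - ψ) z = lV P φ z - lV P ψ z := by
  funext y
  exact Matrix.mulVec_sub _ _ _

theorem lV_smul (c : ℂ) (φ : ℂ → Fin N → ℂ) (z : ℂ) : lV P (c • φ) z = c • lV P φ z := by
  funext y
  exact Matrix.mulVec_smul (cm (P z y)) c (φ y)

theorem lV_zero (z : ℂ) : lV P (0 : ℂ → Fin N → ℂ) z = 0 := by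
  funext y
  exact Matrix.mulVec_zero _

theorem lV_rsmul (χ : ℂ → ℝ) (φ : ℂ → Fin N → ℂ) (z : ℂ) :
    lV P (fun y => χ y • φ y) z = fun y => χ y • lV P φ z y := by
  funext y
  exact Matrix.mulVec_smul _ _ _

theorem lV_congr {φ ψ : ℂ → Fin N → ℂ} {z : ℂ} (h : φ =ᶠ[𝓝 z] ψ) : lV P φ z =ᶠ[𝓝 z] lV P ψ z := by
  filter_upwards [h] with y hy
  simp only [lV, hy]

variable {f g : ℂ → Fin N → ℂ} {z : ℂ}

theorem wz_add (hf : DifferentiableAt ℝ f z) (hg : DifferentiableAt ℝ g z) :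
    wz (f + g) z = wz f z + wz g z ∧ wb (f + g) z = wb f z + wb g z := by
  simp only [wz, wb, fderiv_add hf hg, _root_.add_apply, smul_add, smul_sub]
  exact ⟨by abel, by abel⟩

theorem wz_sub (hf : DifferentiableAt ℝ f z) (hg : DifferentiableAt ℝ g z) :
    wz (f - g) z = wz f z - wz g z ∧ wb (f - g) z = wb f z - wb g z := by
  simp only [wz, wb, fderiv_sub hf hg, _root_.sub_apply, smul_add, smul_sub]
  exact ⟨by abel, by abel⟩

theorem wz_smul (c : ℂ) (hf : DifferentiableAt ℝ f z) :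
    wz (c • f) z = c • wz f z ∧ wb (c • f) z = c • wb f z := by
  have h1 : fderiv ℝ (c • f) z = c • fderiv ℝ f z := fderiv_const_smul hf c
  simp only [wz, wb, h1, _root_.smul_apply]
  constructor
  · rw [smul_comm Complex.I c, ← smul_sub, smul_comm]
  · rw [smul_comm Complex.I c, ← smul_add, smul_comm]

theorem wz_zero : wz (0 : ℂ → Fin N → ℂ) z = 0 ∧ wb (0 : ℂ → Fin N → ℂ) z = 0 := by
  have h1 : fderiv ℝ (0 : ℂ → Fin N → ℂ) z = 0 := fderiv_const_apply 0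
  simp [wz, wb, h1]

variable {O : Set ℂ} {a b a' b' φ ψ : ℂ → Fin N → ℂ}

theorem SmOn.add (h1 : SmOn P O φ) (h2 : SmOn P O ψ) : SmOn P O (φ + ψ) := fun z hz => by
  rw [lV_add]; exact (h1 z hz).add (h2 z hz)

theorem SmOn.sub (h1 : SmOn P O φ) (h2 : SmOn P O ψ) : SmOn P O (φ - ψ) := fun z hz => by
  rw [lV_sub]; exact (h1 z hz).sub (h2 z hz)

theorem SmOn.smul (h1 : SmOn P O φ) (c : ℂ) : SmOn P O (c • φ) := fun z hz => by
  rw [lV_smul]; exact (h1 z hz).const_smul c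

theorem SmOn.zero : SmOn P O (0 : ℂ → Fin N → ℂ) := fun z hz => by
  rw [lV_zero]; exact contDiffAt_const

theorem SmOn.sum {κ : Type} (s : Finset κ) {F : κ → ℂ → Fin N → ℂ} (h : ∀ k ∈ s, SmOn P O (F k)) :
    SmOn P O (∑ k ∈ s, F k) := by
  classical
  induction s using Finset.induction_on with
  | empty => rw [Finset.sum_empty]; exact SmOn.zero
  | insert k s hk ih =>
    rw [Finset.sum_insert hk]
    exact (h k (Finset.mem_insert_self _ _)).add
      (ih fun j hj => h j (Finset.mem_insert_of_mem hj))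

theorem SmOn.diff (h : SmOn P O φ) {z : ℂ} (hz : z ∈ O) : DifferentiableAt ℝ (lV P φ z) z :=
  (h z hz).differentiableAt (by simp)

theorem ClOn.add (ha : SmOn P O a) (hb : SmOn P O b) (ha' : SmOn P O a') (hb' : SmOn P O b')
    (h1 : ClOn P O a b) (h2 : ClOn P O a' b') : ClOn P O (a + a') (b + b') := fun z hz => by
  rw [lV_add, lV_add, (wz_add (ha.diff hz) (ha'.diff hz)).2, (wz_add (hb.diff hz) (hb'.diff hz)).1,
    h1 z hz, h2 z hz]

theorem ClOn.sub (ha : SmOn P O a) (hb : SmOn P O b) (ha' : SmOn P O a') (hb' : SmOn P O b')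
    (h1 : ClOn P O a b) (h2 : ClOn P O a' b') : ClOn P O (a - a') (b - b') := fun z hz => by
  rw [lV_sub, lV_sub, (wz_sub (ha.diff hz) (ha'.diff hz)).2, (wz_sub (hb.diff hz) (hb'.diff hz)).1,
    h1 z hz, h2 z hz]

theorem ClOn.smul (ha : SmOn P O a) (hb : SmOn P O b) (h1 : ClOn P O a b) (c : ℂ) :
    ClOn P O (c • a) (c • b) := fun z hz => by
  rw [lV_smul, lV_smul, (wz_smul c (ha.diff hz)).2, (wz_smul c (hb.diff hz)).1, h1 z hz]

theorem ClOn.zero : ClOn P O (0 : ℂ → Fin N → ℂ) 0 := fun z hz => by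
  rw [lV_zero, wz_zero.1, wz_zero.2]

theorem ClOn.sum {κ : Type} (s : Finset κ) {F G : κ → ℂ → Fin N → ℂ}
    (hF : ∀ k, SmOn P O (F k)) (hG : ∀ k, SmOn P O (G k)) (h : ∀ k ∈ s, ClOn P O (F k) (G k)) :
    ClOn P O (∑ k ∈ s, F k) (∑ k ∈ s, G k) := by
  classical
  induction s using Finset.induction_on with
  | empty => rw [Finset.sum_empty, Finset.sum_empty]; exact ClOn.zero
  | insert k s hk ih =>
    rw [Finset.sum_insert hk, Finset.sum_insert hk]
    exact ClOn.add (hF k) (hG k) (SmOn.sum s fun j _ => hF j) (SmOn.sum s fun j _ => hG j)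
      (h k (Finset.mem_insert_self _ _)) (ih fun j hj => h j (Finset.mem_insert_of_mem hj))

theorem ExOn.add (h1 : ExOn P O a b) (h2 : ExOn P O a' b') : ExOn P O (a + a') (b + b') := by
  obtain ⟨φ, h1⟩ := h1
  obtain ⟨ψ, h2⟩ := h2
  refine ⟨φ + ψ, fun z hz => ?_⟩
  obtain ⟨s1, x1, y1⟩ := h1 z hz
  obtain ⟨s2, x2, y2⟩ := h2 z hz
  have d1 := s1.differentiableAt (by simp)
  have d2 := s2.differentiableAt (by simp)
  rw [lV_add, (wz_add d1 d2).1, (wz_add d1 d2).2, x1, x2, y1, y2]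
  exact ⟨s1.add s2, rfl, rfl⟩

theorem ExOn.sub (h1 : ExOn P O a b) (h2 : ExOn P O a' b') : ExOn P O (a - a') (b - b') := by
  obtain ⟨φ, h1⟩ := h1
  obtain ⟨ψ, h2⟩ := h2
  refine ⟨φ - ψ, fun z hz => ?_⟩
  obtain ⟨s1, x1, y1⟩ := h1 z hz
  obtain ⟨s2, x2, y2⟩ := h2 z hz
  have d1 := s1.differentiableAt (by simp)
  have d2 := s2.differentiableAt (by simp)
  rw [lV_sub, (wz_sub d1 d2).1, (wz_sub d1 d2).2, x1, x2, y1, y2]
  exact ⟨s1.sub s2, rfl, rfl⟩

theorem ExOn.smul (h1 : ExOn P O a b) (c : ℂ) : ExOn P O (c • a) (c • b) := by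
  obtain ⟨φ, h1⟩ := h1
  refine ⟨c • φ, fun z hz => ?_⟩
  obtain ⟨s1, x1, y1⟩ := h1 z hz
  have d1 := s1.differentiableAt (by simp)
  rw [lV_smul, (wz_smul c d1).1, (wz_smul c d1).2, x1, y1]
  exact ⟨s1.const_smul c, rfl, rfl⟩

theorem ExOn.zero : ExOn P O (0 : ℂ → Fin N → ℂ) 0 := by
  refine ⟨0, fun z hz => ?_⟩
  rw [lV_zero, wz_zero.1, wz_zero.2]
  exact ⟨contDiffAt_const, rfl, rfl⟩

theorem ExOn.sum {κ : Type} (s : Finset κ) {F G : κ → ℂ → Fin N → ℂ}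
    (h : ∀ k ∈ s, ExOn P O (F k) (G k)) : ExOn P O (∑ k ∈ s, F k) (∑ k ∈ s, G k) := by
  classical
  induction s using Finset.induction_on with
  | empty => rw [Finset.sum_empty, Finset.sum_empty]; exact ExOn.zero
  | insert k s hk ih =>
    rw [Finset.sum_insert hk, Finset.sum_insert hk]
    exact (h k (Finset.mem_insert_self _ _)).add
      (ih fun j hj => h j (Finset.mem_insert_of_mem hj))

theorem ParOn.add {A : Finset ℂ} (h1 : ParOn P A a b) (h2 : ParOn P A a' b') :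
    ParOn P A (a + a') (b + b') := by
  rw [parOn_iff] at *
  intro e
  obtain ⟨n, hn⟩ := h1 e
  obtain ⟨k, hk⟩ := h2 e
  have hm : ∀ j l, j ≤ l → EE (endOf A e) l ∩ (A : Set ℂ)ᶜ ⊆ EE (endOf A e) j ∩ (A : Set ℂ)ᶜ :=
    fun j l hjl => inter_subset_inter
      (iUnion_mono fun m => antitone_EB (endOf A e) m hjl) le_rfl
  exact ⟨max n k, (hn.mono (hm _ _ (le_max_left _ _))).add (hk.mono (hm _ _ (le_max_right _ _)))⟩

theorem ParOn.smul {A : Finset ℂ} (h1 : ParOn P A a b) (c : ℂ) : ParOn P A (c • a) (c • b) := by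
  rw [parOn_iff] at *
  intro e
  obtain ⟨n, hn⟩ := h1 e
  exact ⟨n, hn.smul c⟩

theorem ParOn.zero {A : Finset ℂ} : ParOn P A (0 : ℂ → Fin N → ℂ) 0 := by
  rw [parOn_iff]
  exact fun e => ⟨0, ExOn.zero⟩

theorem ParOn.sum {A : Finset ℂ} {κ : Type} (s : Finset κ) {F G : κ → ℂ → Fin N → ℂ}
    (h : ∀ k ∈ s, ParOn P A (F k) (G k)) : ParOn P A (∑ k ∈ s, F k) (∑ k ∈ s, G k) := by
  classical
  induction s using Finset.induction_on with
  | empty => rw [Finset.sum_empty, Finset.sum_empty]; exact ParOn.zero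
  | insert k s hk ih =>
    rw [Finset.sum_insert hk, Finset.sum_insert hk]
    exact (h k (Finset.mem_insert_self _ _)).add
      (ih fun j hj => h j (Finset.mem_insert_of_mem hj))

theorem ParOn.sub {A : Finset ℂ} (h1 : ParOn P A a b) (h2 : ParOn P A a' b') :
    ParOn P A (a - a') (b - b') := by
  have h3 := h1.add (h2.smul (-1))
  simpa [sub_eq_add_neg] using h3

theorem ExOn.parOn {A : Finset ℂ} (h : ExOn P (A : Set ℂ)ᶜ a b) : ParOn P A a b := by
  rw [parOn_iff]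
  exact fun e => ⟨0, h.mono inter_subset_right⟩

end lin

/-! ### Čech cochains of forms -/

section cochain

variable {P : ℂ → ℂ → GL (Fin N) ℤ} {ι : Type} (D : Fam P ι)

/-- `ψ` are primitives of `a dx + b dx̄` on the pieces, with Čech cochain `c` -/
structure Fam.HasC (a b : ℂ → Fin N → ℂ) (ψ : ι → ℂ → Fin N → ℂ) (c : Co N ι) : Prop where
  der : ∀ i, ∀ x ∈ D.W i, HasFDerivAt (ψ i) (frm (tl (D.T i) a x, tl (D.T i) b x)) x
  rel : ∀ i j, ∀ x ∈ D.W i ∩ D.W j, ψ i x = act (D.G i j) (ψ j x) + c i j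

variable {D} {a b a' b' : ℂ → Fin N → ℂ} {ψ ψ' : ι → ℂ → Fin N → ℂ} {c c' : Co N ι}

theorem tl_add (T : ℂ → GL (Fin N) ℤ) (φ ψ : ℂ → Fin N → ℂ) (x : ℂ) :
    tl T (φ + ψ) x = tl T φ x + tl T ψ x := map_add _ _ _

theorem tl_sub (T : ℂ → GL (Fin N) ℤ) (φ ψ : ℂ → Fin N → ℂ) (x : ℂ) :
    tl T (φ - ψ) x = tl T φ x - tl T ψ x := map_sub _ _ _

theorem tl_smul (T : ℂ → GL (Fin N) ℤ) (c : ℂ) (φ : ℂ → Fin N → ℂ) (x : ℂ) :
    tl T (c • φ) x = c • tl T φ x := act_smul _ _ _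

theorem frm_smul (c : ℂ) (a b : Fin N → ℂ) : frm (c • a, c • b) = c • frm (a, b) := by
  ext v : 1
  rw [_root_.smul_apply, frm_apply, frm_apply, smul_add, smul_comm v c a,
    smul_comm ((starRingEnd ℂ) v) c b]

theorem Fam.HasC.sub (h : D.HasC a b ψ c) (h' : D.HasC a' b' ψ' c') :
    D.HasC (a - a') (b - b') (fun i => ψ i - ψ' i) (c - c') where
  der i x hx := by
    have h1 := (h.der i x hx).sub (h'.der i x hx)
    rw [← map_sub, Prod.mk_sub_mk, ← tl_sub, ← tl_sub] at h1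
    exact h1
  rel i j x hx := by
    simp only [Pi.sub_apply, h.rel i j x hx, h'.rel i j x hx, map_sub]
    abel

theorem Fam.HasC.add (h : D.HasC a b ψ c) (h' : D.HasC a' b' ψ' c') :
    D.HasC (a + a') (b + b') (fun i => ψ i + ψ' i) (c + c') where
  der i x hx := by
    have h1 := (h.der i x hx).add (h'.der i x hx)
    rw [← map_add, Prod.mk_add_mk, ← tl_add, ← tl_add] at h1
    exact h1
  rel i j x hx := by
    simp only [Pi.add_apply, h.rel i j x hx, h'.rel i j x hx, map_add]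
    abel

theorem Fam.HasC.smul (h : D.HasC a b ψ c) (l : ℂ) :
    D.HasC (l • a) (l • b) (fun i => l • ψ i) (l • c) where
  der i x hx := by
    have h1 := (h.der i x hx).const_smul l
    rw [← frm_smul, ← tl_smul, ← tl_smul] at h1
    exact h1
  rel i j x hx := by
    simp only [Pi.smul_apply, h.rel i j x hx, smul_add, act_smul]

theorem Fam.HasC.zero : D.HasC (0 : ℂ → Fin N → ℂ) 0 (fun i => 0) 0 where
  der i x hx := by
    have h1 : tl (D.T i) (0 : ℂ → Fin N → ℂ) x = 0 := map_zero _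
    rw [h1]
    have h2 : frm ((0 : Fin N → ℂ), (0 : Fin N → ℂ)) = 0 := map_zero frm
    rw [h2]
    exact hasFDerivAt_const 0 x
  rel i j x hx := by simp

theorem Fam.HasC.sum {κ : Type} (s : Finset κ) {F G : κ → ℂ → Fin N → ℂ}
    {Ψ : κ → ι → ℂ → Fin N → ℂ} {C : κ → Co N ι} (h : ∀ k ∈ s, D.HasC (F k) (G k) (Ψ k) (C k)) :
    D.HasC (∑ k ∈ s, F k) (∑ k ∈ s, G k) (fun i => ∑ k ∈ s, Ψ k i) (∑ k ∈ s, C k) := by
  classical
  induction s using Finset.induction_on with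
  | empty => simp only [Finset.sum_empty]; exact Fam.HasC.zero
  | insert k s hk ih =>
    simp only [Finset.sum_insert hk]
    exact (h k (Finset.mem_insert_self _ _)).add
      (ih fun j hj => h j (Finset.mem_insert_of_mem hj))

/-- existence of primitives -/
theorem Fam.exists_hasC (ha : SmOn P (⋃ i, D.W i) a) (hb : SmOn P (⋃ i, D.W i) b)
    (hab : ClOn P (⋃ i, D.W i) a b) : ∃ ψ c, D.HasC a b ψ c := by
  obtain ⟨Q⟩ := (D.form ha hb hab).exists_prim
  exact ⟨Q.ψ, Q.c, Q.der, Q.rel⟩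

/-- the `Prim` given by `HasC` -/
def Fam.HasC.prim (h : D.HasC a b ψ c) (ha : SmOn P (⋃ i, D.W i) a)
    (hb : SmOn P (⋃ i, D.W i) b) (hab : ClOn P (⋃ i, D.W i) a b) : Prim (D.form ha hb hab) where
  ψ := ψ
  c := c
  der := h.der
  rel := h.rel

theorem Fam.HasC.exOn_iff (h : D.HasC a b ψ c) (ha : SmOn P (⋃ i, D.W i) a)
    (hb : SmOn P (⋃ i, D.W i) b) (hab : ClOn P (⋃ i, D.W i) a b) :
    ExOn P (⋃ i, D.W i) a b ↔ ∃ v : ι → Fin N → ℂ, ∀ i j, (D.W i ∩ D.W j).Nonempty →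
      c i j = act (D.G i j) (v j) - v i :=
  (D.exOn_iff ha hb hab).trans (h.prim ha hb hab).exact_iff

theorem Fam.HasC.cocycle (h : D.HasC a b ψ c) {i j l : ι}
    (hx : (D.W i ∩ D.W j ∩ D.W l).Nonempty) : c i j + act (D.G i j) (c j l) = c i l := by
  obtain ⟨x, ⟨hi, hj⟩, hl⟩ := hx
  have h1 := h.rel i j x ⟨hi, hj⟩
  have h2 := h.rel j l x ⟨hj, hl⟩
  have h3 := h.rel i l x ⟨hi, hl⟩
  rw [h2, map_add] at h1
  have h4 : act (D.G i j) (act (D.G j l) (ψ l x)) = act (D.G i l) (ψ l x) := by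
    rw [← act_mul_apply]
    congr 2
    rw [D.G_eq ⟨hi, hj⟩, D.G_eq ⟨hj, hl⟩, D.G_eq ⟨hi, hl⟩]
    group
  rw [h4] at h1
  rw [h1] at h3
  have h5 : act (D.G i l) (ψ l x) + (c i j + act (D.G i j) (c j l)) =
      act (D.G i l) (ψ l x) + c i l := by
    rw [← h3]; abel
  exact add_left_cancel h5

/-- change of the cochain outside the intersecting pairs -/
theorem Fam.HasC.congr (h : D.HasC a b ψ c) (hc : ∀ i j, (D.W i ∩ D.W j).Nonempty →
    c' i j = c i j) : D.HasC a b ψ c' where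
  der := h.der
  rel i j x hx := by rw [hc i j ⟨x, hx⟩]; exact h.rel i j x hx

theorem Fam.HasC.end_iff [Finite ι] {M : Type} [Finite M] {B : ℕ → M → Set ℂ}
    (ho : ∀ n m, IsOpen (B n m)) (hc : ∀ n m, Convex ℝ (B n m))
    (hB : ∀ m, Antitone fun n => B n m) (h : D.HasC a b ψ c)
    (ha : SmOn P (⋃ i, D.W i) a) (hb : SmOn P (⋃ i, D.W i) b) (hab : ClOn P (⋃ i, D.W i) a b) :
    (∃ n, ExOn P (⋃ i, D.piece B n i) a b) ↔ ∃ v : ι × M → Fin N → ℂ, ∀ i j, D.meet B i j →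
      c i.1 j.1 = act (D.G i.1 j.1) (v j) - v i :=
  D.end_iff B ho hc hB ha hb hab (h.prim ha hb hab)

/-! ### realisation -/

/-- the `dx`-component of a one-form -/
def pa (L : ℂ →L[ℝ] (Fin N → ℂ)) : Fin N → ℂ := (1 / 2 : ℂ) • (L 1 - Complex.I • L Complex.I)

/-- the `dx̄`-component of a one-form -/
def pb (L : ℂ →L[ℝ] (Fin N → ℂ)) : Fin N → ℂ := (1 / 2 : ℂ) • (L 1 + Complex.I • L Complex.I)

theorem frm_pa_pb (L : ℂ →L[ℝ] (Fin N → ℂ)) : frm (pa L, pb L) = L := by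
  have h1 : fderiv ℝ L 0 = L := L.fderiv
  have h2 := fderiv_eq_frm (f := L) 0
  rw [h1] at h2
  conv_rhs => rw [h2]
  simp only [wz, wb, h1, pa, pb]

theorem pa_comp (g : GL (Fin N) ℤ) (L : ℂ →L[ℝ] (Fin N → ℂ)) :
    pa ((act g).comp L) = act g (pa L) ∧ pb ((act g).comp L) = act g (pb L) := by
  simp only [pa, pb, ContinuousLinearMap.comp_apply, act_smul, map_sub, map_add, and_self]

theorem contDiff_pa : ContDiff ℝ (⊤ : ℕ∞) (pa (N := N)) ∧ ContDiff ℝ (⊤ : ℕ∞) (pb (N := N)) := by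
  have h1 : ContDiff ℝ (⊤ : ℕ∞) (fun L : ℂ →L[ℝ] (Fin N → ℂ) => L 1) :=
    (ContinuousLinearMap.apply ℝ (Fin N → ℂ) (1 : ℂ)).contDiff
  have h2 : ContDiff ℝ (⊤ : ℕ∞) (fun L : ℂ →L[ℝ] (Fin N → ℂ) => L Complex.I) :=
    (ContinuousLinearMap.apply ℝ (Fin N → ℂ) Complex.I).contDiff
  exact ⟨(h1.sub (h2.const_smul Complex.I)).const_smul _,
    (h1.add (h2.const_smul Complex.I)).const_smul _⟩

/-- a form on the pieces comes from a global form -/
theorem Fam.exists_global (F : Form D.cc) : ∃ a b : ℂ → Fin N → ℂ,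
    SmOn P (⋃ i, D.W i) a ∧ SmOn P (⋃ i, D.W i) b ∧ ClOn P (⋃ i, D.W i) a b ∧
    ∀ i, ∀ x ∈ D.W i, F.η i x = frm (tl (D.T i) a x, tl (D.T i) b x) := by
  classical
  let a : ℂ → Fin N → ℂ := fun x => if h : ∃ i, x ∈ D.W i then
    act (D.T h.choose x) (pa (F.η h.choose x)) else 0
  let b : ℂ → Fin N → ℂ := fun x => if h : ∃ i, x ∈ D.W i then
    act (D.T h.choose x) (pb (F.η h.choose x)) else 0
  have hgen : ∀ i j, ∀ x ∈ D.W i ∩ D.W j,
      act (D.T i x) (pa (F.η i x)) = act (D.T j x) (pa (F.η j x)) ∧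
      act (D.T i x) (pb (F.η i x)) = act (D.T j x) (pb (F.η j x)) := by
    intro i j x hx
    have h1 : F.η i x = (act (D.G i j)).comp (F.η j x) := F.compat i j x hx
    rw [h1, (pa_comp _ _).1, (pa_comp _ _).2, ← act_mul_apply, ← act_mul_apply, D.G_eq hx,
      mul_inv_cancel_left]
    exact ⟨rfl, rfl⟩
  have ha : ∀ i, ∀ x ∈ D.W i, a x = act (D.T i x) (pa (F.η i x)) := by
    intro i x hx
    have h : ∃ i, x ∈ D.W i := ⟨i, hx⟩
    simp only [a]
    rw [dif_pos h]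
    exact (hgen _ _ x ⟨h.choose_spec, hx⟩).1
  have hb : ∀ i, ∀ x ∈ D.W i, b x = act (D.T i x) (pb (F.η i x)) := by
    intro i x hx
    have h : ∃ i, x ∈ D.W i := ⟨i, hx⟩
    simp only [b]
    rw [dif_pos h]
    exact (hgen _ _ x ⟨h.choose_spec, hx⟩).2
  have ha' : ∀ i, ∀ x ∈ D.W i, tl (D.T i) a =ᶠ[𝓝 x] fun y => pa (F.η i y) := by
    intro i x hx
    filter_upwards [(D.isOpen i).mem_nhds hx] with y hy
    rw [tl, ha i y hy, act_inv_act]
  have hb' : ∀ i, ∀ x ∈ D.W i, tl (D.T i) b =ᶠ[𝓝 x] fun y => pb (F.η i y) := by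
    intro i x hx
    filter_upwards [(D.isOpen i).mem_nhds hx] with y hy
    rw [tl, hb i y hy, act_inv_act]
  have hsm : ∀ i, ∀ x ∈ D.W i, ContDiffAt ℝ (⊤ : ℕ∞) (F.η i) x := fun i x hx =>
    (F.smooth i).contDiffAt ((D.isOpen i).mem_nhds hx)
  have hsa : ∀ i, ∀ x ∈ D.W i, ContDiffAt ℝ (⊤ : ℕ∞) (tl (D.T i) a) x := fun i x hx =>
    (contDiff_pa.1.contDiffAt.comp x (hsm i x hx)).congr_of_eventuallyEq (ha' i x hx)
  have hsb : ∀ i, ∀ x ∈ D.W i, ContDiffAt ℝ (⊤ : ℕ∞) (tl (D.T i) b) x := fun i x hx =>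
    (contDiff_pa.2.contDiffAt.comp x (hsm i x hx)).congr_of_eventuallyEq (hb' i x hx)
  have hη : ∀ i, ∀ x ∈ D.W i, F.η i x = frm (tl (D.T i) a x, tl (D.T i) b x) := by
    intro i x hx
    rw [(ha' i x hx).self_of_nhds, (hb' i x hx).self_of_nhds, frm_pa_pb]
  refine ⟨a, b, fun x hx => ?_, fun x hx => ?_, fun x hx => ?_, hη⟩
  · obtain ⟨i, hi⟩ := mem_iUnion.1 hx
    exact (sm_iff (D.tri i) hi a).2 (hsa i x hi)
  · obtain ⟨i, hi⟩ := mem_iUnion.1 hx
    exact (sm_iff (D.tri i) hi b).2 (hsb i x hi)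
  · obtain ⟨i, hi⟩ := mem_iUnion.1 hx
    have h1 := (hsa i x hi).differentiableAt (by simp)
    have h2 := (hsb i x hi).differentiableAt (by simp)
    rw [(wz_lV (D.tri i) hi h1).2, (wz_lV (D.tri i) hi h2).1]
    congr 1
    rw [← closed_frm h1 h2]
    have h3 : (fun y => frm (tl (D.T i) a y, tl (D.T i) b y)) =ᶠ[𝓝 x] F.η i := by
      filter_upwards [(D.isOpen i).mem_nhds hi] with y hy
      exact (hη i y hy).symm
    rw [h3.fderiv_eq]
    exact F.closed i x hi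

/-- every Čech cocycle is the cochain of a global smooth closed form -/
theorem Fam.exists_realise [Finite ι] (c : Co N ι) (hc : ∀ i j l,
    (D.W i ∩ D.W j ∩ D.W l).Nonempty → c i j + act (D.G i j) (c j l) = c i l) :
    ∃ a b ψ, SmOn P (⋃ i, D.W i) a ∧ SmOn P (⋃ i, D.W i) b ∧ ClOn P (⋃ i, D.W i) a b ∧
      D.HasC a b ψ c := by
  have : Finite D.cc.ι := inferInstanceAs (Finite ι)
  obtain ⟨F, Q, hQ⟩ := exists_form D.cc c hc
  obtain ⟨a, b, ha, hb, hab, hη⟩ := D.exists_global F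
  refine ⟨a, b, Q.ψ, ha, hb, hab, fun i x hx => ?_, fun i j x hx => ?_⟩
  · rw [← hη i x hx]
    exact Q.der i x hx
  · have h1 := Q.rel i j x hx
    rw [hQ] at h1
    exact h1

end cochain

end

end Crest.Agent.R276.Top2_937
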