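import Crest.Agent.R276.Top2e_937

/-!
# R276, leaf TOP2 (helper937), part 6: cut-off at the ends
-/

set_option autoImplicit false
set_option linter.unusedSectionVars false
set_option linter.unusedVariables false

open Set Filter Topology MeasureTheory Matrix
open scoped ContDiff Manifold

namespace Crest.Agent.R276.Top2_937

open Ipc735 Lat_348

noncomputable section

variable {N : ℕ}

theorem exists_urysohn {s t : Set ℂ} (hs : IsClosed s) (ht : IsClosed t) (hd : Disjoint s t) :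
    ∃ χ : ℂ → ℝ, ContDiff ℝ (⊤ : ℕ∞) χ ∧ (∀ x ∈ s, χ x = 0) ∧ ∀ x ∈ t, χ x = 1 := by
  obtain ⟨f, hf, -, h0, h1⟩ := exists_contMDiff_zero_iff_one_iff_of_isClosed (n := (⊤ : ℕ∞))
    (modelWithCornersSelf ℝ ℂ) hs ht hd
  exact ⟨f, hf.contDiff, fun x hx => (h0 x).1 hx, fun x hx => (h1 x).1 hx⟩

/-- uniform radii -/
theorem exists_radii {A : Finset ℂ} {P : ℂ → ℂ → GL (Fin N) ℤ} {a b : ℂ → Fin N → ℂ}
    (hpar : ParOn P A a b) : ∃ r R : ℝ, 0 < r ∧ 0 < R ∧
      (∀ p ∈ A, ∀ q ∈ A, p ≠ q → 2 * r ≤ dist p q) ∧ (∀ p ∈ A, ‖p‖ + r ≤ R) ∧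
      (∀ p ∈ A, ExOn P (Metric.ball p r ∩ (A : Set ℂ)ᶜ) a b) ∧
      ExOn P ({z | R < ‖z‖} ∩ (A : Set ℂ)ᶜ) a b := by
  obtain ⟨h1, R0, hR0⟩ := hpar
  have e1 : ∀ᶠ r in 𝓝[>] (0 : ℝ), ∀ p ∈ A, ExOn P (Metric.ball p r ∩ (A : Set ℂ)ᶜ) a b := by
    rw [Filter.eventually_all_finset]
    intro p hp
    obtain ⟨U, hU, hex⟩ := h1 p hp
    obtain ⟨ρ, hρ, hρU⟩ := Metric.mem_nhds_iff.1 hU
    filter_upwards [Ioo_mem_nhdsGT hρ] with r hr
    exact hex.mono (inter_subset_inter ((Metric.ball_subset_ball hr.2.le).trans hρU) le_rfl)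
  have e2 : ∀ᶠ r in 𝓝[>] (0 : ℝ), ∀ p ∈ A, ∀ q ∈ A, p ≠ q → 2 * r ≤ dist p q := by
    rw [Filter.eventually_all_finset]
    intro p hp
    rw [Filter.eventually_all_finset]
    intro q hq
    by_cases hpq : p = q
    · exact Eventually.of_forall fun r h => absurd hpq h
    · have hd : 0 < dist p q / 2 := by
        have := dist_pos.2 hpq
        linarith
      filter_upwards [Ioo_mem_nhdsGT hd] with r hr _
      have := hr.2
      linarith
  obtain ⟨r, ⟨hr1, hr2⟩, hr3⟩ := ((e1.and e2).and self_mem_nhdsWithin).exists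
  have e3 : ∀ᶠ R in atTop, ∀ p ∈ A, ‖p‖ + r ≤ R := by
    rw [Filter.eventually_all_finset]
    intro p hp
    exact eventually_ge_atTop _
  obtain ⟨R, ⟨hR1, hR2⟩, hR3⟩ := ((e3.and (eventually_ge_atTop R0)).and
    (eventually_gt_atTop 0)).exists
  exact ⟨r, R, hr3, hR3, hr2, hR1, hr1, hR0.mono (inter_subset_inter
    (fun z (hz : R < ‖z‖) => lt_of_le_of_lt hR2 hz) le_rfl)⟩

/-- **cut-off**: a form which is exact near the ends is, modulo the differential of a smooth
section, supported in a compact subset of `ℂ \ A` -/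
theorem exists_cutoff {A : Finset ℂ} {P : ℂ → ℂ → GL (Fin N) ℤ} {a b : ℂ → Fin N → ℂ}
    (hpar : ParOn P A a b) : ∃ (φ : ℂ → Fin N → ℂ) (K : Set ℂ), SmOn P (A : Set ℂ)ᶜ φ ∧
      IsCompact K ∧ K ⊆ (A : Set ℂ)ᶜ ∧
      ∀ z, z ∉ A → z ∉ K → wz (lV P φ z) z = a z ∧ wb (lV P φ z) z = b z := by
  classical
  obtain ⟨r, R, hr, hR, hsep, hnorm, hex, φi, hφi⟩ := exists_radii hpar
  have hex' : ∀ p, ∃ φ : ℂ → Fin N → ℂ, p ∈ A → ∀ z ∈ Metric.ball p r ∩ (A : Set ℂ)ᶜ,
      ContDiffAt ℝ (⊤ : ℕ∞) (lV P φ z) z ∧ wz (lV P φ z) z = a z ∧ wb (lV P φ z) z = b z := by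
    intro p
    by_cases hp : p ∈ A
    · obtain ⟨φ, hφ⟩ := hex p hp
      exact ⟨φ, fun _ => hφ⟩
    · exact ⟨0, fun h => absurd h hp⟩
  choose φp hφp using hex'
  let φ0 : ℂ → Fin N → ℂ := fun z => if h : ∃ p ∈ A, z ∈ Metric.ball p r then φp h.choose z
    else φi z
  have hc1 : ∀ p ∈ A, ∀ z ∈ Metric.ball p r, φ0 =ᶠ[𝓝 z] φp p := by
    intro p hp z hz
    filter_upwards [Metric.isOpen_ball.mem_nhds hz] with y hy
    have h : ∃ p ∈ A, y ∈ Metric.ball p r := ⟨p, hp, hy⟩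
    simp only [φ0]
    rw [dif_pos h]
    have h2 := h.choose_spec
    have h3 : h.choose = p := by
      by_contra hne
      have h4 := hsep _ h2.1 p hp hne
      have h5 : dist h.choose y < r := by rw [dist_comm]; exact h2.2
      have h6 : dist y p < r := hy
      have h7 := dist_triangle h.choose y p
      linarith
    rw [h3]
  have hc2 : ∀ z, R < ‖z‖ → φ0 =ᶠ[𝓝 z] φi := by
    intro z hz
    have ho : IsOpen {z : ℂ | R < ‖z‖} := isOpen_lt continuous_const continuous_norm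
    filter_upwards [ho.mem_nhds hz] with y hy
    have h : ¬ ∃ p ∈ A, y ∈ Metric.ball p r := by
      rintro ⟨p, hp, hyp⟩
      have h1 := hnorm p hp
      have h2 : dist y p < r := hyp
      rw [dist_eq_norm] at h2
      have h3 : ‖y‖ ≤ ‖y - p‖ + ‖p‖ := by
        have := norm_add_le (y - p) p
        rwa [sub_add_cancel] at this
      have h4 : R < ‖y‖ := hy
      linarith
    simp only [φ0]
    rw [dif_neg h]
  have hX : ∀ z, z ∉ A → ((∃ p ∈ A, z ∈ Metric.ball p r) ∨ R < ‖z‖) →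
      ContDiffAt ℝ (⊤ : ℕ∞) (lV P φ0 z) z ∧ wz (lV P φ0 z) z = a z ∧
        wb (lV P φ0 z) z = b z := by
    rintro z hz (⟨p, hp, hzp⟩ | hzR)
    · have h1 := lV_congr (P := P) (hc1 p hp z hzp)
      obtain ⟨h2, h3, h4⟩ := hφp p hp z ⟨hzp, hz⟩
      exact ⟨h2.congr_of_eventuallyEq h1, (wz_congr h1).1.trans h3, (wz_congr h1).2.trans h4⟩
    · have h1 := lV_congr (P := P) (hc2 z hzR)
      obtain ⟨h2, h3, h4⟩ := hφi z ⟨hzR, hz⟩
      exact ⟨h2.congr_of_eventuallyEq h1, (wz_congr h1).1.trans h3, (wz_congr h1).2.trans h4⟩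
  let s : Set ℂ := {z | ‖z‖ ≤ R + 1} ∩ ⋂ p ∈ A, {z | 2 * r / 3 ≤ dist z p}
  let t : Set ℂ := {z | R + 2 ≤ ‖z‖} ∪ ⋃ p ∈ A, Metric.closedBall p (r / 3)
  have hs : IsClosed s := (isClosed_le continuous_norm continuous_const).inter
    (isClosed_biInter fun p _ => isClosed_le continuous_const (continuous_id.dist continuous_const))
  have ht : IsClosed t := (isClosed_le continuous_const continuous_norm).union
    (A.finite_toSet.isClosed_biUnion fun p _ => Metric.isClosed_closedBall)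
  have hd : Disjoint s t := by
    rw [Set.disjoint_left]
    rintro z ⟨hz1, hz2⟩ (hz3 | hz3)
    · have h1 : ‖z‖ ≤ R + 1 := hz1
      have h2 : R + 2 ≤ ‖z‖ := hz3
      linarith
    · obtain ⟨p, hp, hzp⟩ := mem_iUnion₂.1 hz3
      have h1 : 2 * r / 3 ≤ dist z p := mem_iInter₂.1 hz2 p hp
      have h2 : dist z p ≤ r / 3 := hzp
      linarith
  obtain ⟨χ, hχ, hχ0, hχ1⟩ := exists_urysohn hs ht hd
  let K : Set ℂ := Metric.closedBall 0 (R + 2) ∩ ⋂ p ∈ A, {z | r / 3 ≤ dist z p}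
  refine ⟨fun z => χ z • φ0 z, K, ?_, ?_, ?_, ?_⟩
  · intro z hz
    by_cases h : z ∈ {z : ℂ | ‖z‖ < R + 1} ∩ ⋂ p ∈ A, {z | 2 * r / 3 < dist z p}
    · have ho : IsOpen ({z : ℂ | ‖z‖ < R + 1} ∩ ⋂ p ∈ A, {z | 2 * r / 3 < dist z p}) :=
        (isOpen_lt continuous_norm continuous_const).inter
          (isOpen_biInter_finset fun p _ =>
            isOpen_lt continuous_const (continuous_id.dist continuous_const))
      have h1 : (fun y => χ y • φ0 y) =ᶠ[𝓝 z] 0 := by
        filter_upwards [ho.mem_nhds h] with y hy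
        have h4 : ‖y‖ < R + 1 := hy.1
        have h2 : y ∈ s := ⟨h4.le, mem_iInter₂.2 fun p hp => by
          have h3 : 2 * r / 3 < dist y p := mem_iInter₂.1 hy.2 p hp
          exact h3.le⟩
        rw [hχ0 y h2, zero_smul]
        rfl
      have h2 := lV_congr (P := P) h1
      rw [lV_zero] at h2
      exact (contDiffAt_const (c := (0 : Fin N → ℂ))).congr_of_eventuallyEq h2
    · have h1 : (∃ p ∈ A, z ∈ Metric.ball p r) ∨ R < ‖z‖ := by
        by_contra hcon
        push Not at hcon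
        apply h
        refine ⟨?_, ?_⟩
        · show ‖z‖ < R + 1
          linarith [hcon.2]
        · refine mem_iInter₂.2 fun p hp => ?_
          have h2 := hcon.1 p hp
          rw [Metric.mem_ball, not_lt] at h2
          show 2 * r / 3 < dist z p
          linarith
      rw [lV_rsmul]
      exact hχ.contDiffAt.smul (hX z hz h1).1
  · refine (isCompact_closedBall (0 : ℂ) (R + 2)).inter_right ?_
    exact isClosed_biInter fun p _ =>
      isClosed_le continuous_const (continuous_id.dist continuous_const)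
  · rintro z ⟨-, hz⟩ hzA
    have h1 : r / 3 ≤ dist z z := mem_iInter₂.1 hz z hzA
    rw [dist_self] at h1
    linarith
  · intro z hz hzK
    have h1 : R + 2 < ‖z‖ ∨ ∃ p ∈ A, dist z p < r / 3 := by
      by_contra hcon
      push Not at hcon
      apply hzK
      refine ⟨?_, mem_iInter₂.2 fun p hp => hcon.2 p hp⟩
      rw [Metric.mem_closedBall, dist_zero_right]
      exact hcon.1
    have h2 : (fun y => χ y • φ0 y) =ᶠ[𝓝 z] φ0 := by
      rcases h1 with h1 | ⟨p, hp, h1⟩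
      · have ho : IsOpen {z : ℂ | R + 2 < ‖z‖} := isOpen_lt continuous_const continuous_norm
        filter_upwards [ho.mem_nhds h1] with y hy
        have h3 : y ∈ t := Or.inl (le_of_lt hy)
        rw [hχ1 y h3, one_smul]
      · filter_upwards [Metric.isOpen_ball.mem_nhds (show z ∈ Metric.ball p (r / 3) from h1)]
          with y hy
        have h3 : y ∈ t := Or.inr (mem_iUnion₂.2 ⟨p, hp, Metric.ball_subset_closedBall hy⟩)
        rw [hχ1 y h3, one_smul]
    have h3 : (∃ p ∈ A, z ∈ Metric.ball p r) ∨ R < ‖z‖ := by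
      rcases h1 with h1 | ⟨p, hp, h1⟩
      · right; linarith
      · left
        refine ⟨p, hp, ?_⟩
        rw [Metric.mem_ball]; linarith
    have h4 := lV_congr (P := P) h2
    obtain ⟨-, h5, h6⟩ := hX z hz h3
    exact ⟨(wz_congr h4).1.trans h5, (wz_congr h4).2.trans h6⟩

end

end Crest.Agent.R276.Top2_937
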