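import Crest.Agent.R276.Top2f_937

/-!
# R276, leaf TOP2 (helper937), part 7: near-diagonal period cocycles, integral classes, main theorem
-/

set_option autoImplicit false
set_option linter.unusedSectionVars false
set_option linter.unusedVariables false

open Set Filter Topology MeasureTheory Matrix
open scoped ContDiff Manifold

namespace Crest.Agent.R276.Top2_937

open Ipc735 Lat_348

noncomputable section

variable {N : ℕ}

/-- `φ` is a smooth primitive of `a dx + b dx̄` on `U` -/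
def PrimOn (P : ℂ → ℂ → GL (Fin N) ℤ) (U : Set ℂ) (a b φ : ℂ → Fin N → ℂ) : Prop :=
  ∀ z ∈ U, ContDiffAt ℝ (⊤ : ℕ∞) (lV P φ z) z ∧ wz (lV P φ z) z = a z ∧ wb (lV P φ z) z = b z

/-- `c` is a near-diagonal period cocycle of `a dx + b dx̄`: `c x y = ∫_x^y`, transported to `x` -/
def Per (P : ℂ → ℂ → GL (Fin N) ℤ) (O : Set ℂ) (a b : ℂ → Fin N → ℂ)
    (c : ℂ → ℂ → Fin N → ℂ) : Prop :=
  ∀ z ∈ O, ∃ U ∈ 𝓝 z, ∃ φ : ℂ → Fin N → ℂ, PrimOn P U a b φ ∧
    ∀ x ∈ U, ∀ y ∈ U, c x y = act (P x y) (φ y) - φ x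

/-- an integral vector as a complex vector -/
def iv (m : Fin N → ℤ) : Fin N → ℂ := fun i => (m i : ℂ)

theorem iv_mem (m : Fin N → ℤ) : iv m ∈ stdLat (Fin N) := fun i => ⟨m i, rfl⟩

theorem exists_iv {v : Fin N → ℂ} (hv : v ∈ stdLat (Fin N)) : ∃ m, iv m = v := by
  choose m hm using mem_stdLat.1 hv
  exact ⟨m, funext fun i => (hm i).symm⟩

/-- the class of `a dx + b dx̄` is integral -/
def Intg (P : ℂ → ℂ → GL (Fin N) ℤ) (O : Set ℂ) (a b : ℂ → Fin N → ℂ) : Prop :=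
  ∃ (h : ℂ → ℂ → Fin N → ℤ) (Φ : ℂ → Fin N → ℂ),
    Per P O a b (fun x y => iv (h x y) + (act (P x y) (Φ y) - Φ x))

section

variable {P : ℂ → ℂ → GL (Fin N) ℤ} {ι : Type} {D : Fam P ι} {a b : ℂ → Fin N → ℂ}
  {ψ : ι → ℂ → Fin N → ℂ} {c : Co N ι}

open Classical in
/-- the near-diagonal cocycle given by local functions -/
def Fam.nd (D : Fam P ι) (u : ι → ℂ → Fin N → ℂ) (x y : ℂ) : Fin N → ℂ :=
  if h : ∃ i, x ∈ D.W i ∧ y ∈ D.W i then act (D.T h.choose x) (u h.choose y - u h.choose x) else 0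

theorem Fam.nd_eq {u : ι → ℂ → Fin N → ℂ}
    (hu : ∀ i j, ∀ x ∈ D.W i ∩ D.W j, u i x = act (D.G i j) (u j x) + c i j) {i : ι} {x y : ℂ}
    (hx : x ∈ D.W i) (hy : y ∈ D.W i) : D.nd u x y = act (D.T i x) (u i y - u i x) := by
  have h : ∃ i, x ∈ D.W i ∧ y ∈ D.W i := ⟨i, hx, hy⟩
  rw [Fam.nd, dif_pos h]
  have h1 := h.choose_spec
  rw [hu h.choose i x ⟨h1.1, hx⟩, hu h.choose i y ⟨h1.2, hy⟩, add_sub_add_right_eq_sub, ← map_sub,
    ← act_mul_apply, D.G_eq ⟨h1.1, hx⟩, mul_inv_cancel_left]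

theorem Fam.tl_deriv {i : ι} {φ : ℂ → Fin N → ℂ} {x : ℂ} (hx : x ∈ D.W i)
    (h1 : ContDiffAt ℝ (⊤ : ℕ∞) (lV P φ x) x) (h2 : wz (lV P φ x) x = a x)
    (h3 : wb (lV P φ x) x = b x) :
    HasFDerivAt (tl (D.T i) φ) (frm (tl (D.T i) a x, tl (D.T i) b x)) x := by
  have h4 := ((sm_iff (D.tri i) hx φ).1 h1).differentiableAt (by simp)
  have h5 := wz_lV (D.tri i) hx h4
  have h6 : fderiv ℝ (tl (D.T i) φ) x = frm (tl (D.T i) a x, tl (D.T i) b x) := by
    rw [fderiv_eq_frm]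
    congr 2
    · rw [tl, ← h2, h5.1, act_inv_act]
    · rw [tl, ← h3, h5.2, act_inv_act]
  have h7 := h4.hasFDerivAt
  rw [h6] at h7
  exact h7

/-- the primitive on a piece as a section -/
theorem Fam.HasC.primOn (h : D.HasC a b ψ c) (ha : SmOn P (⋃ i, D.W i) a)
    (hb : SmOn P (⋃ i, D.W i) b) (hab : ClOn P (⋃ i, D.W i) a b) (i : ι) :
    PrimOn P (D.W i) a b (fun x => act (D.T i x) (ψ i x)) := by
  intro x hx
  have h0 : tl (D.T i) (fun x => act (D.T i x) (ψ i x)) = ψ i := by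
    funext y
    rw [tl, act_inv_act]
  have hsm : ContDiffOn ℝ ∞ (ψ i) (D.W i) := (h.prim ha hb hab).smooth i
  have h3 : ContDiffAt ℝ (⊤ : ℕ∞) (tl (D.T i) (fun x => act (D.T i x) (ψ i x))) x := by
    rw [h0]
    exact hsm.contDiffAt ((D.isOpen i).mem_nhds hx)
  have h4 := h3.differentiableAt (by simp)
  have h5 := wz_lV (D.tri i) hx h4
  have h6 : fderiv ℝ (tl (D.T i) (fun x => act (D.T i x) (ψ i x))) x =
      frm (tl (D.T i) a x, tl (D.T i) b x) := by
    rw [h0]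
    exact (h.der i x hx).fderiv
  rw [fderiv_eq_frm] at h6
  obtain ⟨h7, h8⟩ := frm_inj h6
  refine ⟨(sm_iff (D.tri i) hx _).2 h3, ?_, ?_⟩
  · rw [h5.1, h7, act_tl]
  · rw [h5.2, h8, act_tl]

/-- `D.nd ψ` is a period cocycle -/
theorem Fam.HasC.per (h : D.HasC a b ψ c) (ha : SmOn P (⋃ i, D.W i) a)
    (hb : SmOn P (⋃ i, D.W i) b) (hab : ClOn P (⋃ i, D.W i) a b) :
    Per P (⋃ i, D.W i) a b (D.nd ψ) := by
  intro z hz
  obtain ⟨i, hi⟩ := mem_iUnion.1 hz
  obtain ⟨U, hU, hT⟩ := D.tri i z hi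
  refine ⟨U ∩ D.W i, inter_mem hU ((D.isOpen i).mem_nhds hi), fun x => act (D.T i x) (ψ i x),
    fun x hx => h.primOn ha hb hab i x hx.2, fun x hx y hy => ?_⟩
  rw [Fam.nd_eq h.rel hx.2 hy.2, hT x hx.1 y hy.1, act_mul_apply, act_inv_act, map_sub]

/-- a function with integral increments near each point of a connected set has integral
increments -/
theorem int_incr {W : Set ℂ} (hW : IsOpen W) (hc : Convex ℝ W) {f : ℂ → Fin N → ℂ}
    (hf : ∀ z ∈ W, ∃ U ∈ 𝓝 z, ∀ x ∈ U, ∀ y ∈ U, f y - f x ∈ stdLat (Fin N)) {x y : ℂ}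
    (hx : x ∈ W) (hy : y ∈ W) : f y - f x ∈ stdLat (Fin N) := by
  by_contra hne
  let A : Set ℂ := {w | w ∈ W ∧ f w - f x ∈ stdLat (Fin N)}
  let B : Set ℂ := {w | w ∈ W ∧ f w - f x ∉ stdLat (Fin N)}
  have hA : IsOpen A := by
    rw [isOpen_iff_mem_nhds]
    rintro w ⟨hw, hw'⟩
    obtain ⟨U, hU, h⟩ := hf w hw
    filter_upwards [hU, hW.mem_nhds hw] with u hu hu'
    refine ⟨hu', ?_⟩
    have h1 := add_mem (h w (mem_of_mem_nhds hU) u hu) hw'
    rwa [sub_add_sub_cancel] at h1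
  have hB : IsOpen B := by
    rw [isOpen_iff_mem_nhds]
    rintro w ⟨hw, hw'⟩
    obtain ⟨U, hU, h⟩ := hf w hw
    filter_upwards [hU, hW.mem_nhds hw] with u hu hu'
    refine ⟨hu', fun hcon => hw' ?_⟩
    have h1 := add_mem (h u hu w (mem_of_mem_nhds hU)) hcon
    rwa [sub_add_sub_cancel] at h1
  obtain ⟨w, -, hwA, hwB⟩ := hc.isPreconnected A B hA hB (fun w hw => by
    by_cases h : f w - f x ∈ stdLat (Fin N)
    · exact Or.inl ⟨hw, h⟩
    · exact Or.inr ⟨hw, h⟩) ⟨x, hx, hx, by rw [sub_self]; exact zero_mem _⟩ ⟨y, hy, hy, hne⟩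
  exact hwB.2 hwA.2

/-- integrality in terms of the Čech cochain -/
theorem Fam.HasC.intg_iff (h : D.HasC a b ψ c) (ha : SmOn P (⋃ i, D.W i) a)
    (hb : SmOn P (⋃ i, D.W i) b) (hab : ClOn P (⋃ i, D.W i) a b) :
    Intg P (⋃ i, D.W i) a b ↔ ∃ v : ι → Fin N → ℂ, ∀ i j, (D.W i ∩ D.W j).Nonempty →
      c i j - (act (D.G i j) (v j) - v i) ∈ stdLat (Fin N) := by
  classical
  constructor
  · rintro ⟨hh, Φ, hper⟩
    let f : ι → ℂ → Fin N → ℂ := fun i x => ψ i x - tl (D.T i) Φ x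
    have hf1 : ∀ i, ∀ x ∈ D.W i, ∀ y ∈ D.W i, f i y - f i x ∈ stdLat (Fin N) := by
      intro i x hx y hy
      refine int_incr (D.isOpen i) (D.convex i) (fun z hz => ?_) hx hy
      obtain ⟨U, hU, φ, hφ, hc⟩ := hper z (mem_iUnion.2 ⟨i, hz⟩)
      obtain ⟨U', hU', hT⟩ := D.tri i z hz
      obtain ⟨r, hr, hrU⟩ := Metric.mem_nhds_iff.1
        (inter_mem (inter_mem hU hU') ((D.isOpen i).mem_nhds hz))
      refine ⟨Metric.ball z r, Metric.ball_mem_nhds z hr, fun x hx y hy => ?_⟩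
      have hx' := hrU hx
      have hy' := hrU hy
      have h1 : tl (D.T i) φ y - ψ i y = tl (D.T i) φ x - ψ i x := by
        refine const_of_deriv_zero (f := fun w => tl (D.T i) φ w - ψ i w) Metric.isOpen_ball
          (convex_ball z r) (fun w hw => ?_) hy hx
        have hw' := hrU hw
        obtain ⟨g1, g2, g3⟩ := hφ w hw'.1.1
        have h2 := (Fam.tl_deriv hw'.2 g1 g2 g3).sub (h.der i w hw'.2)
        rwa [sub_self] at h2
      have h2 := hc x hx'.1.1 y hy'.1.1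
      simp only at h2
      rw [hT x hx'.1.2 y hy'.1.2, act_mul_apply, act_mul_apply] at h2
      have h3 : act (D.T i x)⁻¹ (iv (hh x y)) = (tl (D.T i) φ y - tl (D.T i) Φ y) -
          (tl (D.T i) φ x - tl (D.T i) Φ x) := by
        have h4 : iv (hh x y) = act (D.T i x) (act (D.T i y)⁻¹ (φ y) - act (D.T i y)⁻¹ (Φ y)) -
            (φ x - Φ x) := by
          rw [map_sub]
          have h5 := eq_sub_of_add_eq h2
          rw [h5]; abel
        rw [h4, map_sub, act_inv_act, map_sub]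
        rfl
      have h4 : f i y - f i x = act (D.T i x)⁻¹ (iv (hh x y)) := by
        rw [h3]
        simp only [f]
        have h5 : ψ i y = ψ i x + (tl (D.T i) φ y - tl (D.T i) φ x) := by
          have h6 := sub_eq_iff_eq_add.1 h1
          have h7 : tl (D.T i) φ y - tl (D.T i) φ x = ψ i y - ψ i x := by
            rw [h6]; abel
          rw [h7]; abel
        rw [h5]; abel
      rw [h4]
      exact act_mem_std _ (iv_mem _)
    refine ⟨fun i => if hi : (D.W i).Nonempty then - f i hi.some else 0, fun i j hij => ?_⟩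
    obtain ⟨x, hx⟩ := hij
    have hi : (D.W i).Nonempty := ⟨x, hx.1⟩
    have hj : (D.W j).Nonempty := ⟨x, hx.2⟩
    simp only
    rw [dif_pos hi, dif_pos hj]
    have h1 : c i j = f i x - act (D.G i j) (f j x) := by
      simp only [f]
      rw [map_sub, ← D.tl_change hx, h.rel i j x hx]
      abel
    have h2 : c i j - (act (D.G i j) (-f j hj.some) - -f i hi.some) =
        (f i x - f i hi.some) - act (D.G i j) (f j x - f j hj.some) := by
      rw [h1, (act (D.G i j)).map_sub (f j x) (f j hj.some), map_neg]; abel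
    rw [h2]
    exact sub_mem (hf1 i _ hi.some_mem _ hx.1) (act_mem_std _ (hf1 j _ hj.some_mem _ hx.2))
  · rintro ⟨v, hv⟩
    -- choice of an index
    have hκ : ∀ x, ∃ i : Option ι, x ∈ (⋃ i, D.W i) → ∃ j, i = some j ∧ x ∈ D.W j := by
      intro x
      by_cases hx : x ∈ ⋃ i, D.W i
      · obtain ⟨j, hj⟩ := mem_iUnion.1 hx
        exact ⟨some j, fun _ => ⟨j, rfl, hj⟩⟩
      · exact ⟨none, fun h => absurd h hx⟩
    choose κ hκ using hκ
    let Φ : ℂ → Fin N → ℂ := fun x => match κ x with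
      | none => 0
      | some j => act (D.T j x) (ψ j x + v j)
    let f : ι → ℂ → Fin N → ℂ := fun i x => ψ i x - tl (D.T i) Φ x
    have hf0 : ∀ i j, ∀ x ∈ D.W i ∩ D.W j, f i x = act (D.G i j) (f j x) + c i j := by
      intro i j x hx
      simp only [f]
      rw [map_sub, ← D.tl_change hx, h.rel i j x hx]
      abel
    have hf2 : ∀ i, ∀ x ∈ D.W i, f i x + v i ∈ stdLat (Fin N) := by
      intro i x hx
      obtain ⟨j, hj, hxj⟩ := hκ x (mem_iUnion.2 ⟨i, hx⟩)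
      have h1 : tl (D.T i) Φ x = act (D.G i j) (ψ j x + v j) := by
        rw [D.tl_change ⟨hx, hxj⟩]
        congr 1
        simp only [tl, Φ, hj]
        rw [act_inv_act]
      have h2 : f i x + v i = c i j - (act (D.G i j) (v j) - v i) := by
        simp only [f]
        rw [h1, h.rel i j x ⟨hx, hxj⟩, map_add]
        abel
      rw [h2]
      exact hv i j ⟨x, hx, hxj⟩
    have hf3 : ∀ i, ∀ x ∈ D.W i, ∀ y ∈ D.W i, f i y - f i x ∈ stdLat (Fin N) := by
      intro i x hx y hy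
      have h1 := sub_mem (hf2 i y hy) (hf2 i x hx)
      rwa [add_sub_add_right_eq_sub] at h1
    have hint : ∀ x y, ∃ m : Fin N → ℤ, iv m = D.nd f x y := by
      intro x y
      by_cases hxy : ∃ i, x ∈ D.W i ∧ y ∈ D.W i
      · obtain ⟨i, hx, hy⟩ := hxy
        rw [Fam.nd_eq hf0 hx hy]
        exact exists_iv (act_mem_std _ (hf3 i x hx y hy))
      · rw [Fam.nd, dif_neg hxy]
        exact exists_iv (zero_mem _)
    choose m hm using hint
    refine ⟨m, Φ, fun z hz => ?_⟩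
    obtain ⟨i, hi⟩ := mem_iUnion.1 hz
    obtain ⟨U, hU, hT⟩ := D.tri i z hi
    refine ⟨U ∩ D.W i, inter_mem hU ((D.isOpen i).mem_nhds hi), fun x => act (D.T i x) (ψ i x),
      fun x hx => h.primOn ha hb hab i x hx.2, fun x hx y hy => ?_⟩
    simp only [hm]
    rw [Fam.nd_eq hf0 hx.2 hy.2, hT x hx.1 y hy.1, act_mul_apply, act_mul_apply, act_inv_act]
    simp only [f, map_sub]
    rw [act_tl]
    simp only [tl]
    abel

end

end

end Crest.Agent.R276.Top2_937
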