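import Crest.Agent.R276.Top2g_937

/-!
# R276, leaf TOP2 (helper937), part 8: main theorem

`exists_integral_basis` : finitely many compactly supported integral closed forms which are a basis of
the parabolic cohomology of the punctured plane, the integral classes being the integral combinations.
-/

set_option autoImplicit false
set_option linter.unusedSectionVars false
set_option linter.unusedVariables false

open Set Filter Topology MeasureTheory Matrix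
open scoped ContDiff Manifold

namespace Crest.Agent.R276.Top2_937

open Ipc735 Lat_348

noncomputable section

variable {N : ℕ}

/-- `dx`-component of the flat derivative -/
def D1 (P : ℂ → ℂ → GL (Fin N) ℤ) (φ : ℂ → Fin N → ℂ) (z : ℂ) : Fin N → ℂ := wz (lV P φ z) z

/-- `dx̄`-component of the flat derivative -/
def D2 (P : ℂ → ℂ → GL (Fin N) ℤ) (φ : ℂ → Fin N → ℂ) (z : ℂ) : Fin N → ℂ := wb (lV P φ z) z

section congr

variable {P : ℂ → ℂ → GL (Fin N) ℤ} {O : Set ℂ} {a b a' b' : ℂ → Fin N → ℂ}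

theorem eventuallyEq_of_open (hO : IsOpen O) (h : ∀ z ∈ O, a' z = a z) {z : ℂ} (hz : z ∈ O) :
    a' =ᶠ[𝓝 z] a := by
  filter_upwards [hO.mem_nhds hz] with y hy using h y hy

theorem SmOn.congr (hO : IsOpen O) (h : SmOn P O a) (he : ∀ z ∈ O, a' z = a z) : SmOn P O a' :=
  fun z hz => (h z hz).congr_of_eventuallyEq (lV_congr (eventuallyEq_of_open hO he hz))

theorem ClOn.congr (hO : IsOpen O) (h : ClOn P O a b) (ha : ∀ z ∈ O, a' z = a z)
    (hb : ∀ z ∈ O, b' z = b z) : ClOn P O a' b' := fun z hz => by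
  rw [(wz_congr (lV_congr (P := P) (eventuallyEq_of_open hO ha hz))).2,
    (wz_congr (lV_congr (P := P) (eventuallyEq_of_open hO hb hz))).1]
  exact h z hz

theorem ExOn.congr (h : ExOn P O a b) (ha : ∀ z ∈ O, a' z = a z)
    (hb : ∀ z ∈ O, b' z = b z) : ExOn P O a' b' := by
  obtain ⟨φ, hφ⟩ := h
  refine ⟨φ, fun z hz => ?_⟩
  rw [ha z hz, hb z hz]
  exact hφ z hz

theorem ParOn.congr {A : Finset ℂ} (h : ParOn P A a b) (ha : ∀ z ∉ A, a' z = a z)
    (hb : ∀ z ∉ A, b' z = b z) : ParOn P A a' b' := by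
  rw [parOn_iff] at *
  intro e
  obtain ⟨n, hn⟩ := h e
  exact ⟨n, hn.congr (fun z hz => ha z hz.2) (fun z hz => hb z hz.2)⟩

theorem Per.congr (hO : IsOpen O) {c : ℂ → ℂ → Fin N → ℂ} (h : Per P O a b c)
    (ha : ∀ z ∈ O, a' z = a z) (hb : ∀ z ∈ O, b' z = b z) : Per P O a' b' c := by
  intro z hz
  obtain ⟨U, hU, φ, hφ, hc⟩ := h z hz
  refine ⟨U ∩ O, inter_mem hU (hO.mem_nhds hz), φ, fun x hx => ?_, fun x hx y hy =>
    hc x hx.1 y hy.1⟩
  rw [ha x hx.2, hb x hx.2]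
  exact hφ x hx.1

theorem Intg.congr (hO : IsOpen O) (h : Intg P O a b)
    (ha : ∀ z ∈ O, a' z = a z) (hb : ∀ z ∈ O, b' z = b z) : Intg P O a' b' := by
  obtain ⟨m, Φ, h⟩ := h
  exact ⟨m, Φ, h.congr hO ha hb⟩

end congr

section cov

variable {P : ℂ → ℂ → GL (Fin N) ℤ} {ι : Type} {D : Fam P ι}

/-- the cochain of an exact form -/
theorem Fam.hasC_d {φ : ℂ → Fin N → ℂ} (hφ : SmOn P (⋃ i, D.W i) φ) :
    D.HasC (D1 P φ) (D2 P φ) (fun i => tl (D.T i) φ) 0 where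
  der i x hx := Fam.tl_deriv hx (hφ x (mem_iUnion.2 ⟨i, hx⟩)) rfl rfl
  rel i j x hx := by
    rw [D.tl_change hx]
    simp

theorem Fam.smOn_d {φ : ℂ → Fin N → ℂ} (hφ : SmOn P (⋃ i, D.W i) φ) :
    SmOn P (⋃ i, D.W i) (D1 P φ) ∧ SmOn P (⋃ i, D.W i) (D2 P φ) ∧
      ClOn P (⋃ i, D.W i) (D1 P φ) (D2 P φ) := by
  have hO : IsOpen (⋃ i, D.W i) := isOpen_iUnion D.isOpen
  have hs : ∀ i, ContDiffOn ℝ ∞ (tl (D.T i) φ) (D.W i) := fun i x hx =>
    ((sm_iff (D.tri i) hx φ).1 (hφ x (mem_iUnion.2 ⟨i, hx⟩))).contDiffWithinAt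
  have hr : ∀ i j, ∀ x ∈ D.W i ∩ D.W j, tl (D.T i) φ x = act (D.G i j) (tl (D.T j) φ x) + 0 := by
    intro i j x hx
    rw [D.tl_change hx, add_zero]
  obtain ⟨a, b, ha, hb, hab, hη⟩ := D.exists_global
    (Form.ofPrim D.cc (fun i => tl (D.T i) φ) (fun _ _ => 0) hs hr)
  have key : ∀ x ∈ ⋃ i, D.W i, D1 P φ x = a x ∧ D2 P φ x = b x := by
    intro x hx
    obtain ⟨i, hi⟩ := mem_iUnion.1 hx
    have h1 := hη i x hi
    have h2 : fderiv ℝ (tl (D.T i) φ) x = frm (tl (D.T i) a x, tl (D.T i) b x) := h1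
    have h3 := (Fam.tl_deriv (D := D) hi (hφ x hx) rfl rfl).fderiv
    rw [h2] at h3
    obtain ⟨h4, h5⟩ := frm_inj h3
    constructor
    · have h6 := congrArg (act (D.T i x)) h4
      rw [act_tl, act_tl] at h6
      exact h6.symm
    · have h6 := congrArg (act (D.T i x)) h5
      rw [act_tl, act_tl] at h6
      exact h6.symm
  exact ⟨ha.congr hO fun x hx => (key x hx).1, hb.congr hO fun x hx => (key x hx).2,
    hab.congr hO (fun x hx => (key x hx).1) fun x hx => (key x hx).2⟩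

end cov

section algex

variable {ι κ J : Type} [Finite ι] [Finite κ] [Finite J] (G : ι → ι → GL (Fin N) ℤ)
  (R2 : ι → ι → Prop) (R3 : ι → ι → ι → Prop) (r : κ → ι) (mt : J → κ → κ → Prop)

theorem Df_mem_parZ (hG : ∀ i j l, R3 i j l → G i j * G j l = G i l)
    (h23 : ∀ i j l, R3 i j l → R2 i j ∧ R2 j l ∧ R2 i l)
    (hm2 : ∀ e i j, mt e i j → R2 (r i) (r j)) (v : ι → Fin N → ℂ) :
    Df G R2 v ∈ parZ G R2 R3 r mt := by
  rw [mem_parZ]
  refine ⟨fun i j h => Df_neg G R2 h v, fun i j l h => ?_, fun e => ⟨fun i => v (r i),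
    fun i j h => Df_pos G R2 (hm2 e i j h) v⟩⟩
  obtain ⟨h1, h2, h3⟩ := h23 i j l h
  rw [Df_pos G R2 h1, Df_pos G R2 h2, Df_pos G R2 h3, map_sub, ← act_mul_apply, hG i j l h]
  abel

end algex

/-- linear combination of sections -/
def comb {n : ℕ} (c : Fin n → ℂ) (α : Fin n → ℂ → Fin N → ℂ) : ℂ → Fin N → ℂ := ∑ k, c k • α k

theorem comb_apply {n : ℕ} (c : Fin n → ℂ) (α : Fin n → ℂ → Fin N → ℂ) (z : ℂ) :
    comb c α z = ∑ k, c k • α k z := by
  simp [comb]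

/-- **TOP2.** Parabolic cohomology of the punctured plane with coefficients in a local system of
lattices: basis of compactly supported integral closed forms. -/
theorem exists_integral_basis {A : Finset ℂ} {P : ℂ → ℂ → GL (Fin N) ℤ}
    (hP : NDCOn (A : Set ℂ)ᶜ P) :
    ∃ (n : ℕ) (α β : Fin n → ℂ → Fin N → ℂ) (K : Set ℂ), IsCompact K ∧ K ⊆ (A : Set ℂ)ᶜ ∧
      (∀ k, SmOn P (A : Set ℂ)ᶜ (α k) ∧ SmOn P (A : Set ℂ)ᶜ (β k) ∧
        ClOn P (A : Set ℂ)ᶜ (α k) (β k) ∧ Intg P (A : Set ℂ)ᶜ (α k) (β k) ∧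
        ∀ z, z ∉ K → α k z = 0 ∧ β k z = 0) ∧
      ∀ a b, SmOn P (A : Set ℂ)ᶜ a → SmOn P (A : Set ℂ)ᶜ b → ClOn P (A : Set ℂ)ᶜ a b →
        ParOn P A a b →
        (∃! c : Fin n → ℂ, ExOn P (A : Set ℂ)ᶜ (a - comb c α) (b - comb c β)) ∧
        ∀ c : Fin n → ℂ, ExOn P (A : Set ℂ)ᶜ (a - comb c α) (b - comb c β) →
          (Intg P (A : Set ℂ)ᶜ a b ↔ ∀ k, ∃ m : ℤ, c k = m) := by
  classical
  have hO : IsOpen (A : Set ℂ)ᶜ := A.finite_toSet.isClosed.isOpen_compl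
  let D : Fam P (A → Fin 4) := mainFam hP
  have hU : (⋃ i, D.W i) = (A : Set ℂ)ᶜ := iUnion_main hP
  let R2 : (A → Fin 4) → (A → Fin 4) → Prop := fun i j => (D.W i ∩ D.W j).Nonempty
  let R3 : (A → Fin 4) → (A → Fin 4) → (A → Fin 4) → Prop :=
    fun i j l => (D.W i ∩ D.W j ∩ D.W l).Nonempty
  let mt : Option A → ((A → Fin 4) × Fin 4) → ((A → Fin 4) × Fin 4) → Prop :=
    fun e => D.meet (EB (endOf A e))
  have hG : ∀ i j l, R3 i j l → D.G i j * D.G j l = D.G i l := by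
    rintro i j l ⟨x, ⟨hi, hj⟩, hl⟩
    rw [D.G_eq ⟨hi, hj⟩, D.G_eq ⟨hj, hl⟩, D.G_eq ⟨hi, hl⟩]
    group
  have h23 : ∀ i j l, R3 i j l → R2 i j ∧ R2 j l ∧ R2 i l := by
    rintro i j l ⟨x, ⟨hi, hj⟩, hl⟩
    exact ⟨⟨x, hi, hj⟩, ⟨x, hj, hl⟩, ⟨x, hi, hl⟩⟩
  have hm2 : ∀ e i j, mt e i j → R2 i.1 j.1 := by
    intro e i j h
    obtain ⟨x, hx1, hx2⟩ := h 0
    exact ⟨x, hx1.1, hx2.1⟩
  -- dictionary
  have hend : ∀ {a b : ℂ → Fin N → ℂ} {ψ : (A → Fin 4) → ℂ → Fin N → ℂ} {c : Co N (A → Fin 4)},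
      D.HasC a b ψ c → SmOn P (⋃ i, D.W i) a → SmOn P (⋃ i, D.W i) b →
      ClOn P (⋃ i, D.W i) a b → (ParOn P A a b ↔ ∀ e, ∃ v : ((A → Fin 4) × Fin 4) → Fin N → ℂ,
        ∀ i j, mt e i j → c i.1 j.1 = act (D.G i.1 j.1) (v j) - v i) := by
    intro a b ψ c h ha hb hab
    rw [parOn_iff]
    refine forall_congr' fun e => ?_
    rw [← h.end_iff (isOpen_EB (endOf A e)) (convex_EB (endOf A e)) (antitone_EB (endOf A e))
      ha hb hab]
    refine exists_congr fun n => ?_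
    rw [iUnion_piece hP]
  obtain ⟨n, w, hw1, hw2, hw3, hw4⟩ := exists_basis_co D.G R2 R3
    (fun i : (A → Fin 4) × Fin 4 => i.1) mt
  -- realisation of the basis
  have hreal : ∀ k, ∃ (a b : ℂ → Fin N → ℂ) (ψ : (A → Fin 4) → ℂ → Fin N → ℂ) (K : Set ℂ),
      SmOn P (⋃ i, D.W i) a ∧ SmOn P (⋃ i, D.W i) b ∧ ClOn P (⋃ i, D.W i) a b ∧
      D.HasC a b ψ (w k) ∧ IsCompact K ∧ K ⊆ (A : Set ℂ)ᶜ ∧ ∀ z ∉ K, a z = 0 ∧ b z = 0 := by
    intro k
    have hk := (mem_parZ D.G R2 R3 (fun i : (A → Fin 4) × Fin 4 => i.1) mt).1 (hw1 k)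
    obtain ⟨a, b, ψ, ha, hb, hab, hC⟩ := D.exists_realise (w k) hk.2.1
    have hpar : ParOn P A a b := (hend hC ha hb hab).2 hk.2.2
    obtain ⟨φ, K, hφ, hK, hKA, hφK⟩ := exists_cutoff hpar
    rw [← hU] at hφ
    obtain ⟨g1, g2, g3⟩ := D.smOn_d hφ
    have hC2 := hC.sub (Fam.hasC_d hφ)
    rw [sub_zero] at hC2
    let a' : ℂ → Fin N → ℂ := fun z => if z ∈ K then (a - D1 P φ) z else 0
    let b' : ℂ → Fin N → ℂ := fun z => if z ∈ K then (b - D2 P φ) z else 0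
    have ha' : ∀ z ∈ (⋃ i, D.W i), a' z = (a - D1 P φ) z := by
      intro z hz
      rw [hU] at hz
      by_cases hzK : z ∈ K
      · simp only [a', if_pos hzK]
      · simp only [a', if_neg hzK]
        have h1 := (hφK z hz hzK).1
        rw [Pi.sub_apply, ← h1]
        exact (sub_self _).symm
    have hb' : ∀ z ∈ (⋃ i, D.W i), b' z = (b - D2 P φ) z := by
      intro z hz
      rw [hU] at hz
      by_cases hzK : z ∈ K
      · simp only [b', if_pos hzK]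
      · simp only [b', if_neg hzK]
        have h1 := (hφK z hz hzK).2
        rw [Pi.sub_apply, ← h1]
        exact (sub_self _).symm
    have hO' : IsOpen (⋃ i, D.W i) := isOpen_iUnion D.isOpen
    refine ⟨a', b', fun i => ψ i - tl (D.T i) φ, K, (ha.sub g1).congr hO' ha',
      (hb.sub g2).congr hO' hb', (ClOn.sub ha hb g1 g2 hab g3).congr hO' ha' hb', ?_, hK, hKA,
      fun z hz => ⟨if_neg hz, if_neg hz⟩⟩
    refine ⟨fun i x hx => ?_, hC2.rel⟩
    have h1 := hC2.der i x hx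
    have hx' : x ∈ ⋃ i, D.W i := mem_iUnion.2 ⟨i, hx⟩
    have h2 : tl (D.T i) a' x = tl (D.T i) (a - D1 P φ) x := by rw [tl, tl, ha' x hx']
    have h3 : tl (D.T i) b' x = tl (D.T i) (b - D2 P φ) x := by rw [tl, tl, hb' x hx']
    rw [h2, h3]
    exact h1
  choose α β Ψ K hα hβ hαβ hC hK hKA hz using hreal
  have hcomb : ∀ {a b : ℂ → Fin N → ℂ} {ψ : (A → Fin 4) → ℂ → Fin N → ℂ}
      {c : Co N (A → Fin 4)}, D.HasC a b ψ c → SmOn P (⋃ i, D.W i) a → SmOn P (⋃ i, D.W i) b →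
      ClOn P (⋃ i, D.W i) a b → ∀ l : Fin n → ℂ,
      (ExOn P (⋃ i, D.W i) (a - comb l α) (b - comb l β) ↔ ∃ v : (A → Fin 4) → Fin N → ℂ,
        ∀ i j, R2 i j → c i j - ∑ k, l k • w k i j = act (D.G i j) (v j) - v i) := by
    intro a b ψ c h ha hb hab l
    have h1 : D.HasC (comb l α) (comb l β) (fun i => ∑ k, (fun i => l k • Ψ k i) i)
        (∑ k, l k • w k) := Fam.HasC.sum Finset.univ fun k _ => (hC k).smul (l k)
    have s1 : SmOn P (⋃ i, D.W i) (comb l α) := SmOn.sum _ fun k _ => (hα k).smul _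
    have s2 : SmOn P (⋃ i, D.W i) (comb l β) := SmOn.sum _ fun k _ => (hβ k).smul _
    have s3 : ClOn P (⋃ i, D.W i) (comb l α) (comb l β) := ClOn.sum _
      (fun k => (hα k).smul _) (fun k => (hβ k).smul _)
      fun k _ => ClOn.smul (hα k) (hβ k) (hαβ k) _
    rw [(h.sub h1).exOn_iff (ha.sub s1) (hb.sub s2) (ClOn.sub ha hb s1 s2 hab s3)]
    refine exists_congr fun v => forall_congr' fun i => forall_congr' fun j =>
      forall_congr' fun hij => ?_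
    rw [Pi.sub_apply, Pi.sub_apply, Finset.sum_apply, Finset.sum_apply]
    rfl
  refine ⟨n, α, β, ⋃ k, K k, isCompact_iUnion hK, iUnion_subset hKA, fun k => ?_, ?_⟩
  · rw [← hU]
    refine ⟨hα k, hβ k, hαβ k, ?_, fun z hzK => hz k z fun h => hzK (mem_iUnion.2 ⟨k, h⟩)⟩
    rw [(hC k).intg_iff (hα k) (hβ k) (hαβ k)]
    refine ⟨0, fun i j _ => ?_⟩
    have h1 : act (D.G i j) ((0 : (A → Fin 4) → Fin N → ℂ) j) -
        (0 : (A → Fin 4) → Fin N → ℂ) i = 0 := by simp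
    rw [h1, sub_zero]
    exact hw2 k i j
  · intro a b ha hb hab hpar
    rw [← hU] at ha hb hab ⊢
    obtain ⟨ψ, c₀, hC₀⟩ := D.exists_hasC ha hb hab
    let c : Co N (A → Fin 4) := fun i j => if R2 i j then c₀ i j else 0
    have hCc : D.HasC a b ψ c := hC₀.congr fun i j hij => if_pos hij
    have hc : c ∈ parZ D.G R2 R3 (fun i : (A → Fin 4) × Fin 4 => i.1) mt := by
      rw [mem_parZ]
      exact ⟨fun i j hij => if_neg hij, fun i j l h => hCc.cocycle h,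
        (hend hCc ha hb hab).1 hpar⟩
    have h1 := hcomb hCc ha hb hab
    refine ⟨?_, fun l hl => ?_⟩
    · simp only [h1]
      exact hw3 c hc
    · rw [h1] at hl
      rw [← hw4 c hc l hl, hCc.intg_iff ha hb hab]
      constructor
      · rintro ⟨v, hv⟩
        refine ⟨c - Df D.G R2 v, Submodule.sub_mem _ hc
          (Df_mem_parZ D.G R2 R3 _ mt hG h23 hm2 v), fun i j => ?_, v, fun i j hij => ?_⟩
        · rw [Pi.sub_apply, Pi.sub_apply]
          by_cases hij : R2 i j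
          · rw [Df_pos D.G R2 hij]
            exact hv i j hij
          · rw [Df_neg D.G R2 hij]
            simp only [c, if_neg hij, sub_zero]
            exact zero_mem _
        · rw [Pi.sub_apply, Pi.sub_apply, Df_pos D.G R2 hij, sub_sub_cancel]
      · rintro ⟨m, hm, hm2, v, hv⟩
        refine ⟨v, fun i j hij => ?_⟩
        rw [← hv i j hij, sub_sub_cancel]
        exact hm2 i j

end

end Crest.Agent.R276.Top2_937
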