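import Mathlib

/-!
# Row 276, IPC-TOP3 (helper279): cohomology with values in a near-diagonal cocycle

`NDC P` : `P : X → X → G` satisfies `P x y * P y w = P x w` near the diagonal.
`H1 ρ P` : affine near-diagonal cocycles `c x w = c x y + ρ (P x y) (c y w)` modulo
`f x - ρ (P x y) (f y)`, for a representation `ρ : G →* Module.End R M`.
`mapH` : functoriality for a continuous map together with a change of frames.
-/

set_option autoImplicit false
set_option linter.unusedSectionVars false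

noncomputable section

open Set Filter Topology

namespace Crest.Agent.R276.Top3_279

section basic

variable {X : Type*} [TopologicalSpace X] {G : Type*} [Group G]

/-- near-diagonal cocycle with values in a group -/
def NDC (P : X → X → G) : Prop :=
  ∀ z, ∃ U ∈ 𝓝 z, ∀ x ∈ U, ∀ y ∈ U, ∀ w ∈ U, P x y * P y w = P x w

/-- near-diagonal equality -/
def NDE {α : Type*} (f g : X → X → α) : Prop :=
  ∀ z, ∃ U ∈ 𝓝 z, ∀ x ∈ U, ∀ y ∈ U, f x y = g x y

lemma NDE.refl {α : Type*} (f : X → X → α) : NDE f f :=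
  fun _ => ⟨univ, univ_mem, fun _ _ _ _ => rfl⟩

lemma NDE.symm {α : Type*} {f g : X → X → α} (h : NDE f g) : NDE g f := fun z => by
  obtain ⟨U, hU, h⟩ := h z
  exact ⟨U, hU, fun x hx y hy => (h x hx y hy).symm⟩

lemma NDE.trans {α : Type*} {f g k : X → X → α} (h : NDE f g) (h' : NDE g k) : NDE f k := fun z => by
  obtain ⟨U, hU, h⟩ := h z
  obtain ⟨V, hV, h'⟩ := h' z
  exact ⟨U ∩ V, inter_mem hU hV, fun x hx y hy => (h x hx.1 y hy.1).trans (h' x hx.2 y hy.2)⟩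

lemma NDE.map {α β : Type*} {f g : X → X → α} (h : NDE f g) (φ : α → β) :
    NDE (fun x y => φ (f x y)) (fun x y => φ (g x y)) := fun z => by
  obtain ⟨U, hU, h⟩ := h z
  exact ⟨U, hU, fun x hx y hy => congrArg φ (h x hx y hy)⟩

lemma NDE.pull {Y : Type*} [TopologicalSpace Y] {α : Type*} {f g : X → X → α} (h : NDE f g)
    {k : Y → X} (hk : Continuous k) : NDE (fun x y => f (k x) (k y)) (fun x y => g (k x) (k y)) :=
  fun z => by
    obtain ⟨U, hU, h⟩ := h (k z)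
    exact ⟨k ⁻¹' U, hk.continuousAt.preimage_mem_nhds hU, fun x hx y hy => h _ hx _ hy⟩

lemma NDC.diag {P : X → X → G} (hP : NDC P) (x : X) : P x x = 1 := by
  obtain ⟨U, hU, h⟩ := hP x
  have hx := mem_of_mem_nhds hU
  have := h x hx x hx x hx
  simpa using this

lemma NDC.near {P : X → X → G} (hP : NDC P) (z : X) :
    ∃ U ∈ 𝓝 z, (∀ x ∈ U, ∀ y ∈ U, ∀ w ∈ U, P x y * P y w = P x w) ∧
      ∀ x ∈ U, ∀ y ∈ U, P y x = (P x y)⁻¹ := by
  obtain ⟨U, hU, h⟩ := hP z
  refine ⟨U, hU, h, fun x hx y hy => ?_⟩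
  have := h x hx y hy x hx
  rw [hP.diag] at this
  exact eq_inv_of_mul_eq_one_right this

lemma NDC.pull {Y : Type*} [TopologicalSpace Y] {P : X → X → G} (h : NDC P)
    {k : Y → X} (hk : Continuous k) : NDC (fun x y => P (k x) (k y)) :=
  fun z => by
    obtain ⟨U, hU, h⟩ := h (k z)
    exact ⟨k ⁻¹' U, hk.continuousAt.preimage_mem_nhds hU, fun x hx y hy w hw => h _ hx _ hy _ hw⟩

lemma NDC.congr {P Q : X → X → G} (hP : NDC P) (h : NDE P Q) : NDC Q := fun z => by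
  obtain ⟨U, hU, h1⟩ := hP z
  obtain ⟨V, hV, h2⟩ := h z
  refine ⟨U ∩ V, inter_mem hU hV, fun x hx y hy w hw => ?_⟩
  rw [← h2 x hx.2 y hy.2, ← h2 y hy.2 w hw.2, ← h2 x hx.2 w hw.2, h1 x hx.1 y hy.1 w hw.1]

lemma NDC.conj {P : X → X → G} (hP : NDC P) (A : X → G) :
    NDC (fun x y => A x * P x y * (A y)⁻¹) := fun z => by
  obtain ⟨U, hU, h1⟩ := hP z
  refine ⟨U, hU, fun x hx y hy w hw => ?_⟩
  simp only []
  rw [← h1 x hx y hy w hw]; group

/-- the frames `A` carry `f^* P` (on `Y`) to `P'` -/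
def Frame {Y : Type*} [TopologicalSpace Y] (P : X → X → G) (f : Y → X) (A : Y → G)
    (P' : Y → Y → G) : Prop :=
  NDE P' (fun x y => A x * P (f x) (f y) * (A y)⁻¹)

lemma Frame.id (P : X → X → G) : Frame P (fun x => x) (fun _ => 1) P := by
  intro z
  exact ⟨univ, univ_mem, fun x _ y _ => by simp⟩

lemma Frame.pull {Y : Type*} [TopologicalSpace Y] (P : X → X → G) (f : Y → X) :
    Frame P f (fun _ => 1) (fun x y => P (f x) (f y)) := by
  intro z
  exact ⟨univ, univ_mem, fun x _ y _ => by simp⟩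

lemma Frame.comp {Y Z : Type*} [TopologicalSpace Y] [TopologicalSpace Z] {P : X → X → G}
    {f : Y → X} {A : Y → G} {P' : Y → Y → G} (h : Frame P f A P') {g : Z → Y} (hg : Continuous g)
    {B : Z → G} {P'' : Z → Z → G} (h' : Frame P' g B P'') :
    Frame P (fun z => f (g z)) (fun z => B z * A (g z)) P'' := by
  intro z
  obtain ⟨U, hU, h1⟩ := h' z
  obtain ⟨V, hV, h2⟩ := (NDE.pull h hg) z
  refine ⟨U ∩ V, inter_mem hU hV, fun x hx y hy => ?_⟩
  rw [h1 x hx.1 y hy.1]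
  simp only [] at h2 ⊢
  rw [h2 x hx.2 y hy.2]
  group

end basic

section coh

variable {X Y Z : Type*} [TopologicalSpace X] [TopologicalSpace Y] [TopologicalSpace Z]
variable {G : Type*} [Group G] {R : Type*} [CommRing R] {M : Type*} [AddCommGroup M] [Module R M]
variable (ρ : G →* Module.End R M)

/-- near-diagonal affine cocycles -/
def Z1 (P : X → X → G) : Submodule R (X → X → M) where
  carrier := {c | ∀ z, ∃ U ∈ 𝓝 z, ∀ x ∈ U, ∀ y ∈ U, ∀ w ∈ U, c x w = c x y + ρ (P x y) (c y w)}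
  zero_mem' := fun z => ⟨univ, univ_mem, fun x _ y _ w _ => by simp⟩
  add_mem' := by
    intro a b ha hb z
    obtain ⟨U, hU, h1⟩ := ha z
    obtain ⟨V, hV, h2⟩ := hb z
    refine ⟨U ∩ V, inter_mem hU hV, fun x hx y hy w hw => ?_⟩
    simp only [Pi.add_apply, map_add]
    rw [h1 x hx.1 y hy.1 w hw.1, h2 x hx.2 y hy.2 w hw.2]
    abel
  smul_mem' := by
    intro r a ha z
    obtain ⟨U, hU, h1⟩ := ha z
    refine ⟨U, hU, fun x hx y hy w hw => ?_⟩
    simp only [Pi.smul_apply, map_smul]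
    rw [h1 x hx y hy w hw, smul_add]

/-- near-diagonal coboundaries -/
def B1 (P : X → X → G) : Submodule R (X → X → M) where
  carrier := {c | ∃ f : X → M, NDE c (fun x y => f x - ρ (P x y) (f y))}
  zero_mem' := ⟨fun _ => 0, fun z => ⟨univ, univ_mem, fun x _ y _ => by simp⟩⟩
  add_mem' := by
    rintro a b ⟨f, hf⟩ ⟨g, hg⟩
    refine ⟨fun x => f x + g x, fun z => ?_⟩
    obtain ⟨U, hU, h1⟩ := hf z
    obtain ⟨V, hV, h2⟩ := hg z
    refine ⟨U ∩ V, inter_mem hU hV, fun x hx y hy => ?_⟩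
    simp only [Pi.add_apply, map_add] at h1 h2 ⊢
    rw [h1 x hx.1 y hy.1, h2 x hx.2 y hy.2]
    abel
  smul_mem' := by
    rintro r a ⟨f, hf⟩
    refine ⟨fun x => r • f x, fun z => ?_⟩
    obtain ⟨U, hU, h1⟩ := hf z
    refine ⟨U, hU, fun x hx y hy => ?_⟩
    simp only [Pi.smul_apply, map_smul] at h1 ⊢
    rw [h1 x hx y hy, smul_sub]

/-- first cohomology with values in the near-diagonal cocycle `P` -/
abbrev H1 (P : X → X → G) : Type _ := (Z1 ρ P) ⧸ (B1 ρ P).submoduleOf (Z1 ρ P)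

/-- the class of a cocycle -/
def cls {P : X → X → G} (c : X → X → M) (hc : c ∈ Z1 ρ P) : H1 ρ P :=
  Submodule.Quotient.mk ⟨c, hc⟩

lemma cls_surj {P : X → X → G} (h : H1 ρ P) : ∃ c, ∃ hc : c ∈ Z1 ρ P, cls ρ c hc = h := by
  obtain ⟨⟨c, hc⟩, rfl⟩ := Submodule.Quotient.mk_surjective _ h
  exact ⟨c, hc, rfl⟩

lemma cls_eq_iff {P : X → X → G} {c c' : X → X → M} {hc : c ∈ Z1 ρ P} {hc' : c' ∈ Z1 ρ P} :
    cls ρ c hc = cls ρ c' hc' ↔
      ∃ f : X → M, NDE c (fun x y => c' x y + (f x - ρ (P x y) (f y))) := by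
  unfold cls
  rw [Submodule.Quotient.eq]
  constructor
  · rintro ⟨f, hf⟩
    refine ⟨f, fun z => ?_⟩
    obtain ⟨U, hU, h1⟩ := hf z
    refine ⟨U, hU, fun x hx y hy => ?_⟩
    have := h1 x hx y hy
    simp only [Submodule.subtype_apply, Submodule.coe_sub, Pi.sub_apply] at this ⊢
    rw [← this]; abel
  · rintro ⟨f, hf⟩
    refine ⟨f, fun z => ?_⟩
    obtain ⟨U, hU, h1⟩ := hf z
    refine ⟨U, hU, fun x hx y hy => ?_⟩
    have := h1 x hx y hy
    simp only [Submodule.subtype_apply, Submodule.coe_sub, Pi.sub_apply] at this ⊢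
    rw [this]; abel

lemma cls_eq_zero_iff {P : X → X → G} {c : X → X → M} {hc : c ∈ Z1 ρ P} :
    cls ρ c hc = 0 ↔ ∃ f : X → M, NDE c (fun x y => f x - ρ (P x y) (f y)) := by
  have : (0 : H1 ρ P) = cls ρ 0 (Submodule.zero_mem _) := rfl
  rw [this, cls_eq_iff]
  simp

lemma mem_Z1 {P : X → X → G} {c : X → X → M} : c ∈ Z1 ρ P ↔
    ∀ z, ∃ U ∈ 𝓝 z, ∀ x ∈ U, ∀ y ∈ U, ∀ w ∈ U, c x w = c x y + ρ (P x y) (c y w) := Iff.rfl

lemma mapZ_mem {P : X → X → G} {f : Y → X} (hf : Continuous f) {A : Y → G} {P' : Y → Y → G}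
    (h : Frame P f A P') {c : X → X → M} (hc : c ∈ Z1 ρ P) :
    (fun x y => ρ (A x) (c (f x) (f y))) ∈ Z1 ρ P' := by
  rw [mem_Z1] at hc ⊢
  intro z
  obtain ⟨U, hU, h1⟩ := hc (f z)
  obtain ⟨V, hV, h2⟩ := h z
  refine ⟨f ⁻¹' U ∩ V, inter_mem (hf.continuousAt.preimage_mem_nhds hU) hV,
    fun x hx y hy w hw => ?_⟩
  rw [h1 _ hx.1 _ hy.1 _ hw.1, h2 x hx.2 y hy.2, map_add, ← Module.End.mul_apply, ← map_mul,
    ← Module.End.mul_apply, ← map_mul]
  congr 3
  group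

/-- pull back of cocycles with change of frames -/
def mapZ {P : X → X → G} {f : Y → X} (hf : Continuous f) {A : Y → G} {P' : Y → Y → G}
    (h : Frame P f A P') : Z1 ρ P →ₗ[R] Z1 ρ P' where
  toFun c := ⟨fun x y => ρ (A x) (c.1 (f x) (f y)), mapZ_mem ρ hf h c.2⟩
  map_add' := by
    intro a b
    ext x y
    simp
  map_smul' := by
    intro r a
    ext x y
    simp

/-- functoriality of `H1` for a continuous map with change of frames -/
def mapH {P : X → X → G} {f : Y → X} (hf : Continuous f) {A : Y → G} {P' : Y → Y → G}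
    (h : Frame P f A P') : H1 ρ P →ₗ[R] H1 ρ P' :=
  Submodule.mapQ _ _ (mapZ ρ hf h) (by
    rintro ⟨c, hc⟩ ⟨g, hg⟩
    refine ⟨fun x => ρ (A x) (g (f x)), fun z => ?_⟩
    obtain ⟨U, hU, h1⟩ := (hg.pull hf) z
    obtain ⟨V, hV, h2⟩ := h z
    refine ⟨U ∩ V, inter_mem hU hV, fun x hx y hy => ?_⟩
    have e1 := h1 x hx.1 y hy.1
    simp only [Submodule.subtype_apply] at e1
    simp only [mapZ, LinearMap.coe_mk, AddHom.coe_mk, Submodule.subtype_apply]
    rw [e1, h2 x hx.2 y hy.2, map_sub, ← Module.End.mul_apply, ← map_mul,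
      ← Module.End.mul_apply, ← map_mul]
    congr 3
    group)

lemma mapH_cls {P : X → X → G} {f : Y → X} (hf : Continuous f) {A : Y → G} {P' : Y → Y → G}
    (h : Frame P f A P') (c : X → X → M) (hc : c ∈ Z1 ρ P) :
    mapH ρ hf h (cls ρ c hc) =
      cls ρ (fun x y => ρ (A x) (c (f x) (f y))) (mapZ_mem ρ hf h hc) := rfl

lemma mapH_id {P : X → X → G} (h : Frame P (fun x => x) (fun _ => 1) P) (a : H1 ρ P) :
    mapH ρ continuous_id h a = a := by
  obtain ⟨c, hc, rfl⟩ := cls_surj ρ a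
  rw [mapH_cls, cls_eq_iff]
  refine ⟨0, fun z => ⟨univ, univ_mem, fun x _ y _ => by simp⟩⟩

lemma mapH_comp {P : X → X → G}
    {f : Y → X} (hf : Continuous f) {A : Y → G} {P' : Y → Y → G} (h : Frame P f A P')
    {g : Z → Y} (hg : Continuous g) {B : Z → G} {P'' : Z → Z → G} (h' : Frame P' g B P'')
    (a : H1 ρ P) :
    mapH ρ hg h' (mapH ρ hf h a) = mapH ρ (hf.comp hg) (h.comp hg h') a := by
  obtain ⟨c, hc, rfl⟩ := cls_surj ρ a
  rw [mapH_cls, mapH_cls, mapH_cls, cls_eq_iff]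
  refine ⟨0, fun z => ⟨univ, univ_mem, fun x _ y _ => ?_⟩⟩
  simp [Function.comp, map_mul]

end coh

end Crest.Agent.R276.Top3_279
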