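import Crest.Agent.R276.Top3_279
import Crest.Agent.R276.Top1_175

/-!
# Row 276, IPC-TOP3 (helper279), part 2: homotopy invariance, deformation retracts

* `Aff ρ` : the affine group `M ⋊ G`;
* `homotopy_frame`, `homotopy_mapH` : homotopic maps induce the same map on `H1` up to the frames
  `hfr P K x = hlift (P ∘ K) (x, 1)`;
* `DR i` : `i : Y → X` is the inclusion of a strong deformation retract; `res_bijective`.
-/

set_option autoImplicit false
set_option linter.unusedSectionVars false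

noncomputable section

open Set Filter Topology unitInterval

namespace Crest.Agent.R276.Top3_279

open Crest.Agent.R276.Top1_175

section aff

variable {G : Type*} [Group G] {R : Type*} [CommRing R] {M : Type*} [AddCommGroup M] [Module R M]

/-- the affine group `M ⋊ G` -/
@[ext] structure Aff (ρ : G →* Module.End R M) where
  v : M
  g : G

variable {ρ : G →* Module.End R M}

instance : Group (Aff ρ) where
  mul a b := ⟨a.v + ρ a.g b.v, a.g * b.g⟩
  one := ⟨0, 1⟩
  inv a := ⟨-(ρ a.g⁻¹ a.v), a.g⁻¹⟩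
  mul_assoc := by
    intro a b c
    show Aff.mk _ _ = Aff.mk _ _
    congr 1
    · show (a.v + ρ a.g b.v) + ρ (a.g * b.g) c.v = a.v + ρ a.g (b.v + ρ b.g c.v)
      rw [map_mul, Module.End.mul_apply, map_add, add_assoc]
    · exact mul_assoc _ _ _
  one_mul := by
    intro a
    show Aff.mk _ _ = a
    ext
    · show (0 : M) + ρ (1 : G) a.v = a.v
      simp
    · exact one_mul _
  mul_one := by
    intro a
    show Aff.mk _ _ = a
    ext
    · show a.v + ρ a.g (0 : M) = a.v
      simp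
    · exact mul_one _
  inv_mul_cancel := by
    intro a
    show Aff.mk _ _ = Aff.mk _ _
    congr 1
    · show -(ρ a.g⁻¹ a.v) + ρ a.g⁻¹ a.v = 0
      simp
    · exact inv_mul_cancel _

@[simp] lemma Aff.mul_v (a b : Aff ρ) : (a * b).v = a.v + ρ a.g b.v := rfl
@[simp] lemma Aff.mul_g (a b : Aff ρ) : (a * b).g = a.g * b.g := rfl
@[simp] lemma Aff.one_v : (1 : Aff ρ).v = 0 := rfl
@[simp] lemma Aff.one_g : (1 : Aff ρ).g = 1 := rfl
@[simp] lemma Aff.inv_v (a : Aff ρ) : (a⁻¹).v = -(ρ a.g⁻¹ a.v) := rfl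
@[simp] lemma Aff.inv_g (a : Aff ρ) : (a⁻¹).g = a.g⁻¹ := rfl

/-- the linear part -/
def Aff.toG : Aff ρ →* G where
  toFun := Aff.g
  map_one' := rfl
  map_mul' := fun _ _ => rfl

end aff

lemma ndc_iff {X : Type*} [TopologicalSpace X] {G : Type*} [Group G] {P : X → X → G} :
    NDC P ↔ IsNDC P := Iff.rfl

section hom

variable {X Y : Type*} [TopologicalSpace X] [TopologicalSpace Y]
variable {G : Type*} [Group G] {R : Type*} [CommRing R] {M : Type*} [AddCommGroup M] [Module R M]
variable (ρ : G →* Module.End R M)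

/-- the affine cocycle -/
def aff (P : Y → Y → G) (c : Y → Y → M) (x y : Y) : Aff ρ := ⟨c x y, P x y⟩

lemma aff_ndc {P : Y → Y → G} (hP : NDC P) {c : Y → Y → M} (hc : c ∈ Z1 ρ P) :
    IsNDC (aff ρ P c) := by
  intro z
  obtain ⟨U, hU, h1⟩ := hP z
  obtain ⟨V, hV, h2⟩ := hc z
  refine ⟨U ∩ V, inter_mem hU hV, fun x hx y hy w hw => ?_⟩
  ext
  · show c x y + ρ (P x y) (c y w) = c x w
    rw [h2 x hx.2 y hy.2 w hw.2]
  · exact h1 x hx.1 y hy.1 w hw.1

/-- frames relating the two ends of the homotopy `K` -/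
def hfr (P : Y → Y → G) (K : X × I → Y) (x : X) : G :=
  hlift (fun p q => P (K p) (K q)) (x, 1)

lemma hfr_const {P : Y → Y → G} (hP : NDC P) {K : X × I → Y} (hK : Continuous K) {x : X}
    (h : ∀ t, K (x, t) = K (x, 0)) : hfr P K x = 1 := by
  have h1 : IsNDC (fun s t : I => P (K (x, s)) (K (x, t))) :=
    isNDC_slice (c := fun p q => P (K p) (K q)) (hP.pull hK) x
  have h2 : (fun _ : I => (1 : G)) = lift (fun s t : I => P (K (x, s)) (K (x, t))) := by
    refine lift_unique h1 rfl fun z => ⟨univ, univ_mem, fun s _ t _ => ?_⟩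
    simp only [h s, h t, hP.diag]
    simp
  show lift (fun s t : I => P (K (x, s)) (K (x, t))) 1 = 1
  rw [← h2]

theorem homotopy_frame {P : Y → Y → G} (hP : NDC P) {K : X × I → Y} (hK : Continuous K) :
    Frame P (fun x => K (x, 0)) (hfr P K) (fun x y => P (K (x, 1)) (K (y, 1))) := by
  have h1 : IsNDC (fun p q : X × I => P (K p) (K q)) := hP.pull hK
  have h2 := h1.homotopy
  intro z
  obtain ⟨U, hU, h⟩ := h2 (z, 1)
  have hc : Continuous (fun x : X => (x, (1 : I))) := by fun_prop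
  refine ⟨(fun x => (x, (1 : I))) ⁻¹' U, hc.continuousAt.preimage_mem_nhds hU, fun x hx y hy => ?_⟩
  exact h (x, 1) hx (y, 1) hy

/-- homotopic maps induce the same map in cohomology, up to the frames `hfr P K` -/
theorem homotopy_mapH {P : Y → Y → G} (hP : NDC P) {K : X × I → Y} (hK : Continuous K)
    (hK0 : Continuous fun x => K (x, 0)) (hK1 : Continuous fun x => K (x, 1)) (a : H1 ρ P) :
    mapH ρ hK1 (Frame.pull P (fun x => K (x, 1))) a =
      mapH ρ hK0 (homotopy_frame hP hK) a := by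
  obtain ⟨c, hc, rfl⟩ := cls_surj ρ a
  rw [mapH_cls, mapH_cls, cls_eq_iff]
  have h1 : IsNDC (fun p q : X × I => aff ρ P c (K p) (K q)) := (aff_ndc ρ hP hc).comp hK
  have h2 := h1.homotopy
  set L : X × I → Aff ρ := hlift (fun p q : X × I => aff ρ P c (K p) (K q)) with hL
  have hLg : ∀ x : X, (L (x, 1)).g = hfr P K x := by
    intro x
    have e1 : IsNDC (fun s t : I => aff ρ P c (K (x, s)) (K (x, t))) :=
      isNDC_slice (c := fun p q => aff ρ P c (K p) (K q)) h1 x
    have e2 : IsNDC (fun s t : I => P (K (x, s)) (K (x, t))) :=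
      isNDC_slice (c := fun p q => P (K p) (K q)) (hP.pull hK) x
    have e3 := lift_triv e1
    have e4 : (fun s => (lift (fun s t : I => aff ρ P c (K (x, s)) (K (x, t))) s).g) =
        lift (fun s t : I => P (K (x, s)) (K (x, t))) := by
      refine lift_unique e2 ?_ fun z => ?_
      · show (lift (fun s t : I => aff ρ P c (K (x, s)) (K (x, t))) 0).g = 1
        rw [lift_zero e1]; rfl
      · obtain ⟨U, hU, h⟩ := e3 z
        refine ⟨U, hU, fun s hs t ht => ?_⟩
        have := congrArg Aff.g (h s hs t ht)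
        exact this
    exact congrFun e4 1
  refine ⟨fun x => (L (x, 1)).v, fun z => ?_⟩
  obtain ⟨U, hU, h⟩ := h2 (z, 1)
  have hc1 : Continuous (fun x : X => (x, (1 : I))) := by fun_prop
  refine ⟨(fun x => (x, (1 : I))) ⁻¹' U, hc1.continuousAt.preimage_mem_nhds hU,
    fun x hx y hy => ?_⟩
  have h3 := h (x, 1) hx (y, 1) hy
  have hv := congrArg Aff.v h3
  have hg := congrArg Aff.g h3
  simp only [aff, Aff.mul_v, Aff.mul_g, Aff.inv_v, Aff.inv_g] at hv hg
  simp only [map_one, Module.End.one_apply]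
  rw [hv, ← hLg x]
  simp only [map_neg, ← Module.End.mul_apply, ← map_mul]
  have e5 : (L (x, 1)).g * P (K (x, 0)) (K (y, 0)) * (L (y, 1)).g⁻¹ = P (K (x, 1)) (K (y, 1)) :=
    hg.symm
  rw [e5]
  abel

/-- the same with a further change of frames -/
theorem homotopy_mapH' {P : Y → Y → G} (hP : NDC P) {K : X × I → Y} (hK : Continuous K)
    (hK0 : Continuous fun x => K (x, 0)) (hK1 : Continuous fun x => K (x, 1))
    {B : X → G} {P' : X → X → G} (h : Frame P (fun x => K (x, 1)) B P')
    (h' : Frame P (fun x => K (x, 0)) (fun x => B x * hfr P K x) P') (a : H1 ρ P) :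
    mapH ρ hK1 h a = mapH ρ hK0 h' a := by
  have hB : Frame (fun x y => P (K (x, 1)) (K (y, 1))) (fun x => x) B P' := h
  have e1 := mapH_comp ρ hK1 (Frame.pull P (fun x => K (x, 1))) continuous_id hB a
  have e2 := mapH_comp ρ hK0 (homotopy_frame hP hK) continuous_id hB a
  rw [homotopy_mapH ρ hP hK hK0 hK1 a] at e1
  rw [e1] at e2
  obtain ⟨c, hc, rfl⟩ := cls_surj ρ a
  rw [mapH_cls, mapH_cls] at e2 ⊢
  have e3 : cls ρ (fun x y => ρ (B x) (c (K (x, 1)) (K (y, 1)))) (mapZ_mem ρ hK1 h hc) =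
      cls ρ (fun x y => ρ (B x * 1) (c (K (x, 1)) (K (y, 1))))
        (mapZ_mem ρ (hK1.comp continuous_id) ((Frame.pull P (fun x => K (x, 1))).comp
          continuous_id hB) hc) := by
    rw [cls_eq_iff]
    exact ⟨0, fun z => ⟨univ, univ_mem, fun x _ y _ => by simp⟩⟩
  rw [e3]
  exact e2

end hom

section dr

variable {X Y : Type*} [TopologicalSpace X] [TopologicalSpace Y]
variable {G : Type*} [Group G] {R : Type*} [CommRing R] {M : Type*} [AddCommGroup M] [Module R M]
variable (ρ : G →* Module.End R M)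

/-- data of a strong deformation retraction of `X` on `i : Y → X` -/
structure DR (i : Y → X) where
  r : X → Y
  K : X × I → X
  hr : Continuous r
  hK : Continuous K
  ri : ∀ y, r (i y) = y
  K0 : ∀ x, K (x, 0) = i (r x)
  K1 : ∀ x, K (x, 1) = x
  Ki : ∀ y t, K (i y, t) = i y

variable {i : Y → X} (hi : Continuous i) (D : DR i) {P : X → X → G} (hP : NDC P)

include hP in
lemma DR.frame : Frame (fun x y => P (i x) (i y)) D.r (hfr P D.K) P := by
  have h := homotopy_frame hP D.hK
  simp only [D.K0, D.K1] at h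
  exact h

/-- restriction along `i` -/
def res : H1 ρ P →ₗ[R] H1 ρ (fun x y => P (i x) (i y)) := mapH ρ hi (Frame.pull P i)

/-- inverse of the restriction -/
def DR.ext : H1 ρ (fun x y => P (i x) (i y)) →ₗ[R] H1 ρ P := mapH ρ D.hr (D.frame hP)

include hP in
lemma DR.hfr_i (y : Y) : hfr P D.K (i y) = 1 :=
  hfr_const hP D.hK (fun t => by rw [D.Ki, D.Ki])

lemma DR.res_ext (b : H1 ρ (fun x y => P (i x) (i y))) : res ρ hi (D.ext ρ hP b) = b := by
  obtain ⟨c, hc, rfl⟩ := cls_surj ρ b
  unfold res DR.ext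
  rw [mapH_cls, mapH_cls, cls_eq_iff]
  refine ⟨0, fun z => ⟨univ, univ_mem, fun x _ y _ => ?_⟩⟩
  simp [D.ri, D.hfr_i hP]

lemma DR.ext_res (a : H1 ρ P) : D.ext ρ hP (res ρ hi a) = a := by
  have hK0 : Continuous fun x => D.K (x, 0) := by simp only [D.K0]; exact hi.comp D.hr
  have hK1 : Continuous fun x => D.K (x, 1) := by simp only [D.K1]; exact continuous_id
  have h := homotopy_mapH ρ hP D.hK hK0 hK1 a
  obtain ⟨c, hc, rfl⟩ := cls_surj ρ a
  unfold res DR.ext
  rw [mapH_cls, mapH_cls] at h ⊢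
  rw [cls_eq_iff] at h ⊢
  obtain ⟨f, hf⟩ := h
  refine ⟨fun x => - f x, fun z => ?_⟩
  obtain ⟨U, hU, h1⟩ := hf z
  refine ⟨U, hU, fun x hx y hy => ?_⟩
  have := h1 x hx y hy
  simp only [D.K0, D.K1, map_one, Module.End.one_apply, map_neg] at this ⊢
  rw [this]; abel

/-- restriction to a deformation retract is an isomorphism -/
def DR.equiv : H1 ρ P ≃ₗ[R] H1 ρ (fun x y => P (i x) (i y)) :=
  LinearEquiv.ofLinearMap (res ρ hi) (D.ext ρ hP)
    (LinearMap.ext fun b => D.res_ext ρ hi hP b) (LinearMap.ext fun a => D.ext_res ρ hi hP a)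

end dr

end Crest.Agent.R276.Top3_279
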