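import Crest.Agent.R276.Top3b_279
import Crest.Agent.R276.IpcDefs_735

/-!
# Row 276, IPC-TOP3 (helper279), part 3: families of punctured planes over a Riemann domain

* `Sheet B` : open, `cp` injective on `B`, `cp '' B` convex; intersections of sheets are sheets.
* `Loc Q s₀ B` : topological trivialisation `(s, x) ↦ (s, Ψ s x)` of the family over `B`.
* `Loc.dr` : the fibre over `s₀` is a deformation retract of the total space over `B`.
-/

set_option autoImplicit false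
set_option linter.unusedSectionVars false

noncomputable section

open Set Filter Topology unitInterval

namespace Crest.Agent.R276.Top3_279

open Crest.Agent.R271.Ho51 Crest.Agent.R276.Ipc735

section sheet

variable {m : ℕ} {S : Type*} [TopologicalSpace S] [RDom m S]

/-- open set which `cp` maps bijectively onto a convex set -/
structure Sheet (B : Set S) : Prop where
  isOpen : IsOpen B
  inj : InjOn (cp : S → (Fin m → ℂ)) B
  conv : Convex ℝ ((cp : S → (Fin m → ℂ)) '' B)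

/-- the section of `cp` over a sheet -/
def sect (B : Set S) (h : B.Nonempty) (z : Fin m → ℂ) : S :=
  haveI : Nonempty S := ⟨h.some⟩
  Function.invFunOn (cp : S → (Fin m → ℂ)) B z

variable {B : Set S}

lemma sect_mem (h : B.Nonempty) {z : Fin m → ℂ} (hz : z ∈ (cp : S → (Fin m → ℂ)) '' B) :
    sect B h z ∈ B := by
  have : Nonempty S := ⟨h.some⟩
  exact Function.invFunOn_mem hz

lemma cp_sect (h : B.Nonempty) {z : Fin m → ℂ} (hz : z ∈ (cp : S → (Fin m → ℂ)) '' B) :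
    cp (sect B h z) = z := by
  have : Nonempty S := ⟨h.some⟩
  exact Function.invFunOn_eq hz

lemma Sheet.sect_cp (hB : Sheet B) (h : B.Nonempty) {s : S} (hs : s ∈ B) :
    sect B h (cp s) = s :=
  hB.inj (sect_mem h (mem_image_of_mem _ hs)) hs (cp_sect h (mem_image_of_mem _ hs))

lemma Sheet.continuousOn_sect (hB : Sheet B) (h : B.Nonempty) :
    ContinuousOn (sect B h) ((cp : S → (Fin m → ℂ)) '' B) := by
  rintro z ⟨s, hs, rfl⟩
  have hopen : IsOpenMap (cp : S → (Fin m → ℂ)) := cp_lh.isOpenMap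
  rw [ContinuousWithinAt, hB.sect_cp h hs]
  intro U hU
  have h1 : U ∩ B ∈ 𝓝 s := inter_mem hU (hB.isOpen.mem_nhds hs)
  have h2 : (cp : S → (Fin m → ℂ)) '' (U ∩ B) ∈ 𝓝 (cp s) := hopen.image_mem_nhds h1
  refine mem_map.2 (mem_of_superset (mem_nhdsWithin_of_mem_nhds h2) ?_)
  rintro _ ⟨t, ⟨htU, htB⟩, rfl⟩
  show sect B h (cp t) ∈ U
  rw [hB.sect_cp h htB]
  exact htU

lemma Sheet.inter [T2Space S] {B₁ B₂ : Set S} (h₁ : Sheet B₁) (h₂ : Sheet B₂) :
    Sheet (B₁ ∩ B₂) := by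
  refine ⟨h₁.isOpen.inter h₂.isOpen, h₁.inj.mono inter_subset_left, ?_⟩
  rw [convex_iff_segment_subset]
  rintro _ ⟨u, ⟨hu1, hu2⟩, rfl⟩ _ ⟨v, ⟨hv1, hv2⟩, rfl⟩ z hz
  have hseg1 : segment ℝ (cp u) (cp v) ⊆ (cp : S → (Fin m → ℂ)) '' B₁ :=
    h₁.conv.segment_subset (mem_image_of_mem _ hu1) (mem_image_of_mem _ hv1)
  have hseg2 : segment ℝ (cp u) (cp v) ⊆ (cp : S → (Fin m → ℂ)) '' B₂ :=
    h₂.conv.segment_subset (mem_image_of_mem _ hu2) (mem_image_of_mem _ hv2)
  have hne1 : B₁.Nonempty := ⟨u, hu1⟩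
  have hne2 : B₂.Nonempty := ⟨u, hu2⟩
  have hpre : IsPreconnected (segment ℝ (cp u : Fin m → ℂ) (cp v)) :=
    (convex_segment _ _).isPreconnected
  -- the set where the two sections agree
  have hc1 : ContinuousOn (sect B₁ hne1) (segment ℝ (cp u) (cp v)) :=
    (h₁.continuousOn_sect hne1).mono hseg1
  have hc2 : ContinuousOn (sect B₂ hne2) (segment ℝ (cp u) (cp v)) :=
    (h₂.continuousOn_sect hne2).mono hseg2
  have key : ∀ w ∈ segment ℝ (cp u : Fin m → ℂ) (cp v), sect B₁ hne1 w = sect B₂ hne2 w := by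
    have : PreconnectedSpace (segment ℝ (cp u : Fin m → ℂ) (cp v)) :=
      isPreconnected_iff_preconnectedSpace.1 hpre
    let f : segment ℝ (cp u : Fin m → ℂ) (cp v) → S := fun w => sect B₁ hne1 w
    let g : segment ℝ (cp u : Fin m → ℂ) (cp v) → S := fun w => sect B₂ hne2 w
    have hf : Continuous f := continuousOn_iff_continuous_domRestrict.1 hc1
    have hg : Continuous g := continuousOn_iff_continuous_domRestrict.1 hc2
    have hclosed : IsClosed {w | f w = g w} := isClosed_eq hf hg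
    have hopen : IsOpen {w | f w = g w} := by
      rw [isOpen_iff_mem_nhds]
      intro w hw
      have hw' : f w = g w := hw
      have hm1 : f w ∈ B₁ := sect_mem hne1 (hseg1 w.2)
      have hm2 : f w ∈ B₂ := by rw [hw']; exact sect_mem hne2 (hseg2 w.2)
      have e1 : f ⁻¹' B₂ ∈ 𝓝 w := hf.continuousAt.preimage_mem_nhds (h₂.isOpen.mem_nhds hm2)
      filter_upwards [e1] with y hy
      have h3 : cp (f y) = cp (g y) := by
        rw [show f y = sect B₁ hne1 y from rfl, show g y = sect B₂ hne2 y from rfl,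
          cp_sect hne1 (hseg1 y.2), cp_sect hne2 (hseg2 y.2)]
      exact h₂.inj hy (sect_mem hne2 (hseg2 y.2)) h3
    have hmem : (⟨cp u, left_mem_segment ℝ _ _⟩ : segment ℝ (cp u : Fin m → ℂ) (cp v)) ∈
        {w | f w = g w} := by
      show sect B₁ hne1 (cp u) = sect B₂ hne2 (cp u)
      rw [h₁.sect_cp hne1 hu1, h₂.sect_cp hne2 hu2]
    have huniv := IsClopen.eq_univ ⟨hclosed, hopen⟩ ⟨_, hmem⟩
    intro w hw
    have : (⟨w, hw⟩ : segment ℝ (cp u : Fin m → ℂ) (cp v)) ∈ {w | f w = g w} := by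
      rw [huniv]; trivial
    exact this
  have hz1 := hseg1 hz
  refine ⟨sect B₁ hne1 z, ⟨sect_mem hne1 hz1, ?_⟩, cp_sect hne1 hz1⟩
  rw [key z hz]
  exact sect_mem hne2 (hseg2 hz)

/-- the linear contraction of a sheet to `s` -/
def kap (B : Set S) (h : B.Nonempty) (s b : S) (t : I) : S :=
  sect B h (AffineMap.lineMap (cp s) (cp b) (t : ℝ))

lemma Sheet.line_mem (hB : Sheet B) {s b : S} (hs : s ∈ B) (hb : b ∈ B) (t : I) :
    (AffineMap.lineMap (cp s) (cp b) (t : ℝ) : Fin m → ℂ) ∈ (cp : S → (Fin m → ℂ)) '' B :=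
  hB.conv.segment_subset (mem_image_of_mem _ hs) (mem_image_of_mem _ hb)
    (by rw [segment_eq_image_lineMap]; exact ⟨t, t.2, rfl⟩)

lemma Sheet.kap_mem (hB : Sheet B) (h : B.Nonempty) {s b : S} (hs : s ∈ B) (hb : b ∈ B) (t : I) :
    kap B h s b t ∈ B := sect_mem h (hB.line_mem hs hb t)

lemma Sheet.kap_zero (hB : Sheet B) (h : B.Nonempty) {s : S} (hs : s ∈ B) (b : S) :
    kap B h s b 0 = s := by
  simp [kap, hB.sect_cp h hs]

lemma Sheet.kap_one (hB : Sheet B) (h : B.Nonempty) {b : S} (hb : b ∈ B) (s : S) :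
    kap B h s b 1 = b := by
  simp [kap, hB.sect_cp h hb]

lemma Sheet.kap_self (hB : Sheet B) (h : B.Nonempty) {s : S} (hs : s ∈ B) (t : I) :
    kap B h s s t = s := by
  simp [kap, hB.sect_cp h hs]

lemma Sheet.continuous_kap (hB : Sheet B) (h : B.Nonempty) {s : S} (hs : s ∈ B) {X : Type*}
    [TopologicalSpace X] {b : X → S} (hb : Continuous b) (hbB : ∀ x, b x ∈ B) {t : X → I}
    (ht : Continuous t) : Continuous fun x => kap B h s (b x) (t x) := by
  have h1 : Continuous fun x => (AffineMap.lineMap (cp s) (cp (b x)) (t x : ℝ) : Fin m → ℂ) := by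
    simp only [AffineMap.lineMap_apply_module]
    have := cp_cont.comp hb
    fun_prop
  exact (hB.continuousOn_sect h).comp_continuous h1 (fun x => hB.line_mem hs (hbB x) (t x))

/-- small sheets -/
lemma exists_sheet (s : S) {N : Set S} (hN : N ∈ 𝓝 s) : ∃ B, Sheet B ∧ s ∈ B ∧ B ⊆ N := by
  obtain ⟨V, hVN, hVo, hsV⟩ := mem_nhds_iff.1 hN
  have hV : V ∩ (ch s).source ∈ 𝓝 s := inter_mem (hVo.mem_nhds hsV)
    ((ch s).open_source.mem_nhds (mem_ch s))
  have hopen : IsOpenMap (cp : S → (Fin m → ℂ)) := cp_lh.isOpenMap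
  have h2 : (cp : S → (Fin m → ℂ)) '' (V ∩ (ch s).source) ∈ 𝓝 (cp s) := hopen.image_mem_nhds hV
  obtain ⟨r, hr, hball⟩ := Metric.mem_nhds_iff.1 h2
  refine ⟨(V ∩ (ch s).source) ∩ cp ⁻¹' Metric.ball (cp s) r, ⟨?_, ?_, ?_⟩, ?_, ?_⟩
  · exact (hVo.inter (ch s).open_source).inter (Metric.isOpen_ball.preimage cp_cont)
  · exact (isCh_ch s).injOn.mono (fun x hx => hx.1.2)
  · have : (cp : S → (Fin m → ℂ)) '' ((V ∩ (ch s).source) ∩ cp ⁻¹' Metric.ball (cp s) r) =
        Metric.ball (cp s) r := by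
      ext z
      constructor
      · rintro ⟨x, ⟨_, hx⟩, rfl⟩; exact hx
      · intro hz
        obtain ⟨x, hx, rfl⟩ := hball hz
        exact ⟨x, ⟨hx, hz⟩, rfl⟩
    rw [this]; exact convex_ball _ _
  · exact ⟨⟨hsV, mem_ch s⟩, Metric.mem_ball_self hr⟩
  · exact fun x hx => hVN hx.1.1

end sheet

section loc

variable {m : ℕ} {S : Type*} [TopologicalSpace S] [RDom m S] {k : ℕ} (Q : Punc S k)

/-- the fibre over `s` -/
abbrev Fib (s : S) : Type := {x : ℂ // x ∉ Q.A s}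

variable {Q} in
/-- base point -/
def bs (q : Tot Q) : S := q.1.1

variable {Q} in
/-- fibre coordinate -/
def fc (q : Tot Q) : ℂ := q.1.2

variable {Q} in
lemma fc_notMem (q : Tot Q) : fc q ∉ Q.A (bs q) := q.2

@[simp] lemma bs_mk (s : S) (x : ℂ) (h : x ∉ Q.A s) : bs (Tot.mk Q s x h) = s := rfl
@[simp] lemma fc_mk (s : S) (x : ℂ) (h : x ∉ Q.A s) : fc (Tot.mk Q s x h) = x := rfl

variable {Q} in
lemma tot_ext {q q' : Tot Q} (h1 : bs q = bs q') (h2 : fc q = fc q') : q = q' :=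
  Subtype.ext (Prod.ext h1 h2)

@[simp] lemma mk_bs_fc (q : Tot Q) : Tot.mk Q (bs q) (fc q) (fc_notMem q) = q := rfl

lemma continuous_bs : Continuous (bs : Tot Q → S) :=
  continuous_fst.comp (continuous_subtype_val (p := fun q : S × ℂ => q.2 ∉ Q.A q.1))

lemma continuous_fc : Continuous (fc : Tot Q → ℂ) :=
  continuous_snd.comp (continuous_subtype_val (p := fun q : S × ℂ => q.2 ∉ Q.A q.1))

lemma continuous_mk {X : Type*} [TopologicalSpace X] {b : X → S} {x : X → ℂ} (hb : Continuous b)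
    (hx : Continuous x) (h : ∀ t, x t ∉ Q.A (b t)) :
    Continuous fun t => Tot.mk Q (b t) (x t) (h t) :=
  Continuous.subtype_mk (p := fun q : S × ℂ => q.2 ∉ Q.A q.1)
    (f := fun t => (b t, x t)) (hb.prodMk hx) _

/-- the part of the total space over `B` -/
abbrev Over (B : Set S) : Type _ := {q : Tot Q // bs q ∈ B}

/-- the inclusion of a fibre -/
def inc {B : Set S} {s : S} (hs : s ∈ B) (x : Fib Q s) : Over Q B := ⟨Tot.mk Q s x.1 x.2, hs⟩

@[simp] lemma inc_val {B : Set S} {s : S} (hs : s ∈ B) (x : Fib Q s) :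
    (inc Q hs x).1 = Tot.mk Q s x.1 x.2 := rfl

lemma continuous_over {B : Set S} : Continuous (fun q : Over Q B => bs q.1) :=
  (continuous_bs Q).comp continuous_subtype_val

lemma continuous_inc {B : Set S} {s : S} (hs : s ∈ B) : Continuous (inc Q hs) :=
  Continuous.subtype_mk (continuous_mk Q continuous_const continuous_subtype_val (fun x => x.2)) _

variable {Q} in
lemma over_ext {B : Set S} {q q' : Over Q B} (h1 : bs q.1 = bs q'.1) (h2 : fc q.1 = fc q'.1) :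
    q = q' := Subtype.ext (tot_ext h1 h2)

/-- topological trivialisation of the family of punctured planes over `B`, identity over `s₀` -/
structure Loc (s₀ : S) (B : Set S) where
  Ψ : S → ℂ → ℂ
  Φ : S → ℂ → ℂ
  hΨ : ContinuousOn (fun p : S × ℂ => Ψ p.1 p.2) (B ×ˢ univ)
  hΦ : ContinuousOn (fun p : S × ℂ => Φ p.1 p.2) (B ×ˢ univ)
  ΦΨ : ∀ s ∈ B, ∀ x, Φ s (Ψ s x) = x
  ΨΦ : ∀ s ∈ B, ∀ x, Ψ s (Φ s x) = x
  base : ∀ x, Ψ s₀ x = x
  punc : ∀ s ∈ B, ∀ x, Ψ s x ∈ Q.A s ↔ x ∈ Q.A s₀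

variable {Q}

/-- restriction to a smaller set -/
def Loc.mono {s₀ : S} {B B' : Set S} (L : Loc Q s₀ B) (h : B' ⊆ B) : Loc Q s₀ B' where
  Ψ := L.Ψ
  Φ := L.Φ
  hΨ := L.hΨ.mono (prod_mono h subset_rfl)
  hΦ := L.hΦ.mono (prod_mono h subset_rfl)
  ΦΨ := fun s hs x => L.ΦΨ s (h hs) x
  ΨΦ := fun s hs x => L.ΨΦ s (h hs) x
  base := L.base
  punc := fun s hs x => L.punc s (h hs) x

/-- change of the base point -/
def Loc.rebase {s₀ : S} {B : Set S} (L : Loc Q s₀ B) {s : S} (hs : s ∈ B) : Loc Q s B where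
  Ψ := fun b x => L.Ψ b (L.Φ s x)
  Φ := fun b x => L.Ψ s (L.Φ b x)
  hΨ := by
    have h1 : ContinuousOn (fun p : S × ℂ => (p.1, L.Φ s p.2)) (B ×ˢ univ) := by
      refine continuousOn_fst.prodMk ?_
      exact L.hΦ.comp (f := fun p : S × ℂ => (s, p.2)) (by fun_prop) (fun p _ => ⟨hs, trivial⟩)
    exact L.hΨ.comp h1 (fun p hp => ⟨hp.1, trivial⟩)
  hΦ := by
    have h1 : ContinuousOn (fun p : S × ℂ => (s, L.Φ p.1 p.2)) (B ×ˢ univ) :=
      continuousOn_const.prodMk L.hΦ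
    exact L.hΨ.comp h1 (fun p hp => ⟨hs, trivial⟩)
  ΦΨ := fun b hb x => by simp only [L.ΦΨ b hb, L.ΨΦ s hs]
  ΨΦ := fun b hb x => by simp only [L.ΦΨ s hs, L.ΨΦ b hb]
  base := fun x => by simp only [L.ΨΦ s hs]
  punc := fun b hb x => by
    rw [L.punc b hb, ← L.punc s hs, L.ΨΦ s hs]

lemma Loc.Φ_notMem {s₀ : S} {B : Set S} (L : Loc Q s₀ B) {s : S} (hs : s ∈ B) {x : ℂ}
    (hx : x ∉ Q.A s) : L.Φ s x ∉ Q.A s₀ := by
  rw [← L.punc s hs, L.ΨΦ s hs]; exact hx

lemma Loc.Ψ_notMem {s₀ : S} {B : Set S} (L : Loc Q s₀ B) {s : S} (hs : s ∈ B) {x : ℂ}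
    (hx : x ∉ Q.A s₀) : L.Ψ s x ∉ Q.A s := by
  rw [L.punc s hs]; exact hx

/-- retraction of the total space over `B` on the fibre over `s₀` -/
def Loc.ret {s₀ : S} {B : Set S} (L : Loc Q s₀ B) (q : Over Q B) : Fib Q s₀ :=
  ⟨L.Φ (bs q.1) (fc q.1), L.Φ_notMem q.2 (fc_notMem q.1)⟩

lemma Loc.continuous_ret {s₀ : S} {B : Set S} (L : Loc Q s₀ B) : Continuous L.ret := by
  refine Continuous.subtype_mk ?_ _
  refine L.hΦ.comp_continuous (f := fun q : Over Q B => (bs q.1, fc q.1)) ?_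
    (fun q => ⟨q.2, trivial⟩)
  exact (continuous_over Q).prodMk ((continuous_fc Q).comp continuous_subtype_val)

/-- the contraction of the base -/
def Loc.kb (B : Set S) {s₀ : S} (hs : s₀ ∈ B) (p : Over Q B × I) : S :=
  kap B (Set.nonempty_of_mem hs) s₀ (bs p.1.1) p.2

lemma Loc.kb_mem {B : Set S} (hB : Sheet B) {s₀ : S} (hs : s₀ ∈ B) (p : Over Q B × I) :
    Loc.kb (Q := Q) B hs p ∈ B := hB.kap_mem (Set.nonempty_of_mem hs) hs p.1.2 p.2

lemma Loc.continuous_kb {B : Set S} (hB : Sheet B) {s₀ : S} (hs : s₀ ∈ B) :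
    Continuous (Loc.kb (Q := Q) B hs) := by
  refine hB.continuous_kap _ hs ?_ (fun p => p.1.2) continuous_snd
  exact (continuous_over Q).comp continuous_fst

/-- the homotopy -/
def Loc.Kf {s₀ : S} {B : Set S} (L : Loc Q s₀ B) (hB : Sheet B) (hs : s₀ ∈ B)
    (p : Over Q B × I) : Over Q B :=
  ⟨Tot.mk Q (Loc.kb B hs p) (L.Ψ (Loc.kb B hs p) (L.ret p.1).1)
    (L.Ψ_notMem (Loc.kb_mem hB hs p) (L.ret p.1).2), Loc.kb_mem hB hs p⟩

lemma Loc.bs_Kf {s₀ : S} {B : Set S} (L : Loc Q s₀ B) (hB : Sheet B) (hs : s₀ ∈ B)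
    (p : Over Q B × I) : bs (L.Kf hB hs p).1 = Loc.kb B hs p := rfl

lemma Loc.fc_Kf {s₀ : S} {B : Set S} (L : Loc Q s₀ B) (hB : Sheet B) (hs : s₀ ∈ B)
    (p : Over Q B × I) : fc (L.Kf hB hs p).1 = L.Ψ (Loc.kb B hs p) (L.ret p.1).1 := rfl

lemma Loc.ret_val {s₀ : S} {B : Set S} (L : Loc Q s₀ B) (q : Over Q B) :
    (L.ret q).1 = L.Φ (bs q.1) (fc q.1) := rfl

lemma Loc.Φ_base {s₀ : S} {B : Set S} (L : Loc Q s₀ B) (hs : s₀ ∈ B) (x : ℂ) : L.Φ s₀ x = x := by
  rw [← L.base (L.Φ s₀ x), L.ΨΦ s₀ hs]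

/-- the deformation retraction of the total space over a sheet on the fibre over `s₀` -/
def Loc.dr {s₀ : S} {B : Set S} (L : Loc Q s₀ B) (hB : Sheet B) (hs : s₀ ∈ B) :
    DR (inc Q hs) where
  r := L.ret
  K := L.Kf hB hs
  hr := L.continuous_ret
  hK := by
    have h0 := Loc.continuous_kb (Q := Q) hB hs
    have h1 : Continuous fun p : Over Q B × I => L.Ψ (Loc.kb B hs p) (L.ret p.1).1 := by
      refine L.hΨ.comp_continuous (f := fun p : Over Q B × I =>
        (Loc.kb B hs p, (L.ret p.1).1)) ?_ (fun p => ⟨Loc.kb_mem hB hs p, trivial⟩)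
      exact h0.prodMk (continuous_subtype_val.comp (L.continuous_ret.comp continuous_fst))
    exact Continuous.subtype_mk (continuous_mk Q h0 h1
      (fun p => L.Ψ_notMem (Loc.kb_mem hB hs p) (L.ret p.1).2)) (fun p => Loc.kb_mem hB hs p)
  ri := by
    intro y
    apply Subtype.ext
    rw [L.ret_val, inc_val, bs_mk, fc_mk, L.Φ_base hs]
  K0 := by
    intro q
    have h0 : Loc.kb B hs (q, 0) = s₀ := hB.kap_zero _ hs _
    apply over_ext
    · rw [L.bs_Kf, h0]; rfl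
    · rw [L.fc_Kf, h0, L.base]; rfl
  K1 := by
    intro q
    have h0 : Loc.kb B hs (q, 1) = bs q.1 := hB.kap_one _ q.2 _
    apply over_ext
    · rw [L.bs_Kf, h0]
    · rw [L.fc_Kf, h0, L.ret_val, L.ΨΦ _ q.2]
  Ki := by
    intro y t
    have h0 : Loc.kb B hs (inc Q hs y, t) = s₀ := hB.kap_self _ hs _
    apply over_ext
    · rw [L.bs_Kf, h0]; rfl
    · rw [L.fc_Kf, h0, L.base, L.ret_val, inc_val, bs_mk, fc_mk, L.Φ_base hs]

/-- good open sets: sheets over which the family is topologically trivial -/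
structure Good (Q : Punc S k) (B : Set S) : Prop where
  sheet : Sheet B
  loc : ∀ s ∈ B, Nonempty (Loc Q s B)

lemma Good.of_loc {B : Set S} (hB : Sheet B) {s₀ : S} (L : Loc Q s₀ B) : Good Q B :=
  ⟨hB, fun _ h => ⟨L.rebase h⟩⟩

lemma Good.mono {B B' : Set S} (h : Good Q B) (hB' : Sheet B') (hsub : B' ⊆ B) : Good Q B' :=
  ⟨hB', fun s hs => (h.loc s (hsub hs)).map fun L => L.mono hsub⟩

lemma Good.inter [T2Space S] {B₁ B₂ : Set S} (h₁ : Good Q B₁) (h₂ : Good Q B₂) :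
    Good Q (B₁ ∩ B₂) := h₁.mono (h₁.sheet.inter h₂.sheet) inter_subset_left

/-- a deformation retraction of the part of the total space over a good set on a fibre -/
lemma Good.dr {B : Set S} (h : Good Q B) {s : S} (hs : s ∈ B) : Nonempty (DR (inc Q hs)) :=
  (h.loc s hs).map fun L => L.dr h.sheet hs

end loc

end Crest.Agent.R276.Top3_279
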