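import Crest.Agent.R276.Top3c_279

/-!
# Row 276, IPC-TOP3 (helper279), part 4: the local system `s ↦ H1 (fibre over s)`

`fP Q P s` : restriction of `P` to the fibre over `s`; `HF`, `HO` : `H1` of a fibre, of the part over `B`.
`tau ρ hP s s' : HF s' → HF s` : restriction to the fibre over `s` of the extension to a good set
(`0` if no good set contains both points).
* `tau_res` : independence of the good set; `tau_self`, `tau_mul`.
* `tau_gauge`, `tau_gauge'` : explicit formulas for a trivialisation and a gauge.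
* `tau_natural` : natural operations commute with `tau`.
-/

set_option autoImplicit false
set_option linter.unusedSectionVars false

noncomputable section

open Set Filter Topology unitInterval

namespace Crest.Agent.R276.Top3_279

open Crest.Agent.R271.Ho51 Crest.Agent.R276.Ipc735

section fam

variable {m : ℕ} {S : Type*} [TopologicalSpace S] [RDom m S] {k : ℕ} {Q : Punc S k}
variable {G : Type*} [Group G] {R : Type*} [CommRing R] {M : Type*} [AddCommGroup M] [Module R M]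
variable (ρ : G →* Module.End R M) (P : Tot Q → Tot Q → G)

/-- restriction of `P` to the fibre over `s` -/
def fP (s : S) (x y : Fib Q s) : G := P (Tot.mk Q s x.1 x.2) (Tot.mk Q s y.1 y.2)

/-- restriction of `P` to the part over `B` -/
def oP (B : Set S) (x y : Over Q B) : G := P x.1 y.1

/-- `H1` of the fibre over `s` -/
abbrev HF (s : S) : Type _ := H1 ρ (fP P s)

/-- `H1` of the part over `B` -/
abbrev HO (B : Set S) : Type _ := H1 ρ (oP P B)

variable {P}

lemma oP_ndc (hP : NDC P) (B : Set S) : NDC (oP P B) := hP.pull continuous_subtype_val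

lemma fP_ndc (hP : NDC P) (s : S) : NDC (fP P s) := by
  have h := (oP_ndc hP univ).pull (continuous_inc Q (mem_univ s))
  exact h

variable (P)

lemma frame_inc {B : Set S} {s : S} (hs : s ∈ B) :
    Frame (oP P B) (inc Q hs) (fun _ => 1) (fP P s) := Frame.pull (oP P B) (inc Q hs)

/-- restriction to a fibre -/
def resF {B : Set S} {s : S} (hs : s ∈ B) : HO ρ P B →ₗ[R] HF ρ P s :=
  mapH ρ (continuous_inc Q hs) (frame_inc P hs)

lemma resF_cls {B : Set S} {s : S} (hs : s ∈ B) (c : Over Q B → Over Q B → M)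
    (hc : c ∈ Z1 ρ (oP P B)) (hc' : (fun x y => c (inc Q hs x) (inc Q hs y)) ∈ Z1 ρ (fP P s)) :
    resF ρ P hs (cls ρ c hc) = cls ρ (fun x y => c (inc Q hs x) (inc Q hs y)) hc' := by
  unfold resF
  rw [mapH_cls, cls_eq_iff]
  exact ⟨0, fun z => ⟨univ, univ_mem, fun x _ y _ => by simp⟩⟩

/-- inclusion of the part over a smaller set -/
def incO {B B' : Set S} (h : B' ⊆ B) (x : Over Q B') : Over Q B := ⟨x.1, h x.2⟩

lemma continuous_incO {B B' : Set S} (h : B' ⊆ B) : Continuous (incO (Q := Q) h) :=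
  Continuous.subtype_mk continuous_subtype_val _

lemma frame_incO {B B' : Set S} (h : B' ⊆ B) :
    Frame (oP P B) (incO h) (fun _ => 1) (oP P B') := Frame.pull (oP P B) (incO h)

/-- restriction to the part over a smaller set -/
def resO {B B' : Set S} (h : B' ⊆ B) : HO ρ P B →ₗ[R] HO ρ P B' :=
  mapH ρ (continuous_incO h) (frame_incO P h)

lemma resF_resO {B B' : Set S} (h : B' ⊆ B) {s : S} (hs : s ∈ B') (a : HO ρ P B) :
    resF ρ P hs (resO ρ P h a) = resF ρ P (h hs) a := by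
  obtain ⟨c, hc, rfl⟩ := cls_surj ρ a
  unfold resF resO
  rw [mapH_cls, mapH_cls, mapH_cls, cls_eq_iff]
  exact ⟨0, fun z => ⟨univ, univ_mem, fun x _ y _ => by simp [incO, inc]⟩⟩

variable {P}

lemma resF_bij (hP : NDC P) {B : Set S} (hB : Good Q B) {s : S} (hs : s ∈ B) :
    Function.Bijective (resF ρ P hs) := by
  obtain ⟨D⟩ := hB.dr hs
  exact (D.equiv ρ (continuous_inc Q hs) (oP_ndc hP B)).bijective

/-- the extension of a class on a fibre to a good set -/
def extO (hP : NDC P) {B : Set S} (hB : Good Q B) {s : S} (hs : s ∈ B) :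
    HF ρ P s →ₗ[R] HO ρ P B :=
  (LinearEquiv.ofBijective (resF ρ P hs) (resF_bij ρ hP hB hs)).symm.toLinearMap

@[simp] lemma resF_extO (hP : NDC P) {B : Set S} (hB : Good Q B) {s : S} (hs : s ∈ B)
    (v : HF ρ P s) : resF ρ P hs (extO ρ hP hB hs v) = v :=
  (LinearEquiv.ofBijective (resF ρ P hs) (resF_bij ρ hP hB hs)).apply_symm_apply v

@[simp] lemma extO_resF (hP : NDC P) {B : Set S} (hB : Good Q B) {s : S} (hs : s ∈ B)
    (a : HO ρ P B) : extO ρ hP hB hs (resF ρ P hs a) = a :=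
  (LinearEquiv.ofBijective (resF ρ P hs) (resF_bij ρ hP hB hs)).symm_apply_apply a

open Classical in
/-- the transport `H1 (fibre over s') → H1 (fibre over s)` -/
def tau (hP : NDC P) (s s' : S) : HF ρ P s' →ₗ[R] HF ρ P s :=
  if h : ∃ B, Good Q B ∧ s ∈ B ∧ s' ∈ B then
    (resF ρ P h.choose_spec.2.1).comp (extO ρ hP h.choose_spec.1 h.choose_spec.2.2)
  else 0

section T2

variable [T2Space S]

/-- characterisation of the transport -/
theorem tau_res (hP : NDC P) {B : Set S} (hB : Good Q B) {s s' : S} (hs : s ∈ B) (hs' : s' ∈ B)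
    (a : HO ρ P B) : tau ρ hP s s' (resF ρ P hs' a) = resF ρ P hs a := by
  have h : ∃ B, Good Q B ∧ s ∈ B ∧ s' ∈ B := ⟨B, hB, hs, hs'⟩
  unfold tau
  rw [dif_pos h]
  have hB0 := h.choose_spec.1
  have hs0 := h.choose_spec.2.1
  have hs0' := h.choose_spec.2.2
  set B0 := h.choose with hB0def
  have hB1 : Good Q (B ∩ B0) := hB.inter hB0
  have hs1 : s ∈ B ∩ B0 := ⟨hs, hs0⟩
  have hs1' : s' ∈ B ∩ B0 := ⟨hs', hs0'⟩
  rw [LinearMap.comp_apply]
  set b := extO ρ hP hB0 hs0' (resF ρ P hs' a) with hb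
  have e1 : resF ρ P hs0' b = resF ρ P hs' a := resF_extO ρ hP hB0 hs0' _
  have e2 : resO ρ P (inter_subset_right : B ∩ B0 ⊆ B0) b =
      resO ρ P (inter_subset_left : B ∩ B0 ⊆ B) a := by
    apply (resF_bij ρ hP hB1 hs1').1
    rw [resF_resO, resF_resO]
    exact e1
  have e3 := congrArg (resF ρ P hs1) e2
  rw [resF_resO, resF_resO] at e3
  exact e3

theorem tau_eq_resF_extO (hP : NDC P) {B : Set S} (hB : Good Q B) {s s' : S} (hs : s ∈ B)
    (hs' : s' ∈ B) (v : HF ρ P s') :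
    tau ρ hP s s' v = resF ρ P hs (extO ρ hP hB hs' v) := by
  rw [← tau_res ρ hP hB hs hs', resF_extO]

theorem tau_self (hP : NDC P) {B : Set S} (hB : Good Q B) {s : S} (hs : s ∈ B) (v : HF ρ P s) :
    tau ρ hP s s v = v := by
  rw [tau_eq_resF_extO ρ hP hB hs hs, resF_extO]

theorem tau_mul (hP : NDC P) {B : Set S} (hB : Good Q B) {s s' s'' : S} (hs : s ∈ B)
    (hs' : s' ∈ B) (hs'' : s'' ∈ B) (v : HF ρ P s'') :
    tau ρ hP s s' (tau ρ hP s' s'' v) = tau ρ hP s s'' v := by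
  rw [tau_eq_resF_extO ρ hP hB hs' hs'', tau_eq_resF_extO ρ hP hB hs hs'', tau_res ρ hP hB hs hs']

/-- the transport as an isomorphism -/
def tauE (hP : NDC P) {B : Set S} (hB : Good Q B) {s s' : S} (hs : s ∈ B) (hs' : s' ∈ B) :
    HF ρ P s' ≃ₗ[R] HF ρ P s :=
  LinearEquiv.ofLinearMap (tau ρ hP s s') (tau ρ hP s' s)
    (LinearMap.ext fun v => by
      rw [LinearMap.comp_apply, tau_mul ρ hP hB hs hs' hs, tau_self ρ hP hB hs]; rfl)
    (LinearMap.ext fun v => by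
      rw [LinearMap.comp_apply, tau_mul ρ hP hB hs' hs hs', tau_self ρ hP hB hs']; rfl)

@[simp] lemma tauE_apply (hP : NDC P) {B : Set S} (hB : Good Q B) {s s' : S} (hs : s ∈ B)
    (hs' : s' ∈ B) (v : HF ρ P s') : tauE ρ hP hB hs hs' v = tau ρ hP s s' v := rfl

/-- natural operations commute with the transports -/
theorem tau_natural {G' : Type*} [Group G'] {R' : Type*} [CommRing R'] {M' : Type*}
    [AddCommGroup M'] [Module R' M'] (ρ' : G' →* Module.End R' M') {P' : Tot Q → Tot Q → G'}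
    (hP : NDC P) (hP' : NDC P') {B : Set S} (hB : Good Q B)
    (TF : ∀ s, HF ρ P s → HF ρ' P' s) (TO : HO ρ P B → HO ρ' P' B)
    (hT : ∀ (s : S) (hs : s ∈ B) (a : HO ρ P B), resF ρ' P' hs (TO a) = TF s (resF ρ P hs a))
    {s s' : S} (hs : s ∈ B) (hs' : s' ∈ B) (v : HF ρ P s') :
    TF s (tau ρ hP s s' v) = tau ρ' hP' s s' (TF s' v) := by
  rw [tau_eq_resF_extO ρ hP hB hs hs', ← hT, ← tau_res ρ' hP' hB hs hs' (TO (extO ρ hP hB hs' v)), hT,
    resF_extO]

end T2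

/-! ### explicit formulas -/

/-- a gauge for a trivialisation: frames over `B`, trivial on the fibre over `s₀`, carrying the
restriction to the fibre over `s₀` to `P` -/
structure Gau (P : Tot Q → Tot Q → G) {s₀ : S} {B : Set S} (L : Loc Q s₀ B) (hs₀ : s₀ ∈ B) where
  A : Over Q B → G
  fr : Frame (fP P s₀) L.ret A (oP P B)
  one : ∀ x, A (inc Q hs₀ x) = 1

/-- existence of a gauge -/
theorem exists_gau (hP : NDC P) {s₀ : S} {B : Set S} (L : Loc Q s₀ B) (hB : Sheet B)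
    (hs₀ : s₀ ∈ B) : Nonempty (Gau P L hs₀) :=
  ⟨⟨hfr (oP P B) (L.dr hB hs₀).K, (L.dr hB hs₀).frame (oP_ndc hP B),
    fun x => (L.dr hB hs₀).hfr_i (oP_ndc hP B) x⟩⟩

/-- the homeomorphism from the fibre over `s` to the fibre over `s₀` -/
def Loc.phi {s₀ : S} {B : Set S} (L : Loc Q s₀ B) {s : S} (hs : s ∈ B) (x : Fib Q s) : Fib Q s₀ :=
  ⟨L.Φ s x.1, L.Φ_notMem hs x.2⟩

/-- the homeomorphism from the fibre over `s₀` to the fibre over `s` -/
def Loc.psi {s₀ : S} {B : Set S} (L : Loc Q s₀ B) {s : S} (hs : s ∈ B) (x : Fib Q s₀) : Fib Q s :=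
  ⟨L.Ψ s x.1, L.Ψ_notMem hs x.2⟩

lemma Loc.continuous_phi {s₀ : S} {B : Set S} (L : Loc Q s₀ B) {s : S} (hs : s ∈ B) :
    Continuous (L.phi hs) := L.continuous_ret.comp (continuous_inc Q hs)

lemma Loc.continuous_Ψ {s₀ : S} {B : Set S} (L : Loc Q s₀ B) {s : S} (hs : s ∈ B) :
    Continuous (L.Ψ s) :=
  L.hΨ.comp_continuous (f := fun x : ℂ => (s, x)) (by fun_prop) (fun _ => ⟨hs, trivial⟩)

lemma Loc.continuous_Φ {s₀ : S} {B : Set S} (L : Loc Q s₀ B) {s : S} (hs : s ∈ B) :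
    Continuous (L.Φ s) :=
  L.hΦ.comp_continuous (f := fun x : ℂ => (s, x)) (by fun_prop) (fun _ => ⟨hs, trivial⟩)

lemma Loc.continuous_psi {s₀ : S} {B : Set S} (L : Loc Q s₀ B) {s : S} (hs : s ∈ B) :
    Continuous (L.psi hs) :=
  Continuous.subtype_mk ((L.continuous_Ψ hs).comp continuous_subtype_val) _

lemma Loc.psi_phi {s₀ : S} {B : Set S} (L : Loc Q s₀ B) {s : S} (hs : s ∈ B) (x : Fib Q s) :
    L.psi hs (L.phi hs x) = x := Subtype.ext (L.ΨΦ s hs x.1)

lemma Loc.phi_psi {s₀ : S} {B : Set S} (L : Loc Q s₀ B) {s : S} (hs : s ∈ B) (x : Fib Q s₀) :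
    L.phi hs (L.psi hs x) = x := Subtype.ext (L.ΦΨ s hs x.1)

lemma Loc.ret_inc {s₀ : S} {B : Set S} (L : Loc Q s₀ B) {s : S} (hs : s ∈ B) (x : Fib Q s) :
    L.ret (inc Q hs x) = L.phi hs x := rfl

lemma Loc.phi_self {s₀ : S} {B : Set S} (L : Loc Q s₀ B) (hs₀ : s₀ ∈ B) (x : Fib Q s₀) :
    L.phi hs₀ x = x := by
  apply Subtype.ext
  show L.Φ s₀ x.1 = x.1
  rw [← L.base (L.Φ s₀ x.1), L.ΨΦ s₀ hs₀]

lemma Gau.frame_phi {s₀ : S} {B : Set S} {L : Loc Q s₀ B} {hs₀ : s₀ ∈ B} (A : Gau P L hs₀)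
    {s : S} (hs : s ∈ B) :
    Frame (fP P s₀) (L.phi hs) (fun x => A.A (inc Q hs x)) (fP P s) := by
  have h := A.fr.comp (continuous_inc Q hs) (Frame.pull (oP P B) (inc Q hs))
  intro z
  obtain ⟨U, hU, h1⟩ := h z
  refine ⟨U, hU, fun x hx y hy => ?_⟩
  have := h1 x hx y hy
  simp only [one_mul] at this
  exact this

lemma Gau.frame_psi {s₀ : S} {B : Set S} {L : Loc Q s₀ B} {hs₀ : s₀ ∈ B} (A : Gau P L hs₀)
    {s : S} (hs : s ∈ B) :
    Frame (fP P s) (L.psi hs) (fun x => (A.A (inc Q hs (L.psi hs x)))⁻¹) (fP P s₀) := by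
  have h := A.frame_phi hs
  intro z
  obtain ⟨U, hU, h1⟩ := (NDE.pull h (L.continuous_psi hs)) z
  refine ⟨U, hU, fun x hx y hy => ?_⟩
  have := h1 x hx y hy
  simp only [L.phi_psi] at this
  simp only []
  rw [this]
  group

section T2

variable [T2Space S]

/-- **explicit formula**, from the fibre over `s₀` to the fibre over `s` -/
theorem tau_gauge (hP : NDC P) {s₀ : S} {B : Set S} (L : Loc Q s₀ B) (hB : Sheet B)
    (hs₀ : s₀ ∈ B) (A : Gau P L hs₀) {s : S} (hs : s ∈ B) (v : HF ρ P s₀) :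
    tau ρ hP s s₀ v = mapH ρ (L.continuous_phi hs) (A.frame_phi hs) v := by
  have hG : Good Q B := Good.of_loc hB L
  obtain ⟨c, hc, rfl⟩ := cls_surj ρ v
  set a : HO ρ P B := mapH ρ L.continuous_ret A.fr (cls ρ c hc) with ha
  have h0 : resF ρ P hs₀ a = cls ρ c hc := by
    rw [ha]
    unfold resF
    rw [mapH_cls, mapH_cls, cls_eq_iff]
    refine ⟨0, fun z => ⟨univ, univ_mem, fun x _ y _ => ?_⟩⟩
    simp [A.one, L.ret_inc hs₀, L.phi_self hs₀]
  rw [← h0, tau_res ρ hP hG hs hs₀, h0, ha]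
  unfold resF
  rw [mapH_cls, mapH_cls, mapH_cls, cls_eq_iff]
  refine ⟨0, fun z => ⟨univ, univ_mem, fun x _ y _ => ?_⟩⟩
  simp [L.ret_inc hs]

/-- **explicit formula**, from the fibre over `s` to the fibre over `s₀` -/
theorem tau_gauge' (hP : NDC P) {s₀ : S} {B : Set S} (L : Loc Q s₀ B) (hB : Sheet B)
    (hs₀ : s₀ ∈ B) (A : Gau P L hs₀) {s : S} (hs : s ∈ B) (v : HF ρ P s) :
    tau ρ hP s₀ s v = mapH ρ (L.continuous_psi hs) (A.frame_psi hs) v := by
  have hG : Good Q B := Good.of_loc hB L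
  obtain ⟨u, rfl⟩ := (tauE ρ hP hG hs hs₀).surjective v
  rw [tauE_apply, tau_mul ρ hP hG hs₀ hs hs₀, tau_self ρ hP hG hs₀, tau_gauge ρ hP L hB hs₀ A hs]
  obtain ⟨c, hc, rfl⟩ := cls_surj ρ u
  rw [mapH_cls, mapH_cls, cls_eq_iff]
  refine ⟨0, fun z => ⟨univ, univ_mem, fun x _ y _ => ?_⟩⟩
  simp only [L.phi_psi, Pi.zero_apply, map_zero, sub_zero, add_zero]
  rw [← Module.End.mul_apply, ← map_mul, inv_mul_cancel, map_one, Module.End.one_apply]

theorem tau_gauge_cls (hP : NDC P) {s₀ : S} {B : Set S} (L : Loc Q s₀ B) (hB : Sheet B)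
    (hs₀ : s₀ ∈ B) (A : Gau P L hs₀) {s : S} (hs : s ∈ B) (c : Fib Q s₀ → Fib Q s₀ → M)
    (hc : c ∈ Z1 ρ (fP P s₀)) :
    tau ρ hP s s₀ (cls ρ c hc) =
      cls ρ (fun x y => ρ (A.A (inc Q hs x)) (c (L.phi hs x) (L.phi hs y)))
        (mapZ_mem ρ (L.continuous_phi hs) (A.frame_phi hs) hc) :=
  tau_gauge ρ hP L hB hs₀ A hs _

theorem tau_gauge_cls' (hP : NDC P) {s₀ : S} {B : Set S} (L : Loc Q s₀ B) (hB : Sheet B)
    (hs₀ : s₀ ∈ B) (A : Gau P L hs₀) {s : S} (hs : s ∈ B) (c : Fib Q s → Fib Q s → M)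
    (hc : c ∈ Z1 ρ (fP P s)) :
    tau ρ hP s₀ s (cls ρ c hc) =
      cls ρ (fun x y => ρ (A.A (inc Q hs (L.psi hs x)))⁻¹ (c (L.psi hs x) (L.psi hs y)))
        (mapZ_mem ρ (L.continuous_psi hs) (A.frame_psi hs) hc) :=
  tau_gauge' ρ hP L hB hs₀ A hs _

end T2

end fam

end Crest.Agent.R276.Top3_279
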