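import Crest.Agent.R276.Top3d_279

/-!
# Row 276, IPC-TOP3 (helper279), part 5: parabolic classes, change of coefficients, automorphisms

* `ZeroOn ρ a U` : the class `a` vanishes on `U`; `parF ρ P s` : parabolic classes of a fibre;
  `tau_par` : the transports preserve them.
* `coefH` : change of coefficients (additive; semilinear maps allowed), `coefH_tau`.
* `isoF` : isomorphism of local systems, `isoF_tau`.
-/

set_option autoImplicit false
set_option linter.unusedSectionVars false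

noncomputable section

open Set Filter Topology unitInterval

namespace Crest.Agent.R276.Top3_279

section zero

variable {X Y : Type*} [TopologicalSpace X] [TopologicalSpace Y]
variable {G : Type*} [Group G] {R : Type*} [CommRing R] {M : Type*} [AddCommGroup M] [Module R M]
variable (ρ : G →* Module.End R M)

lemma cob_mem {P : X → X → G} (hP : NDC P) (f : X → M) :
    (fun x y => f x - ρ (P x y) (f y)) ∈ Z1 ρ P := by
  intro z
  obtain ⟨U, hU, h⟩ := hP z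
  refine ⟨U, hU, fun x hx y hy w hw => ?_⟩
  simp only [map_sub]
  rw [← Module.End.mul_apply, ← map_mul, h x hx y hy w hw]
  abel

/-- the class `a` vanishes on the set `U` -/
def ZeroOn {P : X → X → G} (a : H1 ρ P) (U : Set X) : Prop :=
  ∃ c, ∃ hc : c ∈ Z1 ρ P, cls ρ c hc = a ∧ ∀ z ∈ U, ∃ N ∈ 𝓝 z, ∀ x ∈ N, ∀ y ∈ N, c x y = 0

variable {ρ}

lemma zeroOn_cls_iff {P : X → X → G} (hP : NDC P) {c : X → X → M} {hc : c ∈ Z1 ρ P} {U : Set X} :
    ZeroOn ρ (cls ρ c hc) U ↔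
      ∃ f : X → M, ∀ z ∈ U, ∃ N ∈ 𝓝 z, ∀ x ∈ N, ∀ y ∈ N, c x y = f x - ρ (P x y) (f y) := by
  constructor
  · rintro ⟨c', hc', h1, h2⟩
    obtain ⟨f, hf⟩ := (cls_eq_iff ρ).1 h1.symm
    refine ⟨f, fun z hz => ?_⟩
    obtain ⟨N, hN, h3⟩ := h2 z hz
    obtain ⟨N', hN', h4⟩ := hf z
    refine ⟨N ∩ N', inter_mem hN hN', fun x hx y hy => ?_⟩
    rw [h4 x hx.2 y hy.2]
    simp only []
    rw [h3 x hx.1 y hy.1, zero_add]
  · rintro ⟨f, hf⟩
    refine ⟨fun x y => c x y - (f x - ρ (P x y) (f y)),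
      Submodule.sub_mem _ hc (cob_mem ρ hP f), ?_, ?_⟩
    · rw [cls_eq_iff]
      refine ⟨fun x => - f x, fun z => ⟨univ, univ_mem, fun x _ y _ => ?_⟩⟩
      simp only [map_neg]
      abel
    · intro z hz
      obtain ⟨N, hN, h⟩ := hf z hz
      exact ⟨N, hN, fun x hx y hy => sub_eq_zero.2 (h x hx y hy)⟩

lemma ZeroOn.mono {P : X → X → G} {a : H1 ρ P} {U V : Set X} (h : ZeroOn ρ a U) (hV : V ⊆ U) :
    ZeroOn ρ a V := by
  obtain ⟨c, hc, h1, h2⟩ := h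
  exact ⟨c, hc, h1, fun z hz => h2 z (hV hz)⟩

lemma zeroOn_zero {P : X → X → G} (U : Set X) : ZeroOn ρ (0 : H1 ρ P) U :=
  ⟨0, Submodule.zero_mem _, rfl, fun _ _ => ⟨univ, univ_mem, fun _ _ _ _ => rfl⟩⟩

lemma ZeroOn.add {P : X → X → G} {a b : H1 ρ P} {U : Set X} (ha : ZeroOn ρ a U)
    (hb : ZeroOn ρ b U) : ZeroOn ρ (a + b) U := by
  obtain ⟨c, hc, rfl, h1⟩ := ha
  obtain ⟨d, hd, rfl, h2⟩ := hb
  refine ⟨c + d, Submodule.add_mem _ hc hd, rfl, fun z hz => ?_⟩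
  obtain ⟨N, hN, h3⟩ := h1 z hz
  obtain ⟨N', hN', h4⟩ := h2 z hz
  refine ⟨N ∩ N', inter_mem hN hN', fun x hx y hy => ?_⟩
  show c x y + d x y = 0
  rw [h3 x hx.1 y hy.1, h4 x hx.2 y hy.2, zero_add]

lemma ZeroOn.smul {P : X → X → G} {a : H1 ρ P} {U : Set X} (ha : ZeroOn ρ a U) (r : R) :
    ZeroOn ρ (r • a) U := by
  obtain ⟨c, hc, rfl, h1⟩ := ha
  refine ⟨r • c, Submodule.smul_mem _ r hc, rfl, fun z hz => ?_⟩
  obtain ⟨N, hN, h3⟩ := h1 z hz
  refine ⟨N, hN, fun x hx y hy => ?_⟩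
  show r • c x y = 0
  rw [h3 x hx y hy, smul_zero]

lemma ZeroOn.mapH {P : X → X → G} {a : H1 ρ P} {U : Set X} (ha : ZeroOn ρ a U)
    {f : Y → X} (hf : Continuous f) {A : Y → G} {P' : Y → Y → G} (h : Frame P f A P') :
    ZeroOn ρ (mapH ρ hf h a) (f ⁻¹' U) := by
  obtain ⟨c, hc, rfl, h1⟩ := ha
  refine ⟨_, mapZ_mem ρ hf h hc, rfl, fun z hz => ?_⟩
  obtain ⟨N, hN, h3⟩ := h1 (f z) hz
  refine ⟨f ⁻¹' N, hf.continuousAt.preimage_mem_nhds hN, fun x hx y hy => ?_⟩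
  rw [h3 _ hx _ hy, map_zero]

lemma zeroOn_univ_iff {P : X → X → G} {a : H1 ρ P} : ZeroOn ρ a univ ↔ a = 0 := by
  constructor
  · rintro ⟨c, hc, rfl, h⟩
    rw [cls_eq_zero_iff]
    refine ⟨0, fun z => ?_⟩
    obtain ⟨N, hN, h3⟩ := h z trivial
    exact ⟨N, hN, fun x hx y hy => by simp [h3 x hx y hy]⟩
  · rintro rfl
    exact zeroOn_zero _

end zero

section coef

variable {X Y : Type*} [TopologicalSpace X] [TopologicalSpace Y]
variable {G : Type*} [Group G] {R : Type*} [CommRing R] {M : Type*} [AddCommGroup M] [Module R M]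
variable {R' : Type*} [CommRing R'] {M' : Type*} [AddCommGroup M'] [Module R' M']
variable {R'' : Type*} [CommRing R''] {M'' : Type*} [AddCommGroup M''] [Module R'' M'']
variable {ρ : G →* Module.End R M} {ρ' : G →* Module.End R' M'} {ρ'' : G →* Module.End R'' M''}

lemma coef_mem (φ : M →+ M') (hφ : ∀ g v, φ (ρ g v) = ρ' g (φ v)) {P : X → X → G}
    {c : X → X → M} (hc : c ∈ Z1 ρ P) : (fun x y => φ (c x y)) ∈ Z1 ρ' P := by
  intro z
  obtain ⟨U, hU, h⟩ := hc z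
  refine ⟨U, hU, fun x hx y hy w hw => ?_⟩
  simp only []
  rw [h x hx y hy w hw, map_add, hφ]

lemma coef_congr (φ : M →+ M') (hφ : ∀ g v, φ (ρ g v) = ρ' g (φ v)) {P : X → X → G}
    {c c' : X → X → M} {hc : c ∈ Z1 ρ P} {hc' : c' ∈ Z1 ρ P} (h : cls ρ c hc = cls ρ c' hc') :
    cls ρ' (fun x y => φ (c x y)) (coef_mem φ hφ hc) =
      cls ρ' (fun x y => φ (c' x y)) (coef_mem φ hφ hc') := by
  obtain ⟨f, hf⟩ := (cls_eq_iff ρ).1 h
  rw [cls_eq_iff]
  refine ⟨fun x => φ (f x), fun z => ?_⟩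
  obtain ⟨U, hU, h1⟩ := hf z
  refine ⟨U, hU, fun x hx y hy => ?_⟩
  simp only []
  rw [h1 x hx y hy, map_add, map_sub, hφ]

/-- change of coefficients -/
def coefH (φ : M →+ M') (hφ : ∀ g v, φ (ρ g v) = ρ' g (φ v)) {P : X → X → G} :
    H1 ρ P →+ H1 ρ' P :=
  AddMonoidHom.mk' (fun a => cls ρ' (fun x y => φ ((cls_surj ρ a).choose x y))
    (coef_mem φ hφ (cls_surj ρ a).choose_spec.choose)) (by
      intro a b
      have ha := (cls_surj ρ a).choose_spec.choose_spec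
      have hb := (cls_surj ρ b).choose_spec.choose_spec
      have hab := (cls_surj ρ (a + b)).choose_spec.choose_spec
      set c := (cls_surj ρ a).choose
      set d := (cls_surj ρ b).choose
      have hc := (cls_surj ρ a).choose_spec.choose
      have hd := (cls_surj ρ b).choose_spec.choose
      have h1 : cls ρ _ (cls_surj ρ (a + b)).choose_spec.choose =
          cls ρ (c + d) (Submodule.add_mem _ hc hd) := by
        rw [hab]
        conv_lhs => rw [← ha, ← hb]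
        rfl
      have h2 := coef_congr φ hφ h1
      rw [h2]
      show cls ρ' (fun x y => φ (c x y + d x y)) _ =
        cls ρ' ((fun x y => φ (c x y)) + fun x y => φ (d x y))
          (Submodule.add_mem _ (coef_mem φ hφ hc) (coef_mem φ hφ hd))
      rw [cls_eq_iff]
      refine ⟨0, fun z => ⟨univ, univ_mem, fun x _ y _ => ?_⟩⟩
      simp only [map_add, Pi.add_apply, Pi.zero_apply, map_zero, sub_zero, add_zero])

lemma coefH_cls (φ : M →+ M') (hφ : ∀ g v, φ (ρ g v) = ρ' g (φ v)) {P : X → X → G}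
    (c : X → X → M) (hc : c ∈ Z1 ρ P) :
    coefH φ hφ (cls ρ c hc) = cls ρ' (fun x y => φ (c x y)) (coef_mem φ hφ hc) :=
  coef_congr φ hφ (cls_surj ρ (cls ρ c hc)).choose_spec.choose_spec

lemma coefH_smul (φ : M →+ M') (hφ : ∀ g v, φ (ρ g v) = ρ' g (φ v)) {r : R} {r' : R'}
    (hr : ∀ v, φ (r • v) = r' • φ v) {P : X → X → G} (a : H1 ρ P) :
    coefH φ hφ (r • a) = r' • coefH φ hφ a := by
  obtain ⟨c, hc, rfl⟩ := cls_surj ρ a
  have : r • cls ρ c hc = cls ρ (r • c) (Submodule.smul_mem _ r hc) := rfl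
  rw [this, coefH_cls, coefH_cls]
  have h2 : r' • cls ρ' (fun x y => φ (c x y)) (coef_mem φ hφ hc) =
    cls ρ' (r' • fun x y => φ (c x y)) (Submodule.smul_mem _ r' (coef_mem φ hφ hc)) := rfl
  rw [h2, cls_eq_iff]
  refine ⟨0, fun z => ⟨univ, univ_mem, fun x _ y _ => ?_⟩⟩
  simp only [Pi.smul_apply, hr, Pi.zero_apply, map_zero, sub_zero, add_zero]

lemma coefH_mapH (φ : M →+ M') (hφ : ∀ g v, φ (ρ g v) = ρ' g (φ v)) {P : X → X → G}
    {f : Y → X} (hf : Continuous f) {A : Y → G} {P' : Y → Y → G} (h : Frame P f A P')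
    (a : H1 ρ P) : coefH φ hφ (mapH ρ hf h a) = mapH ρ' hf h (coefH φ hφ a) := by
  obtain ⟨c, hc, rfl⟩ := cls_surj ρ a
  rw [coefH_cls, mapH_cls, mapH_cls, coefH_cls, cls_eq_iff]
  refine ⟨0, fun z => ⟨univ, univ_mem, fun x _ y _ => ?_⟩⟩
  simp only [hφ, Pi.zero_apply, map_zero, sub_zero, add_zero]

lemma coefH_comp (φ : M →+ M') (hφ : ∀ g v, φ (ρ g v) = ρ' g (φ v)) (ψ : M' →+ M'')
    (hψ : ∀ g v, ψ (ρ' g v) = ρ'' g (ψ v)) {P : X → X → G} (a : H1 ρ P)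
    (hc : ∀ g v, (ψ.comp φ) (ρ g v) = ρ'' g ((ψ.comp φ) v)) :
    coefH ψ hψ (coefH φ hφ a) = coefH (ψ.comp φ) hc a := by
  obtain ⟨c, hc, rfl⟩ := cls_surj ρ a
  rw [coefH_cls, coefH_cls, coefH_cls]
  rfl

lemma ZeroOn.coefH (φ : M →+ M') (hφ : ∀ g v, φ (ρ g v) = ρ' g (φ v)) {P : X → X → G}
    {a : H1 ρ P} {U : Set X} (ha : ZeroOn ρ a U) : ZeroOn ρ' (coefH φ hφ a) U := by
  obtain ⟨c, hc, rfl, h⟩ := ha
  rw [coefH_cls]
  refine ⟨_, coef_mem φ hφ hc, rfl, fun z hz => ?_⟩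
  obtain ⟨N, hN, h3⟩ := h z hz
  refine ⟨N, hN, fun x hx y hy => ?_⟩
  rw [h3 x hx y hy, map_zero]

end coef

section fam

open Crest.Agent.R271.Ho51 Crest.Agent.R276.Ipc735

variable {m : ℕ} {S : Type*} [TopologicalSpace S] [RDom m S] {k : ℕ} {Q : Punc S k}
variable {G : Type*} [Group G] {R : Type*} [CommRing R] {M : Type*} [AddCommGroup M] [Module R M]
variable (ρ : G →* Module.End R M) (P : Tot Q → Tot Q → G)

/-- parabolic classes of the fibre over `s` -/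
def parF (s : S) : Submodule R (HF ρ P s) where
  carrier := {a | (∀ p ∈ Q.A s, ∃ U ∈ 𝓝 p, ZeroOn ρ a {x | x.1 ∈ U}) ∧
    ∃ r : ℝ, ZeroOn ρ a {x | r < ‖x.1‖}}
  zero_mem' := ⟨fun _ _ => ⟨univ, univ_mem, zeroOn_zero _⟩, 0, zeroOn_zero _⟩
  add_mem' := by
    rintro a b ⟨ha, r, har⟩ ⟨hb, t, hbt⟩
    refine ⟨fun p hp => ?_, max r t, ?_⟩
    · obtain ⟨U, hU, h1⟩ := ha p hp
      obtain ⟨V, hV, h2⟩ := hb p hp
      exact ⟨U ∩ V, inter_mem hU hV, (h1.mono fun x hx => hx.1).add (h2.mono fun x hx => hx.2)⟩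
    · exact (har.mono fun x hx => lt_of_le_of_lt (le_max_left r t) hx).add
        (hbt.mono fun x hx => lt_of_le_of_lt (le_max_right r t) hx)
  smul_mem' := by
    rintro c a ⟨ha, r, har⟩
    refine ⟨fun p hp => ?_, r, har.smul c⟩
    obtain ⟨U, hU, h1⟩ := ha p hp
    exact ⟨U, hU, h1.smul c⟩

lemma mem_parF {s : S} {a : HF ρ P s} : a ∈ parF ρ P s ↔
    (∀ p ∈ Q.A s, ∃ U ∈ 𝓝 p, ZeroOn ρ a {x | x.1 ∈ U}) ∧
    ∃ r : ℝ, ZeroOn ρ a {x | r < ‖x.1‖} := Iff.rfl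

variable {P}

/-- isomorphism of local systems, on fibres -/
lemma frame_fP {P' : Tot Q → Tot Q → G} {A : Tot Q → G} (hA : Frame P (fun x => x) A P') (s : S) :
    Frame (fP P s) (fun x => x) (fun x => A (Tot.mk Q s x.1 x.2)) (fP P' s) := by
  have hc : Continuous (fun x : Fib Q s => Tot.mk Q s x.1 x.2) :=
    continuous_mk Q continuous_const continuous_subtype_val (fun x => x.2)
  exact NDE.pull hA hc

/-- isomorphism of local systems, over `B` -/
lemma frame_oP {P' : Tot Q → Tot Q → G} {A : Tot Q → G} (hA : Frame P (fun x => x) A P')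
    (B : Set S) : Frame (oP P B) (fun x => x) (fun x => A x.1) (oP P' B) :=
  NDE.pull hA continuous_subtype_val

/-- the map on `H1` of a fibre induced by an isomorphism of local systems -/
def isoF {P' : Tot Q → Tot Q → G} {A : Tot Q → G} (hA : Frame P (fun x => x) A P') (s : S) :
    HF ρ P s →ₗ[R] HF ρ P' s := mapH ρ continuous_id (frame_fP hA s)

lemma isoF_cls {P' : Tot Q → Tot Q → G} {A : Tot Q → G} (hA : Frame P (fun x => x) A P') (s : S)
    (c : Fib Q s → Fib Q s → M) (hc : c ∈ Z1 ρ (fP P s)) :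
    isoF ρ hA s (cls ρ c hc) = cls ρ (fun x y => ρ (A (Tot.mk Q s x.1 x.2)) (c x y))
      (mapZ_mem ρ continuous_id (frame_fP hA s) hc) := rfl

lemma isoF_isoF {P' P'' : Tot Q → Tot Q → G} {A A' : Tot Q → G}
    (hA : Frame P (fun x => x) A P') (hA' : Frame P' (fun x => x) A' P'')
    (hAA' : Frame P (fun x => x) (fun x => A' x * A x) P'') (s : S) (a : HF ρ P s) :
    isoF ρ hA' s (isoF ρ hA s a) = isoF ρ hAA' s a := by
  obtain ⟨c, hc, rfl⟩ := cls_surj ρ a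
  rw [isoF_cls, isoF_cls, isoF_cls, cls_eq_iff]
  refine ⟨0, fun z => ⟨univ, univ_mem, fun x _ y _ => ?_⟩⟩
  simp only [map_mul, Module.End.mul_apply, Pi.zero_apply, map_zero, sub_zero, add_zero]

lemma isoF_one (hA : Frame P (fun x => x) (fun _ => (1 : G)) P) (s : S) (a : HF ρ P s) :
    isoF ρ hA s a = a := by
  obtain ⟨c, hc, rfl⟩ := cls_surj ρ a
  rw [isoF_cls, cls_eq_iff]
  refine ⟨0, fun z => ⟨univ, univ_mem, fun x _ y _ => ?_⟩⟩
  simp only [map_one, Module.End.one_apply, Pi.zero_apply, map_zero, sub_zero, add_zero]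

lemma isoF_par {P' : Tot Q → Tot Q → G} {A : Tot Q → G} (hA : Frame P (fun x => x) A P') (s : S)
    {a : HF ρ P s} (ha : a ∈ parF ρ P s) : isoF ρ hA s a ∈ parF ρ P' s := by
  obtain ⟨h1, r, h2⟩ := ha
  refine ⟨fun p hp => ?_, r, h2.mapH continuous_id _⟩
  obtain ⟨U, hU, h3⟩ := h1 p hp
  exact ⟨U, hU, h3.mapH continuous_id _⟩

lemma resF_iso {P' : Tot Q → Tot Q → G} {A : Tot Q → G} (hA : Frame P (fun x => x) A P')
    {B : Set S} {s : S} (hs : s ∈ B) (a : HO ρ P B) :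
    resF ρ P' hs (mapH ρ continuous_id (frame_oP hA B) a) = isoF ρ hA s (resF ρ P hs a) := by
  obtain ⟨c, hc, rfl⟩ := cls_surj ρ a
  unfold resF isoF
  rw [mapH_cls, mapH_cls, mapH_cls, mapH_cls, cls_eq_iff]
  refine ⟨0, fun z => ⟨univ, univ_mem, fun x _ y _ => ?_⟩⟩
  simp [inc]

section T2

variable [T2Space S]

theorem isoF_tau {P' : Tot Q → Tot Q → G} {A : Tot Q → G} (hP : NDC P) (hP' : NDC P')
    (hA : Frame P (fun x => x) A P') {B : Set S} (hB : Good Q B) {s s' : S} (hs : s ∈ B)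
    (hs' : s' ∈ B) (v : HF ρ P s') :
    isoF ρ hA s (tau ρ hP s s' v) = tau ρ hP' s s' (isoF ρ hA s' v) :=
  tau_natural ρ ρ hP hP' hB (fun s => isoF ρ hA s) (mapH ρ continuous_id (frame_oP hA B))
    (fun _ hs a => resF_iso ρ hA hs a) hs hs' v

/-- **the transports preserve the parabolic classes** -/
theorem tau_par (hP : NDC P) {B : Set S} (hB : Good Q B) {s s' : S} (hs : s ∈ B) (hs' : s' ∈ B)
    {v : HF ρ P s'} (hv : v ∈ parF ρ P s') : tau ρ hP s s' v ∈ parF ρ P s := by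
  obtain ⟨L⟩ := hB.loc s' hs'
  obtain ⟨A⟩ := exists_gau hP L hB.sheet hs'
  rw [tau_gauge ρ hP L hB.sheet hs' A hs]
  obtain ⟨h1, r, h2⟩ := hv
  refine ⟨fun p hp => ?_, ?_⟩
  · have hp' : L.Φ s p ∈ Q.A s' := by rw [← L.punc s hs, L.ΨΦ s hs]; exact hp
    obtain ⟨U, hU, h3⟩ := h1 _ hp'
    refine ⟨L.Φ s ⁻¹' U, (L.continuous_Φ hs).continuousAt.preimage_mem_nhds hU, ?_⟩
    exact (h3.mapH (L.continuous_phi hs) (A.frame_phi hs)).mono fun x hx => hx
  · have hcomp : IsCompact (L.Ψ s '' Metric.closedBall (0 : ℂ) r) :=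
      (isCompact_closedBall _ _).image (L.continuous_Ψ hs)
    obtain ⟨t, ht⟩ := hcomp.isBounded.subset_closedBall (0 : ℂ)
    refine ⟨t, (h2.mapH (L.continuous_phi hs) (A.frame_phi hs)).mono fun x hx => ?_⟩
    show r < ‖L.Φ s x.1‖
    by_contra hcon
    have h4 : L.Φ s x.1 ∈ Metric.closedBall (0 : ℂ) r := by
      rw [mem_closedBall_zero_iff]; exact not_lt.1 hcon
    have h5 := ht (mem_image_of_mem (L.Ψ s) h4)
    rw [L.ΨΦ s hs, mem_closedBall_zero_iff] at h5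
    exact absurd hx (not_lt.2 h5)

end T2

section coef

variable {R' : Type*} [CommRing R'] {M' : Type*} [AddCommGroup M'] [Module R' M']
variable {ρ} {ρ' : G →* Module.End R' M'}

lemma resF_coefH (φ : M →+ M') (hφ : ∀ g v, φ (ρ g v) = ρ' g (φ v)) {B : Set S} {s : S}
    (hs : s ∈ B) (a : HO ρ P B) :
    resF ρ' P hs (coefH φ hφ a) = coefH φ hφ (resF ρ P hs a) :=
  (coefH_mapH φ hφ (continuous_inc Q hs) (frame_inc P hs) a).symm

lemma coefH_par (φ : M →+ M') (hφ : ∀ g v, φ (ρ g v) = ρ' g (φ v)) {s : S} {a : HF ρ P s}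
    (ha : a ∈ parF ρ P s) : coefH φ hφ a ∈ parF ρ' P s := by
  obtain ⟨h1, r, h2⟩ := ha
  refine ⟨fun p hp => ?_, r, h2.coefH φ hφ⟩
  obtain ⟨U, hU, h3⟩ := h1 p hp
  exact ⟨U, hU, h3.coefH φ hφ⟩

lemma coefH_isoF (φ : M →+ M') (hφ : ∀ g v, φ (ρ g v) = ρ' g (φ v)) {P' : Tot Q → Tot Q → G}
    {A : Tot Q → G} (hA : Frame P (fun x => x) A P') (s : S) (a : HF ρ P s) :
    coefH φ hφ (isoF ρ hA s a) = isoF ρ' hA s (coefH φ hφ a) :=
  coefH_mapH φ hφ continuous_id (frame_fP hA s) a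

/-- **the transports commute with the change of coefficients** -/
theorem coefH_tau [T2Space S] (φ : M →+ M') (hφ : ∀ g v, φ (ρ g v) = ρ' g (φ v)) (hP : NDC P)
    {B : Set S} (hB : Good Q B) {s s' : S} (hs : s ∈ B) (hs' : s' ∈ B) (v : HF ρ P s') :
    coefH φ hφ (tau ρ hP s s' v) = tau ρ' hP s s' (coefH φ hφ v) :=
  tau_natural ρ ρ' hP hP hB (fun _ => coefH φ hφ) (coefH φ hφ)
    (fun _ hs a => resF_coefH φ hφ hs a) hs hs' v

end coef

end fam

end Crest.Agent.R276.Top3_279
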