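import Crest.Agent.R276.Top3f_279

/-!
# Row 276, IPC-TOP3 (helper279), part 7: the family `s ↦ H1par(C_s, V)` of a `VHS` on the total space

* `rC`, `rZ`, `iZ` : the standard representations of `GL_N(ℤ)` and the inclusion `ℤ^N → ℂ^N`;
* `Wf V s` : parabolic `H1` of the fibre over `s`; `tW V s s'` : transports; `LW V s` : integral classes;
* `tW_id`, `tW_coc`, `tW_int`, `tW_iso` : the fields `idt`, `coc`, `int` of helper454's `HFam`;
* `uW` : action of the automorphisms (`Act V Γ`), `uW_one`, `uW_mul`, `uW_int`, `uW_flat`.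
-/

set_option autoImplicit false
set_option linter.unusedSectionVars false

noncomputable section

open Set Filter Topology Matrix

namespace Crest.Agent.R276.Top3_279

open Crest.Agent.R271.Ho51 Crest.Agent.R276.Ipc735

section rep

variable {N : ℕ}

lemma cm_mul' (g h : GL (Fin N) ℤ) : cm (g * h) = cm g * cm h := by
  unfold cm
  have h1 : ((g * h : GL (Fin N) ℤ) : Matrix (Fin N) (Fin N) ℤ) =
    (g : Matrix (Fin N) (Fin N) ℤ) * (h : Matrix (Fin N) (Fin N) ℤ) := rfl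
  rw [h1]
  exact Matrix.map_mul (f := Int.castRingHom ℂ)

lemma cm_one' : cm (1 : GL (Fin N) ℤ) = 1 := by
  unfold cm
  have h1 : ((1 : GL (Fin N) ℤ) : Matrix (Fin N) (Fin N) ℤ) = 1 := rfl
  rw [h1]
  exact Matrix.map_one (fun a : ℤ => (a : ℂ)) Int.cast_zero Int.cast_one

/-- the standard complex representation -/
def rC (N : ℕ) : GL (Fin N) ℤ →* Module.End ℂ (Fin N → ℂ) where
  toFun g := Matrix.mulVecLin (cm g)
  map_one' := by rw [cm_one', Matrix.mulVecLin_one]; rfl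
  map_mul' g h := by rw [cm_mul', Matrix.mulVecLin_mul]; rfl

@[simp] lemma rC_apply (g : GL (Fin N) ℤ) (v : Fin N → ℂ) : rC N g v = cm g *ᵥ v := rfl

/-- the standard integral representation -/
def rZ (N : ℕ) : GL (Fin N) ℤ →* Module.End ℤ (Fin N → ℤ) where
  toFun g := Matrix.mulVecLin (g : Matrix (Fin N) (Fin N) ℤ)
  map_one' := by
    show Matrix.mulVecLin (1 : Matrix (Fin N) (Fin N) ℤ) = 1
    rw [Matrix.mulVecLin_one]; rfl
  map_mul' g h := by
    show Matrix.mulVecLin ((g : Matrix (Fin N) (Fin N) ℤ) * (h : Matrix (Fin N) (Fin N) ℤ)) = _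
    rw [Matrix.mulVecLin_mul]; rfl

@[simp] lemma rZ_apply (g : GL (Fin N) ℤ) (v : Fin N → ℤ) :
    rZ N g v = (g : Matrix (Fin N) (Fin N) ℤ) *ᵥ v := rfl

/-- the inclusion of the integral vectors -/
def iZ (N : ℕ) : (Fin N → ℤ) →+ (Fin N → ℂ) where
  toFun v i := (v i : ℂ)
  map_zero' := by ext i; simp
  map_add' u v := by ext i; simp

@[simp] lemma iZ_apply (v : Fin N → ℤ) (i : Fin N) : iZ N v i = (v i : ℂ) := rfl

lemma iZ_r (g : GL (Fin N) ℤ) (v : Fin N → ℤ) : iZ N (rZ N g v) = rC N g (iZ N v) := by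
  ext i
  simp only [iZ_apply, rZ_apply, rC_apply, cm, Matrix.mulVec, dotProduct, Matrix.map_apply]
  push_cast
  rfl

end rep

section fam

variable {m : ℕ} {S : Type*} [TopologicalSpace S] [RDom m S] {k : ℕ} {Q : Punc S k} {N w : ℕ}
variable (V : VHS (m + 1) (Tot Q) N w)

lemma vndc : NDC V.P := V.ndc

/-- parabolic cohomology of the fibre over `s` -/
abbrev Wf (s : S) : Type _ := parF (rC N) V.P s

/-- integral classes -/
def LW (s : S) : AddSubgroup (Wf V s) where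
  carrier := {a | ∃ b : HF (rZ N) V.P s, coefH (iZ N) iZ_r b = a.1}
  zero_mem' := ⟨0, by rw [map_zero]; rfl⟩
  add_mem' := by
    rintro a a' ⟨b, hb⟩ ⟨b', hb'⟩
    exact ⟨b + b', by rw [map_add, hb, hb']; rfl⟩
  neg_mem' := by
    rintro a ⟨b, hb⟩
    exact ⟨-b, by rw [map_neg, hb]; rfl⟩

lemma mem_LW {s : S} {a : Wf V s} :
    a ∈ LW V s ↔ ∃ b : HF (rZ N) V.P s, coefH (iZ N) iZ_r b = a.1 := Iff.rfl

lemma mem_LW_iff {s : S} {a : Wf V s} :
    a ∈ LW V s ↔ ∃ (c : Fib Q s → Fib Q s → Fin N → ℤ) (hc : c ∈ Z1 (rZ N) (fP V.P s)),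
      cls (rC N) (fun x y => iZ N (c x y)) (coef_mem (iZ N) iZ_r hc) = a.1 := by
  rw [mem_LW]
  constructor
  · rintro ⟨b, hb⟩
    obtain ⟨c, hc, rfl⟩ := cls_surj _ b
    exact ⟨c, hc, by rw [← hb, coefH_cls]⟩
  · rintro ⟨c, hc, h⟩
    exact ⟨cls _ c hc, by rw [coefH_cls, h]⟩

variable [T2Space S]

lemma tau_par' {s s' : S} {v : HF (rC N) V.P s'} (hv : v ∈ parF (rC N) V.P s') :
    tau (rC N) (vndc V) s s' v ∈ parF (rC N) V.P s := by
  by_cases h : ∃ B, Good Q B ∧ s ∈ B ∧ s' ∈ B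
  · obtain ⟨B, hB, hs, hs'⟩ := h
    exact tau_par (rC N) (vndc V) hB hs hs' hv
  · unfold tau
    rw [dif_neg h]
    exact Submodule.zero_mem _

/-- the transports on parabolic cohomology -/
def tW (s s' : S) : Wf V s' →ₗ[ℂ] Wf V s :=
  (tau (rC N) (vndc V) s s').restrict (fun _ hv => tau_par' V hv)

@[simp] lemma tW_val (s s' : S) (v : Wf V s') :
    (tW V s s' v).1 = tau (rC N) (vndc V) s s' v.1 := rfl

theorem tW_id (s : S) (v : Wf V s) : tW V s s v = v :=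
  Subtype.ext (tau_id (rC N) (vndc V) s v.1)

theorem tW_mul {B : Set S} (hB : Good Q B) {s s' s'' : S} (hs : s ∈ B) (hs' : s' ∈ B)
    (hs'' : s'' ∈ B) (v : Wf V s'') : tW V s s' (tW V s' s'' v) = tW V s s'' v :=
  Subtype.ext (tau_mul (rC N) (vndc V) hB hs hs' hs'' v.1)

/-- field `coc` -/
theorem tW_coc (z : S) : ∃ U ∈ 𝓝 z, ∀ s ∈ U, ∀ s' ∈ U, ∀ s'' ∈ U, ∀ v,
    tW V s s' (tW V s' s'' v) = tW V s s'' v := by
  obtain ⟨B, hB, hG⟩ := exists_good_nhds Q z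
  exact ⟨B, hB, fun s hs s' hs' s'' hs'' v => tW_mul V hG hs hs' hs'' v⟩

/-- the transports as isomorphisms -/
def tE {B : Set S} (hB : Good Q B) {s s' : S} (hs : s ∈ B) (hs' : s' ∈ B) :
    Wf V s' ≃ₗ[ℂ] Wf V s :=
  LinearEquiv.ofLinearMap (tW V s s') (tW V s' s)
    (LinearMap.ext fun v => by
      rw [LinearMap.comp_apply, tW_mul V hB hs hs' hs, tW_id]; rfl)
    (LinearMap.ext fun v => by
      rw [LinearMap.comp_apply, tW_mul V hB hs' hs hs', tW_id]; rfl)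

@[simp] lemma tE_apply {B : Set S} (hB : Good Q B) {s s' : S} (hs : s ∈ B) (hs' : s' ∈ B)
    (v : Wf V s') : tE V hB hs hs' v = tW V s s' v := rfl

theorem tW_int_good {B : Set S} (hB : Good Q B) {s s' : S} (hs : s ∈ B) (hs' : s' ∈ B)
    {v : Wf V s'} (hv : v ∈ LW V s') : tW V s s' v ∈ LW V s := by
  obtain ⟨b, hb⟩ := hv
  refine ⟨tau (rZ N) (vndc V) s s' b, ?_⟩
  rw [coefH_tau (iZ N) iZ_r (vndc V) hB hs hs', hb]
  rfl

/-- field `int` -/
theorem tW_int (z : S) : ∃ U ∈ 𝓝 z, ∀ s ∈ U, ∀ s' ∈ U, ∀ v ∈ LW V s', tW V s s' v ∈ LW V s := by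
  obtain ⟨B, hB, hG⟩ := exists_good_nhds Q z
  exact ⟨B, hB, fun s hs s' hs' v hv => tW_int_good V hG hs hs' hv⟩

section act

variable {V} {Γ : Type} [Group Γ] (ρ : Act V Γ)

lemma act_one' (x : Tot Q) : ρ.ρ 1 x = 1 := by
  have h := ρ.mul 1 1 x
  rw [one_mul] at h
  exact left_eq_mul.1 h

lemma act_frame (g : Γ) : Frame V.P (fun x => x) (ρ.ρ g) V.P := by
  intro z
  obtain ⟨U, hU, h1, h2⟩ := (vndc V).near z
  have h3 : {y | V.P z y * ρ.ρ g y = ρ.ρ g z * V.P z y} ∈ 𝓝 z := ρ.flat g z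
  have hz : z ∈ U := mem_of_mem_nhds hU
  refine ⟨U ∩ {y | V.P z y * ρ.ρ g y = ρ.ρ g z * V.P z y}, inter_mem hU h3,
    fun x hx y hy => ?_⟩
  have e1 : ρ.ρ g x = (V.P z x)⁻¹ * ρ.ρ g z * V.P z x := by
    have := hx.2
    rw [mem_ofPred_eq] at this
    rw [mul_assoc, ← this]; group
  have e2 : ρ.ρ g y = (V.P z y)⁻¹ * ρ.ρ g z * V.P z y := by
    have := hy.2
    rw [mem_ofPred_eq] at this
    rw [mul_assoc, ← this]; group
  have e3 : V.P x y = (V.P z x)⁻¹ * V.P z y := by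
    rw [← h2 z hz x hx.1, h1 x hx.1 z hz y hy.1]
  simp only []
  rw [e1, e2, e3]
  group

/-- the action of an automorphism on parabolic cohomology -/
def uW (g : Γ) (s : S) : Wf V s →ₗ[ℂ] Wf V s :=
  (isoF (rC N) (act_frame ρ g) s).restrict (fun _ hv => isoF_par (rC N) (act_frame ρ g) s hv)

@[simp] lemma uW_val (g : Γ) (s : S) (v : Wf V s) :
    (uW ρ g s v).1 = isoF (rC N) (act_frame ρ g) s v.1 := rfl

theorem uW_one (s : S) (v : Wf V s) : uW ρ 1 s v = v := by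
  apply Subtype.ext
  rw [uW_val]
  obtain ⟨c, hc, h⟩ := cls_surj (rC N) v.1
  rw [← h, isoF_cls, cls_eq_iff]
  refine ⟨0, fun z => ⟨univ, univ_mem, fun x _ y _ => ?_⟩⟩
  simp only [act_one', map_one, Module.End.one_apply, Pi.zero_apply, map_zero, sub_zero, add_zero]

theorem uW_mul (g h : Γ) (s : S) (v : Wf V s) : uW ρ (g * h) s v = uW ρ g s (uW ρ h s v) := by
  apply Subtype.ext
  simp only [uW_val]
  obtain ⟨c, hc, h'⟩ := cls_surj (rC N) v.1
  rw [← h', isoF_cls, isoF_cls, isoF_cls, cls_eq_iff]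
  refine ⟨0, fun z => ⟨univ, univ_mem, fun x _ y _ => ?_⟩⟩
  simp only [ρ.mul, map_mul, Module.End.mul_apply, Pi.zero_apply, map_zero, sub_zero, add_zero]

theorem uW_int (g : Γ) (s : S) (v : Wf V s) (hv : v ∈ LW V s) : uW ρ g s v ∈ LW V s := by
  obtain ⟨b, hb⟩ := hv
  refine ⟨isoF (rZ N) (act_frame ρ g) s b, ?_⟩
  rw [coefH_isoF (iZ N) iZ_r (act_frame ρ g) s b, hb]
  rfl

theorem uW_flat_good (g : Γ) {B : Set S} (hB : Good Q B) {s s' : S} (hs : s ∈ B) (hs' : s' ∈ B)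
    (v : Wf V s') : tW V s s' (uW ρ g s' v) = uW ρ g s (tW V s s' v) :=
  Subtype.ext (isoF_tau (rC N) (vndc V) (vndc V) (act_frame ρ g) hB hs hs' v.1).symm

/-- field `flat` of `GAct` -/
theorem uW_flat (g : Γ) (z : S) : ∃ U ∈ 𝓝 z, ∀ s ∈ U, ∀ s' ∈ U, ∀ v,
    tW V s s' (uW ρ g s' v) = uW ρ g s (tW V s s' v) := by
  obtain ⟨B, hB, hG⟩ := exists_good_nhds Q z
  exact ⟨B, hB, fun s hs s' hs' v => uW_flat_good ρ g hG hs hs' v⟩

end act

end fam

end Crest.Agent.R276.Top3_279
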