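import Crest.Agent.R276.Top3h_279
import Crest.Agent.R276.DR2_175

/-!
# Row 276, IPC-TOP3 (helper279), part 9: pull-back of sections, forms and cocycles (R6)

`Ψ : ℂ → ℂ` smooth on `O₀`, mapping `O₀` to `O₁`; `H` a gauge: `P₀ x y = H x * P₁ (Ψ x) (Ψ y) * (H y)⁻¹`
near the diagonal (`GaugeOn`).
* `pbS`, `pbU`, `pbA`, `pbB` : pull-back of sections, cocycles, forms (helper563's `pull`).
* `cocOn_pb`, `cobOn_pb`, `repBy_pb`, `smOn_pb`, `clOn_pb`, `ex_pb`.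
* `tau_cl` : the transport of the class of `u` is the class of `pbU u`.
-/

set_option autoImplicit false
set_option linter.unusedSectionVars false

noncomputable section

open Set Filter Topology Matrix

namespace Crest.Agent.R276.Top3_279

open Crest.Agent.R271.Ho51 Crest.Agent.R276.Ipc735 Crest.Agent.R276.DR_175

variable {N : ℕ}

/-- the gauge relation -/
def GaugeOn (O₀ : Set ℂ) (P₀ : ℂ → ℂ → GL (Fin N) ℤ) (Ψ : ℂ → ℂ) (H : ℂ → GL (Fin N) ℤ)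
    (P₁ : ℂ → ℂ → GL (Fin N) ℤ) : Prop :=
  ∀ z ∈ O₀, ∃ U ∈ 𝓝 z, ∀ x ∈ U, ∀ y ∈ U, P₀ x y = H x * P₁ (Ψ x) (Ψ y) * (H y)⁻¹

/-- pull-back of a section -/
def pbS (Ψ : ℂ → ℂ) (H : ℂ → GL (Fin N) ℤ) (f : ℂ → Fin N → ℂ) (x : ℂ) : Fin N → ℂ :=
  act (H x) (f (Ψ x))

/-- pull-back of a cocycle -/
def pbU (Ψ : ℂ → ℂ) (H : ℂ → GL (Fin N) ℤ) (u : ℂ → ℂ → Fin N → ℂ) (x y : ℂ) : Fin N → ℂ :=
  act (H x) (u (Ψ x) (Ψ y))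

/-- pull-back of a form, first coefficient -/
def pbA (Ψ : ℂ → ℂ) (H : ℂ → GL (Fin N) ℤ) (a b : ℂ → Fin N → ℂ) (x : ℂ) : Fin N → ℂ :=
  wz Ψ x • act (H x) (a (Ψ x)) + (starRingEnd ℂ) (wb Ψ x) • act (H x) (b (Ψ x))

/-- pull-back of a form, second coefficient -/
def pbB (Ψ : ℂ → ℂ) (H : ℂ → GL (Fin N) ℤ) (a b : ℂ → Fin N → ℂ) (x : ℂ) : Fin N → ℂ :=
  wb Ψ x • act (H x) (a (Ψ x)) + (starRingEnd ℂ) (wz Ψ x) • act (H x) (b (Ψ x))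

section chain

variable {F : Type*} [NormedAddCommGroup F] [NormedSpace ℂ F]

/-- chain rule -/
lemma fderiv_comp_wir {g : ℂ → F} {Ψ : ℂ → ℂ} {x : ℂ} (hg : DifferentiableAt ℝ g (Ψ x))
    (hΨ : DifferentiableAt ℝ Ψ x) :
    HasFDerivAt (fun y => g (Ψ y)) (wir (wz Ψ x • wz g (Ψ x) + (starRingEnd ℂ) (wb Ψ x) • wb g (Ψ x))
      (wb Ψ x • wz g (Ψ x) + (starRingEnd ℂ) (wz Ψ x) • wb g (Ψ x))) x := by
  have h1 := hg.hasFDerivAt.comp x hΨ.hasFDerivAt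
  rw [fderiv_eq_wir' g, fderiv_eq_wir' Ψ] at h1
  have key : wir (wz Ψ x • wz g (Ψ x) + (starRingEnd ℂ) (wb Ψ x) • wb g (Ψ x))
      (wb Ψ x • wz g (Ψ x) + (starRingEnd ℂ) (wz Ψ x) • wb g (Ψ x)) =
      (wir (wz g (Ψ x)) (wb g (Ψ x))).comp (wir (wz Ψ x) (wb Ψ x)) := by
    refine ContinuousLinearMap.ext fun v => ?_
    rw [ContinuousLinearMap.comp_apply, wir_apply, wir_apply, wir_apply]
    simp only [smul_eq_mul, map_add, map_mul, Complex.conj_conj, smul_add, add_smul, smul_smul]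
    abel
  rw [key]
  exact h1

lemma wz_comp {g : ℂ → F} {Ψ : ℂ → ℂ} {x : ℂ} (hg : DifferentiableAt ℝ g (Ψ x))
    (hΨ : DifferentiableAt ℝ Ψ x) : wz (fun y => g (Ψ y)) x =
      wz Ψ x • wz g (Ψ x) + (starRingEnd ℂ) (wb Ψ x) • wb g (Ψ x) :=
  wz_of_hasFDerivAt (fderiv_comp_wir hg hΨ)

lemma wb_comp {g : ℂ → F} {Ψ : ℂ → ℂ} {x : ℂ} (hg : DifferentiableAt ℝ g (Ψ x))
    (hΨ : DifferentiableAt ℝ Ψ x) : wb (fun y => g (Ψ y)) x =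
      wb Ψ x • wz g (Ψ x) + (starRingEnd ℂ) (wz Ψ x) • wb g (Ψ x) :=
  wb_of_hasFDerivAt (fderiv_comp_wir hg hΨ)

end chain

section pb

variable {O₀ O₁ : Set ℂ} {P₀ P₁ : ℂ → ℂ → GL (Fin N) ℤ} {Ψ : ℂ → ℂ} {H : ℂ → GL (Fin N) ℤ}
  {u : ℂ → ℂ → Fin N → ℂ} {f a b φ : ℂ → Fin N → ℂ}

lemma GaugeOn.mono {O : Set ℂ} (h : GaugeOn O₀ P₀ Ψ H P₁) (hO : O ⊆ O₀) : GaugeOn O P₀ Ψ H P₁ :=
  fun z hz => h z (hO hz)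

lemma cocOn_pb (hg : GaugeOn O₀ P₀ Ψ H P₁) (hm : MapsTo Ψ O₀ O₁)
    (hc : ∀ z ∈ O₀, ContinuousAt Ψ z) (hu : CocOn O₁ P₁ u) : CocOn O₀ P₀ (pbU Ψ H u) := by
  intro z hz
  obtain ⟨U, hU, h1⟩ := hu (Ψ z) (hm hz)
  obtain ⟨W, hW, h2⟩ := hg z hz
  refine ⟨Ψ ⁻¹' U ∩ W, inter_mem (hc z hz hU) hW, fun x hx y hy t ht => ?_⟩
  unfold pbU
  rw [h2 x hx.2 y hy.2, ← h1 _ hx.1 _ hy.1 _ ht.1, map_add, act_mul_apply, act_mul_apply,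
    act_inv_act]

lemma cobOn_pb (hg : GaugeOn O₀ P₀ Ψ H P₁) (hm : MapsTo Ψ O₀ O₁)
    (hc : ∀ z ∈ O₀, ContinuousAt Ψ z) (hu : CobOn O₁ P₁ u) : CobOn O₀ P₀ (pbU Ψ H u) := by
  obtain ⟨f, hf⟩ := hu
  refine ⟨pbS Ψ H f, fun z hz => ?_⟩
  obtain ⟨U, hU, h1⟩ := hf (Ψ z) (hm hz)
  obtain ⟨W, hW, h2⟩ := hg z hz
  refine ⟨Ψ ⁻¹' U ∩ W, inter_mem (hc z hz hU) hW, fun x hx y hy => ?_⟩
  unfold pbU pbS
  rw [h2 x hx.2 y hy.2, h1 _ hx.1 _ hy.1, map_sub, act_mul_apply, act_mul_apply,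
    act_inv_act]

lemma aff_pb (hg : GaugeOn O₀ P₀ Ψ H P₁) {z : ℂ} (hz : z ∈ O₀) :
    DR_175.aff P₀ (pbU Ψ H u) (pbS Ψ H f) z =ᶠ[𝓝 z] fun y => act (H z) (DR_175.aff P₁ u f (Ψ z) (Ψ y)) := by
  obtain ⟨W, hW, h2⟩ := hg z hz
  filter_upwards [hW] with y hy
  unfold DR_175.aff pbU pbS
  rw [h2 z (mem_of_mem_nhds hW) y hy, map_add, act_mul_apply, act_mul_apply, act_inv_act]

/-- pull-back of representatives -/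
theorem repBy_pb (hg : GaugeOn O₀ P₀ Ψ H P₁) (hm : MapsTo Ψ O₀ O₁)
    (hΨ : ∀ z ∈ O₀, ContDiffAt ℝ (⊤ : ℕ∞) Ψ z) (h : RepBy O₁ P₁ u f a b) :
    RepBy O₀ P₀ (pbU Ψ H u) (pbS Ψ H f) (pbA Ψ H a b) (pbB Ψ H a b) := by
  intro z hz
  obtain ⟨h1, h2, h3⟩ := h (Ψ z) (hm hz)
  have hd := near_diff h1
  have hdΨ := near_diff (hΨ z hz)
  have e := aff_pb (u := u) (f := f) hg hz
  have h4 : ContDiffAt ℝ (⊤ : ℕ∞) (fun y => DR_175.aff P₁ u f (Ψ z) (Ψ y)) z :=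
    ContDiffAt.comp (g := DR_175.aff P₁ u f (Ψ z)) z h1 (hΨ z hz)
  have h5 : ContDiffAt ℝ (⊤ : ℕ∞) (fun y => act (H z) (DR_175.aff P₁ u f (Ψ z) (Ψ y))) z :=
    ((act (H z)).restrictScalars ℝ).contDiff.contDiffAt.comp z h4
  refine ⟨h5.congr_of_eventuallyEq e, ?_, ?_⟩
  · rw [wz_congr e, wz_clm _ (near_diff h4), wz_comp hd hdΨ, h2, h3, map_add, map_smul, map_smul]
    rfl
  · rw [wb_congr e, wb_clm _ (near_diff h4), wb_comp hd hdΨ, h2, h3, map_add, map_smul, map_smul]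
    rfl

lemma pbU_zero : pbU Ψ H (fun _ _ => (0 : Fin N → ℂ)) = fun _ _ => 0 := by
  funext x y
  unfold pbU
  rw [map_zero]

/-- pull-back of smooth sections and of their derivatives -/
theorem smOn_pb (hg : GaugeOn O₀ P₀ Ψ H P₁) (hm : MapsTo Ψ O₀ O₁)
    (hΨ : ∀ z ∈ O₀, ContDiffAt ℝ (⊤ : ℕ∞) Ψ z) (h : SmOn O₁ P₁ φ) :
    SmOn O₀ P₀ (pbS Ψ H φ) ∧ (∀ z ∈ O₀, e1 P₀ (pbS Ψ H φ) z = pbA Ψ H (e1 P₁ φ) (e2 P₁ φ) z) ∧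
      ∀ z ∈ O₀, e2 P₀ (pbS Ψ H φ) z = pbB Ψ H (e1 P₁ φ) (e2 P₁ φ) z := by
  have h1 : RepBy O₁ P₁ (fun _ _ => 0) φ (e1 P₁ φ) (e2 P₁ φ) := by
    intro z hz
    rw [aff_zero]
    exact ⟨h z hz, rfl, rfl⟩
  have h2 := repBy_pb hg hm hΨ h1
  rw [pbU_zero] at h2
  simp only [RepBy, aff_zero] at h2
  exact ⟨fun z hz => (h2 z hz).1, fun z hz => (h2 z hz).2.1, fun z hz => (h2 z hz).2.2⟩

/-- pull-back of smooth closed forms -/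
theorem clOn_pb (hO₀ : IsOpen O₀) (hP₀ : NDCOn O₀ P₀) (hO₁ : IsOpen O₁) (hP₁ : NDCOn O₁ P₁)
    (hg : GaugeOn O₀ P₀ Ψ H P₁) (hm : MapsTo Ψ O₀ O₁)
    (hΨ : ∀ z ∈ O₀, ContDiffAt ℝ (⊤ : ℕ∞) Ψ z) (ha : SmOn O₁ P₁ a) (hb : SmOn O₁ P₁ b)
    (hab : ClOn O₁ P₁ a b) :
    SmOn O₀ P₀ (pbA Ψ H a b) ∧ SmOn O₀ P₀ (pbB Ψ H a b) ∧
      ClOn O₀ P₀ (pbA Ψ H a b) (pbB Ψ H a b) := by
  obtain ⟨u, hu, hf⟩ := exists_rep hO₁ hP₁ ha hb hab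
  exact (repBy_pb hg hm hΨ hf).smooth hO₀ hP₀
    (cocOn_pb hg hm (fun z hz => (hΨ z hz).continuousAt) hu)

/-- pull-back of exact forms -/
theorem ex_pb (hg : GaugeOn O₀ P₀ Ψ H P₁) (hm : MapsTo Ψ O₀ O₁)
    (hΨ : ∀ z ∈ O₀, ContDiffAt ℝ (⊤ : ℕ∞) Ψ z)
    (h : ∀ z ∈ O₁, ContDiffAt ℝ (⊤ : ℕ∞) (lV P₁ φ z) z ∧ wz (lV P₁ φ z) z = a z ∧
      wb (lV P₁ φ z) z = b z) :
    ∀ z ∈ O₀, ContDiffAt ℝ (⊤ : ℕ∞) (lV P₀ (pbS Ψ H φ) z) z ∧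
      wz (lV P₀ (pbS Ψ H φ) z) z = pbA Ψ H a b z ∧
      wb (lV P₀ (pbS Ψ H φ) z) z = pbB Ψ H a b z := by
  have h1 : RepBy O₁ P₁ (fun _ _ => 0) φ a b := by
    intro z hz
    rw [aff_zero]
    exact h z hz
  have h2 := repBy_pb hg hm hΨ h1
  rw [pbU_zero] at h2
  simp only [RepBy, aff_zero] at h2
  exact h2

lemma pbA_eq_zero {x : ℂ} (ha : a (Ψ x) = 0) (hb : b (Ψ x) = 0) : pbA Ψ H a b x = 0 := by
  unfold pbA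
  rw [ha, hb, map_zero, smul_zero, smul_zero, add_zero]

lemma pbB_eq_zero {x : ℂ} (ha : a (Ψ x) = 0) (hb : b (Ψ x) = 0) : pbB Ψ H a b x = 0 := by
  unfold pbB
  rw [ha, hb, map_zero, smul_zero, smul_zero, add_zero]

/-- the pull-back as a pair is helper563's `pull` -/
lemma pb_eq_pull (x : ℂ) : (pbA Ψ H a b x, pbB Ψ H a b x) =
    Psi_563.pull (wz Ψ x) (wb Ψ x) (act (H x) (a (Ψ x)), act (H x) (b (Ψ x))) := rfl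

end pb

section fam

open Crest.Agent.R276.Psi_563

variable {m : ℕ} {S : Type*} [TopologicalSpace S] [RDom m S] {k : ℕ} {Q : Punc S k} {w : ℕ}
variable (V : VHS (m + 1) (Tot Q) N w)

open Classical in
/-- the gauge over `s` as a function on the plane (inverse, seen from the fibre over `s₀`) -/
def gH {s₀ : S} {B : Set S} {L : Loc Q s₀ B} {hs₀ : s₀ ∈ B} (A : Gau V.P L hs₀) {s : S}
    (hs : s ∈ B) (x : ℂ) : GL (Fin N) ℤ :=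
  if hx : x ∉ Q.A s₀ then (A.A (inc Q hs (L.psi hs ⟨x, hx⟩)))⁻¹ else 1

lemma gH_apply {s₀ : S} {B : Set S} {L : Loc Q s₀ B} {hs₀ : s₀ ∈ B} (A : Gau V.P L hs₀) {s : S}
    (hs : s ∈ B) (x : Fib Q s₀) : gH V A hs x.1 = (A.A (inc Q hs (L.psi hs x)))⁻¹ := by
  unfold gH
  rw [dif_pos x.2]

lemma gaugeOn_gH {s₀ : S} {B : Set S} {L : Loc Q s₀ B} {hs₀ : s₀ ∈ B} (A : Gau V.P L hs₀) {s : S}
    (hs : s ∈ B) : GaugeOn ((Q.A s₀ : Set ℂ)ᶜ) (rP Q V.P s₀) (L.Ψ s) (gH V A hs)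
      (rP Q V.P s) := by
  intro z hz
  obtain ⟨U, hU, h1⟩ := A.frame_psi hs ⟨z, hz⟩
  obtain ⟨W, hW, h2⟩ := exists_nhds _ hU
  refine ⟨W, hW, fun x hx y hy => ?_⟩
  obtain ⟨hx', hx2⟩ := h2 x hx
  obtain ⟨hy', hy2⟩ := h2 y hy
  have h3 := h1 _ hx2 _ hy2
  have h4 := rP_eq V s₀ ⟨x, hx'⟩ ⟨y, hy'⟩
  have h5 := rP_eq V s (L.psi hs ⟨x, hx'⟩) (L.psi hs ⟨y, hy'⟩)
  have h6 := gH_apply V A hs ⟨x, hx'⟩
  have h7 := gH_apply V A hs ⟨y, hy'⟩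
  have h8 : (L.psi hs ⟨x, hx'⟩).1 = L.Ψ s x := rfl
  have h9 : (L.psi hs ⟨y, hy'⟩).1 = L.Ψ s y := rfl
  rw [h8, h9] at h5
  simp only [] at h4 h6 h7
  rw [h4, h5, h6, h7]
  exact h3

lemma mapsTo_Ψ {s₀ : S} {B : Set S} (L : Loc Q s₀ B) {s : S} (hs : s ∈ B) :
    MapsTo (L.Ψ s) ((Q.A s₀ : Set ℂ)ᶜ) ((Q.A s : Set ℂ)ᶜ) :=
  fun _ hx => L.Ψ_notMem hs hx

lemma cocOn_pbU {s₀ : S} {B : Set S} {L : Loc Q s₀ B} {hs₀ : s₀ ∈ B} (A : Gau V.P L hs₀)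
    {s : S} (hs : s ∈ B) {u : ℂ → ℂ → Fin N → ℂ}
    (hu : CocOn ((Q.A s : Set ℂ)ᶜ) (rP Q V.P s) u) :
    CocOn ((Q.A s₀ : Set ℂ)ᶜ) (rP Q V.P s₀) (pbU (L.Ψ s) (gH V A hs) u) :=
  cocOn_pb (gaugeOn_gH V A hs) (mapsTo_Ψ L hs) (fun _ _ => (L.continuous_Ψ hs).continuousAt) hu

/-- **the transport of the class of a cocycle** -/
theorem tau_cl [T2Space S] {s₀ : S} {B : Set S} {L : Loc Q s₀ B} (hB : Sheet B) {hs₀ : s₀ ∈ B}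
    (A : Gau V.P L hs₀) {s : S} (hs : s ∈ B) {u : ℂ → ℂ → Fin N → ℂ}
    (hu : CocOn ((Q.A s : Set ℂ)ᶜ) (rP Q V.P s) u) :
    tau (rC N) (vndc V) s₀ s (cl V s u hu) =
      cl V s₀ (pbU (L.Ψ s) (gH V A hs) u) (cocOn_pbU V A hs hu) := by
  unfold cl
  rw [tau_gauge_cls' (rC N) (vndc V) L hB hs₀ A hs, cls_eq_iff]
  refine ⟨0, fun z => ⟨univ, univ_mem, fun x _ y _ => ?_⟩⟩
  simp only [Pi.zero_apply, map_zero, sub_zero, add_zero]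
  unfold rst pbU
  rw [gH_apply V A hs x]
  rfl

end fam

end Crest.Agent.R276.Top3_279
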