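import Crest.Agent.R276.Top3h_279
import Crest.Agent.R276.Latt2_937

/-!
# Row 276, IPC-TOP3 (helper279), part 10: the integral classes form a lattice

* `lat` : `IsCLat (LW V s)` (field `lat` of helper454's `HFam`), from helper937's `latt`.
-/

set_option autoImplicit false
set_option linter.unusedSectionVars false

noncomputable section

open Set Filter Topology Matrix

namespace Crest.Agent.R276.Top3_279

open Crest.Agent.R271.Ho51 Crest.Agent.R276.Ipc735 Crest.Agent.R276.DR_175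
open Crest.Agent.R276.Lat_348

variable {m : ℕ} {S : Type*} [TopologicalSpace S] [RDom m S] {k : ℕ} {Q : Punc S k} {N w : ℕ}
variable (V : VHS (m + 1) (Tot Q) N w)

/-- restriction to the fibre as a linear map -/
def rstL (Q : Punc S k) (s : S) :
    (ℂ → ℂ → Fin N → ℂ) →ₗ[ℂ] (Fib Q s → Fib Q s → Fin N → ℂ) where
  toFun := rst s
  map_add' _ _ := rfl
  map_smul' _ _ := rfl

/-- the submodule of cocycles on the plane -/
def ZZ (s : S) : Submodule ℂ (ℂ → ℂ → Fin N → ℂ) := (Z1 (rC N) (fP V.P s)).comap (rstL Q s)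

lemma mem_ZZ {s : S} {u : ℂ → ℂ → Fin N → ℂ} :
    u ∈ ZZ V s ↔ CocOn ((Q.A s : Set ℂ)ᶜ) (rP Q V.P s) u := rst_mem_iff V s u

/-- the class as a linear map -/
def clL (s : S) : ZZ V s →ₗ[ℂ] HF (rC N) V.P s :=
  (Submodule.mkQ _).comp (((rstL Q s).domRestrict (ZZ V s)).codRestrict (Z1 (rC N) (fP V.P s))
    (fun u => u.2))

lemma clL_apply {s : S} {u : ℂ → ℂ → Fin N → ℂ}
    (hu : CocOn ((Q.A s : Set ℂ)ᶜ) (rP Q V.P s) u) :
    clL V s ⟨u, (mem_ZZ V).2 hu⟩ = cl V s u hu := rfl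

lemma cobOn_sub_iff {s : S} {u : ℂ → ℂ → Fin N → ℂ}
    (hu : CocOn ((Q.A s : Set ℂ)ᶜ) (rP Q V.P s) u) {n : ℕ} {g : Fin n → ℂ → ℂ → Fin N → ℂ}
    (hg : ∀ j, CocOn ((Q.A s : Set ℂ)ᶜ) (rP Q V.P s) (g j)) (c : Fin n → ℂ) :
    CobOn ((Q.A s : Set ℂ)ᶜ) (rP Q V.P s) (u - ∑ j, c j • g j) ↔
      cl V s u hu = ∑ j, c j • cl V s (g j) (hg j) := by
  have h1 : u - ∑ j, c j • g j ∈ ZZ V s :=
    Submodule.sub_mem _ ((mem_ZZ V).2 hu) (Submodule.sum_mem _ fun j _ =>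
      Submodule.smul_mem _ _ ((mem_ZZ V).2 (hg j)))
  have h2 : clL V s ⟨u - ∑ j, c j • g j, h1⟩ = cl V s u hu - ∑ j, c j • cl V s (g j) (hg j) := by
    have h3 : (⟨u - ∑ j, c j • g j, h1⟩ : ZZ V s) = ⟨u, (mem_ZZ V).2 hu⟩ -
        ∑ j, c j • (⟨g j, (mem_ZZ V).2 (hg j)⟩ : ZZ V s) := by
      apply Subtype.ext
      simp only [Submodule.coe_sub, Submodule.coe_sum, Submodule.coe_smul]
    rw [h3, map_sub, map_sum]
    simp only [map_smul]
    rfl
  rw [← sub_eq_zero, ← h2, clL_apply V ((mem_ZZ V).1 h1), cl_eq_zero_iff]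

/-- **the integral classes form a lattice** (field `lat`) -/
theorem lat (s : S) : IsCLat (LW V s) := by
  classical
  have hP : NDCOn ((Q.A s : Set ℂ)ᶜ) (rP Q V.P s) := by
    intro z hz
    obtain ⟨U, hU, h1⟩ := (fP_ndc (vndc V) s) ⟨z, hz⟩
    obtain ⟨W, hW, h2⟩ := exists_nhds _ hU
    refine ⟨W, hW, fun x hx y hy t ht => ?_⟩
    obtain ⟨hx', hx2⟩ := h2 x hx
    obtain ⟨hy', hy2⟩ := h2 y hy
    obtain ⟨ht', ht2⟩ := h2 t ht
    have e1 := rP_eq V s ⟨x, hx'⟩ ⟨y, hy'⟩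
    have e2 := rP_eq V s ⟨y, hy'⟩ ⟨t, ht'⟩
    have e3 := rP_eq V s ⟨x, hx'⟩ ⟨t, ht'⟩
    simp only [] at e1 e2 e3
    rw [e1, e2, e3]
    exact h1 _ hx2 _ hy2 _ ht2
  obtain ⟨n, g, hg, hmain⟩ := Latt_937.latt hP
  have hgc : ∀ j, CocOn ((Q.A s : Set ℂ)ᶜ) (rP Q V.P s) (g j) := fun j => (hg j).1
  have hgp : ∀ j, cl V s (g j) (hgc j) ∈ parF (rC N) V.P s := fun j =>
    (cl_mem_par_iff V).2 (hg j).2.2
  let W : Fin n → Wf V s := fun j => ⟨cl V s (g j) (hgc j), hgp j⟩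
  let Φ : (Fin n → ℂ) →ₗ[ℂ] Wf V s := Fintype.linearCombination ℂ W
  have hΦ : ∀ c : Fin n → ℂ, (Φ c).1 = ∑ j, c j • cl V s (g j) (hgc j) := by
    intro c
    show (Fintype.linearCombination ℂ W c).1 = _
    rw [Fintype.linearCombination_apply, Submodule.coe_sum]
    rfl
  have hex : ∀ a : Wf V s, ∃ (u : ℂ → ℂ → Fin N → ℂ)
      (hu : CocOn ((Q.A s : Set ℂ)ᶜ) (rP Q V.P s) u), cl V s u hu = a.1 ∧
        Latt_937.ParU (rP Q V.P s) (Q.A s) u := by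
    intro a
    obtain ⟨u, hu, h⟩ := cl_surj V s a.1
    exact ⟨u, hu, h, (cl_mem_par_iff V).1 (by rw [h]; exact a.2)⟩
  have hbij : Function.Bijective Φ := by
    constructor
    · intro c c' hcc
      obtain ⟨u, hu, hua, hup⟩ := hex (Φ c)
      obtain ⟨c0, hc0, huniq⟩ := (hmain u hu hup).1
      have e1 : c = c0 := huniq c (by
        show CobOn _ _ _
        rw [cobOn_sub_iff V hu hgc, hua, hΦ])
      have e2 : c' = c0 := huniq c' (by
        show CobOn _ _ _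
        rw [cobOn_sub_iff V hu hgc, hua, hcc, hΦ])
      rw [e1, e2]
    · intro a
      obtain ⟨u, hu, hua, hup⟩ := hex a
      obtain ⟨c0, hc0, -⟩ := (hmain u hu hup).1
      refine ⟨c0, Subtype.ext ?_⟩
      rw [hΦ, ← (cobOn_sub_iff V hu hgc c0).1 hc0, hua]
  let b : Module.Basis (Fin n) ℂ (Wf V s) :=
    Module.Basis.ofEquivFun (LinearEquiv.ofBijective Φ hbij).symm
  refine isCLat_of_basis b fun a => ?_
  obtain ⟨u, hu, hua, hup⟩ := hex a
  have hrepr : CobOn ((Q.A s : Set ℂ)ᶜ) (rP Q V.P s) (u - ∑ j, (b.repr a j) • g j) := by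
    rw [cobOn_sub_iff V hu hgc, hua, ← hΦ]
    have h1 : (⇑(b.repr a) : Fin n → ℂ) = (LinearEquiv.ofBijective Φ hbij).symm a := by
      funext j
      exact Module.Basis.ofEquivFun_repr_apply _ a j
    rw [h1]
    have h2 : Φ ((LinearEquiv.ofBijective Φ hbij).symm a) = a :=
      (LinearEquiv.ofBijective Φ hbij).apply_symm_apply a
    rw [h2]
  rw [← (hmain u hu hup).2 _ hrepr, mem_LW_cl_iff]
  constructor
  · rintro ⟨h, hh, hint, hcl⟩
    refine ⟨h, hh, fun x y i => ?_, ?_⟩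
    · obtain ⟨v, hv⟩ := hint x y
      exact ⟨v i, by rw [hv]; rfl⟩
    · have := (cl_eq_iff V (hu := hu) (hu' := hh)).1 (by rw [hua, hcl])
      exact this
  · rintro ⟨h, hh, hint, hcob⟩
    refine ⟨h, hh, fun x y => ?_, ?_⟩
    · choose v hv using hint x y
      exact ⟨v, funext hv⟩
    · rw [← hua]
      exact ((cl_eq_iff V (hu := hu) (hu' := hh)).2 hcob).symm

end Crest.Agent.R276.Top3_279
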