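import Crest.Agent.R276.Top8d_815
import Crest.Agent.R276.Res_735

/-!
# Row 276, IPC step (8): fibre integrals and the evaluation-point argument (helper815)

* `FSp.exists_sec`: local sections of a fibred space.
* `lsc_fsum`, `measurable_fsum`: the sum over the points of the fibre with given fibre coordinates is
  measurable (`Y` Hausdorff).
* `fint_down`: Tonelli for `FSp.down`.
* `pb_down`: the coordinates of `F` and of `F.down` define the same analytic functions.
* `ep_core'`: the evaluation-point argument with sections.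
-/

set_option autoImplicit false
set_option linter.unusedSectionVars false

noncomputable section

open Set Filter Topology MeasureTheory Matrix
open Crest.Agent.R271.Ho51 Crest.Agent.R276.Ipc735
open scoped ENNReal

namespace Crest.Agent.R276.Top8_815

section fibre

variable {n d : ℕ} {X Y : Type*} [TopologicalSpace X] [RDom n X] [TopologicalSpace Y]
  (F : FSp n d X Y)

/-- local section through `y` in all variables -/
theorem FSp.exists_sec (y : Y) : ∃ σ : X × (Fin d → ℂ) → Y, σ (F.q y, F.t y) = y ∧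
    ∀ᶠ p in 𝓝 (F.q y, F.t y), ContinuousAt σ p ∧ F.q (σ p) = p.1 ∧ F.t (σ p) = p.2 := by
  obtain ⟨e, he, hf⟩ := F.lh y
  have h1 : e y = (F.q y, F.t y) := by rw [← hf]
  refine ⟨e.symm, ?_, ?_⟩
  · rw [← h1]; exact e.left_inv he
  · have h2 : (F.q y, F.t y) ∈ e.target := by rw [← h1]; exact e.map_source he
    filter_upwards [e.open_target.mem_nhds h2] with p hp
    have h3 : (F.q (e.symm p), F.t (e.symm p)) = p := by
      have := e.right_inv hp
      rw [← hf] at this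
      exact this
    exact ⟨e.symm.continuousAt hp, congrArg Prod.fst h3, congrArg Prod.snd h3⟩

theorem FSp.continuous_qt : Continuous fun y => (F.q y, F.t y) := F.lh.continuous

theorem FSp.continuous_q : Continuous F.q := continuous_fst.comp F.continuous_qt

theorem FSp.continuous_t : Continuous F.t := continuous_snd.comp F.continuous_qt

theorem FSp.continuous_pc : Continuous F.pc :=
  (cp_cont.comp F.continuous_q).prodMk F.continuous_t

/-- local section through `y` along the fibre -/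
theorem FSp.exists_fsec (y : Y) : ∃ σ : (Fin d → ℂ) → Y, σ (F.t y) = y ∧
    ContinuousAt σ (F.t y) ∧ ∀ᶠ τ in 𝓝 (F.t y), F.q (σ τ) = F.q y ∧ F.t (σ τ) = τ := by
  obtain ⟨σ, h1, h2⟩ := F.exists_sec y
  have hc : Tendsto (fun τ : Fin d → ℂ => (F.q y, τ)) (𝓝 (F.t y)) (𝓝 (F.q y, F.t y)) :=
    (Continuous.prodMk_right (F.q y)).tendsto (F.t y)
  refine ⟨fun τ => σ (F.q y, τ), h1, ?_, ?_⟩
  · exact ContinuousAt.comp (g := σ) (h2.self_of_nhds.1) hc
  · exact (hc.eventually h2).mono fun τ h => ⟨h.2.1, h.2.2⟩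

/-- sum over the points of the fibre over `u` with fibre coordinates `τ` -/
def FSp.fsum (u : X) (g : Y → ℝ≥0∞) (τ : Fin d → ℂ) : ℝ≥0∞ :=
  ∑' y : {y : Y // F.q y = u ∧ F.t y = τ}, g y.1

theorem FSp.fint_eq (u : X) (g : Y → ℝ≥0∞) : F.fint u g = ∫⁻ τ, F.fsum u g τ := rfl

theorem lsc_fsum [T2Space Y] {u : X} {g : Y → ℝ≥0∞}
    (hg : ∀ y, F.q y = u → ContinuousWithinAt g {y' | F.q y' = u} y) :
    LowerSemicontinuous (F.fsum u g) := by
  classical
  intro τ₀ c hc
  rw [gt_iff_lt, FSp.fsum, ENNReal.tsum_eq_iSup_sum, lt_iSup_iff] at hc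
  obtain ⟨s, hs⟩ := hc
  choose σ hσ0 hσc hσe using fun y => F.exists_fsec y
  -- conditions
  have e1 : ∀ y : {y : Y // F.q y = u ∧ F.t y = τ₀},
      ∀ᶠ τ in 𝓝 τ₀, F.q (σ y.1 τ) = u ∧ F.t (σ y.1 τ) = τ := by
    intro y
    have := hσe y.1
    rw [y.2.2, y.2.1] at this
    exact this
  have e2 : ∀ y : {y : Y // F.q y = u ∧ F.t y = τ₀}, Tendsto (σ y.1) (𝓝 τ₀) (𝓝 y.1) := by
    intro y
    have h1 := hσc y.1
    rw [ContinuousAt, hσ0 y.1, y.2.2] at h1
    exact h1
  have e3 : ∀ᶠ τ in 𝓝 τ₀, ∀ y ∈ s, F.q (σ y.1 τ) = u ∧ F.t (σ y.1 τ) = τ :=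
    (Filter.eventually_all_finset s).2 fun y _ => e1 y
  have e4 : ∀ᶠ τ in 𝓝 τ₀, ∀ y ∈ s, ∀ y' ∈ s, y ≠ y' → σ y.1 τ ≠ σ y'.1 τ := by
    refine (Filter.eventually_all_finset s).2 fun y _ =>
      (Filter.eventually_all_finset s).2 fun y' _ => ?_
    by_cases hyy : y = y'
    · exact Filter.Eventually.of_forall fun τ h => absurd hyy h
    · have hne : y.1 ≠ y'.1 := fun h => hyy (Subtype.ext h)
      obtain ⟨U, V, hU, hV, hyU, hyV, hUV⟩ := t2_separation hne
      filter_upwards [(e2 y).eventually (hU.mem_nhds hyU), (e2 y').eventually (hV.mem_nhds hyV)]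
        with τ h1 h2 _ h3
      exact Set.disjoint_left.1 hUV h1 (h3 ▸ h2)
  have e5 : Tendsto (fun τ => ∑ y ∈ s, g (σ y.1 τ)) (𝓝 τ₀) (𝓝 (∑ y ∈ s, g y.1)) := by
    refine tendsto_finsetSum _ fun y _ => ?_
    have h1 := hg y.1 y.2.1
    refine Tendsto.comp (g := g) h1 ?_
    refine tendsto_nhdsWithin_iff.2 ⟨e2 y, ?_⟩
    exact (e1 y).mono fun τ h => h.1
  filter_upwards [e3, e4, e5.eventually (lt_mem_nhds hs)] with τ h3 h4 h5
  show c < F.fsum u g τ
  refine lt_of_lt_of_le h5 ?_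
  -- injection into the fibre over `τ`
  let j : {y // y ∈ s} → {y : Y // F.q y = u ∧ F.t y = τ} := fun y => ⟨σ y.1.1 τ, h3 y.1 y.2⟩
  have hj : Function.Injective j := by
    intro y y' h
    by_contra hne
    have hne' : y.1 ≠ y'.1 := fun h => hne (Subtype.ext h)
    exact h4 y.1 y.2 y'.1 y'.2 hne' (congrArg Subtype.val h)
  have h6 : ∑ y ∈ s, g (σ y.1 τ) = ∑ z ∈ s.attach.map ⟨j, hj⟩, g z.1 := by
    rw [Finset.sum_map, ← Finset.sum_attach]
    rfl
  rw [h6]
  exact ENNReal.sum_le_tsum _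

theorem FSp.FH.continuousWithinAt {F : FSp n d X Y} {u : X} {f : Y → ℂ} (hf : F.FH u f) {y : Y}
    (hy : F.q y = u) : ContinuousWithinAt f {y' | F.q y' = u} y := by
  obtain ⟨g, hg, h1⟩ := hf y hy
  have h2 : ContinuousAt (fun y' => g (F.t y')) y :=
    ContinuousAt.comp (g := g) hg.continuousAt F.continuous_t.continuousAt
  refine h2.continuousWithinAt.congr_of_eventuallyEq ?_ ?_
  · exact eventually_nhdsWithin_iff.2 h1
  · exact h1.self_of_nhds hy

theorem measurable_fsum [T2Space Y] {u : X} {f : Y → ℂ} (hf : F.FH u f) :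
    Measurable (F.fsum u fun y => ‖f y‖ₑ ^ 2) := by
  refine (lsc_fsum F fun y hy => ?_).measurable
  have h1 : ContinuousWithinAt (fun y => ‖f y‖ₑ) {y' | F.q y' = u} y :=
    continuous_enorm.continuousAt.comp_continuousWithinAt (hf.continuousWithinAt hy)
  exact ENNReal.continuous_pow 2 |>.continuousAt.comp_continuousWithinAt h1

/-- the fibre integral only depends on the values on the fibre -/
theorem FSp.fsum_congr {u : X} {g g' : Y → ℝ≥0∞} (h : ∀ y, F.q y = u → g y = g' y) (τ) :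
    F.fsum u g τ = F.fsum u g' τ :=
  tsum_congr fun y => h y.1 y.2.1

theorem FSp.fnorm_congr {u : X} {f f' : Y → ℂ} (h : ∀ y, F.q y = u → f y = f' y) :
    F.fnorm u f = F.fnorm u f' := by
  unfold FSp.fnorm
  rw [F.fint_eq, F.fint_eq]
  refine lintegral_congr fun τ => F.fsum_congr (fun y hy => ?_) τ
  rw [h y hy]

theorem FSp.fnorm_zero {u : X} {f : Y → ℂ} (h : ∀ y, F.q y = u → f y = 0) :
    F.fnorm u f = 0 := by
  rw [F.fnorm_congr (f' := fun _ => 0) h, FSp.fnorm, F.fint_eq]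
  simp [FSp.fsum]

end fibre

section down

variable {m k d : ℕ} {S Y : Type*} [TopologicalSpace S] [RDom m S] [TopologicalSpace Y]
  {Q : Punc S k} (F : FSp (m + 1) d (Tot Q) Y)

open Classical in
/-- the fibre integral over `(s, x)`, zero at the punctures -/
def fD (s : S) (g : Y → ℝ≥0∞) (x : ℂ) : ℝ≥0∞ :=
  if h : x ∉ Q.A s then F.fint (Tot.mk Q s x h) g else 0

theorem down_q (y : Y) : F.down.q y = (F.q y).1.1 := rfl

theorem down_t (y : Y) : F.down.t y = Fin.cons (F.q y).1.2 (F.t y) := rfl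

theorem q_eq_mk {y : Y} {s : S} {x : ℂ} {h : x ∉ Q.A s} :
    F.q y = Tot.mk Q s x h ↔ (F.q y).1.1 = s ∧ (F.q y).1.2 = x := by
  constructor
  · intro h1; rw [h1]; exact ⟨rfl, rfl⟩
  · rintro ⟨h1, h2⟩; exact Tot.ext' h1 h2

theorem fsum_down {s : S} {x : ℂ} (h : x ∉ Q.A s) (g : Y → ℝ≥0∞) (τ : Fin d → ℂ) :
    F.down.fsum s g (Fin.cons x τ) = F.fsum (Tot.mk Q s x h) g τ := by
  unfold FSp.fsum
  have hp : ∀ y : Y, (F.down.q y = s ∧ F.down.t y = Fin.cons x τ) ↔
      (F.q y = Tot.mk Q s x h ∧ F.t y = τ) := by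
    intro y
    rw [q_eq_mk, down_q, down_t, Fin.cons_inj]
    tauto
  exact ((Equiv.subtypeEquivRight hp).tsum_eq (fun y => g y.1)).symm ▸ rfl

theorem fsum_down_zero {s : S} {x : ℂ} (h : x ∈ Q.A s) (g : Y → ℝ≥0∞) (τ : Fin d → ℂ) :
    F.down.fsum s g (Fin.cons x τ) = 0 := by
  unfold FSp.fsum
  rw [ENNReal.tsum_eq_zero]
  rintro ⟨y, hy1, hy2⟩
  exfalso
  rw [down_t, Fin.cons_inj] at hy2
  have := (F.q y).2
  rw [hy2.1, ← down_q, hy1] at this
  exact this h

theorem fD_eq (s : S) (g : Y → ℝ≥0∞) (x : ℂ) :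
    fD F s g x = ∫⁻ τ : Fin d → ℂ, F.down.fsum s g (Fin.cons x τ) := by
  by_cases h : x ∈ Q.A s
  · rw [fD, dif_neg (fun h2 => h2 h)]
    simp only [fsum_down_zero F h, lintegral_zero]
  · rw [fD, dif_pos h, F.fint_eq]
    refine lintegral_congr fun τ => ?_
    rw [fsum_down F h]

theorem piFin_symm (x : ℂ) (τ : Fin d → ℂ) :
    (MeasurableEquiv.piFinSuccAbove (fun _ : Fin (d + 1) => ℂ) 0).symm (x, τ) = Fin.cons x τ := by
  rw [← Fin.insertNth_zero']
  rfl

theorem measurable_fD {s : S} {g : Y → ℝ≥0∞} (hg : Measurable (F.down.fsum s g)) :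
    Measurable (fD F s g) := by
  have h1 : fD F s g = fun x => ∫⁻ τ : Fin d → ℂ, F.down.fsum s g
      ((MeasurableEquiv.piFinSuccAbove (fun _ : Fin (d + 1) => ℂ) 0).symm (x, τ)) := by
    funext x
    rw [fD_eq]
    simp only [piFin_symm]
  rw [h1]
  have hm : Measurable fun p : ℂ × (Fin d → ℂ) => F.down.fsum s g
      ((MeasurableEquiv.piFinSuccAbove (fun _ : Fin (d + 1) => ℂ) 0).symm p) :=
    hg.comp (MeasurableEquiv.measurable _)
  exact hm.lintegral_prod_right'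

/-- **Tonelli** -/
theorem fint_down {s : S} {g : Y → ℝ≥0∞} (hg : Measurable (F.down.fsum s g)) :
    F.down.fint s g = ∫⁻ x, fD F s g x := by
  rw [F.down.fint_eq]
  have hmp := (volume_preserving_piFinSuccAbove (fun _ : Fin (d + 1) => ℂ) 0).symm
  have hm : Measurable fun p : ℂ × (Fin d → ℂ) => F.down.fsum s g
      ((MeasurableEquiv.piFinSuccAbove (fun _ : Fin (d + 1) => ℂ) 0).symm p) :=
    hg.comp (MeasurableEquiv.measurable _)
  rw [← hmp.lintegral_comp hg, Measure.volume_eq_prod, lintegral_prod _ hm.aemeasurable]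
  refine lintegral_congr fun x => ?_
  rw [fD_eq]
  simp only [piFin_symm]

/-- `F.pc` and `F.down.pc` differ by a linear isomorphism -/
theorem pb_down {f : Y → ℂ} {y : Y} : PB F.down.pc f y ↔ PB F.pc f y := by
  constructor
  · rintro ⟨g, hg, h1⟩
    let L : (Fin (m + 1) → ℂ) × (Fin d → ℂ) → (Fin m → ℂ) × (Fin (d + 1) → ℂ) :=
      fun p => (Fin.tail p.1, Fin.cons (p.1 0) p.2)
    have hL : ∀ y', L (F.pc y') = F.down.pc y' := fun y' => by
      show (Fin.tail (Fin.cons (F.q y').1.2 (cp (F.q y').1.1) : Fin (m + 1) → ℂ), _) = _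
      rw [Fin.tail_cons]
      rfl
    have hLa : AnalyticAt ℂ L (F.pc y) := by
      refine AnalyticAt.prod ?_ ?_
      · refine AnalyticAt.pi fun i => ?_
        exact ((ContinuousLinearMap.proj (R := ℂ) (φ := fun _ : Fin (m + 1) => ℂ) i.succ).comp
          (ContinuousLinearMap.fst ℂ _ (Fin d → ℂ))).analyticAt _
      · refine AnalyticAt.pi (Fin.cases ?_ fun i => ?_)
        · exact ((ContinuousLinearMap.proj (R := ℂ) (φ := fun _ : Fin (m + 1) => ℂ) 0).comp
            (ContinuousLinearMap.fst ℂ _ (Fin d → ℂ))).analyticAt _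
        · exact ((ContinuousLinearMap.proj (R := ℂ) (φ := fun _ : Fin d => ℂ) i).comp
            (ContinuousLinearMap.snd ℂ (Fin (m + 1) → ℂ) _)).analyticAt _
    refine ⟨g ∘ L, ?_, ?_⟩
    · refine AnalyticAt.comp ?_ hLa
      rw [hL]; exact hg
    · filter_upwards [h1] with y' hy'
      rw [Function.comp_apply, hL, hy']
  · rintro ⟨g, hg, h1⟩
    let L : (Fin m → ℂ) × (Fin (d + 1) → ℂ) → (Fin (m + 1) → ℂ) × (Fin d → ℂ) :=
      fun p => (Fin.cons (p.2 0) p.1, Fin.tail p.2)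
    have hL : ∀ y', L (F.down.pc y') = F.pc y' := fun y' => by
      show ((Fin.cons (F.q y').1.2 (cp (F.q y').1.1) : Fin (m + 1) → ℂ),
        Fin.tail (Fin.cons (F.q y').1.2 (F.t y') : Fin (d + 1) → ℂ)) = _
      rw [Fin.tail_cons]
      rfl
    have hLa : AnalyticAt ℂ L (F.down.pc y) := by
      refine AnalyticAt.prod ?_ ?_
      · refine AnalyticAt.pi (Fin.cases ?_ fun i => ?_)
        · exact ((ContinuousLinearMap.proj (R := ℂ) (φ := fun _ : Fin (d + 1) => ℂ) 0).comp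
            (ContinuousLinearMap.snd ℂ (Fin m → ℂ) _)).analyticAt _
        · exact ((ContinuousLinearMap.proj (R := ℂ) (φ := fun _ : Fin m => ℂ) i).comp
            (ContinuousLinearMap.fst ℂ _ (Fin (d + 1) → ℂ))).analyticAt _
      · refine AnalyticAt.pi fun i => ?_
        exact ((ContinuousLinearMap.proj (R := ℂ) (φ := fun _ : Fin (d + 1) => ℂ) i.succ).comp
          (ContinuousLinearMap.snd ℂ (Fin m → ℂ) _)).analyticAt _
    refine ⟨g ∘ L, ?_, ?_⟩
    · refine AnalyticAt.comp ?_ hLa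
      rw [hL]; exact hg
    · filter_upwards [h1] with y' hy'
      rw [Function.comp_apply, hL, hy']

end down

section ep

variable {E : Type*} [TopologicalSpace E] [MeasurableSpace E] {Y : Type*} {ρ : ℕ}

/-- THE EVALUATION-POINT ARGUMENT (version with sections). -/
theorem ep_core' {μ : Measure E} [μ.IsOpenPosMeasure] {π : Y → E} {Df : Y → Prop} {f : Y → ℂ}
    {φ : Fin ρ → Y → ℂ} {σ : Fin ρ → E → Y} {U : Set E} (hU : IsOpen U)
    (hσ : ∀ j, ∀ x ∈ U, Df (σ j x) ∧ π (σ j x) = x)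
    (hfσ : ∀ j, ∀ x ∈ U, ContinuousAt (fun x => f (σ j x)) x)
    (hφσ : ∀ j k, ∀ x ∈ U, ContinuousAt (fun x => φ k (σ j x)) x)
    (hdet : ∀ x ∈ U, (evM φ σ x).det ≠ 0)
    (hsec : ∀ y, Df y → π y ∈ U → ∃ τ : E → Y, τ (π y) = y ∧
      (∀ᶠ x in 𝓝 (π y), Df (τ x) ∧ π (τ x) = x) ∧ ContinuousAt (fun x => f (τ x)) (π y) ∧
      ∀ k, ContinuousAt (fun x => φ k (τ x)) (π y))
    (hae : ∀ᵐ x ∂μ, x ∈ U → ∃ c : Fin ρ → ℂ, ∀ y, Df y → π y = x → f y = ∑ k, c k * φ k y) :
    ∀ x ∈ U, ∀ y, Df y → π y = x → f y = ∑ k, evC f φ σ x k * φ k y := by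
  have hcc : ∀ x ∈ U, ∀ k, ContinuousAt (fun x => evC f φ σ x k) x := fun x hx k =>
    (cl_continuousAt x).evC (hdet x hx) (fun j k => hφσ j k x hx) (fun j => hfσ j x hx) k
  rintro x hx y hDy rfl
  by_contra hne
  obtain ⟨τ, h0, h1, h2, h3⟩ := hsec y hDy hx
  have hF : ContinuousAt (fun x => f (τ x) - ∑ k, evC f φ σ x k * φ k (τ x)) (π y) := by
    refine h2.sub ?_
    exact tendsto_finsetSum _ fun k _ => (hcc _ hx k).mul (h3 k)
  have hF0 : f (τ (π y)) - ∑ k, evC f φ σ (π y) k * φ k (τ (π y)) ≠ 0 := by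
    rw [h0]; exact sub_ne_zero.2 hne
  have hev : ∀ᶠ x in 𝓝 (π y), x ∈ U ∧ (Df (τ x) ∧ π (τ x) = x) ∧
      f (τ x) - ∑ k, evC f φ σ x k * φ k (τ x) ≠ 0 :=
    (hU.eventually_mem hx).and (h1.and (hF.eventually_ne hF0))
  obtain ⟨W, hW, hWo, hW0⟩ := mem_nhds_iff.1 hev
  have hnull : μ W = 0 := by
    refine measure_mono_null ?_ hae
    intro x hxW hc
    obtain ⟨hxU, ⟨hD, hp⟩, hx0⟩ := hW hxW
    obtain ⟨c, hc⟩ := hc hxU
    apply hx0
    have h5 : evC f φ σ x = c := by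
      have h6 : (fun j => f (σ j x)) = (evM φ σ x) *ᵥ c := by
        funext j
        rw [hc _ (hσ j x hxU).1 (hσ j x hxU).2]
        simp only [evM, Matrix.mulVec, dotProduct, Matrix.of_apply]
        exact Finset.sum_congr rfl fun k _ => mul_comm _ _
      rw [evC, h6, Matrix.mulVec_mulVec,
        Matrix.nonsing_inv_mul _ (isUnit_iff_ne_zero.2 (hdet x hxU)), Matrix.one_mulVec]
    rw [h5, ← hc _ hD hp, sub_self]
  have := hWo.eq_empty_of_measure_zero hnull
  rw [this] at hW0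
  exact hW0

end ep

end Crest.Agent.R276.Top8_815
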