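import Crest.Agent.R276.Top8e_815

/-!
# Row 276, IPC step (8): sections of the top piece over a fibre (helper815)

* `PVHS.Top` is a vector space; `cl` is injective on it;
* local sections of `Y` over the fibre; analyticity along the fibre.
-/

set_option autoImplicit false
set_option linter.unusedSectionVars false

noncomputable section

open Set Filter Topology MeasureTheory Matrix
open Crest.Agent.R271.Ho51 Crest.Agent.R276.Ipc735
open scoped ENNReal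

namespace Crest.Agent.R276.Top8_815

/-! ### `PVHS` -/

section pvhs

variable {A : Finset ℂ} {N w : ℕ} (R : PVHS A N w)

/-- values in the top piece -/
def TopE (f : ℂ → Fin N → ℂ) : Prop := ∀ z ∉ A, IsTop w (R.E z) (f z)

variable {R}

theorem nsq_eq {f : ℂ → Fin N → ℂ} (hf : TopE R f) {z : ℂ} (hz : z ∉ A) :
    R.nsq f z = (-1 : ℝ) ^ w * (star (f z) ⬝ᵥ R.S z *ᵥ f z).re :=
  re_hodge_top (hf z hz)

theorem nsq_nonneg {f : ℂ → Fin N → ℂ} (hf : TopE R f) {z : ℂ} (hz : z ∉ A) :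
    0 ≤ R.nsq f z := by
  by_cases h0 : f z = 0
  · rw [PVHS.nsq, h0]; simp
  · exact (re_hodge_pos (R.hs z hz) (hf z hz) h0).le

theorem eq_zero_of_nsq {f : ℂ → Fin N → ℂ} (hf : TopE R f) {z : ℂ} (hz : z ∉ A)
    (h : R.nsq f z = 0) : f z = 0 := by
  by_contra h0
  have := re_hodge_pos (R.hs z hz) (hf z hz) h0
  exact absurd h (ne_of_gt this)

theorem star_quad (C S : Matrix (Fin N) (Fin N) ℂ) (v : Fin N → ℂ) :
    star v ⬝ᵥ (Cᴴ * S * C) *ᵥ v = star (C *ᵥ v) ⬝ᵥ S *ᵥ (C *ᵥ v) := by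
  rw [← mulVec_mulVec, ← mulVec_mulVec, dotProduct_mulVec (star v) Cᴴ, ← star_mulVec]

theorem continuous_quad (S : Matrix (Fin N) (Fin N) ℂ) :
    Continuous fun v : Fin N → ℂ => (star v ⬝ᵥ S *ᵥ v).re := by
  refine Complex.continuous_re.comp ?_
  simp only [dotProduct, mulVec]
  fun_prop

theorem isOpen_compl (A : Finset ℂ) : IsOpen ((A : Set ℂ)ᶜ) := A.finite_toSet.isClosed.isOpen_compl

theorem eventually_not_mem (A : Finset ℂ) {z : ℂ} (hz : z ∉ A) : ∀ᶠ x in 𝓝 z, x ∉ A := by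
  have := (isOpen_compl A).mem_nhds (show z ∈ ((A : Set ℂ)ᶜ) by simpa using hz)
  exact this

theorem continuousAt_nsq {f : ℂ → Fin N → ℂ} (hf : TopE R f) (hh : R.Ho f) {z : ℂ} (hz : z ∉ A) :
    ContinuousAt (R.nsq f) z := by
  have h1 : R.nsq f =ᶠ[𝓝 z] fun y => (-1 : ℝ) ^ w *
      (star (lV R.P f z y) ⬝ᵥ R.S z *ᵥ lV R.P f z y).re := by
    filter_upwards [eventually_not_mem A hz, R.flatS z hz] with y hy hS
    rw [nsq_eq hf hy, hS, star_quad]
    rfl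
  refine ContinuousAt.congr ?_ h1.symm
  have h2 : ContinuousAt (lV R.P f z) z := (hh z hz).continuousAt
  exact continuousAt_const.mul (ContinuousAt.comp (g := fun v : Fin N → ℂ =>
    (star v ⬝ᵥ R.S z *ᵥ v).re) (continuous_quad (R.S z)).continuousAt h2)

theorem continuousOn_nsq {f : ℂ → Fin N → ℂ} (hf : TopE R f) (hh : R.Ho f) :
    ContinuousOn (R.nsq f) ((A : Set ℂ)ᶜ) := fun z hz =>
  (continuousAt_nsq hf hh (by simpa using hz)).continuousWithinAt

theorem TopE.add {f g : ℂ → Fin N → ℂ} (hf : TopE R f) (hg : TopE R g) : TopE R (f + g) :=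
  fun z hz => isTop_add (hf z hz) (hg z hz)

theorem TopE.smul {f : ℂ → Fin N → ℂ} (c : ℂ) (hf : TopE R f) : TopE R (c • f) :=
  fun z hz => isTop_smul c (hf z hz)

theorem lV_add (P : ℂ → ℂ → GL (Fin N) ℤ) (f g : ℂ → Fin N → ℂ) (z : ℂ) :
    lV P (f + g) z = fun y => lV P f z y + lV P g z y := by
  funext y
  simp only [lV, Pi.add_apply, mulVec_add]

theorem lV_smul (P : ℂ → ℂ → GL (Fin N) ℤ) (c : ℂ) (f : ℂ → Fin N → ℂ) (z : ℂ) :
    lV P (c • f) z = fun y => c • lV P f z y := by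
  funext y
  simp only [lV, Pi.smul_apply, mulVec_smul]

theorem ho_add {f g : ℂ → Fin N → ℂ} (hf : R.Ho f) (hg : R.Ho g) : R.Ho (f + g) := by
  intro z hz
  rw [lV_add]
  exact (hf z hz).add (hg z hz)

theorem ho_smul {f : ℂ → Fin N → ℂ} (c : ℂ) (hf : R.Ho f) : R.Ho (c • f) := by
  intro z hz
  rw [lV_smul]
  exact AnalyticAt.smul (f := fun _ : ℂ => c) analyticAt_const (hf z hz)

theorem nsq_smul (c : ℂ) (f : ℂ → Fin N → ℂ) (z : ℂ) :
    R.nsq (c • f) z = ‖c‖ ^ 2 * R.nsq f z := by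
  simp only [PVHS.nsq, Pi.smul_apply, mulVec_smul, star_smul, smul_dotProduct, dotProduct_smul,
    smul_eq_mul]
  have : c * (star c * (star (f z) ⬝ᵥ R.H z *ᵥ f z)) = ((‖c‖ ^ 2 : ℝ) : ℂ) *
      (star (f z) ⬝ᵥ R.H z *ᵥ f z) := by
    rw [← mul_assoc]
    congr 1
    rw [Complex.star_def, Complex.mul_conj, Complex.normSq_eq_norm_sq]
  rw [this, Complex.re_ofReal_mul]

theorem nsq_parallelogram (f g : ℂ → Fin N → ℂ) (z : ℂ) :
    R.nsq (f + g) z + R.nsq (f + (-1 : ℂ) • g) z = 2 * R.nsq f z + 2 * R.nsq g z := by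
  simp only [PVHS.nsq, Pi.add_apply, Pi.smul_apply, star_add, star_smul, mulVec_add, mulVec_smul,
    add_dotProduct, dotProduct_add, smul_dotProduct, dotProduct_smul, Complex.add_re, smul_eq_mul]
  simp only [star_neg, star_one, neg_mul, one_mul, Complex.neg_re, Complex.add_re, neg_neg,
    mul_add, mul_neg]
  ring

theorem nsq_add_le {f g : ℂ → Fin N → ℂ} (hf : TopE R f) (hg : TopE R g) {z : ℂ} (hz : z ∉ A) :
    R.nsq (f + g) z ≤ 2 * R.nsq f z + 2 * R.nsq g z := by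
  rw [← nsq_parallelogram]
  have := nsq_nonneg (hf.add (hg.smul (-1 : ℂ))) hz
  linarith

theorem measurableSet_compl (A : Finset ℂ) : MeasurableSet ((A : Set ℂ)ᶜ) :=
  (isOpen_compl A).measurableSet

theorem top_add {f g : ℂ → Fin N → ℂ} (hf : R.Top f) (hg : R.Top g) : R.Top (f + g) where
  zero z hz := by rw [Pi.add_apply, hf.zero z hz, hg.zero z hz, add_zero]
  eig := TopE.add (R := R) hf.eig hg.eig
  hol := ho_add hf.hol hg.hol
  int := by
    have h1 : TopE R (f + g) := TopE.add (R := R) hf.eig hg.eig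
    refine Integrable.mono' ((hf.int.const_mul 2).add (hg.int.const_mul 2)) ?_ ?_
    · exact (continuousOn_nsq h1 (ho_add hf.hol hg.hol)).aestronglyMeasurable
        (measurableSet_compl A)
    · refine ae_restrict_of_forall_mem (measurableSet_compl A) fun z hz => ?_
      have hz' : z ∉ A := by simpa using hz
      rw [Real.norm_of_nonneg (nsq_nonneg h1 hz')]
      exact nsq_add_le hf.eig hg.eig hz'

theorem top_smul {f : ℂ → Fin N → ℂ} (c : ℂ) (hf : R.Top f) : R.Top (c • f) where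
  zero z hz := by rw [Pi.smul_apply, hf.zero z hz, smul_zero]
  eig := TopE.smul (R := R) c hf.eig
  hol := ho_smul c hf.hol
  int := by
    have h1 : R.nsq (c • f) = fun z => ‖c‖ ^ 2 * R.nsq f z := funext fun z => nsq_smul c f z
    rw [h1]
    exact hf.int.const_mul _

/-- a top section of norm zero vanishes -/
theorem top_eq_zero {f : ℂ → Fin N → ℂ} (hf : R.Top f)
    (h : ∫ z in ((A : Set ℂ)ᶜ), R.nsq f z = 0) : f = 0 := by
  have hE : TopE R f := hf.eig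
  have h0 : 0 ≤ᵐ[volume.restrict ((A : Set ℂ)ᶜ)] R.nsq f :=
    ae_restrict_of_forall_mem (measurableSet_compl A) fun z hz =>
      nsq_nonneg hE (by simpa using hz)
  have h1 := (integral_eq_zero_iff_of_nonneg_ae h0 hf.int).1 h
  have h2 : EqOn (R.nsq f) (fun _ => (0 : ℝ)) ((A : Set ℂ)ᶜ) :=
    Measure.eqOn_open_of_ae_eq h1 (isOpen_compl A) (continuousOn_nsq hE hf.hol) continuousOn_const
  funext z
  by_cases hz : z ∈ A
  · exact hf.zero z hz
  · exact eq_zero_of_nsq hE hz (h2 (by simpa using hz))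

end pvhs

/-! ### the fibre over `s` -/

section fib

variable {m k N N' w d : ℕ} {S Y : Type*} [TopologicalSpace S] [RDom m S] [TopologicalSpace Y]
  {Q : Punc S k} {V : VHS (m + 1) (Tot Q) N w} {W : VHS m S N' (w + 1)}
  {R : ∀ s : S, PVHS (Q.A s) N w} {cl : ∀ _ : S, (ℂ → Fin N → ℂ) → (Fin N' → ℂ)}
  {F : FSp (m + 1) d (Tot Q) Y} {ι : Tot Q → (Fin N → ℂ) → Y → ℂ}

/-- `cl` is injective on the top sections -/
theorem cl_inj (hst : StepTop Q V W R cl) {s : S} {f g : ℂ → Fin N → ℂ} (hf : (R s).Top f)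
    (hg : (R s).Top g) (h : cl s f = cl s g) : f = g := by
  have h1 : (R s).Top (f + (-1 : ℂ) • g) := top_add hf (top_smul _ hg)
  have h2 : cl s (f + (-1 : ℂ) • g) = 0 := by
    rw [hst.add s f _ hf (top_smul _ hg), hst.smul s _ g hg, h, neg_one_smul, add_neg_cancel]
  have h3 := hst.norm s _ h1
  rw [h2, mulVec_zero, dotProduct_zero, Complex.zero_re] at h3
  have h4 := top_eq_zero h1 h3.symm
  have h5 : f + (-1 : ℂ) • g = 0 := h4
  rw [neg_one_smul, ← sub_eq_add_neg, sub_eq_zero] at h5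
  exact h5

theorem exists_top_of (hst : StepTop Q V W R cl) {s : S} {v : Fin N' → ℂ}
    (hv : IsTop (w + 1) (W.E s) v) : ∃ f, (R s).Top f ∧ cl s f = v := hst.surj s v hv

theorem isTop_cl (hst : StepTop Q V W R cl) {s : S} {f : ℂ → Fin N → ℂ} (hf : (R s).Top f) :
    IsTop (w + 1) (W.E s) (cl s f) := hst.eig s f hf

/-- the value of `down` -/
theorem down_eq (hst : StepTop Q V W R cl) {s : S} {f : ℂ → Fin N → ℂ} (hf : (R s).Top f)
    {v : Fin N' → ℂ} (hv : cl s f = v) (y : Y) :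
    down R cl F ι s v y = ι (F.q y) (f (F.q y).1.2) y := by
  have h : ∃ f, (R s).Top f ∧ cl s f = v := ⟨f, hf, hv⟩
  rw [down, dif_pos h]
  have h1 := cl_inj hst h.choose_spec.1 hf (h.choose_spec.2.trans hv.symm)
  rw [h1]

theorem isTop_of_top (hst : StepTop Q V W R cl) {s : S} {f : ℂ → Fin N → ℂ} (hf : (R s).Top f)
    {q : Tot Q} (hq : q.1.1 = s) : IsTop w (V.E q) (f q.1.2) := by
  subst hq
  have h1 := hf.eig q.1.2 q.2
  rw [(hst.res _).E, rM_of V.E q.2] at h1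
  exact h1

theorem hnsq_eq (hst : StepTop Q V W R cl) {s : S} {x : ℂ} (hx : x ∉ Q.A s)
    (f : ℂ → Fin N → ℂ) : hnsq V (Tot.mk Q s x hx) (f x) = (R s).nsq f x := by
  rw [PVHS.nsq, PVHS.H, (hst.res s).E, (hst.res s).S, rM_of V.E hx, rM_of V.S hx]
  rfl

/-- transports of the restriction -/
theorem lV_res (hst : StepTop Q V W R cl) {s : S} {x₀ x : ℂ} (hx₀ : x₀ ∉ Q.A s) (hx : x ∉ Q.A s)
    (f : ℂ → Fin N → ℂ) :
    lV (R s).P f x₀ x = cm (V.P (Tot.mk Q s x₀ hx₀) (Tot.mk Q s x hx)) *ᵥ f x := by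
  rw [lV, (hst.res s).P, rP_of V.P hx₀ hx]

/-! ### realisations: uniqueness and sums -/

section rz

variable {n : ℕ} {X : Type*} [TopologicalSpace X] [RDom n X] {V₁ : VHS n X N w}
  {F₁ : FSp n d X Y} {ι₁ : X → (Fin N → ℂ) → Y → ℂ}

theorem Rz.zero (hR : Rz V₁ F₁ ι₁) {u : X} {y : Y} (hy : F₁.q y = u) : ι₁ u 0 y = 0 := by
  have := hR.smul u 0 0 isTop_zero y hy
  rwa [zero_smul, zero_mul] at this

theorem Rz.sum (hR : Rz V₁ F₁ ι₁) {u : X} {κ : Type*} (s : Finset κ) {v : κ → Fin N → ℂ}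
    (c : κ → ℂ) (hv : ∀ i ∈ s, IsTop w (V₁.E u) (v i)) {y : Y} (hy : F₁.q y = u) :
    ι₁ u (∑ i ∈ s, c i • v i) y = ∑ i ∈ s, c i * ι₁ u (v i) y := by
  classical
  induction s using Finset.induction_on with
  | empty => simpa using hR.zero hy
  | insert a s ha ih =>
      have h1 : ∀ i ∈ s, IsTop w (V₁.E u) (v i) := fun i hi => hv i (Finset.mem_insert_of_mem hi)
      have h2 := hv a (Finset.mem_insert_self a s)
      rw [Finset.sum_insert ha, Finset.sum_insert ha, hR.add u _ _ (isTop_smul _ h2)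
        (isTop_sum s fun i hi => isTop_smul _ (h1 i hi)) y hy, hR.smul u _ _ h2 y hy, ih h1]

/-- a top vector is determined by its realisation -/
theorem Rz.inj (hR : Rz V₁ F₁ ι₁) {u : X} {v v' : Fin N → ℂ} (hv : IsTop w (V₁.E u) v)
    (hv' : IsTop w (V₁.E u) v') (h : ∀ y, F₁.q y = u → ι₁ u v y = ι₁ u v' y) : v = v' := by
  have h1 : IsTop w (V₁.E u) (v + (-1 : ℂ) • v') := isTop_add hv (isTop_smul _ hv')
  have h2 := hR.norm u _ h1
  rw [F₁.fnorm_zero] at h2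
  · by_contra hne
    have h3 : v + (-1 : ℂ) • v' ≠ 0 := by
      rw [neg_one_smul, ← sub_eq_add_neg]
      exact sub_ne_zero.2 hne
    have h4 : 0 < hnsq V₁ u (v + (-1 : ℂ) • v') := re_hodge_pos (V₁.hs u) h1 h3
    have h5 := ENNReal.ofReal_pos.2 h4
    rw [← h2] at h5
    exact lt_irrefl _ h5
  · intro y hy
    rw [hR.add u _ _ hv (isTop_smul _ hv') y hy, hR.smul u _ _ hv' y hy, h y hy]
    ring

/-- frame functions are analytic -/
theorem Rz.frame_pb (hR : Rz V₁ F₁ ι₁) {u₀ : X} {e : X → Fin N → ℂ}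
    (he : HolAt (lV V₁.P e u₀) u₀) (ht : ∀ᶠ u in 𝓝 u₀, IsTop w (V₁.E u) (e u)) :
    ∀ᶠ u in 𝓝 u₀, ∀ y, F₁.q y = u → PB F₁.pc (fun y' => ι₁ (F₁.q y') (e (F₁.q y')) y') y := by
  filter_upwards [holAt_lV_eventually V₁.ndc he, ht.eventually_nhds] with u h1 h2 y hy
  exact hR.hol1 u e h1 h2 y hy

end rz

/-! ### sections and analyticity along the fibre -/

theorem acons {m : ℕ} (c : Fin m → ℂ) (x : ℂ) :
    AnalyticAt ℂ (fun x : ℂ => (Fin.cons x c : Fin (m + 1) → ℂ)) x := by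
  refine AnalyticAt.pi (Fin.cases ?_ fun i => ?_)
  · exact analyticAt_id
  · exact analyticAt_const

theorem continuousAt_fib {s : S} {x₀ x : ℂ} (hx₀ : x₀ ∉ Q.A s) (hx : x ∉ Q.A s) :
    ContinuousAt (fib Q s x₀ hx₀) x := by
  refine (fib_cont hx).congr ?_
  filter_upwards [eventually_not_mem _ hx] with y hy
  rw [fib_of hx hy, fib_of hx₀ hy]

theorem analyticAt_fib {G : Type*} [NormedAddCommGroup G] [NormedSpace ℂ G] {g : Tot Q → G}
    {s : S} {x₀ : ℂ} (hx₀ : x₀ ∉ Q.A s) (hg : HolAt g (Tot.mk Q s x₀ hx₀)) :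
    AnalyticAt ℂ (fun x => g (fib Q s x₀ hx₀ x)) x₀ := by
  obtain ⟨G', hG, h1⟩ := holAt_iff.1 hg
  have h2 : AnalyticAt ℂ (fun x : ℂ => G' (Fin.cons x (cp s))) x₀ :=
    AnalyticAt.comp (g := G') hG (acons (cp s) x₀)
  refine h2.congr ?_
  have h3 := fib_cont hx₀
  rw [ContinuousAt, fib_of hx₀ hx₀] at h3
  filter_upwards [h3.eventually h1, eventually_not_mem _ hx₀] with x hx hx2
  rw [hx, fib_of hx₀ hx2]
  rfl

/-- a section of `Y` over the fibre over `s` with constant coordinates `t` -/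
theorem exists_xsec (F : FSp (m + 1) d (Tot Q) Y) (y₀ : Y) : ∃ σ : ℂ → Y,
    σ (F.q y₀).1.2 = y₀ ∧ ∀ᶠ x in 𝓝 (F.q y₀).1.2, ContinuousAt σ x ∧
      (F.q (σ x)).1.1 = (F.q y₀).1.1 ∧ (F.q (σ x)).1.2 = x ∧ F.t (σ x) = F.t y₀ := by
  obtain ⟨τs, h0, h1⟩ := F.exists_sec y₀
  set s := (F.q y₀).1.1 with hs
  set x₀ := (F.q y₀).1.2 with hx
  have hx₀ : x₀ ∉ Q.A s := (F.q y₀).2
  have hf0 : fib Q s x₀ hx₀ x₀ = F.q y₀ := by rw [fib_of hx₀ hx₀]; rfl
  have hc : Tendsto (fun x => (fib Q s x₀ hx₀ x, F.t y₀)) (𝓝 x₀) (𝓝 (F.q y₀, F.t y₀)) := by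
    have h2 := fib_cont hx₀
    rw [ContinuousAt, hf0] at h2
    exact h2.prodMk_nhds tendsto_const_nhds
  refine ⟨fun x => τs (fib Q s x₀ hx₀ x, F.t y₀), ?_, ?_⟩
  · show τs (fib Q s x₀ hx₀ x₀, F.t y₀) = y₀
    rw [hf0]; exact h0
  · filter_upwards [hc.eventually h1, eventually_not_mem _ hx₀] with x h2 hxA
    obtain ⟨h3, h4, h5⟩ := h2
    refine ⟨?_, ?_, ?_, h5⟩
    · exact ContinuousAt.comp (g := τs) h3
        ((continuousAt_fib hx₀ hxA).prodMk continuousAt_const)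
    · rw [h4, fib_of hx₀ hxA]; rfl
    · rw [h4, fib_of hx₀ hxA]; rfl

theorem pc_over {s : S} {y : Y} (hy : (F.q y).1.1 = s) :
    F.pc y = (Fin.cons (F.q y).1.2 (cp s), F.t y) := by
  subst hy; rfl

theorem PB.continuousAt {E : Type*} [NormedAddCommGroup E] [NormedSpace ℂ E] {p : Y → E}
    (hp : Continuous p) {f : Y → ℂ} {y : Y} (h : PB p f y) : ContinuousAt f y := by
  obtain ⟨g, hg, h1⟩ := h
  have h2 : ContinuousAt (fun y' => g (p y')) y :=
    ContinuousAt.comp (g := g) hg.continuousAt hp.continuousAt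
  exact h2.congr (h1.mono fun _ h => h.symm)

/-- a `PB` function along a section -/
theorem PB.along {y₀ : Y} {σ : ℂ → Y} {φ : Y → ℂ} (hφ : PB F.pc φ y₀)
    (h0 : σ (F.q y₀).1.2 = y₀)
    (h1 : ∀ᶠ x in 𝓝 (F.q y₀).1.2, ContinuousAt σ x ∧
      (F.q (σ x)).1.1 = (F.q y₀).1.1 ∧ (F.q (σ x)).1.2 = x ∧ F.t (σ x) = F.t y₀) :
    AnalyticAt ℂ (fun x => φ (σ x)) (F.q y₀).1.2 := by
  obtain ⟨g, hg, h2⟩ := hφ
  have hpc : F.pc y₀ = (Fin.cons (F.q y₀).1.2 (cp (F.q y₀).1.1), F.t y₀) := pc_over rfl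
  rw [hpc] at hg
  have h3 : AnalyticAt ℂ (fun x : ℂ => g (Fin.cons x (cp (F.q y₀).1.1), F.t y₀))
      (F.q y₀).1.2 := AnalyticAt.comp (g := g) hg ((acons _ _).prod analyticAt_const)
  refine h3.congr ?_
  have h4 : Tendsto σ (𝓝 (F.q y₀).1.2) (𝓝 y₀) := by
    have := h1.self_of_nhds.1
    rwa [ContinuousAt, h0] at this
  filter_upwards [h1, h4.eventually h2] with x hx hx2
  rw [hx2, pc_over hx.2.1, hx.2.2.1, hx.2.2.2]

/-- a function holomorphic on the fibre over `s` along a section -/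
theorem fh_along {f : Y → ℂ} {y₀ : Y} {σ : ℂ → Y} (hf : F.down.FH (F.q y₀).1.1 f)
    (h0 : σ (F.q y₀).1.2 = y₀)
    (h1 : ∀ᶠ x in 𝓝 (F.q y₀).1.2, ContinuousAt σ x ∧
      (F.q (σ x)).1.1 = (F.q y₀).1.1 ∧ (F.q (σ x)).1.2 = x ∧ F.t (σ x) = F.t y₀) :
    AnalyticAt ℂ (fun x => f (σ x)) (F.q y₀).1.2 := by
  obtain ⟨g, hg, h2⟩ := hf y₀ rfl
  rw [down_t] at hg
  have h3 : AnalyticAt ℂ (fun x : ℂ => g (Fin.cons x (F.t y₀))) (F.q y₀).1.2 :=
    AnalyticAt.comp (g := g) hg (acons _ _)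
  refine h3.congr ?_
  have h4 : Tendsto σ (𝓝 (F.q y₀).1.2) (𝓝 y₀) := by
    have := h1.self_of_nhds.1
    rwa [ContinuousAt, h0] at this
  filter_upwards [h1, h4.eventually h2] with x hx hx2
  rw [hx2 hx.2.1, down_t, hx.2.2.1, hx.2.2.2]

/-- restriction to a fibre of the total space -/
theorem fh_of_down {f : Y → ℂ} {s : S} (hf : F.down.FH s f) {x : ℂ} (hx : x ∉ Q.A s) :
    F.FH (Tot.mk Q s x hx) f := by
  intro y hy
  obtain ⟨g, hg, h2⟩ := hf y (by rw [down_q, hy]; rfl)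
  rw [down_t, hy] at hg
  refine ⟨fun τ => g (Fin.cons x τ), ?_, ?_⟩
  · refine AnalyticAt.comp (g := g) hg ?_
    refine AnalyticAt.pi (Fin.cases ?_ fun i => ?_)
    · exact analyticAt_const
    · exact (ContinuousLinearMap.proj (R := ℂ) (φ := fun _ : Fin d => ℂ) i).analyticAt _
  · filter_upwards [h2] with y' h3 hy'
    rw [h3 (by rw [down_q, hy']; rfl), down_t, hy']
    rfl

end fib

end Crest.Agent.R276.Top8_815
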