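import Crest.Agent.R276.TopHolD_735
import Crest.Agent.R276.LocD_454
import Crest.Agent.R276.FamC_563
import Crest.Agent.R276.FamD_563

/-!
# Row 276, IPC-TOPHOL (helper735), part E: `TopPieces` for the concrete pieces

`n3 D : N3 D`, `topPieces V : TopPieces (locPieces V) Q V`.
-/

set_option autoImplicit false
set_option linter.unusedSectionVars false

noncomputable section

open Set Filter Topology MeasureTheory Matrix UniformSpace
open scoped ContDiff ComplexConjugate ENNReal

namespace Crest.Agent.R276.Step_454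

open Crest.Agent.R271.Ho51 Crest.Agent.R276.Ipc735 Crest.Agent.R276.Top3_279
open IpcG1_975 Psi_563 FamA_563 FamB_563 HsB_817 HsC_817 HsE_817 K4b_817 Wcl_175 DR_175 PvO_175
open Nat_591 TopHolD_735 TopE_175

variable {m k N w : ℕ} {S : Type} [TopologicalSpace S] [RDom m S] {Q : Punc S k}

/-- 563's part C -/
theorem n3 {V : Ipc735.VHS (m + 1) (Tot Q) N w} {z : S} (D : LD V z) : N3 D where
  fm := FamC_563.isFm (V.res z)
  n3 x hx P _ y hy v := FamC_563.ty_pull D (half_sub D hx) hy P v

variable [T2Space S] (V : Ipc735.VHS (m + 1) (Tot Q) N w)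

/-- **the trivialisations exist** -/
theorem exists_triv (z : S) : Nonempty ((locPieces V).Triv z) := by
  obtain ⟨D, -⟩ := exists_LD V z (W := univ) univ_mem
  exact ⟨trivOf D (n3 D)⟩

/-- **the top piece** -/
def topPieces : TopPieces (locPieces V) Q V where
  emb s f := emb (pvOf (V.res s)) f
  add s f g hf hg := emb_add' hf hg
  smul s c f hf := TopE_175.emb_smul c (Top.topS hf)
  zc s f hf := TopE_175.emb_zc (Top.topS hf)
  ty s f hf := TopE_175.emb_ty (Top.topS hf)
  surj s u hu ht := emb_surj' hu ht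
  norm s f hf := emb_norm' hf
  hol z := by
    obtain ⟨D, -⟩ := exists_LD V z (W := univ) univ_mem
    refine ⟨trivOf D (n3 D), fun f hf hh v => ?_⟩
    obtain ⟨ζ, hζ⟩ := cW_surj V z v
    refine ⟨((ζ : (pvOf (V.res z)).mb.dbl.H0) : (pvOf (V.res z)).L),
      (pvOf (V.res z)).ZS_mem_Zc ζ.2, ?_, ?_⟩
    · rw [← hζ, ← clV_ZS V z ζ]
      exact (FV V z).clL_eq _
    · exact hol_field D hf hh ζ
  hol' z x₁ hx := by
    obtain ⟨D, -, hK⟩ := FamD_563.exists_LD' V z (W := univ) univ_mem hx
    refine ⟨trivOf D (n3 D), fun f hf hd => ?_⟩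
    exact hol'_field D hx hK hf hd

end Crest.Agent.R276.Step_454
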