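import Crest.Agent.R276.TopHolD_735
import Crest.Agent.R276.LocE_454

/-!
# Row 276, IPC-TOPHOL (helper735), part F: `HolA V`, `HolB V` (the Props of `LocE_454`)
-/

set_option autoImplicit false
set_option linter.unusedSectionVars false

noncomputable section

open Set Filter Topology MeasureTheory Matrix UniformSpace
open scoped ContDiff ComplexConjugate ENNReal

namespace Crest.Agent.R276.TopHolF_735

open Crest.Agent.R271.Ho51 Crest.Agent.R276.Ipc735 Crest.Agent.R276.Top3_279
open IpcG1_975 Psi_563 FamA_563 FamB_563 HsB_817 HsC_817 HsE_817 K4b_817 Wcl_175 DR_175 PvO_175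
open Nat_591 TopHolD_735 TopE_175 Step_454

variable {m k N w : ℕ} {S : Type} [TopologicalSpace S] [RDom m S] {Q : Punc S k}

/-- **`HolA V`** -/
theorem holA [T2Space S] (V : Ipc735.VHS (m + 1) (Tot Q) N w) : Step_454.HolA V :=
  fun _ D _ hf hh ζ => hol_field D hf hh ζ

/-- **`HolB V`** -/
theorem holB [T2Space S] (V : Ipc735.VHS (m + 1) (Tot Q) N w) : Step_454.HolB V :=
  fun _ D _ _ hx hK hf hd => hol'_field D hx hK hf hd

end Crest.Agent.R276.TopHolF_735
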