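import Crest.Agent.R276.Top1_175
import Crest.Agent.R276.IpcDefs_735

/-!
# R276, helper617: GVHS-T, chain transport of a near-diagonal cocycle

* `Gd P U` : open preconnected set on which `P` is a cocycle.
* `Tr P x z g` : `g` transports the fibre at `z` to the fibre at `x` along a chain of `Gd` sets.
* `mon P x` : monodromy group at `x`.
* `Fl P v` : `v` is a flat section of the associated bundle (any `MulAction`).
* `extend` : vectors fixed by the monodromy extend to flat sections.
* `tr_transport`, `exists_path` : comparison with transport along paths.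
* `Tr.map` : functoriality.
-/

set_option autoImplicit false

open Set Topology Filter unitInterval

namespace Crest.Agent.R276.Tr_617

open Crest.Agent.R276.Ipc735 Crest.Agent.R276.Top1_175 Crest.Agent.R271.Ho51

variable {X : Type*} [TopologicalSpace X] {G : Type*} [Group G]

/-- open preconnected set on which `P` is a cocycle -/
structure Gd (P : X → X → G) (U : Set X) : Prop where
  op : IsOpen U
  pc : IsPreconnected U
  mul : ∀ x ∈ U, ∀ y ∈ U, ∀ z ∈ U, P x y * P y z = P x z

/-- chain transport: `Tr P x z g` means that `g` transports the fibre at `z` to the fibre at `x` -/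
inductive Tr (P : X → X → G) : X → X → G → Prop
  | refl (x : X) : Tr P x x 1
  | step {x y z : X} {g : G} {U : Set X} (hU : Gd P U) (hx : x ∈ U) (hy : y ∈ U)
      (h : Tr P y z g) : Tr P x z (P x y * g)

variable {P : X → X → G} {U : Set X} {x y z : X} {g k : G}

namespace Gd

theorem self (h : Gd P U) (hx : x ∈ U) : P x x = 1 := by
  have h1 := h.mul x hx x hx x hx
  exact mul_eq_left.1 h1

theorem mul_swap (h : Gd P U) (hx : x ∈ U) (hy : y ∈ U) : P x y * P y x = 1 := by
  rw [h.mul x hx y hy x hx, h.self hx]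

theorem inv (h : Gd P U) (hx : x ∈ U) (hy : y ∈ U) : (P x y)⁻¹ = P y x :=
  inv_eq_of_mul_eq_one_right (h.mul_swap hx hy)

/-- a function on a good set which is locally constant on it is constant -/
theorem const {α : Type*} (h : Gd P U) (f : X → α) (hf : ∀ z ∈ U, ∀ᶠ y in 𝓝 z, f y = f z)
    (hx : x ∈ U) (hy : y ∈ U) : f x = f y := by
  have hp : PreconnectedSpace U := isPreconnected_iff_preconnectedSpace.1 h.pc
  have hl : IsLocallyConstant (fun x : U => f x) := by
    rw [IsLocallyConstant.iff_eventually_eq]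
    rintro ⟨z, hz⟩
    have hc : Tendsto (Subtype.val : U → X) (𝓝 ⟨z, hz⟩) (𝓝 z) :=
      continuous_subtype_val.continuousAt
    exact hc.eventually (hf z hz)
  exact hl.apply_eq_of_preconnectedSpace ⟨x, hx⟩ ⟨y, hy⟩

end Gd

/-! ### T1: existence of good sets -/

theorem exists_gd [LocallyConnectedSpace X] (h : NDC P) (x : X) {V : Set X} (hV : V ∈ 𝓝 x) :
    ∃ U, Gd P U ∧ x ∈ U ∧ U ⊆ V := by
  obtain ⟨W, hW, hc⟩ := h x
  obtain ⟨U, hUs, hUo, hxU, hUc⟩ :=
    locallyConnectedSpace_iff_subsets_isOpen_isConnected.1 inferInstance x _ (inter_mem hW hV)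
  exact ⟨U, ⟨hUo, hUc.isPreconnected, fun a ha b hb c hc' =>
    hc a (hUs ha).1 b (hUs hb).1 c (hUs hc').1⟩, hxU, fun a ha => (hUs ha).2⟩

/-- the version with an eventual property -/
theorem exists_gd_ev [LocallyConnectedSpace X] (h : NDC P) (x : X) {p : X → Prop}
    (hp : ∀ᶠ y in 𝓝 x, p y) : ∃ U, Gd P U ∧ x ∈ U ∧ ∀ y ∈ U, p y := by
  obtain ⟨U, hU, hx, hs⟩ := exists_gd h x hp
  exact ⟨U, hU, hx, fun y hy => hs hy⟩

/-! ### T2: composition and inverse -/

namespace Tr

theorem one_step (hU : Gd P U) (hx : x ∈ U) (hy : y ∈ U) : Tr P x y (P x y) := by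
  have h := Tr.step hU hx hy (Tr.refl (P := P) y)
  rwa [mul_one] at h

theorem trans (h : Tr P x y g) (h' : Tr P y z k) : Tr P x z (g * k) := by
  induction h with
  | refl x => rwa [one_mul]
  | step hU hx hy _ ih => rw [mul_assoc]; exact Tr.step hU hx hy (ih h')

theorem symm (h : Tr P x y g) : Tr P y x g⁻¹ := by
  induction h with
  | refl x => rw [inv_one]; exact Tr.refl x
  | step hU hx hy _ ih =>
    rw [mul_inv_rev, hU.inv hx hy]
    exact ih.trans (one_step hU hy hx)

theorem congr (h : Tr P x y g) (e : g = k) : Tr P x y k := e ▸ h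

end Tr

/-- near the diagonal the transport is given by `P` -/
theorem tr_near [LocallyConnectedSpace X] (h : NDC P) (z : X) :
    ∀ᶠ y in 𝓝 z, Tr P z y (P z y) ∧ Tr P y z (P y z) ∧ P z y * P y z = 1 := by
  obtain ⟨U, hU, hz, -⟩ := exists_gd h z univ_mem
  filter_upwards [hU.op.mem_nhds hz] with y hy
  exact ⟨Tr.one_step hU hz hy, Tr.one_step hU hy hz, hU.mul_swap hz hy⟩

/-! ### T3: existence of transports -/

theorem exists_tr [PreconnectedSpace X] [LocallyConnectedSpace X] (h : NDC P) (x y : X) :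
    ∃ g, Tr P x y g := by
  have hS : IsClopen {x | ∃ g, Tr P x y g} := by
    constructor
    · rw [← isOpen_compl_iff, isOpen_iff_mem_nhds]
      intro z hz
      filter_upwards [tr_near h z] with a ha
      rintro ⟨g, hg⟩
      exact hz ⟨_, ha.1.trans hg⟩
    · rw [isOpen_iff_mem_nhds]
      rintro z ⟨g, hg⟩
      filter_upwards [tr_near h z] with a ha
      exact ⟨_, ha.2.1.trans hg⟩
  have h1 := hS.eq_univ ⟨y, 1, Tr.refl y⟩
  have h2 : x ∈ {x | ∃ g, Tr P x y g} := by rw [h1]; exact mem_univ x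
  exact h2

/-! ### T4: the monodromy group -/

/-- monodromy group at `x` -/
def mon (P : X → X → G) (x : X) : Subgroup G where
  carrier := {g | Tr P x x g}
  mul_mem' := fun ha hb => Tr.trans ha hb
  one_mem' := Tr.refl x
  inv_mem' := fun ha => Tr.symm ha

theorem mem_mon : g ∈ mon P x ↔ Tr P x x g := Iff.rfl

theorem mon_conj (h : Tr P x y g) : k ∈ mon P y ↔ g * k * g⁻¹ ∈ mon P x := by
  constructor
  · intro hk
    exact (h.trans hk).trans h.symm
  · intro hk
    have h1 := (h.symm.trans hk).trans h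
    refine h1.congr ?_
    group

theorem Tr.mul_inv_mem (h : Tr P x y g) (h' : Tr P x y k) : g * k⁻¹ ∈ mon P x :=
  h.trans h'.symm

theorem Tr.inv_mul_mem (h : Tr P x y g) (h' : Tr P x y k) : g⁻¹ * k ∈ mon P y :=
  h.symm.trans h'

theorem Tr.mul_mem (h : Tr P x y g) (hk : k ∈ mon P y) : Tr P x y (g * k) := h.trans hk

/-! ### T5: flat sections -/

section flat

variable {A : Type*} [MulAction G A] {v w : X → A} {a : A}

/-- flat section of the associated bundle with fibre `A` -/
def Fl (P : X → X → G) (v : X → A) : Prop := ∀ z, ∀ᶠ y in 𝓝 z, v z = P z y • v y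

theorem Fl.gd (hv : Fl P v) (hU : Gd P U) (hx : x ∈ U) (hy : y ∈ U) : v x = P x y • v y := by
  have h1 : P x x • v x = P x y • v y := by
    refine hU.const (fun b => P x b • v b) (fun z hz => ?_) hx hy
    filter_upwards [hv z, hU.op.mem_nhds hz] with b hb hbU
    rw [hb, smul_smul, hU.mul x hx z hz b hbU]
  rwa [hU.self hx, one_smul] at h1

theorem Fl.tr (hv : Fl P v) (h : Tr P x y g) : v x = g • v y := by
  induction h with
  | refl x => rw [one_smul]
  | step hU hx hy _ ih => rw [hv.gd hU hx hy, ih, smul_smul]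

theorem Fl.mon (hv : Fl P v) (hk : k ∈ mon P x) : k • v x = v x := (hv.tr hk).symm

theorem Fl.ext [PreconnectedSpace X] [LocallyConnectedSpace X] (h : NDC P) (hv : Fl P v)
    (hw : Fl P w) (h0 : v x = w x) : v = w := by
  funext y
  obtain ⟨g, hg⟩ := exists_tr h y x
  rw [hv.tr hg, hw.tr hg, h0]

theorem Fl.ext' [PreconnectedSpace X] (hv : Fl P v) (hw : Fl P w) (h0 : v x = w x) :
    v = w := by
  have hS : IsClopen {y | v y = w y} := by
    constructor
    · rw [← isOpen_compl_iff, isOpen_iff_mem_nhds]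
      intro z hz
      filter_upwards [hv z, hw z] with b h1 h2 h3
      apply hz
      show v z = w z
      rw [h1, h2]
      congr 1
    · rw [isOpen_iff_mem_nhds]
      intro z hz
      filter_upwards [hv z, hw z] with b h1 h2
      have h3 : v z = w z := hz
      rw [h1, h2] at h3
      exact smul_left_cancel _ h3
  have h1 := hS.eq_univ ⟨x, h0⟩
  funext y
  have h2 : y ∈ {y | v y = w y} := by rw [h1]; exact mem_univ y
  exact h2

/-- the other direction of transport near a point -/
theorem Fl.ev [LocallyConnectedSpace X] (h : NDC P) (hv : Fl P v) (z : X) :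
    ∀ᶠ y in 𝓝 z, v y = P y z • v z := by
  filter_upwards [tr_near h z] with y hy
  exact hv.tr hy.2.1

theorem Fl.of_tr [LocallyConnectedSpace X] (h : NDC P)
    (hv : ∀ x y g, Tr P x y g → v x = g • v y) : Fl P v := by
  intro z
  filter_upwards [tr_near h z] with y hy
  exact hv _ _ _ hy.1

theorem fl_iff_tr [LocallyConnectedSpace X] (h : NDC P) :
    Fl P v ↔ ∀ x y g, Tr P x y g → v x = g • v y :=
  ⟨fun hv _ _ _ hg => hv.tr hg, Fl.of_tr h⟩

/-- **a vector fixed by the monodromy extends to a flat section** -/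
theorem extend [PreconnectedSpace X] [LocallyConnectedSpace X] (h : NDC P) (x₀ : X)
    (ha : ∀ k ∈ mon P x₀, k • a = a) :
    ∃ v : X → A, Fl P v ∧ v x₀ = a ∧ ∀ x g, Tr P x x₀ g → v x = g • a := by
  choose g hg using fun x => exists_tr h x x₀
  have key : ∀ x k, Tr P x x₀ k → g x • a = k • a := by
    intro x k hk
    have h1 := ha _ ((hg x).inv_mul_mem hk)
    rw [← smul_smul, inv_smul_eq_iff] at h1
    exact h1.symm
  refine ⟨fun x => g x • a, Fl.of_tr h fun x y k hk => ?_, ?_, key⟩
  · show g x • a = k • g y • a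
    rw [smul_smul]
    exact key x _ (hk.trans (hg y))
  · have h1 := key x₀ 1 (Tr.refl x₀)
    rwa [one_smul] at h1

theorem Fl.map {B : Type*} [MulAction G B] (hv : Fl P v) (f : A → B)
    (hf : ∀ (k : G) (a : A), f (k • a) = k • f a) : Fl P (fun x => f (v x)) := by
  intro z
  filter_upwards [hv z] with y hy
  show f (v z) = P z y • f (v y)
  rw [hy, hf]

end flat

/-- flatness of a predicate -/
theorem pred_tr {A : Type*} [MulAction G A] {p : X → A → Prop}
    (hp : ∀ z, ∀ᶠ y in 𝓝 z, ∀ a, p z (P z y • a) ↔ p y a) (h : Tr P x y g) (a : A) :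
    p x (g • a) ↔ p y a := by
  induction h generalizing a with
  | refl x => rw [one_smul]
  | @step x y z g U hU hx hy _ ih =>
    rw [← ih, mul_smul]
    have key : ∀ b : A, (p x (P x x • b)) = (p y (P y x • b)) := by
      intro b
      refine hU.const (fun c => p c (P c x • b)) (fun z hz => ?_) hx hy
      filter_upwards [hp z, hU.op.mem_nhds hz] with c hc hcU
      have h1 := hc (P c x • b)
      rw [smul_smul, hU.mul z hz c hcU x hx] at h1
      exact propext h1.symm
    have h2 := key (P x y • g • a)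
    rw [hU.self hx, one_smul] at h2
    rw [h2]
    show p y (P y x • P x y • g • a) ↔ _
    rw [smul_smul (P y x), hU.mul_swap hy hx, one_smul]

/-! ### T7: functoriality -/

theorem Gd.tr_comp {Y : Type*} [TopologicalSpace Y] [LocallyConnectedSpace X] (h : NDC P)
    {f : Y → X} (hf : Continuous f) {W : Set Y} (hW : Gd (fun a b => P (f a) (f b)) W)
    {a b : Y} (ha : a ∈ W) (hb : b ∈ W) : Tr P (f a) (f b) (P (f a) (f b)) := by
  have key : (Tr P (f a) (f b) (P (f a) (f b))) = (Tr P (f b) (f b) (P (f b) (f b))) := by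
    refine hW.const (fun c => Tr P (f c) (f b) (P (f c) (f b))) (fun c hc => ?_) ha hb
    filter_upwards [hf.continuousAt.eventually (tr_near h (f c)), hW.op.mem_nhds hc] with d hd hdW
    refine propext ⟨fun h1 => ?_, fun h1 => ?_⟩
    · have h2 := hd.1.trans h1
      rwa [hW.mul c hc d hdW b hb] at h2
    · have h2 := hd.2.1.trans h1
      rwa [hW.mul d hdW c hc b hb] at h2
  rw [key]
  have h1 : P (f b) (f b) = 1 := hW.self hb
  rw [h1]
  exact Tr.refl _

theorem Tr.map {Y : Type*} [TopologicalSpace Y] [LocallyConnectedSpace X] (h : NDC P)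
    {f : Y → X} (hf : Continuous f) {a b : Y} (hab : Tr (fun a b => P (f a) (f b)) a b g) :
    Tr P (f a) (f b) g := by
  induction hab with
  | refl x => exact Tr.refl _
  | step hW ha hb _ ih => exact (hW.tr_comp h hf ha hb).trans ih

theorem mon_comp {Y : Type*} [TopologicalSpace Y] [LocallyConnectedSpace X] (h : NDC P)
    {f : Y → X} (hf : Continuous f) (b : Y) :
    Tr_617.mon (fun a b => P (f a) (f b)) b ≤ Tr_617.mon P (f b) :=
  fun _ hg => Tr.map h hf hg

theorem ndc_comp {Y : Type*} [TopologicalSpace Y] (h : NDC P) {f : Y → X} (hf : Continuous f) :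
    NDC (fun a b => P (f a) (f b)) := IsNDC.comp h hf

/-- a group homomorphism applied to the cocycle -/
theorem Tr.hom {H : Type*} [Group H] (φ : G →* H) (h : Tr P x y g) :
    Tr (fun a b => φ (P a b)) x y (φ g) := by
  induction h with
  | refl x => rw [map_one]; exact Tr.refl x
  | @step x y z g U hU hx hy _ ih =>
    rw [map_mul]
    refine Tr.step (P := fun a b => φ (P a b)) (U := U) ⟨hU.op, hU.pc, fun a ha b hb c hc => ?_⟩
      hx hy ih
    show φ (P a b) * φ (P b c) = φ (P a c)
    rw [← map_mul, hU.mul a ha b hb c hc]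

/-! ### comparison of two cocycles -/

/-- if two cocycles `P`, `P'` are related near the diagonal by a multiplicative relation `R`, then every
chain transport of `P` is related to a chain transport of `P'` -/
theorem Tr.rel {H : Type*} [Group H] [LocallyConnectedSpace X] {P' : X → X → H} (h' : NDC P')
    (R : X → X → G → H → Prop) (h1 : ∀ x, R x x 1 1)
    (hmul : ∀ x y z g k g' k', R x y g g' → R y z k k' → R x z (g * k) (g' * k'))
    (hinv : ∀ x y g g', R x y g g' → R y x g⁻¹ g'⁻¹)
    (hloc : ∀ z, ∀ᶠ y in 𝓝 z, R z y (P z y) (P' z y)) (h : Tr P x y g) :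
    ∃ g', Tr P' x y g' ∧ R x y g g' := by
  induction h with
  | refl x => exact ⟨1, Tr.refl x, h1 x⟩
  | @step x y z g U hU hx hy _ ih =>
    obtain ⟨g', hg', hR⟩ := ih
    have key : (∃ k', Tr P' x y k' ∧ R x y (P x y) k') = (∃ k', Tr P' y y k' ∧ R y y (P y y) k') := by
      refine hU.const (fun c => ∃ k', Tr P' c y k' ∧ R c y (P c y) k') (fun c hc => ?_) hx hy
      filter_upwards [tr_near h' c, hloc c, hU.op.mem_nhds hc] with d hd hdl hdU
      refine propext ⟨?_, ?_⟩
      · rintro ⟨k', hk', hR'⟩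
        refine ⟨_, hd.1.trans hk', ?_⟩
        have h2 := hmul _ _ _ _ _ _ _ hdl hR'
        rwa [hU.mul c hc d hdU y hy] at h2
      · rintro ⟨k', hk', hR'⟩
        refine ⟨_, hd.1.symm.trans hk', ?_⟩
        have h2 := hmul _ _ _ _ _ _ _ (hinv _ _ _ _ hdl) hR'
        rwa [hU.inv hc hdU, hU.mul d hdU c hc y hy] at h2
    have h3 : ∃ k', Tr P' x y k' ∧ R x y (P x y) k' := by
      rw [key]
      refine ⟨1, Tr.refl y, ?_⟩
      rw [hU.self hy]
      exact h1 y
    obtain ⟨k', hk', hR'⟩ := h3
    exact ⟨k' * g', hk'.trans hg', hmul _ _ _ _ _ _ _ hR' hR⟩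

/-! ### T6: paths -/

/-- the transport along a path is a chain transport -/
theorem tr_lift [LocallyConnectedSpace X] (h : NDC P) (γ : C(I, X)) (t : I) :
    Tr P (γ t) (γ 0) (lift (fun s t => P (γ s) (γ t)) t) := by
  have hc : IsNDC (fun s t => P (γ s) (γ t)) := IsNDC.comp h γ.continuous
  set L := lift (fun s t => P (γ s) (γ t)) with hL
  have hS : IsClopen {t | Tr P (γ t) (γ 0) (L t)} := by
    have key : ∀ t, ∀ᶠ s in 𝓝 t, Tr P (γ t) (γ s) (P (γ t) (γ s)) ∧
        Tr P (γ s) (γ t) (P (γ s) (γ t)) ∧ P (γ t) (γ s) = L t * (L s)⁻¹ ∧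
        P (γ s) (γ t) = L s * (L t)⁻¹ := by
      intro t
      obtain ⟨U, hU, hA⟩ := lift_triv hc t
      filter_upwards [γ.continuous.continuousAt.eventually (tr_near h (γ t)), hU] with s hs hsU
      exact ⟨hs.1, hs.2.1, hA t (mem_of_mem_nhds hU) s hsU, hA s hsU t (mem_of_mem_nhds hU)⟩
    constructor
    · rw [← isOpen_compl_iff, isOpen_iff_mem_nhds]
      intro t ht
      filter_upwards [key t] with s hs hs'
      apply ht
      have h1 := hs.1.trans hs'
      rw [hs.2.2.1, inv_mul_cancel_right] at h1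
      exact h1
    · rw [isOpen_iff_mem_nhds]
      intro t ht
      filter_upwards [key t] with s hs
      have h1 := hs.2.1.trans ht
      rw [hs.2.2.2, inv_mul_cancel_right] at h1
      exact h1
  have h0 : (0 : I) ∈ {t | Tr P (γ t) (γ 0) (L t)} := by
    show Tr P (γ 0) (γ 0) (L 0)
    rw [hL, lift_zero hc]
    exact Tr.refl _
  have h1 := hS.eq_univ ⟨0, h0⟩
  have h2 : t ∈ {t | Tr P (γ t) (γ 0) (L t)} := by rw [h1]; exact mem_univ t
  exact h2

theorem tr_transport [LocallyConnectedSpace X] (h : NDC P) (γ : C(I, X)) :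
    Tr P (γ 1) (γ 0) (transport P γ) := tr_lift h γ 1

/-- transport along a path contained in a good set -/
theorem transport_gd (h : NDC P) (hU : Gd P U) (γ : C(I, X)) (hγ : ∀ t, γ t ∈ U) :
    transport P γ = P (γ 1) (γ 0) := by
  have hc : IsNDC (fun s t => P (γ s) (γ t)) := IsNDC.comp h γ.continuous
  have h1 := lift_eq_of_cocycle hc (J := univ) ordConnected_univ
    (fun a _ b _ c _ => hU.mul _ (hγ a) _ (hγ b) _ (hγ c)) (mem_univ 1) (mem_univ 0)
  rw [lift_zero hc, inv_one, mul_one] at h1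
  exact h1.symm

/-- transport along the concatenation -/
theorem transport_path_trans (h : NDC P) {a b c : X} (γ₁ : Path a b) (γ₂ : Path b c) :
    transport P (γ₁.trans γ₂ : C(I, X)) = transport P (γ₂ : C(I, X)) * transport P (γ₁ : C(I, X)) := by
  have hφ₁ : ∀ t : I, (t : ℝ) / 2 ∈ I := fun t => by
    have := t.2.1; have := t.2.2; constructor <;> linarith
  have hφ₂ : ∀ t : I, ((t : ℝ) + 1) / 2 ∈ I := fun t => by
    have := t.2.1; have := t.2.2; constructor <;> linarith
  let φ₁ : C(I, I) := ⟨fun t => ⟨(t : ℝ) / 2, hφ₁ t⟩, by fun_prop⟩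
  let φ₂ : C(I, I) := ⟨fun t => ⟨((t : ℝ) + 1) / 2, hφ₂ t⟩, by fun_prop⟩
  refine transport_trans (show IsNDC P from h) _ _ _ φ₁ φ₂ ?_ ?_ ?_ ?_ ?_
  · apply Subtype.ext; simp [φ₁]
  · apply Subtype.ext; simp [φ₁, φ₂]
  · apply Subtype.ext; simp [φ₂]
  · intro t
    have ht : ((φ₁ t : I) : ℝ) ≤ 1 / 2 := by
      have := t.2.2
      show (t : ℝ) / 2 ≤ 1 / 2
      linarith
    show γ₁ t = (γ₁.trans γ₂) (φ₁ t)
    rw [Path.trans_apply, dif_pos ht]
    congr 1
    apply Subtype.ext
    show (t : ℝ) = 2 * ((t : ℝ) / 2)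
    ring
  · intro t
    show γ₂ t = (γ₁.trans γ₂) (φ₂ t)
    rw [Path.trans_apply]
    by_cases ht : ((φ₂ t : I) : ℝ) ≤ 1 / 2
    · rw [dif_pos ht]
      have h0 : (t : ℝ) = 0 := by
        have h1 : ((t : ℝ) + 1) / 2 ≤ 1 / 2 := ht
        have := t.2.1
        linarith
      have e1 : t = 0 := Subtype.ext h0
      subst e1
      have e2 : (⟨2 * ((φ₂ 0 : I) : ℝ), (mul_pos_mem_iff zero_lt_two).2
          ⟨(φ₂ 0).2.1, ht⟩⟩ : I) = 1 := by
        apply Subtype.ext
        show 2 * (((0 : ℝ) + 1) / 2) = 1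
        norm_num
      rw [e2, γ₁.target, γ₂.source]
    · rw [dif_neg ht]
      congr 1
      apply Subtype.ext
      show (t : ℝ) = 2 * (((t : ℝ) + 1) / 2) - 1
      ring

/-- conversely every chain transport is a transport along a path -/
theorem exists_path [LocallyPathConnectedSpace X] (h : NDC P) (hg : Tr P x y g) :
    ∃ γ : Path y x, transport P (γ : C(I, X)) = g := by
  induction hg with
  | refl x =>
    refine ⟨Path.refl x, ?_⟩
    exact transport_const (show IsNDC P from h) x
  | @step x y z g U hU hx hy _ ih =>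
    obtain ⟨γ₁, hγ₁⟩ := ih
    have hUc : IsConnected U := ⟨⟨x, hx⟩, hU.pc⟩
    have hUp : IsPathConnected U := hU.op.isConnected_iff_isPathConnected.1 hUc
    obtain ⟨γ₂, hγ₂⟩ := hUp.joinedIn y hy x hx
    refine ⟨γ₁.trans γ₂, ?_⟩
    rw [transport_path_trans h, hγ₁]
    congr 1
    have h1 := transport_gd h hU (γ₂ : C(I, X)) hγ₂
    rw [h1]
    show P (γ₂ 1) (γ₂ 0) = P x y
    rw [γ₂.target, γ₂.source]

end Crest.Agent.R276.Tr_617
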