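import Crest.Agent.R276.TChB_858

/-! # Row 276, helper858: TRANS, the transversal Jacobian `jN` through a chart of `M_T`. -/

set_option autoImplicit false

open scoped Topology BigOperators
open Set Metric Filter

noncomputable section

namespace Crest.Agent.R276.TrN_858

open Crest.Agent.R271.Defs710
open Crest.Agent.R276.BR_590 Crest.Agent.R276.Mod1_987
open Crest.Agent.R276.SkelDefs_220 (AC PD tau Mono low pw Rel TChart)

section cat

variable {m r : ℕ}

lemma hasFDerivAt_cat_left (a : Cn m) (x : Cn r) :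
    HasFDerivAt (fun a : Cn m => cat a x) (inl m r) a := by
  have h : (fun a : Cn m => cat a x) = fun a => inl m r a + inr m r x := by
    funext a; exact cat_eq a x
  rw [h]
  exact (inl m r).hasFDerivAt.add_const _

end cat

variable {T L K : Type} [Field T] [Field L] [Field K] [Algebra ℂ T] [Algebra ℂ L] [Algebra ℂ K]
  [Algebra T L] [Algebra L K] [IsScalarTower ℂ T L] [IsScalarTower ℂ L K] {ρ a r : ℕ}
  {MT : Mdl T ρ} {ML : Mdl L (ρ + a)} {MK : Mdl K (ρ + a + r)}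
  {H₁ : Rel MT ML} {H₂ : Rel ML MK} {R : ValuationSubring K}

lemma pz_castAdd (H₁ : Rel MT ML) (y : ML.Pts) (i : Fin ρ) :
    ML.pz y (Fin.castAdd a i) = MT.pz (H₁.f y) i := by
  change y (ML.z (Fin.castAdd a i)) = y (H₁.incl (MT.z i))
  rw [TCh_858.incl_z H₁]

/-- the transversal Jacobian through a chart `σ` of `M_T` -/
theorem jN_eq (Y : TChart H₁ H₂ R) {σ : Cn ρ → MT.Pts} {qf : Cn (ρ + a) → Cn ρ}
    {η : Cn (ρ + a)} (hσ : DifferentiableAt ℂ (fun q => MT.pz (σ q)) (qf η))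
    (hq : DifferentiableAt ℂ qf η) (h : ∀ᶠ η' in 𝓝 η, H₁.f (Y.cL.s η') = σ (qf η')) :
    Y.jN η = (fderiv ℂ (fun q => MT.pz (σ q)) (qf η)).det *
      (Matrix.of fun i j : Fin ρ => fderiv ℂ qf η (Pi.single (Fin.castAdd a j) 1) i).det := by
  have hcat : cat (bs η) (fb η) = η := cat_bs_fb η
  -- the map along the transversal slice
  have hev : (fun (x : Cn ρ) (i : Fin ρ) =>
      ML.pz (Y.cL.s (Fin.append x (fun j => η (Fin.natAdd ρ j)))) (Fin.castAdd a i)) =ᶠ[𝓝 (bs η)]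
      fun x => MT.pz (σ (qf (cat x (fb η)))) := by
    have h1 : ContinuousAt (fun x : Cn ρ => cat x (fb η)) (bs η) :=
      (hasFDerivAt_cat_left (bs η) (fb η)).continuousAt
    have h2 : ∀ᶠ x in 𝓝 (bs η), H₁.f (Y.cL.s (cat x (fb η))) = σ (qf (cat x (fb η))) := by
      have h3 : Tendsto (fun x : Cn ρ => cat x (fb η)) (𝓝 (bs η)) (𝓝 η) := by
        have := h1.tendsto
        rwa [hcat] at this
      exact h3.eventually h
    filter_upwards [h2] with x hx
    funext i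
    rw [← hx]
    exact pz_castAdd H₁ _ i
  have hq' : HasFDerivAt (fun x : Cn ρ => qf (cat x (fb η)))
      ((fderiv ℂ qf η).comp (inl ρ a)) (bs η) := by
    have h1 : HasFDerivAt qf (fderiv ℂ qf η) (cat (bs η) (fb η)) := by
      rw [hcat]; exact hq.hasFDerivAt
    exact h1.comp (bs η) (hasFDerivAt_cat_left (bs η) (fb η))
  have hσ' : HasFDerivAt (fun x : Cn ρ => MT.pz (σ (qf (cat x (fb η)))))
      ((fderiv ℂ (fun q => MT.pz (σ q)) (qf η)).comp ((fderiv ℂ qf η).comp (inl ρ a)))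
      (bs η) := by
    have h1 : HasFDerivAt (fun q => MT.pz (σ q)) (fderiv ℂ (fun q => MT.pz (σ q)) (qf η))
        (qf (cat (bs η) (fb η))) := by
      rw [hcat]; exact hσ.hasFDerivAt
    exact h1.comp (bs η) hq'
  have h1 : Y.jN η = ((fderiv ℂ (fun q => MT.pz (σ q)) (qf η)).comp
      ((fderiv ℂ qf η).comp (inl ρ a))).det := by
    unfold SkelDefs_220.TChart.jN
    have h2 := hev.fderiv_eq (𝕜 := ℂ)
    rw [hσ'.fderiv] at h2
    exact congrArg ContinuousLinearMap.det h2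
  have h2 : ((fderiv ℂ qf η).comp (inl ρ a)).det =
      (Matrix.of fun i j : Fin ρ => fderiv ℂ qf η (Pi.single (Fin.castAdd a j) 1) i).det := by
    rw [det_eq_matrix]
    congr 1
    ext i j
    rw [Matrix.of_apply, Matrix.of_apply, ContinuousLinearMap.comp_apply, inl_single]
  rw [h1, ← h2]
  exact LinearMap.det_comp _ _

/-- **`|jN| ≤ C |J_σ|`** near a point at which `η ↦ q(η)` is analytic -/
theorem jN_le (Y : TChart H₁ H₂ R) {qf : Cn (ρ + a) → Cn ρ} {η₀ : Cn (ρ + a)}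
    (hq : AnalyticAt ℂ qf η₀) : ∃ C : ℝ, 0 < C ∧ ∀ᶠ η in 𝓝 η₀, ∀ σ : Cn ρ → MT.Pts,
      DifferentiableAt ℂ (fun q => MT.pz (σ q)) (qf η) →
      (∀ᶠ η' in 𝓝 η, H₁.f (Y.cL.s η') = σ (qf η')) →
      ‖Y.jN η‖ ≤ C * ‖(fderiv ℂ (fun q => MT.pz (σ q)) (qf η)).det‖ := by
  have han : ∀ᶠ η in 𝓝 η₀, AnalyticAt ℂ qf η := hq.eventually_analyticAt
  set Dm : Cn (ρ + a) → ℂ := fun η =>
    (Matrix.of fun i j : Fin ρ => fderiv ℂ qf η (Pi.single (Fin.castAdd a j) 1) i).det with hDm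
  have hc : ContinuousAt Dm η₀ := by
    have h1 : AnalyticAt ℂ Dm η₀ := by
      refine analyticAt_det fun i j => ?_
      have h2 : AnalyticAt ℂ (fderiv ℂ qf) η₀ := hq.fderiv
      have h3 : AnalyticAt ℂ (fun η => fderiv ℂ qf η (Pi.single (Fin.castAdd a j) 1)) η₀ :=
        (ContinuousLinearMap.apply ℂ (Cn ρ)
          (Pi.single (Fin.castAdd a j) 1 : Cn (ρ + a))).analyticAt _ |>.comp h2
      exact (analyticAt_pi_iff.1 h3) i
    exact h1.continuousAt
  refine ⟨‖Dm η₀‖ + 1, by positivity, ?_⟩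
  have hev : ∀ᶠ η in 𝓝 η₀, ‖Dm η‖ < ‖Dm η₀‖ + 1 :=
    hc.norm.eventually (gt_mem_nhds (lt_add_one _))
  filter_upwards [han, hev] with η h1 h2 σ hσ h3
  rw [jN_eq Y hσ h1.differentiableAt h3, norm_mul, mul_comm]
  exact mul_le_mul_of_nonneg_right h2.le (norm_nonneg _)

end Crest.Agent.R276.TrN_858
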