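import Crest.Agent.R276.Nat10_591
import Crest.Agent.R276.FamB_563
import Crest.Agent.R276.LocA_454

/-!
# R276, (D2) (helper591), part A: the fields of `Pieces.Triv` for helper975's model

* `PiV D x P` : the type operators on the fixed space `(pvOf (V.res s₀)).L`;
* `Intw D` : the pointwise intertwining (N3);
* `TV_inter`, `stabV`, `famV`.
-/

set_option autoImplicit false
set_option linter.unusedSectionVars false

noncomputable section

open Set Filter Topology MeasureTheory Matrix Metric UniformSpace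
open scoped ContDiff ComplexConjugate

namespace Crest.Agent.R276.Nat_591

open Crest.Agent.R271.Ho51 Crest.Agent.R276.Ipc735 Crest.Agent.R276.Top3_279
open IpcG1_975 Psi_563 FamA_563 FamB_563 HsB_817 HsC_817 Wcl_175 DR_175 PvO_175

section triv

variable {m : ℕ} {S : Type} [TopologicalSpace S] [RDom m S] {k N w : ℕ} {Q : Punc S k}
  {V : Ipc735.VHS (m + 1) (Tot Q) N w} {s₀ : S} (D : LD V s₀)

/-- the type operators on the fixed space -/
def PiV (x : Fin m → ℂ) (P : ℕ) : (pvOf (V.res s₀)).L →L[ℂ] (pvOf (V.res s₀)).L :=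
  (pvOf (V.res s₀)).mb.dbl.opL (fun y => opT (D.T P x y))

/-- pointwise intertwining of the types -/
def Intw : Prop := ∀ x ∈ hU D, ∀ P ≤ w + 1, ∀ y ∉ Q.A s₀, ∀ v : VV N,
  opT (D.T P x y) (Kf (D.Ψ x) (Kv D x) y v) =
    Kf (D.Ψ x) (Kv D x) y ((pvOf (V.res (D.σ x))).ty P (D.Ψ x y) v)

variable {D}

/-- the bundle of one-forms of helper975's model is 563's -/
abbrev IsFmV (V : Ipc735.VHS (m + 1) (Tot Q) N w) (s₀ : S) : Prop :=
  IsFm (V.res s₀) (pvOf (V.res s₀)).mb.dbl (pvOf (V.res s₀)).bt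

theorem ok_T (h : IsFmV V s₀) {x : Fin m → ℂ} (hx : x ∈ hU D) (P : ℕ) :
    (pvOf (V.res s₀)).mb.dbl.Ok (fun y => opT (D.T P x y)) :=
  ⟨smO_T D h (U2_sub D hx) P, _, bd_T D h hx P⟩

/-- `inter` -/
theorem TV_inter (h : IsFmV V s₀) (hN : Intw D) {x : Fin m → ℂ} (hx : x ∈ hU D) {P : ℕ}
    (hP : P ≤ w + 1) (u : (pvOf (V.res (D.σ x))).L) :
    PiV D x P (TV D x u) = TV D x ((pvOf (V.res (D.σ x))).Ty P u) :=
  (TV_Ty hx (ok_T h hx P) (fun y hy v => hN x hx P hP y hy v) u).symm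

/-- `stab` -/
theorem stabV (h : IsFmV V s₀) (hN : Intw D) {F : ∀ s, Fix (pvOf (V.res s)).L (Wf V s)}
    (hF : ∀ s, IsFixV V s (F s)) {x : Fin m → ℂ} (hx : x ∈ hU D) :
    ∀ u ∈ (F s₀).Zc, Jop (w + 1) (PiV D x) u ∈ (F s₀).Zc → ∀ P ≤ w + 1,
      PiV D x P u ∈ (F s₀).Zc := by
  have hN1 : HsE_817.NatD (F s₀) (F (D.σ x)) (psiV D hx).TE := by
    refine ⟨fun u v => ?_, fun u => ?_⟩
    · rw [(hF s₀).be, (hF (D.σ x)).be]
      exact (psiV D hx).form u v
    · rw [(hF s₀).ex, (hF (D.σ x)).ex]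
      exact (psiV D hx).ex u
  refine hN1.stab (π' := (pvOf (V.res (D.σ x))).Ty) (fun P hP u => ?_) (hF (D.σ x)).types.stab
  have := TV_inter h hN hx hP u
  rw [TV_of hx, TV_of hx] at this
  exact this

/-- **`fam`** -/
theorem famV (h : IsFmV V s₀) (hN : Intw D) {F : ∀ s, Fix (pvOf (V.res s)).L (Wf V s)}
    (hF : ∀ s, IsFixV V s (F s)) : Family (F s₀) (w + 1) (PiV D) (hU D) :=
  (ptFam D h).family (F s₀) (hF s₀).be (fun _ hz => stabV h hN hF hz)

end triv

end Crest.Agent.R276.Nat_591
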