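import Crest.Agent.R273.PsiA_844

/-!
# R276 (S0419), helper844: bounds for the upper semicontinuous hull `ush`

Request of helper185: `b ≤ G`, `G` continuous, gives `ush b ≤ G`; local and multiplicative
versions.
-/

set_option autoImplicit false
set_option linter.unusedSectionVars false

open Set Filter Topology

namespace Crest.Agent.R276.UshB_844

open Crest.Agent.R273.Reg_844

variable {M : Type*} [TopologicalSpace M]

/-- pointwise version -/
theorem ush_le_at {b G : M → ℝ} {x : M} (hG : ContinuousAt G x) (h : ∀ᶠ y in 𝓝 x, b y ≤ G y) :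
    ush b x ≤ G x := by
  refine le_of_forall_pos_le_add fun ε hε => ush_le ?_
  filter_upwards [h, hG.eventually (gt_mem_nhds (lt_add_of_pos_right (G x) hε))] with y h1 h2
  exact h1.trans h2.le

/-- on an open set -/
theorem ush_le_on {b G : M → ℝ} {U : Set M} (hU : IsOpen U) (hG : ContinuousOn G U)
    (h : ∀ x ∈ U, b x ≤ G x) {x : M} (hx : x ∈ U) : ush b x ≤ G x :=
  ush_le_at (hG.continuousAt (hU.mem_nhds hx)) (by
    filter_upwards [hU.mem_nhds hx] with y hy
    exact h y hy)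

/-- global version -/
theorem ush_le_cont {b G : M → ℝ} (hG : Continuous G) (h : ∀ x, b x ≤ G x) (x : M) :
    ush b x ≤ G x := ush_le_at hG.continuousAt (Eventually.of_forall h)

/-- with a nonnegative continuous factor -/
theorem ush_mul_le_at {b c G : M → ℝ} {x : M} (hb0 : ∀ᶠ y in 𝓝 x, 0 ≤ b y)
    (hc0 : ∀ᶠ y in 𝓝 x, 0 ≤ c y) (hc : ContinuousAt c x) (hG : ContinuousAt G x)
    (h : ∀ᶠ y in 𝓝 x, b y * c y ≤ G y) : ush b x * c x ≤ G x := by
  rcases eq_or_lt_of_le hc0.self_of_nhds with h0 | h0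
  · rw [← h0, mul_zero]
    exact (mul_nonneg hb0.self_of_nhds hc0.self_of_nhds).trans h.self_of_nhds
  · rw [← le_div_iff₀ h0]
    refine ush_le_at (G := fun y => G y / c y) (hG.div hc h0.ne') ?_
    filter_upwards [h, hc.eventually (lt_mem_nhds h0)] with y h1 h2
    rw [le_div_iff₀ h2]
    exact h1

theorem ush_mul_le_on {b c G : M → ℝ} {U : Set M} (hU : IsOpen U) (hb0 : ∀ x ∈ U, 0 ≤ b x)
    (hc0 : ∀ x ∈ U, 0 ≤ c x) (hc : ContinuousOn c U) (hG : ContinuousOn G U)
    (h : ∀ x ∈ U, b x * c x ≤ G x) {x : M} (hx : x ∈ U) : ush b x * c x ≤ G x := by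
  have hn := hU.mem_nhds hx
  refine ush_mul_le_at ?_ ?_ (hc.continuousAt hn) (hG.continuousAt hn) ?_ <;>
    filter_upwards [hn] with y hy
  exacts [hb0 y hy, hc0 y hy, h y hy]

/-- a constant bound -/
theorem ush_le_const {b : M → ℝ} {C : ℝ} {x : M} (h : ∀ᶠ y in 𝓝 x, b y ≤ C) : ush b x ≤ C :=
  ush_le h

/-- lower bound (for `b` locally bounded above) -/
theorem le_ush {b : M → ℝ} (hb : LocB b) (x : M) : b x ≤ ush b x := hb.le_ush x

/-- one point is enough for the lower bound -/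
theorem le_ush_at {b : M → ℝ} {x : M} {C : ℝ} (h : ∀ᶠ y in 𝓝 x, b y ≤ C) : b x ≤ ush b x :=
  le_csInf ⟨C, h⟩ fun _ ha => ha.self_of_nhds

/-- `ush` commutes with passing to an open subset: values depend only on the germ -/
theorem ush_congr_on {b b' : M → ℝ} {U : Set M} (hU : IsOpen U) (h : ∀ x ∈ U, b x = b' x)
    {x : M} (hx : x ∈ U) : ush b x = ush b' x :=
  ush_congr (by
    filter_upwards [hU.mem_nhds hx] with y hy
    exact h y hy)

/-- `ush` and an open embedding -/
theorem ush_comp {N : Type*} [TopologicalSpace N] {f : N → M} (hf : Topology.IsOpenEmbedding f)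
    (b : M → ℝ) (y : N) : ush (fun z => b (f z)) y = ush b (f y) := by
  unfold ush
  congr 1
  ext a
  show (∀ᶠ z in 𝓝 y, b (f z) ≤ a) ↔ ∀ᶠ z in 𝓝 (f y), b z ≤ a
  rw [← hf.map_nhds_eq, eventually_map]

end Crest.Agent.R276.UshB_844
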