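import Crest.Agent.R276.VCalcI_442

/-!
# R276, leaf VCalc (helper442): the second derivative of a determinant

* `dW_det` (Jacobi), `dB_dW_det_one`: second derivative of `det G` at a point where `G = 1`;
* `Adj.bessel`, `Adj.sum_cs`.
-/

set_option autoImplicit false
set_option linter.unusedSectionVars false

open Set Filter Topology Matrix Finset InnerProductSpace Laplacian
open scoped ContDiff ComplexConjugate ComplexOrder

namespace Crest.Agent.R276.VCalc_442

variable {X : Type*} [NormedAddCommGroup X] [NormedSpace ℂ X]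
variable {ι : Type*} [Fintype ι] [DecidableEq ι]
variable {κ : Type*} [Fintype κ] [DecidableEq κ]

section det

theorem sum_adj_col (A : Matrix κ κ ℂ) (i : κ) (b : κ → ℂ) :
    (A.updateCol i b).det = ∑ j, A.adjugate i j * b j := by
  rw [← Matrix.cramer_apply, Matrix.cramer_eq_adjugate_mulVec]
  rfl

/-- Jacobi's formula (complex valued, real differentiable). -/
theorem hasFDerivAt_det {A : X → Matrix κ κ ℂ} {A' : κ → κ → X →L[ℝ] ℂ} {x : X}
    (hA : ∀ i j, HasFDerivAt (fun y => A y i j) (A' i j) x) :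
    HasFDerivAt (fun y => (A y).det) (∑ i, ∑ j, (A x).adjugate i j • A' j i) x := by
  have h1 : ∀ y, (A y).det = ∑ τ : Equiv.Perm κ, ((Equiv.Perm.sign τ : ℤ) : ℂ) *
      ∏ i, A y (τ i) i := by
    intro y; rw [Matrix.det_apply']
  simp_rw [h1]
  have h2 : HasFDerivAt (fun y => ∑ τ : Equiv.Perm κ, ((Equiv.Perm.sign τ : ℤ) : ℂ) *
      ∏ i, A y (τ i) i)
      (∑ τ : Equiv.Perm κ, ((Equiv.Perm.sign τ : ℤ) : ℂ) •
        ∑ i, (∏ j ∈ univ.erase i, A x (τ j) j) • A' (τ i) i) x := by
    refine HasFDerivAt.fun_sum fun τ _ => ?_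
    exact (HasFDerivAt.finsetProd (fun i _ => hA (τ i) i)).const_mul _
  refine h2.congr_fderiv ?_
  ext v
  simp only [_root_.sum_apply, _root_.smul_apply, smul_eq_mul]
  simp_rw [← sum_adj_col (A x) _ (fun j => A' j _ v), Matrix.det_apply']
  rw [Finset.sum_comm]
  refine Finset.sum_congr rfl fun τ _ => ?_
  rw [Finset.mul_sum]
  refine Finset.sum_congr rfl fun i _ => ?_
  congr 1
  rw [← Finset.mul_prod_erase univ _ (mem_univ i)]
  simp only [Matrix.updateCol_self]
  rw [mul_comm]
  congr 1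
  refine Finset.prod_congr rfl fun j hj => ?_
  rw [Matrix.updateCol_ne (ne_of_mem_erase hj)]

theorem diff_det {A : X → Matrix κ κ ℂ} {x : X}
    (hA : ∀ i j, DifferentiableAt ℝ (fun y => A y i j) x) :
    DifferentiableAt ℝ (fun y => (A y).det) x :=
  (hasFDerivAt_det (fun i j => (hA i j).hasFDerivAt)).differentiableAt

theorem dW_det {A : X → Matrix κ κ ℂ} {x : X}
    (hA : ∀ i j, DifferentiableAt ℝ (fun y => A y i j) x) (v : X) :
    dW (fun y => (A y).det) v x = ∑ i, ∑ j, (A x).adjugate i j * dW (fun y => A y j i) v x := by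
  have h := (hasFDerivAt_det (fun i j => (hA i j).hasFDerivAt)).fderiv
  unfold dW
  rw [h]
  simp only [_root_.sum_apply, _root_.smul_apply, smul_eq_mul, Finset.mul_sum,
    ← Finset.sum_sub_distrib]
  refine Finset.sum_congr rfl fun i _ => Finset.sum_congr rfl fun j _ => ?_
  ring

theorem dB_det {A : X → Matrix κ κ ℂ} {x : X}
    (hA : ∀ i j, DifferentiableAt ℝ (fun y => A y i j) x) (v : X) :
    dB (fun y => (A y).det) v x = ∑ i, ∑ j, (A x).adjugate i j * dB (fun y => A y j i) v x := by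
  have h := (hasFDerivAt_det (fun i j => (hA i j).hasFDerivAt)).fderiv
  unfold dB
  rw [h]
  simp only [_root_.sum_apply, _root_.smul_apply, smul_eq_mul, Finset.mul_sum,
    ← Finset.sum_add_distrib]
  refine Finset.sum_congr rfl fun i _ => Finset.sum_congr rfl fun j _ => ?_
  ring

theorem diff_adj {A : X → Matrix κ κ ℂ} {x : X}
    (hA : ∀ i j, DifferentiableAt ℝ (fun y => A y i j) x) (i j : κ) :
    DifferentiableAt ℝ (fun y => (A y).adjugate i j) x := by
  simp_rw [Matrix.adjugate_apply]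
  refine diff_det fun a b => ?_
  by_cases haj : a = j
  · subst haj
    simp only [Matrix.updateRow_self]
    exact differentiableAt_const _
  · simp only [Matrix.updateRow_ne haj]
    exact hA a b

theorem contDiffOn_det {A : X → Matrix κ κ ℂ} {U : Set X}
    (hA : ∀ i j, ContDiffOn ℝ ∞ (fun y => A y i j) U) :
    ContDiffOn ℝ ∞ (fun y => (A y).det) U := by
  simp_rw [Matrix.det_apply']
  refine ContDiffOn.sum fun τ _ => contDiffOn_const.mul ?_
  exact contDiffOn_prod fun i _ => hA _ _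

/-- `∂̄_v` of the adjugate at a point where `G = 1` -/
theorem dB_adj_one {A : X → Matrix κ κ ℂ} {x : X}
    (hA : ∀ i j, DifferentiableAt ℝ (fun y => A y i j) x) (h1 : A x = 1) (i j : κ) (v : X) :
    dB (fun y => (A y).adjugate i j) v x =
      (if i = j then ∑ k, dB (fun y => A y k k) v x else 0) - dB (fun y => A y i j) v x := by
  have hadj := diff_adj hA
  have e1 : (fun y => ∑ k, (A y).adjugate i k * A y k j) =
      fun y => (A y).det * (1 : Matrix κ κ ℂ) i j := by
    funext y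
    have := congrFun (congrFun (Matrix.adjugate_mul (A y)) i) j
    rw [Matrix.mul_apply] at this
    rw [this, Matrix.smul_apply, smul_eq_mul]
  have e2 : dB (fun y => ∑ k, (A y).adjugate i k * A y k j) v x =
      dB (fun y => (A y).det * (1 : Matrix κ κ ℂ) i j) v x := by rw [e1]
  rw [dB_sum (f := fun k y => (A y).adjugate i k * A y k j) _
    (fun k _ => (hadj i k).fun_mul (hA k j)), dB_mul (diff_det hA) (differentiableAt_const _),
    dB_const, mul_zero, add_zero, dB_det hA] at e2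
  have e3 : ∀ k, dB (fun y => (A y).adjugate i k * A y k j) v x =
      dB (fun y => (A y).adjugate i k) v x * (1 : Matrix κ κ ℂ) k j +
        (1 : Matrix κ κ ℂ) i k * dB (fun y => A y k j) v x := by
    intro k
    rw [dB_mul (hadj i k) (hA k j), h1, Matrix.adjugate_one]
  simp only [e3, Finset.sum_add_distrib] at e2
  rw [h1, Matrix.adjugate_one] at e2
  simp only [Matrix.one_apply, mul_ite, mul_one, mul_zero, ite_mul, one_mul, zero_mul,
    Finset.sum_ite_eq, Finset.sum_ite_eq', Finset.mem_univ, if_true] at e2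
  rw [← e2]
  ring

/-- the second derivative of the determinant at a point where `G = 1` -/
theorem dB_dW_det_one {A : X → Matrix κ κ ℂ} {U : Set X} (hU : IsOpen U) {x : X} (hx : x ∈ U)
    (hA : ∀ i j, ContDiffOn ℝ ∞ (fun y => A y i j) U) (h1 : A x = 1) (v : X) :
    dB (dW (fun y => (A y).det) v) v x =
      (∑ i, dB (fun y => A y i i) v x) * (∑ i, dW (fun y => A y i i) v x) -
        (∑ i, ∑ j, dB (fun y => A y i j) v x * dW (fun y => A y j i) v x) +
        ∑ i, dB (dW (fun y => A y i i) v) v x := by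
  have hAd : ∀ {y}, y ∈ U → ∀ i j, DifferentiableAt ℝ (fun y => A y i j) y :=
    fun hy i j => diffAt hU (hA i j) hy
  have hAd2 : ∀ i j, DifferentiableAt ℝ (dW (fun y => A y i j) v) x :=
    fun i j => diffAt hU (contDiffOn_dW hU (hA i j) v) hx
  have hadj := diff_adj (hAd hx)
  have e0 : dW (fun y => (A y).det) v =ᶠ[𝓝 x] fun y => ∑ i, ∑ j, (A y).adjugate i j *
      dW (fun y => A y j i) v y :=
    Filter.eventually_of_mem (hU.mem_nhds hx) fun y hy => dW_det (hAd hy) v
  rw [dB_congr e0 v]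
  rw [dB_sum (f := fun i y => ∑ j, (A y).adjugate i j * dW (fun y => A y j i) v y) _
    (fun i _ => DifferentiableAt.fun_sum fun j _ => (hadj i j).fun_mul (hAd2 j i))]
  have e1 : ∀ i, dB (fun y => ∑ j, (A y).adjugate i j * dW (fun y => A y j i) v y) v x =
      ∑ j, (((if i = j then ∑ k, dB (fun y => A y k k) v x else 0) -
        dB (fun y => A y i j) v x) * dW (fun y => A y j i) v x +
        (1 : Matrix κ κ ℂ) i j * dB (dW (fun y => A y j i) v) v x) := by
    intro i
    rw [dB_sum (f := fun j y => (A y).adjugate i j * dW (fun y => A y j i) v y) _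
      (fun j _ => (hadj i j).fun_mul (hAd2 j i))]
    refine Finset.sum_congr rfl fun j _ => ?_
    rw [dB_mul (hadj i j) (hAd2 j i), dB_adj_one (hAd hx) h1, h1, Matrix.adjugate_one]
  rw [Finset.sum_congr rfl fun i _ => e1 i]
  simp only [sub_mul, Finset.sum_add_distrib, Finset.sum_sub_distrib, Matrix.one_apply, ite_mul,
    one_mul, zero_mul, Finset.sum_ite_eq, Finset.mem_univ, if_true]
  rw [Finset.mul_sum]

theorem dW_det_one {A : X → Matrix κ κ ℂ} {x : X}
    (hA : ∀ i j, DifferentiableAt ℝ (fun y => A y i j) x) (h1 : A x = 1) (v : X) :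
    dW (fun y => (A y).det) v x = ∑ i, dW (fun y => A y i i) v x := by
  rw [dW_det hA, h1, Matrix.adjugate_one]
  simp [Matrix.one_apply]

end det

section bessel

/-- Bessel's inequality for the Hilbert-Schmidt product -/
theorem Adj.bessel {K : Matrix ι ι ℂ} (hK : K.PosDef) {t t' : κ → Matrix ι ι ℂ}
    (ht : ∀ i, Adj K (t i) (t' i)) (hon : ∀ i j, (t i * t' j).trace = if i = j then 1 else 0)
    {a a' : Matrix ι ι ℂ} (ha : Adj K a a') :
    ∑ j, ‖(a * t' j).trace‖ ^ 2 ≤ (a * a').trace.re := by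
  set α : κ → ℂ := fun j => (a * t' j).trace with hα
  have hα' : ∀ j, (t j * a').trace = star (α j) := fun j => by
    rw [ha.trace_swap hK (ht j)]
  have h1 : Adj K (a - ∑ j, α j • t j) (a' - ∑ j, star (α j) • t' j) :=
    ha.sub (Adj.sum _ fun j _ => (ht j).smul (α j))
  have h2 := h1.trace_re_nonneg hK
  have e1 : (a - ∑ j, α j • t j) * (a' - ∑ j, star (α j) • t' j) =
      a * a' - (∑ j, star (α j) • (a * t' j)) - (∑ j, α j • (t j * a')) +
        ∑ i, ∑ j, (α i * star (α j)) • (t i * t' j) := by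
    have e2 : (∑ j, α j • t j) * (∑ j, star (α j) • t' j) =
        ∑ i, ∑ j, (α i * star (α j)) • (t i * t' j) := by
      rw [Finset.sum_mul_sum]
      refine Finset.sum_congr rfl fun i _ => Finset.sum_congr rfl fun j _ => ?_
      rw [smul_mul_assoc, mul_smul_comm, smul_smul]
    have e3 : a * (∑ j, star (α j) • t' j) = ∑ j, star (α j) • (a * t' j) := by
      rw [Finset.mul_sum]
      exact Finset.sum_congr rfl fun j _ => by rw [mul_smul_comm]
    have e4 : (∑ j, α j • t j) * a' = ∑ j, α j • (t j * a') := by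
      rw [Finset.sum_mul]
      exact Finset.sum_congr rfl fun j _ => by rw [smul_mul_assoc]
    rw [← e2, ← e3, ← e4]
    noncomm_ring
  have e5 : ((a - ∑ j, α j • t j) * (a' - ∑ j, star (α j) • t' j)).trace =
      (a * a').trace - ∑ j, star (α j) * α j := by
    rw [e1]
    simp only [Matrix.trace_add, Matrix.trace_sub, Matrix.trace_sum, Matrix.trace_smul,
      smul_eq_mul, hon, hα']
    have e6 : ∑ i, ∑ j, α i * star (α j) * (if i = j then (1 : ℂ) else 0) =
        ∑ i, α i * star (α i) := by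
      refine Finset.sum_congr rfl fun i _ => ?_
      simp
    rw [e6]
    ring
  rw [e5] at h2
  have e7 : (∑ j, star (α j) * α j : ℂ) = ((∑ j, ‖α j‖ ^ 2 : ℝ) : ℂ) := by
    push_cast
    refine Finset.sum_congr rfl fun j _ => ?_
    rw [Complex.star_def, mul_comm, Complex.mul_conj, Complex.normSq_eq_norm_sq]
    push_cast
    ring
  rw [e7, Complex.sub_re, Complex.ofReal_re] at h2
  linarith

theorem hs_sum_le (a : κ → ℂ) (B : κ → Matrix ι ι ℂ) :
    hs (∑ i, a i • B i) ≤ (∑ i, ‖a i‖ ^ 2) * ∑ i, hs (B i) := by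
  unfold hs
  have h1 : ∀ k l, ‖(∑ i, a i • B i) k l‖ ^ 2 ≤ (∑ i, ‖a i‖ ^ 2) * ∑ i, ‖B i k l‖ ^ 2 := by
    intro k l
    have h2 : ‖(∑ i, a i • B i) k l‖ ≤ ∑ i, ‖a i‖ * ‖B i k l‖ := by
      rw [Matrix.sum_apply]
      refine (norm_sum_le _ _).trans (Finset.sum_le_sum fun i _ => ?_)
      simp
    exact (pow_le_pow_left₀ (norm_nonneg _) h2 2).trans (Finset.sum_mul_sq_le_sq_mul_sq _ _ _)
  calc ∑ k, ∑ l, ‖(∑ i, a i • B i) k l‖ ^ 2 ≤ ∑ k, ∑ l, (∑ i, ‖a i‖ ^ 2) * ∑ i, ‖B i k l‖ ^ 2 :=
        Finset.sum_le_sum fun k _ => Finset.sum_le_sum fun l _ => h1 k l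
    _ = (∑ i, ‖a i‖ ^ 2) * ∑ i, ∑ k, ∑ l, ‖B i k l‖ ^ 2 := by
        simp only [← Finset.mul_sum]
        congr 1
        rw [Finset.sum_comm (s := (Finset.univ : Finset κ))]
        refine Finset.sum_congr rfl fun k _ => ?_
        rw [Finset.sum_comm]

theorem Adj.sum_cs {K : Matrix ι ι ℂ} (hK : K.PosDef) {t t' : κ → Matrix ι ι ℂ}
    (ht : ∀ i, Adj K (t i) (t' i)) (a : κ → ℂ) :
    ((∑ i, a i • t i) * (∑ i, star (a i) • t' i)).trace.re ≤
      (∑ i, ‖a i‖ ^ 2) * ∑ i, (t i * t' i).trace.re := by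
  obtain ⟨B, hB, hKB⟩ := exists_sqrt hK
  have h1 : Adj K (∑ i, a i • t i) (∑ i, star (a i) • t' i) :=
    Adj.sum _ fun i _ => (ht i).smul (a i)
  have e : ∀ {b b' : Matrix ι ι ℂ}, Adj K b b' → (b * b').trace.re = hs (B * b * B⁻¹) := by
    intro b b' hb
    rw [← trace_conj hB, mul_conj hB, adj_conj hB hKB hb, trace_mul_conjTranspose_self]
    simp
  rw [e h1]
  have e2 : B * (∑ i, a i • t i) * B⁻¹ = ∑ i, a i • (B * t i * B⁻¹) := by
    rw [Finset.mul_sum, Finset.sum_mul]
    refine Finset.sum_congr rfl fun i _ => ?_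
    rw [mul_smul_comm, smul_mul_assoc]
  rw [e2]
  have e3 : ∑ i, (t i * t' i).trace.re = ∑ i, hs (B * t i * B⁻¹) :=
    Finset.sum_congr rfl fun i _ => e (ht i)
  rw [e3]
  exact hs_sum_le a _

end bessel

end Crest.Agent.R276.VCalc_442
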