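import Crest.Agent.R276.Berg_748
import Crest.Agent.R276.W2Defs_748
import Crest.Agent.R276.Mod4_987
import Crest.Agent.R276.W2pg_505
import Crest.Agent.R266.Osgood

/-!
# Row 276, W2 (helper748): the weight `b₂` of (C2), part a: definition, psh, growth, lower bound
-/

set_option autoImplicit false
set_option linter.unusedSectionVars false

open Set Filter Topology MeasureTheory
open scoped ENNReal

noncomputable section

namespace Crest.Agent.R276.W2_748

open Crest.Agent.R271 Crest.Agent.R271.Rd692 Crest.Agent.R271.Ho51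
open Crest.Agent.R271.W792 (nS nS_nonneg lg sm_lg lev_lg_nonneg lg_antitone Levi_eq_lev lev lev_const_mul)
open Crest.Agent.R271.Defs710 hiding glue
open Crest.Agent.R276.Mod1_987 Crest.Agent.R276.FKDefs_779
open Crest.Agent.R276.EngU_29 (LPsh)
open Crest.Agent.R276.SkelDefs_220 Crest.Agent.R276.W2Defs_748
open Crest.Agent.R276.Sl_748 (SD bt fx gl gl_eq_iff FHs fs bR bE)
open Crest.Agent.R273.Reg_844 (ush LocB)

/-! ### general facts on the Bergman kernel -/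

section gen

variable {r d n : ℕ} {M : Type} [TopologicalSpace M] [RDom n M] {sp : Fin r ⊕ Fin d ≃ Fin n}

lemma enorm_sq (c : ℂ) : ‖c‖ₑ ^ 2 = ENNReal.ofReal (‖c‖ ^ 2) := by
  rw [← ofReal_norm, ENNReal.ofReal_pow (norm_nonneg _)]

lemma bR_le (S : SD n M) {y : M} {c : ℝ} (hc : 0 ≤ c)
    (h : ∀ s : M → ℂ, FHs sp (bt sp (cp y)) s → S.nr sp s (bt sp (cp y)) ≤ 1 → ‖s y‖ ^ 2 ≤ c) :
    bR sp S y ≤ c := by
  apply ENNReal.toReal_le_of_le_ofReal hc
  refine iSup_le fun s => ?_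
  rw [enorm_sq]
  exact ENNReal.ofReal_le_ofReal (h s.1 s.2.1 s.2.2)

lemma locB_bR (S : SD n M) : LocB (bR sp S) := fun x => by
  obtain ⟨K, hK⟩ := Sl_748.bR_loc (sp := sp) S x
  refine ⟨|K|, hK.mono fun y hy => ?_⟩
  rw [abs_of_nonneg (Sl_748.bR_nonneg S y)]
  exact hy.trans (le_abs_self K)

lemma fhs_zero (t : Fin r → ℂ) : FHs sp t (fun _ : M => (0 : ℂ)) :=
  fun _ _ => differentiableAt_const _

lemma nr_zero (S : SD n M) (t : Fin r → ℂ) : S.nr sp (fun _ : M => (0 : ℂ)) t ≤ 1 := by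
  unfold SD.nr
  have : (fun q : M => ‖(0 : ℂ)‖ₑ ^ 2 * S.wt q) = fun q => 0 := by
    funext q; simp
  rw [this]
  simp [fs]

end gen

section one

variable {L : Type} [Field L] [Algebra ℂ L] {ρ a : ℕ} (ML : Mdl L (ρ + a)) {e : ℕ}
  (w : Fin (e + 1) → ML.B) (e₀ : ℕ)

/-- the exponent `(e₀-1)/e₀` -/
def al (e₀ : ℕ) : ℝ := ((e₀ : ℝ) - 1) / e₀

lemma al_nonneg {e₀ : ℕ} (he : 0 < e₀) : 0 ≤ al e₀ := by
  unfold al
  have : (1 : ℝ) ≤ e₀ := by exact_mod_cast he
  apply div_nonneg <;> linarith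

/-- the functions `w_j` -/
def wf (j : Fin (e + 1)) (z : ML.Pts) : ℂ := z (w j)

lemma Wf_eq (z : ML.Pts) : Wf w z = nS (wf ML w) z := rfl

lemma pos_k (k : ℕ) : (0 : ℝ) < 1 / ((k : ℝ) + 1) := by positivity

lemma pos_W (k : ℕ) (z : ML.Pts) : 0 < nS (wf ML w) z + 1 / ((k : ℝ) + 1) := by
  have := nS_nonneg (wf ML w) z
  have := pos_k k
  linarith

lemma hol_wf (j : Fin (e + 1)) : W792.Hol (wf ML w j) := ML.hol792_ev (w j)

/-- the weights -/
def phi (k : ℕ) (z : ML.Pts) : ℝ := al e₀ * lg (wf ML w) (1 / ((k : ℝ) + 1)) z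

/-- Stein data -/
def SDw (he : 0 < e₀) : SD (ρ + a) ML.Pts where
  ρ := ML.exists_rho.choose
  ρ_sm := ML.exists_rho.choose_spec.1
  ρ_cpt := ML.exists_rho.choose_spec.2.1
  ρ_lev := fun x v => by
    rw [← Levi_eq_lev ML.exists_rho.choose_spec.1]
    exact ML.exists_rho.choose_spec.2.2 x v
  φ := phi ML w e₀
  φ_sm := fun k => (Sm.const _).mulR (sm_lg (fun j => (hol_wf ML w j).sm) (pos_W ML w k))
  φ_anti := fun x k l h => by
    refine mul_le_mul_of_nonneg_left ?_ (al_nonneg he)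
    exact lg_antitone _ (one_div_le_one_div_of_le (by positivity) (by exact_mod_cast Nat.succ_le_succ h)) x
      (pos_W ML w l x)
  φ_lev := fun k x v => by
    have h1 : lev (phi ML w e₀ k) x v = al e₀ * lev (lg (wf ML w) (1 / ((k : ℝ) + 1))) x v :=
      lev_const_mul (sm_lg (fun j => (hol_wf ML w j).sm) (pos_W ML w k)) _ x v
    rw [h1]
    exact mul_nonneg (al_nonneg he) (lev_lg_nonneg (hol_wf ML w) (pos_k k).le (pos_W ML w k) x v)

variable {e₀}

lemma wt_eq (he : 0 < e₀) (z : ML.Pts) :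
    (SDw ML w e₀ he).wt z = ENNReal.ofReal (Wf w z) ^ (-(((e₀ : ℝ) - 1) / e₀)) := by
  have hterm : ∀ k : ℕ, ENNReal.ofReal (Real.exp (-(phi ML w e₀ k z))) =
      ENNReal.ofReal (Wf w z + 1 / ((k : ℝ) + 1)) ^ (-(al e₀)) := by
    intro k
    have hp := pos_W ML w k z
    rw [← Wf_eq] at hp
    rw [ENNReal.ofReal_rpow_of_pos hp, Real.rpow_def_of_pos hp]
    congr 2
    unfold phi lg
    rw [← Wf_eq]
    ring
  have h1 : (SDw ML w e₀ he).wt z =
      ⨆ k : ℕ, ENNReal.ofReal (Real.exp (-(phi ML w e₀ k z))) := rfl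
  rw [h1]
  apply iSup_eq_of_tendsto
  · intro k l hkl
    apply ENNReal.ofReal_le_ofReal
    exact Real.exp_le_exp.2 (neg_le_neg ((SDw ML w e₀ he).φ_anti z hkl))
  · simp_rw [hterm]
    have h2 : Tendsto (fun k : ℕ => Wf w z + 1 / ((k : ℝ) + 1)) atTop (𝓝 (Wf w z)) := by
      have := tendsto_one_div_add_atTop_nhds_zero_nat (𝕜 := ℝ)
      simpa using this.const_add (Wf w z)
    exact (ENNReal.continuous_rpow_const.tendsto _).comp (ENNReal.tendsto_ofReal h2)

lemma tc_eq_bt (z : ML.Pts) : tc ML (eL ρ a) z = bt (eL ρ a) (cp z) := rfl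

lemma sint_eq_fs (c : Cn ρ) (g : ML.Pts → ℝ≥0∞) : sint ML (eL ρ a) c g = fs (eL ρ a) g c := by
  unfold sint fs
  refine lintegral_congr fun x => ?_
  let E : {y : ML.Pts // tc ML (eL ρ a) y = c ∧ xc ML (eL ρ a) y = x} ≃
      {y : ML.Pts // cp y = gl (eL ρ a) c x} :=
    Equiv.subtypeEquivRight fun y => by
      rw [gl_eq_iff]
      exact Iff.rfl
  exact E.tsum_eq (fun y => g y.1)

lemma nr_eq (he : 0 < e₀) (c : Cn ρ) (s : ML.Pts → ℂ) :
    (SDw ML w e₀ he).nr (eL ρ a) s c = nW ML w e₀ c s := by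
  unfold SD.nr nW
  rw [sint_eq_fs]
  congr 1
  funext q
  rw [wt_eq]

lemma fhs_iff {c : Cn ρ} {s : ML.Pts → ℂ} : FHs (eL ρ a) c s ↔ HolS ML (eL ρ a) c s := by
  constructor
  · intro h y hy
    apply Crest.Agent.R266.SCV.analyticAt_of_eventually_differentiableAt
    have h2 : ∀ᶠ x : Cn a in 𝓝 (xc ML (eL ρ a) y), gl (eL ρ a) c x ∈ (ch y).target := by
      refine (Sl_748.continuous_gl c).continuousAt.eventually_mem ?_
      have hy' : bt (eL ρ a) (cp y) = c := hy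
      have h3 : gl (eL ρ a) c (xc ML (eL ρ a) y) = cp y := Sl_748.gl_fx (y := y) hy'
      rw [h3]
      exact (ch y).open_target.mem_nhds ((isCh_ch y).cp_mem (mem_ch y))
    filter_upwards [h2] with x hx
    have h3 : cp ((ch y).symm (gl (eL ρ a) c x)) = gl (eL ρ a) c x := (isCh_ch y).cp_symm hx
    have h4 := h.at (isCh_ch y) ((ch y).map_target hx) (by rw [h3, Sl_748.bt_gl])
    rw [h3, Sl_748.fx_gl] at h4
    exact h4
  · intro h y hy
    exact (h y hy).differentiableAt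

lemma inBall_iff (he : 0 < e₀) (z : ML.Pts) (s : ML.Pts → ℂ) : InBall ML w e₀ z s ↔
    FHs (eL ρ a) (bt (eL ρ a) (cp z)) s ∧
      (SDw ML w e₀ he).nr (eL ρ a) s (bt (eL ρ a) (cp z)) ≤ 1 := by
  unfold InBall
  rw [fhs_iff, nr_eq, tc_eq_bt]

/-- the weight `b₂` -/
def b2 (he : 0 < e₀) : ML.Pts → ℝ := ush (bR (eL ρ a) (SDw ML w e₀ he))

/-- **(C2), plurisubharmonicity** -/
theorem psh_b2 (he : 0 < e₀) : LPsh (b2 ML w he) := Sl_748.lpsh_berg (SDw ML w e₀ he)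

/-- **(C2), growth** -/
theorem gr_b2 (he : 0 < e₀) : PGr ML (b2 ML w he) := by
  obtain ⟨C, j, k, h⟩ := W2pg_505.pg ML w he
  refine ⟨C, j, k, fun z => ?_⟩
  set G : ML.Pts → ℝ := fun z => C * (1 + ∑ i, ‖ML.pz z i‖ ^ 2) ^ k /
    ‖MvPolynomial.eval (ML.pz z) ML.h‖ ^ j with hG
  have hne : ∀ z : ML.Pts, 0 < ‖MvPolynomial.eval (ML.pz z) ML.h‖ ^ j := fun z =>
    pow_pos (norm_pos_iff.2 (ML.eval_h_ne z)) _
  have hpz : Continuous ML.pz := cp_cont (M := ML.Pts)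
  have hGc : Continuous G := by
    refine Continuous.div ?_ ?_ fun z => (hne z).ne'
    · refine continuous_const.mul ((continuous_const.add (continuous_finsetSum _ fun i _ => ?_)).pow k)
      exact (((continuous_apply i).comp hpz).norm).pow 2
    · exact (((MvPolynomial.continuous_eval ML.h).comp hpz).norm).pow j
  have hb : ∀ z : ML.Pts, ∀ s : ML.Pts → ℂ, InBall ML w e₀ z s → ‖s z‖ ^ 2 ≤ G z := by
    intro z s hs
    rw [hG]
    simp only
    rw [le_div_iff₀ (hne z)]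
    exact h z s hs
  have hG0 : ∀ z : ML.Pts, 0 ≤ G z := by
    intro z
    have h1 := hb z (fun _ => 0) ((inBall_iff ML w he z _).2 ⟨fhs_zero _, nr_zero _ _⟩)
    simpa using h1
  have h2 : b2 ML w he z ≤ G z :=
    Crest.Agent.R273.Reg_844.ush_le_of_le hGc.upperSemicontinuous (fun z =>
      bR_le _ (hG0 z) fun s h1 h2 => hb z s ((inBall_iff ML w he z s).2 ⟨h1, h2⟩)) z
  calc b2 ML w he z * ‖MvPolynomial.eval (ML.pz z) ML.h‖ ^ j
      ≤ G z * ‖MvPolynomial.eval (ML.pz z) ML.h‖ ^ j := by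
        exact mul_le_mul_of_nonneg_right h2 (hne z).le
    _ = C * (1 + ∑ i, ‖ML.pz z i‖ ^ 2) ^ k := by
        rw [hG]
        exact div_mul_cancel₀ _ (hne z).ne'

/-- norm of `w_j` on the slice -/
lemma nW_wf (he : 0 < e₀) (c : Cn ρ) (j : Fin (e + 1)) :
    nW ML w e₀ c (wf ML w j) ≤
      sint ML (eL ρ a) c (fun z' => ENNReal.ofReal (Wf w z') ^ (1 / (e₀ : ℝ))) := by
  unfold nW
  rw [sint_eq_fs, sint_eq_fs]
  refine Sl_748.fs_mono fun z _ => ?_
  have he' : (0 : ℝ) < e₀ := by exact_mod_cast he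
  have h1 : ‖wf ML w j z‖ ^ 2 ≤ Wf w z := by
    rw [Wf_eq]
    exact Finset.single_le_sum (f := fun j => ‖wf ML w j z‖ ^ 2) (fun _ _ => by positivity)
      (Finset.mem_univ j)
  rcases (nS_nonneg (wf ML w) z).eq_or_lt with h0 | h0
  · rw [← Wf_eq] at h0
    rw [← h0] at h1
    have h2 : ‖wf ML w j z‖ₑ ^ 2 = 0 := by
      rw [enorm_sq]
      exact ENNReal.ofReal_eq_zero.2 h1
    rw [h2, zero_mul]
    exact zero_le
  · rw [← Wf_eq] at h0
    have h3 : ENNReal.ofReal (Wf w z) ≠ 0 := (ENNReal.ofReal_pos.2 h0).ne'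
    calc ‖wf ML w j z‖ₑ ^ 2 * ENNReal.ofReal (Wf w z) ^ (-(((e₀ : ℝ) - 1) / e₀))
        ≤ ENNReal.ofReal (Wf w z) * ENNReal.ofReal (Wf w z) ^ (-(((e₀ : ℝ) - 1) / e₀)) := by
          gcongr
          rw [enorm_sq]
          exact ENNReal.ofReal_le_ofReal h1
      _ = ENNReal.ofReal (Wf w z) ^ (1 : ℝ) *
            ENNReal.ofReal (Wf w z) ^ (-(((e₀ : ℝ) - 1) / e₀)) := by rw [ENNReal.rpow_one]
      _ = ENNReal.ofReal (Wf w z) ^ (1 / (e₀ : ℝ)) := by
          rw [← ENNReal.rpow_add _ _ h3 ENNReal.ofReal_ne_top]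
          congr 1
          field_simp
          ring

/-- **(C2), lower bound** (for every slice) -/
theorem low_b2 (he : 0 < e₀) (z : ML.Pts)
    (hJ : sint ML (eL ρ a) (tc ML (eL ρ a) z)
      (fun z' => ENNReal.ofReal (Wf w z') ^ (1 / (e₀ : ℝ))) ≠ ∞) :
    ENNReal.ofReal (Wf w z) ≤ (e + 1) *
      sint ML (eL ρ a) (tc ML (eL ρ a) z) (fun z' => ENNReal.ofReal (Wf w z') ^ (1 / (e₀ : ℝ))) *
      ENNReal.ofReal (b2 ML w he z) := by
  set J := sint ML (eL ρ a) (tc ML (eL ρ a) z)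
    (fun z' => ENNReal.ofReal (Wf w z') ^ (1 / (e₀ : ℝ))) with hJd
  have h1 : ∀ j : Fin (e + 1), ENNReal.ofReal (‖wf ML w j z‖ ^ 2) ≤
      J * ENNReal.ofReal (b2 ML w he z) := by
    intro j
    have h2 : (SDw ML w e₀ he).nr (eL ρ a) (wf ML w j) (bt (eL ρ a) (cp z)) ≤ J := by
      rw [nr_eq]
      exact nW_wf ML w he _ j
    have h3 : FHs (eL ρ a) (bt (eL ρ a) (cp z)) (wf ML w j) := by
      rw [fhs_iff]
      intro y hy
      have hy' : bt (eL ρ a) (cp y) = bt (eL ρ a) (cp z) := hy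
      have h4 : AnalyticAt ℂ (fun ζ => wf ML w j ((ch y).symm ζ)) (cp y) := by
        have h5 := ML.hol51_ev (w j) _ (isCh_ch y)
        exact Crest.Agent.R266.SCV.analyticOnNhd_of_differentiableOn (ch y).open_target h5 _
          ((isCh_ch y).cp_mem (mem_ch y))
      have h6 : AnalyticAt ℂ (fun x : Cn a => glue (eL ρ a) (bt (eL ρ a) (cp z)) x)
          (xc ML (eL ρ a) y) := by
        refine AnalyticAt.pi fun k => ?_
        unfold glue
        rcases (eL ρ a).symm k with i | i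
        · exact analyticAt_const
        · exact (ContinuousLinearMap.proj (R := ℂ) (φ := fun _ : Fin a => ℂ) i).analyticAt _
      have h7 : glue (eL ρ a) (bt (eL ρ a) (cp z)) (xc ML (eL ρ a) y) = cp y :=
        Sl_748.gl_fx (y := y) hy'
      exact AnalyticAt.comp_of_eq h4 h6 h7
    have h8 := Sl_748.berg' (SDw ML w e₀ he) h3 (ne_top_of_le_ne_top hJ h2)
    rw [← Sl_748.ofReal_bR, enorm_sq] at h8
    refine h8.trans ?_
    rw [mul_comm]
    gcongr
    exact (locB_bR _).le_ush z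
  calc ENNReal.ofReal (Wf w z) = ∑ j, ENNReal.ofReal (‖wf ML w j z‖ ^ 2) := by
        rw [Wf_eq]
        exact ENNReal.ofReal_sum_of_nonneg fun _ _ => by positivity
    _ ≤ ∑ _j : Fin (e + 1), J * ENNReal.ofReal (b2 ML w he z) :=
        Finset.sum_le_sum fun j _ => h1 j
    _ = (e + 1) * J * ENNReal.ofReal (b2 ML w he z) := by
        rw [Finset.sum_const, Finset.card_univ, Fintype.card_fin, nsmul_eq_mul, mul_assoc]
        push_cast
        rfl

end one

end Crest.Agent.R276.W2_748
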