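import Crest.Agent.R276.C1bdD_986
import Crest.Agent.R276.W2a_748
import Crest.Agent.R276.WPack_505
import Crest.Agent.R276.AcOpen_89

/-!
# Row 276, W2 (helper748): the bound of (C2) at the divisors (leaf integral, area formula,
L² Riemann extension, sub-mean value property)
-/

set_option autoImplicit false
set_option linter.unusedSectionVars false

open Set Filter Topology MeasureTheory Metric
open scoped ENNReal

noncomputable section

namespace Crest.Agent.R276.W2_748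

open Crest.Agent.R271 Crest.Agent.R271.Rd692 Crest.Agent.R271.Ho51
open Crest.Agent.R271.Defs710 hiding glue
open Crest.Agent.R276.Mod1_987 Crest.Agent.R276.FKDefs_779
open Crest.Agent.R276.SkelDefs_220 Crest.Agent.R276.W2Defs_748
open Crest.Agent.R276.AcOpen_89 Crest.Agent.R276.BR_590
open Crest.Agent.R276.C1bd_986 (fc jL Lf isOpen_Lf Xb analyticAt_Xb jL_cat analyticAt_jL_cat fibre_ge)

section leaf

variable {L : Type} [Field L] [Algebra ℂ L] {ρ a : ℕ} {ML : Mdl L (ρ + a)} {δ : ℝ}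
  {i₀ : Option (Fin (ρ + a))}

/-- **change of variables on a leaf** -/
theorem leaf_ge (X : AC ML δ i₀) {b c : Cn ρ}
    (hz : ∀ x ∈ Lf δ i₀ b, tc ML (eL ρ a) (X.s (cat b x)) = c) (g : ML.Pts → ℝ≥0∞) :
    ∫⁻ x in Lf δ i₀ b, g (X.s (cat b x)) * ‖jL X (cat b x)‖ₑ ^ 2 ≤ sint ML (eL ρ a) c g := by
  classical
  set F : Set ML.Pts := {y | tc ML (eL ρ a) y = c} with hF
  set Ω : Set (Cn a) := Lf δ i₀ b ∩ {x | jL X (cat b x) ≠ 0} with hΩ
  have hcont : ContinuousOn (fun x => jL X (cat b x)) (Lf δ i₀ b) := fun x hx =>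
    (analyticAt_jL_cat X hx).continuousAt.continuousWithinAt
  have hΩo : IsOpen Ω := hcont.isOpen_inter_preimage (isOpen_Lf b)
    (isOpen_ne : IsOpen {w : ℂ | w ≠ 0})
  have hinj : InjOn (fun x => X.s (cat b x)) Ω := by
    intro x hx y hy hxy
    have h1 := X.inj hx.1 hy.1 hxy
    have h2 := congrArg fb h1
    simpa using h2
  have h1 := fibre_ge (E := Cn a) volume (M := ML.Pts) (fun y => fc y) Ω hΩo
    (fun x => X.s (cat b x)) hinj (fun x => fderiv ℂ (Xb X b) x)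
    (fun x hx => (analyticAt_Xb X hx.1).hasStrictFDerivAt)
    (fun x hx => by rw [← jL_cat]; exact hx.2) (F.indicator g)
  have h2 : ∫⁻ x in Lf δ i₀ b, g (X.s (cat b x)) * ‖jL X (cat b x)‖ₑ ^ 2 =
      ∫⁻ x in Ω, (F.indicator g) (X.s (cat b x)) *
        ENNReal.ofReal (‖(fderiv ℂ (Xb X b) x).det‖ ^ 2) := by
    rw [← lintegral_indicator (isOpen_Lf b).measurableSet, ← lintegral_indicator hΩo.measurableSet]
    refine lintegral_congr fun x => ?_
    by_cases hx : x ∈ Lf δ i₀ b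
    · rw [indicator_of_mem hx]
      by_cases hx2 : jL X (cat b x) = 0
      · rw [indicator_of_notMem (fun h => h.2 hx2), hx2]
        simp
      · rw [indicator_of_mem (show x ∈ Ω from ⟨hx, hx2⟩)]
        have h3 : X.s (cat b x) ∈ F := hz x hx
        rw [indicator_of_mem h3, ← jL_cat, enorm_sq]
    · rw [indicator_of_notMem hx, indicator_of_notMem (fun h => hx h.1)]
  rw [h2]
  refine h1.trans (le_of_eq ?_)
  unfold sint
  refine lintegral_congr fun x => ?_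
  have e1 := tsum_subtype {y : ML.Pts | fc y = x} (F.indicator g)
  have e2 := tsum_subtype {y : ML.Pts | tc ML (eL ρ a) y = c ∧ xc ML (eL ρ a) y = x} g
  refine e1.trans (Eq.trans ?_ e2.symm)
  refine tsum_congr fun y => ?_
  have hfx : fc y = xc ML (eL ρ a) y := by
    funext j
    show ML.pz y (Fin.natAdd ρ j) = ML.pz y (eL ρ a (Sum.inr j))
    simp [eL]
  by_cases ha : fc y = x
  · rw [indicator_of_mem (show y ∈ {y : ML.Pts | fc y = x} from ha)]
    by_cases hb : y ∈ F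
    · rw [indicator_of_mem hb, indicator_of_mem]
      exact ⟨hb, by rw [← hfx]; exact ha⟩
    · rw [indicator_of_notMem hb, indicator_of_notMem]
      exact fun h => hb h.1
  · rw [indicator_of_notMem (show y ∉ {y : ML.Pts | fc y = x} from ha),
      indicator_of_notMem]
    exact fun h => ha (by rw [hfx]; exact h.2)

lemma glue_fc (y : ML.Pts) : glue (eL ρ a) (tc ML (eL ρ a) y) (fc y) = ML.pz y := by
  funext k
  refine Fin.addCases (fun i => ?_) (fun j => ?_) k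
  · simp [glue, eL, tc]
  · simp [glue, eL, fc]

/-- a function holomorphic on the slice is analytic in the leaf coordinate -/
theorem HolS.comp_leaf {X : AC ML δ i₀} {b c : Cn ρ}
    (hz : ∀ x ∈ Lf δ i₀ b, tc ML (eL ρ a) (X.s (cat b x)) = c) {s : ML.Pts → ℂ}
    (hs : HolS ML (eL ρ a) c s) {x : Cn a} (hx : x ∈ Lf δ i₀ b) :
    AnalyticAt ℂ (fun x => s (X.s (cat b x))) x := by
  have h1 := hs (X.s (cat b x)) (hz x hx)
  have hxc : xc ML (eL ρ a) (X.s (cat b x)) = Xb X b x := by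
    funext j
    show ML.pz (X.s (cat b x)) (eL ρ a (Sum.inr j)) = ML.pz (X.s (cat b x)) (Fin.natAdd ρ j)
    simp [eL]
  rw [hxc] at h1
  have h3 := AnalyticAt.comp (g := fun x' : Cn a =>
      s ((ch (X.s (cat b x))).symm (glue (eL ρ a) c x')))
    (f := fun x' : Cn a => Xb X b x') h1 (analyticAt_Xb X hx)
  refine h3.congr ?_
  have h5 : Tendsto (fun x' : Cn a => cat b x') (𝓝 x) (𝓝 (cat b x)) :=
    (continuous_cat b).continuousAt
  filter_upwards [h5.eventually (eventually_ch X hx), (isOpen_Lf b).mem_nhds hx] with x' h6 h7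
  show s ((ch (X.s (cat b x))).symm (glue (eL ρ a) c (fc (X.s (cat b x'))))) = _
  have h8 := glue_fc (X.s (cat b x'))
  rw [hz x' h7] at h8
  rw [h8, ← h6]

/-- coordinate hyperplanes are null sets -/
lemma null_coord (j : Fin a) : volume {x : Cn a | x j = 0} = 0 := by
  set l : Cn a →ₗ[ℝ] ℂ := LinearMap.proj (R := ℝ) (φ := fun _ : Fin a => ℂ) j with hl
  have h1 : {x : Cn a | x j = 0} = (LinearMap.ker l : Set (Cn a)) := by
    ext x
    simp [hl]
  rw [h1]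
  refine Measure.addHaar_submodule volume (LinearMap.ker l) fun h => ?_
  have h2 : (fun _ => (1 : ℂ) : Cn a) ∈ LinearMap.ker l := by rw [h]; trivial
  rw [LinearMap.mem_ker] at h2
  simp [hl] at h2

/-- the equation of the divisor on a leaf is zero free or a coordinate -/
lemma tau_cases {ζ : Cn (ρ + a)} (h : tau i₀ ζ ≠ 0) :
    volume {x : Cn a | tau i₀ (cat (bs ζ) x) = 0} = 0 := by
  rcases i₀ with _ | k
  · simp [tau]
  · revert h
    refine Fin.addCases (fun i => ?_) (fun j => ?_) k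
    · intro h
      have h1 : ∀ x : Cn a, tau (some (Fin.castAdd a i)) (cat (bs ζ) x) ≠ 0 := by
        intro x
        show cat (bs ζ) x (Fin.castAdd a i) ≠ 0
        rw [cat_castAdd]
        exact h
      have h2 : {x : Cn a | tau (some (Fin.castAdd a i)) (cat (bs ζ) x) = 0} = ∅ := by
        ext x
        simp [h1 x]
      rw [h2, measure_empty]
    · intro _
      have h2 : {x : Cn a | tau (some (Fin.natAdd ρ j)) (cat (bs ζ) x) = 0} =
          {x : Cn a | x j = 0} := by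
        ext x
        show cat (bs ζ) x (Fin.natAdd ρ j) = 0 ↔ _
        rw [cat_natAdd]
        rfl
      rw [h2]
      exact null_coord j

variable {e : ℕ} {w : Fin (e + 1) → ML.B} {e₀ : ℕ}

lemma W_nonneg (z : ML.Pts) : 0 ≤ Wf w z := Finset.sum_nonneg fun _ _ => by positivity

/-- lower bound of the weight -/
lemma weight_ge (he : 0 < e₀) {W J B : ℝ} (hW : 0 ≤ W) (hJ : 0 ≤ J) (hB : 0 < B)
    (h : W * J ^ (2 * e₀) ≤ B) :
    ENNReal.ofReal (J ^ (2 * (e₀ - 1))) ≤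
      ENNReal.ofReal B ^ (al e₀) * ENNReal.ofReal W ^ (-(((e₀ : ℝ) - 1) / e₀)) := by
  have hal := al_nonneg he
  have he' : (0 : ℝ) < e₀ := by exact_mod_cast he
  have h1 : ENNReal.ofReal W * ENNReal.ofReal (J ^ (2 * e₀)) ≤ ENNReal.ofReal B := by
    rw [← ENNReal.ofReal_mul hW]
    exact ENNReal.ofReal_le_ofReal h
  have h2 := ENNReal.rpow_le_rpow h1 hal
  rw [ENNReal.mul_rpow_of_nonneg _ _ hal] at h2
  have h3 : ENNReal.ofReal (J ^ (2 * e₀)) ^ (al e₀) = ENNReal.ofReal (J ^ (2 * (e₀ - 1))) := by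
    rw [ENNReal.ofReal_rpow_of_nonneg (by positivity) hal]
    congr 1
    rw [← Real.rpow_natCast J (2 * e₀), ← Real.rpow_mul hJ, ← Real.rpow_natCast J (2 * (e₀ - 1))]
    congr 1
    unfold al
    push_cast [Nat.cast_sub he]
    field_simp
  rw [h3] at h2
  have h4 : ENNReal.ofReal B ^ (al e₀) ≠ 0 := by
    have h5 : ENNReal.ofReal B ≠ 0 := (ENNReal.ofReal_pos.2 hB).ne'
    exact (ENNReal.rpow_pos (pos_iff_ne_zero.2 h5) ENNReal.ofReal_ne_top).ne'
  have h5 : ENNReal.ofReal B ^ (al e₀) ≠ ∞ := ENNReal.rpow_ne_top_of_nonneg hal ENNReal.ofReal_ne_top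
  rw [show (-(((e₀ : ℝ) - 1) / e₀)) = -(al e₀) from rfl, ENNReal.rpow_neg, ← div_eq_mul_inv]
  rw [ENNReal.le_div_iff_mul_le (Or.inr h4) (Or.inr h5), mul_comm]
  exact h2

/-- **the bound on a chart** -/
theorem bd_leaf (he : 0 < e₀) (X : AC ML δ i₀)
    (hfib : ∀ ζ ∈ PD δ i₀, ∀ ζ' ∈ PD δ i₀, bs ζ = bs ζ' →
      tc ML (eL ρ a) (X.s ζ) = tc ML (eL ρ a) (X.s ζ'))
    (hW : ∀ δ'' < δ, ∃ B : ℝ, ∀ ζ ∈ PD δ'' i₀, Wf w (X.s ζ) * ‖X.J ζ‖ ^ (2 * e₀) ≤ B)
    {δ' : ℝ} (hδ' : δ' < δ) :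
    ∃ C : ℝ, ∀ ζ ∈ PD δ' i₀, ∀ s : ML.Pts → ℂ, InBall ML w e₀ (X.s ζ) s →
      ‖s (X.s ζ)‖ ^ 2 * ‖jL X ζ‖ ^ 2 * ‖X.J ζ‖ ^ (2 * (e₀ - 1)) ≤ C := by
  set R : ℝ := (δ - δ') / 2 with hR
  have hR0 : 0 < R := by rw [hR]; linarith
  set δ'' : ℝ := (δ + δ') / 2 with hδ''
  have hδδ'' : δ'' < δ := by rw [hδ'']; linarith
  obtain ⟨B, hB⟩ := hW δ'' hδδ''
  set B' : ℝ := max B 1 with hB'
  have hB0 : 0 < B' := lt_of_lt_of_le one_pos (le_max_right _ _)
  set Kc : ℝ≥0∞ := ENNReal.ofReal B' ^ (al e₀) with hKc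
  have hKt : Kc ≠ ∞ := ENNReal.rpow_ne_top_of_nonneg (al_nonneg he) ENNReal.ofReal_ne_top
  set V := volume (ball (0 : Cn a) R) with hV
  have hV0 : V ≠ 0 := (measure_ball_pos volume _ hR0).ne'
  have hVt : V ≠ ∞ := measure_ball_lt_top.ne
  refine ⟨(Kc / V).toReal, fun ζ hζ s hs => ?_⟩
  obtain ⟨hs1, hs2⟩ := hs
  set b := bs ζ with hb
  set c := tc ML (eL ρ a) (X.s ζ) with hc
  have hζδ : ζ ∈ PD δ i₀ := PD_mono hδ'.le _ hζ
  have hz : ∀ x ∈ Lf δ i₀ b, tc ML (eL ρ a) (X.s (cat b x)) = c := fun x hx =>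
    hfib _ hx _ hζδ (by rw [bs_cat])
  have hz' : ∀ x ∈ Lf δ'' i₀ b, x ∈ Lf δ i₀ b := fun x hx => PD_mono hδδ''.le _ hx
  -- the divisor
  set Dv : Cn a → ℂ := fun x => tau i₀ (cat b x) with hDv
  have hDc : Dv (fb ζ) ≠ 0 := by
    show tau i₀ (cat (bs ζ) (fb ζ)) ≠ 0
    rw [cat_bs_fb]
    exact tau_ne hζ
  have hDnull : volume {x : Cn a | Dv x = 0} = 0 := tau_cases (tau_ne hζ)
  have hDan : AnalyticOnNhd ℂ Dv (ball (fb ζ) R) := fun x _ =>
    (analyticOnNhd_tau i₀ univ _ trivial).comp (analyticAt_cat b x)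
  have hDne : ∀ x ∈ ball (fb ζ) R, ¬ (∀ᶠ x' in 𝓝 x, Dv x' = 0) := by
    intro x _ h
    exact (Measure.measure_pos_of_mem_nhds volume h).ne' hDnull
  have hsmall : ∀ x ∈ ball (fb ζ) R, Dv x ≠ 0 → x ∈ Lf δ'' i₀ b := by
    intro x hx hDx
    show cat b x ∈ PD δ'' i₀
    rw [PD_eq]
    refine ⟨?_, hDx⟩
    rw [mem_ball, dist_eq_norm] at hx
    have h1 : ‖x‖ ≤ ‖x - fb ζ‖ + ‖fb ζ‖ := by
      have := norm_add_le (x - fb ζ) (fb ζ); rwa [sub_add_cancel] at this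
    have h2 := norm_fb_le ζ
    have h3 := norm_bs_le ζ
    have h4 := hζ.1
    have hδ0 : 0 < δ'' := by
      have := norm_nonneg ζ
      rw [hδ'']
      linarith
    rw [mem_ball_zero_iff]
    exact (norm_cat_lt hδ0).2 ⟨by rw [hb, hδ'']; linarith, by rw [hδ'']; rw [hR] at hx; linarith⟩
  -- the function
  set g₀ : Cn a → ℂ := fun x => s (X.s (cat b x)) * X.J (cat b x) ^ (e₀ - 1) * jL X (cat b x)
    with hg₀
  have hg₀an : ∀ x ∈ Lf δ i₀ b, AnalyticAt ℂ g₀ x := by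
    intro x hx
    refine ((HolS.comp_leaf hz hs1 hx).mul (AnalyticAt.pow ?_ _)).mul (analyticAt_jL_cat X hx)
    exact (analyticOnNhd_J X (cat b x) hx).comp (analyticAt_cat b x)
  have hint : ∫⁻ x in ball (fb ζ) R ∩ {x | Dv x ≠ 0}, ‖g₀ x‖ₑ ^ 2 ≤ Kc := by
    calc ∫⁻ x in ball (fb ζ) R ∩ {x | Dv x ≠ 0}, ‖g₀ x‖ₑ ^ 2
        ≤ ∫⁻ x in Lf δ'' i₀ b, ‖g₀ x‖ₑ ^ 2 :=
          lintegral_mono_set fun x hx => hsmall x hx.1 hx.2
      _ ≤ ∫⁻ x in Lf δ'' i₀ b, Kc * ((‖s (X.s (cat b x))‖ₑ ^ 2 *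
            ENNReal.ofReal (Wf w (X.s (cat b x))) ^ (-(((e₀ : ℝ) - 1) / e₀))) *
              ‖jL X (cat b x)‖ₑ ^ 2) := by
          refine setLIntegral_mono' (isOpen_Lf b).measurableSet fun x hx => ?_
          have h1 : Wf w (X.s (cat b x)) * ‖X.J (cat b x)‖ ^ (2 * e₀) ≤ B' :=
            (hB _ hx).trans (le_max_left _ _)
          have h2 := weight_ge he (W_nonneg (w := w) _) (norm_nonneg (X.J (cat b x))) hB0 h1
          have h3 : ‖g₀ x‖ₑ ^ 2 = ‖s (X.s (cat b x))‖ₑ ^ 2 *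
              ENNReal.ofReal (‖X.J (cat b x)‖ ^ (2 * (e₀ - 1))) * ‖jL X (cat b x)‖ₑ ^ 2 := by
            rw [hg₀]
            simp only
            rw [enorm_mul, enorm_mul, mul_pow, mul_pow, enorm_pow, ← pow_mul]
            congr 2
            rw [← ofReal_norm, ← ENNReal.ofReal_pow (norm_nonneg _)]
            congr 2
            ring
          rw [h3]
          calc ‖s (X.s (cat b x))‖ₑ ^ 2 *
                ENNReal.ofReal (‖X.J (cat b x)‖ ^ (2 * (e₀ - 1))) * ‖jL X (cat b x)‖ₑ ^ 2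
              ≤ ‖s (X.s (cat b x))‖ₑ ^ 2 * (Kc *
                  ENNReal.ofReal (Wf w (X.s (cat b x))) ^ (-(((e₀ : ℝ) - 1) / e₀))) *
                    ‖jL X (cat b x)‖ₑ ^ 2 := by gcongr
            _ = _ := by ring
      _ = Kc * ∫⁻ x in Lf δ'' i₀ b, (‖s (X.s (cat b x))‖ₑ ^ 2 *
            ENNReal.ofReal (Wf w (X.s (cat b x))) ^ (-(((e₀ : ℝ) - 1) / e₀))) *
              ‖jL X (cat b x)‖ₑ ^ 2 := lintegral_const_mul' _ _ hKt
      _ ≤ Kc * ∫⁻ x in Lf δ i₀ b, (‖s (X.s (cat b x))‖ₑ ^ 2 *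
            ENNReal.ofReal (Wf w (X.s (cat b x))) ^ (-(((e₀ : ℝ) - 1) / e₀))) *
              ‖jL X (cat b x)‖ₑ ^ 2 := by
          gcongr
          exact hz'
      _ ≤ Kc * nW ML w e₀ c s := by
          gcongr
          exact leaf_ge X hz (fun z => ‖s z‖ₑ ^ 2 *
            ENNReal.ofReal (Wf w z) ^ (-(((e₀ : ℝ) - 1) / e₀)))
      _ ≤ Kc * 1 := by gcongr
      _ = Kc := mul_one _
  -- extension
  obtain ⟨g, hg, hge⟩ := RExt747.riemann_ext (f := g₀) isOpen_ball hDan hDne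
    (fun x hx => ((hg₀an x (hz' x (hsmall x hx.1 hx.2))).differentiableAt).differentiableWithinAt)
    (fun x hx => ⟨ball (fb ζ) R, isOpen_ball.mem_nhds hx, lt_of_le_of_lt hint hKt.lt_top⟩)
  have h5 := Montel868.enorm_sq_mul_le hR0 hg
  have h6 : ∫⁻ x in ball (fb ζ) R, ‖g x‖ₑ ^ 2 ≤ Kc := by
    refine le_trans (le_of_eq ?_) hint
    have h7 : (ball (fb ζ) R ∩ {x | Dv x ≠ 0} : Set (Cn a)) =ᵐ[volume] ball (fb ζ) R := by
      rw [ae_eq_set]
      constructor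
      · rw [sdiff_eq_empty.2 inter_subset_left, measure_empty]
      · refine measure_mono_null (fun x hx => ?_) hDnull
        by_contra h
        exact hx.2 ⟨hx.1, h⟩
    rw [← setLIntegral_congr h7]
    refine setLIntegral_congr_fun ?_ fun x hx => ?_
    · refine IsOpen.measurableSet ?_
      exact (hDan.continuousOn).isOpen_inter_preimage isOpen_ball
        (isOpen_ne : IsOpen {w : ℂ | w ≠ 0})
    · rw [hge x hx.1 hx.2]
  have h8 : g (fb ζ) = g₀ (fb ζ) := hge _ (mem_ball_self hR0) hDc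
  have h9 : ‖g₀ (fb ζ)‖ₑ ^ 2 ≤ Kc / V := by
    rw [ENNReal.le_div_iff_mul_le (Or.inl hV0) (Or.inl hVt), ← h8]
    exact h5.trans h6
  have h10 : ‖g₀ (fb ζ)‖ ^ 2 ≤ (Kc / V).toReal := by
    have := ENNReal.toReal_mono (ENNReal.div_ne_top hKt hV0) h9
    rwa [ENNReal.toReal_pow, toReal_enorm] at this
  refine le_trans (le_of_eq ?_) h10
  have h11 : cat b (fb ζ) = ζ := cat_bs_fb ζ
  rw [hg₀]
  simp only
  rw [h11, norm_mul, norm_mul, norm_pow]
  ring

end leaf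

end Crest.Agent.R276.W2_748
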