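import Mathlib
import Crest.Agent.R276.W2Defs_748
import Crest.Agent.R276.LqG_464
import Crest.Agent.R271.Montel_868

/-!
# Row 276, W2-PG (helper443): polynomial growth of the unit balls of the slices

* `exists_section` : sections of `M → {h ≠ 0}` over images of balls;
* `growth_slice` : `s` holomorphic on the slice through `z`, `∫ |s|² W^{-q} ≤ 1` on the slice, then
  `|s z|² |h z|^j ≤ C (1+|z|²)^k`;
* `pg` : `PgStmt`.
-/

set_option autoImplicit false

open Set Filter Topology MeasureTheory Metric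
open scoped ENNReal

noncomputable section

namespace Crest.Agent.R276.W2pg_443

open Crest.Agent.R271 Crest.Agent.R271.Rd692 Crest.Agent.R271.Ho51
open Crest.Agent.R271.Defs710 hiding glue
open Crest.Agent.R276.Mod1_987 Crest.Agent.R276.SkelDefs_220

section sect

variable {K : Type} [Field K] [Algebra ℂ K] {n : ℕ} (M : Mdl K n)

/-- sections over the image of a ball -/
theorem exists_section {E : Type*} [NormedAddCommGroup E] [NormedSpace ℝ E] (x₀ : E) {r : ℝ}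
    (hr : 0 < r) (φ : E → Cn n) (hφ : ContinuousOn φ (ball x₀ r))
    (hh : ∀ x ∈ ball x₀ r, MvPolynomial.eval (φ x) M.h ≠ 0)
    (z : M.Pts) (hz : M.pz z = φ x₀) :
    ∃ σ : E → M.Pts, ContinuousOn σ (ball x₀ r) ∧ σ x₀ = z ∧
      ∀ x ∈ ball x₀ r, M.pz (σ x) = φ x := by
  classical
  have : ContractibleSpace (ball x₀ r) := contractibleSpace_ball hr
  have : LocallyPathConnectedSpace (ball x₀ r) := isOpen_ball.locallyPathConnectedSpace
  let f : C(ball x₀ r, M.U) := ⟨fun x => ⟨φ x, hh x x.2⟩, by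
    apply Continuous.subtype_mk
    exact continuousOn_iff_continuous_domRestrict.mp hφ⟩
  obtain ⟨F, ⟨hF1, hF2⟩, -⟩ := M.isCoveringMap.existsUnique_continuousMap_lifts f
    ⟨x₀, mem_ball_self hr⟩ z (Subtype.ext hz)
  refine ⟨fun x => if h : x ∈ ball x₀ r then F ⟨x, h⟩ else z, ?_, ?_, ?_⟩
  · rw [continuousOn_iff_continuous_domRestrict]
    refine F.continuous.congr fun x => ?_
    rw [Set.domRestrict_apply, dif_pos x.2]
  · simp [mem_ball_self hr, hF1]
  · intro x hx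
    have h1 := congrArg Subtype.val (congrFun hF2 ⟨x, hx⟩)
    simp only [hx, dif_pos]
    exact h1

/-- a continuous section is given by the chart -/
theorem section_eq_symm {E : Type*} [TopologicalSpace E] {U : Set E} (hU : IsOpen U)
    {φ : E → Cn n} {σ : E → M.Pts} (hσ : ContinuousOn σ U) (h : ∀ x ∈ U, M.pz (σ x) = φ x)
    {x : E} (hx : x ∈ U) : ∀ᶠ y in 𝓝 x, σ y = (ch (σ x)).symm (φ y) := by
  have h1 : ContinuousAt σ x := hσ.continuousAt (hU.mem_nhds hx)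
  have h2 : ∀ᶠ y in 𝓝 x, σ y ∈ (ch (σ x)).source :=
    h1.eventually_mem ((ch (σ x)).open_source.mem_nhds (mem_ch (σ x)))
  filter_upwards [h2, hU.mem_nhds hx] with y hy hyU
  rw [← h y hyU]
  exact ((isCh_ch (σ x)).symm_cp hy).symm

end sect

section slice

variable {K : Type} [Field K] [Algebra ℂ K] {n ρ p : ℕ} (M : Mdl K n) (e : Fin ρ ⊕ Fin p ≃ Fin n)

lemma glue_inl (c : Cn ρ) (x : Cn p) (i : Fin ρ) : glue e c x (e (Sum.inl i)) = c i := by
  simp [glue]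

lemma glue_inr (c : Cn ρ) (x : Cn p) (i : Fin p) : glue e c x (e (Sum.inr i)) = x i := by
  simp [glue]

lemma glue_tc_xc (z : M.Pts) : glue e (tc M e z) (xc M e z) = M.pz z := by
  funext j
  obtain ⟨k, rfl⟩ := e.surjective j
  rcases k with i | i
  · rw [glue_inl]; rfl
  · rw [glue_inr]; rfl

lemma tc_of_eq {y : M.Pts} {c : Cn ρ} {x : Cn p} (h : M.pz y = glue e c x) : tc M e y = c := by
  funext i
  show M.pz y (e (Sum.inl i)) = c i
  rw [h, glue_inl]

lemma xc_of_eq {y : M.Pts} {c : Cn ρ} {x : Cn p} (h : M.pz y = glue e c x) : xc M e y = x := by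
  funext i
  show M.pz y (e (Sum.inr i)) = x i
  rw [h, glue_inr]

lemma norm_glue_sub (c : Cn ρ) (x x' : Cn p) : ‖glue e c x - glue e c x'‖ ≤ ‖x - x'‖ := by
  rw [pi_norm_le_iff_of_nonneg (norm_nonneg _)]
  intro j
  obtain ⟨k, rfl⟩ := e.surjective j
  rw [Pi.sub_apply]
  rcases k with i | i
  · rw [glue_inl, glue_inl, sub_self, norm_zero]
    exact norm_nonneg _
  · rw [glue_inr, glue_inr]
    exact norm_le_pi_norm (x - x') i

lemma continuous_glue (c : Cn ρ) : Continuous fun x : Cn p => glue e c x := by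
  apply continuous_pi
  intro j
  obtain ⟨k, rfl⟩ := e.surjective j
  rcases k with i | i
  · simp only [glue_inl]; exact continuous_const
  · simp only [glue_inr]; exact continuous_apply i

/-- a function holomorphic on the slice is holomorphic along sections -/
theorem HolS.differentiableOn {c : Cn ρ} {s : M.Pts → ℂ} (hs : HolS M e c s) {U : Set (Cn p)}
    (hU : IsOpen U) {σ : Cn p → M.Pts} (hσ : ContinuousOn σ U)
    (h : ∀ x ∈ U, M.pz (σ x) = glue e c x) : DifferentiableOn ℂ (fun x => s (σ x)) U := by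
  intro x hx
  have h1 := hs (σ x) (tc_of_eq M e (h x hx))
  rw [xc_of_eq M e (h x hx)] at h1
  refine (h1.congr ?_).differentiableAt.differentiableWithinAt
  filter_upwards [section_eq_symm M hU hσ h hx] with y hy
  rw [hy]

/-- the integral along a section is bounded by the integral over the slice -/
theorem lintegral_section_le {c : Cn ρ} (g : M.Pts → ℝ≥0∞) {U : Set (Cn p)} (hU : MeasurableSet U)
    {σ : Cn p → M.Pts} (h : ∀ x ∈ U, M.pz (σ x) = glue e c x) :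
    ∫⁻ x in U, g (σ x) ≤ sint M e c g := by
  refine le_trans ?_ (setLIntegral_le_lintegral U _)
  refine setLIntegral_mono' hU fun x hx => ?_
  exact ENNReal.le_tsum (f := fun y : {y : M.Pts // tc M e y = c ∧ xc M e y = x} => g y.1)
    ⟨σ x, tc_of_eq M e (h x hx), xc_of_eq M e (h x hx)⟩

end slice

/-! ### polynomially bounded functions -/

section pb

variable {K : Type} [Field K] [Algebra ℂ K] {n : ℕ} (M : Mdl K n)

/-- `1 + |z|²` -/
def nn (y : M.Pts) : ℝ := 1 + ∑ i, ‖M.pz y i‖ ^ 2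

lemma one_le_nn (y : M.Pts) : 1 ≤ nn M y := by
  unfold nn
  have : 0 ≤ ∑ i, ‖M.pz y i‖ ^ 2 := Finset.sum_nonneg fun _ _ => by positivity
  linarith

lemma norm_sq_le_nn (y : M.Pts) : 1 + ‖M.pz y‖ ^ 2 ≤ nn M y := by
  have h5 : ‖M.pz y‖ ≤ Real.sqrt (∑ i, ‖M.pz y i‖ ^ 2) := by
    rw [pi_norm_le_iff_of_nonneg (Real.sqrt_nonneg _)]
    intro i
    apply Real.le_sqrt_of_sq_le
    exact Finset.single_le_sum (f := fun i => ‖M.pz y i‖ ^ 2) (fun _ _ => by positivity)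
      (Finset.mem_univ i)
  have h6 : ‖M.pz y‖ ^ 2 ≤ (Real.sqrt (∑ i, ‖M.pz y i‖ ^ 2)) ^ 2 := by gcongr
  rw [Real.sq_sqrt (Finset.sum_nonneg fun _ _ => by positivity)] at h6
  unfold nn
  linarith

/-- polynomially bounded -/
def PB (f : M.Pts → ℝ) : Prop := ∃ (C : ℝ) (k : ℕ), 0 ≤ C ∧ ∀ y, f y ≤ C * nn M y ^ k

variable {M}

lemma PB.mono {f g : M.Pts → ℝ} (hg : PB M g) (h : ∀ y, f y ≤ g y) : PB M f := by
  obtain ⟨C, k, hC, h1⟩ := hg
  exact ⟨C, k, hC, fun y => (h y).trans (h1 y)⟩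

lemma PB.const (c : ℝ) : PB M fun _ => c :=
  ⟨|c|, 0, abs_nonneg c, fun y => by simpa using le_abs_self c⟩

lemma PB.nn : PB M (nn M) := ⟨1, 1, zero_le_one, fun y => by simp⟩

lemma PB.add {f g : M.Pts → ℝ} (hf : PB M f) (hg : PB M g) : PB M fun y => f y + g y := by
  obtain ⟨C, k, hC, h1⟩ := hf
  obtain ⟨D, l, hD, h2⟩ := hg
  refine ⟨C + D, k + l, by positivity, fun y => ?_⟩
  have h0 := one_le_nn M y
  have h3 : W2pg_443.nn M y ^ k ≤ W2pg_443.nn M y ^ (k + l) := pow_le_pow_right₀ h0 (by omega)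
  have h4 : W2pg_443.nn M y ^ l ≤ W2pg_443.nn M y ^ (k + l) := pow_le_pow_right₀ h0 (by omega)
  have h5 := h1 y
  have h6 := h2 y
  nlinarith

lemma PB.mul {f g : M.Pts → ℝ} (hf : PB M f) (hg : PB M g) (hf0 : ∀ y, 0 ≤ f y)
    (hg0 : ∀ y, 0 ≤ g y) : PB M fun y => f y * g y := by
  have _ := hf0
  obtain ⟨C, k, hC, h1⟩ := hf
  obtain ⟨D, l, hD, h2⟩ := hg
  refine ⟨C * D, k + l, by positivity, fun y => ?_⟩
  have h0 := one_le_nn M y
  calc f y * g y ≤ (C * W2pg_443.nn M y ^ k) * (D * W2pg_443.nn M y ^ l) :=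
        mul_le_mul (h1 y) (h2 y) (hg0 y) (by positivity)
    _ = _ := by ring

lemma PB.pow {f : M.Pts → ℝ} (hf : PB M f) (hf0 : ∀ y, 0 ≤ f y) (m : ℕ) :
    PB M fun y => f y ^ m := by
  obtain ⟨C, k, hC, h1⟩ := hf
  refine ⟨C ^ m, k * m, by positivity, fun y => ?_⟩
  calc f y ^ m ≤ (C * W2pg_443.nn M y ^ k) ^ m := pow_le_pow_left₀ (hf0 y) (h1 y) m
    _ = _ := by rw [mul_pow, pow_mul]

variable (M)

/-- `|h|` -/
def ah (y : M.Pts) : ℝ := ‖MvPolynomial.eval (M.pz y) M.h‖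

lemma ah_pos (y : M.Pts) : 0 < ah M y := norm_pos_iff.mpr (M.eval_h_ne y)

lemma pb_norm : PB M fun y => 1 + ‖M.pz y‖ := by
  refine ⟨2, 1, by norm_num, fun y => ?_⟩
  have h1 := norm_sq_le_nn M y
  rw [pow_one]
  nlinarith [sq_nonneg (‖M.pz y‖ - 1)]

lemma pb_ah : PB M (ah M) := by
  obtain ⟨C, D, hC, h1, -⟩ := LqG_464.poly_bound M.h
  refine (((PB.const C).mul ((pb_norm M).pow (fun y => by positivity) D) (fun _ => by positivity)
    fun _ => by positivity)).mono fun y => ?_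
  exact h1 (M.pz y)

/-- growth of `W` -/
theorem growth_W {k : ℕ} (w : Fin k → M.B) : ∃ (C : ℝ) (a l : ℕ), 0 ≤ C ∧
    ∀ y : M.Pts, (∑ j, ‖y (w j)‖ ^ 2) * ah M y ^ l ≤ C * nn M y ^ a := by
  have h1 : ∀ j : Fin k, ∃ (l : ℕ), PB M fun y => ‖y (w j)‖ ^ 2 * ah M y ^ l := by
    intro j
    obtain ⟨C, a, l, hC, h⟩ := M.growth (w j)
    refine ⟨2 * l, C ^ 2, 2 * a, by positivity, fun y => ?_⟩
    have h2 : (ah M y ^ l * ‖y (w j)‖) ^ 2 ≤ (C * nn M y ^ a) ^ 2 :=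
      pow_le_pow_left₀ (by have := (ah_pos M y).le; positivity) (h y) 2
    calc ‖y (w j)‖ ^ 2 * ah M y ^ (2 * l) = (ah M y ^ l * ‖y (w j)‖) ^ 2 := by ring
      _ ≤ _ := h2
      _ = _ := by ring
  choose l hl using h1
  have h2 : ∀ s : Finset (Fin k), PB M fun y =>
      (∑ j ∈ s, ‖y (w j)‖ ^ 2) * ah M y ^ (∑ j ∈ s, l j) := by
    intro s
    classical
    induction s using Finset.induction_on with
    | empty => exact (PB.const 0).mono fun y => by simp
    | insert j s hj ih =>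
      have ha0 : ∀ y, 0 ≤ ah M y := fun y => (ah_pos M y).le
      refine (((hl j).mul ((pb_ah M).pow ha0 (∑ j ∈ s, l j)) (fun y => ?_) fun y => ?_).add
        (ih.mul ((pb_ah M).pow ha0 (l j)) (fun y => ?_) fun y => ?_)).mono fun y => ?_
      · have := ha0 y; positivity
      · have := ha0 y; positivity
      · have := ha0 y
        have h3 : 0 ≤ ∑ j ∈ s, ‖y (w j)‖ ^ 2 := Finset.sum_nonneg fun _ _ => by positivity
        positivity
      · have := ha0 y; positivity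
      · rw [Finset.sum_insert hj, Finset.sum_insert hj, pow_add]
        apply le_of_eq
        ring
  obtain ⟨C, a, hC, h3⟩ := h2 Finset.univ
  exact ⟨C, a, _, hC, h3⟩

end pb

section main

variable {K : Type} [Field K] [Algebra ℂ K] {n ρ p : ℕ} (M : Mdl K n) (e : Fin ρ ⊕ Fin p ≃ Fin n)

lemma nn_le_of_norm_sub_le {y z : M.Pts} (h : ‖M.pz y - M.pz z‖ ≤ 1) :
    nn M y ≤ (2 * n + 1) * nn M z := by
  have h1 : ∀ i, ‖M.pz y i‖ ^ 2 ≤ 2 * ‖M.pz z i‖ ^ 2 + 2 := by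
    intro i
    have h2 : ‖M.pz y i - M.pz z i‖ ≤ 1 := (norm_le_pi_norm (M.pz y - M.pz z) i).trans h
    have h3 : ‖M.pz y i‖ ≤ ‖M.pz z i‖ + 1 := by
      have := norm_add_le (M.pz z i) (M.pz y i - M.pz z i)
      rw [add_sub_cancel] at this
      linarith
    have h4 : ‖M.pz y i‖ ^ 2 ≤ (‖M.pz z i‖ + 1) ^ 2 := pow_le_pow_left₀ (norm_nonneg _) h3 2
    nlinarith [sq_nonneg (‖M.pz z i‖ - 1)]
  have h5 : ∑ i, ‖M.pz y i‖ ^ 2 ≤ 2 * ∑ i, ‖M.pz z i‖ ^ 2 + 2 * n := by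
    refine (Finset.sum_le_sum fun i _ => h1 i).trans ?_
    rw [Finset.sum_add_distrib, ← Finset.mul_sum]
    simp [mul_comm]
  have h6 : 0 ≤ ∑ i, ‖M.pz z i‖ ^ 2 := Finset.sum_nonneg fun _ _ => by positivity
  unfold nn
  rcases Nat.eq_zero_or_pos n with h0 | h0
  · subst h0
    simp
  · have h7 : (1 : ℝ) ≤ n := by exact_mod_cast h0
    nlinarith

/-- the estimate at one point -/
theorem est {k : ℕ} (w : Fin k → M.B) {q : ℝ} (hq : 0 ≤ q) {m : ℕ} (hm : q ≤ m)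
    {Ch : ℝ} {D : ℕ} (hCh : 1 ≤ Ch)
    (hP1 : ∀ ζ : Cn n, ‖MvPolynomial.eval ζ M.h‖ ≤ Ch * (1 + ‖ζ‖) ^ D)
    (hP2 : ∀ ζ w : Cn n, ‖w‖ ≤ 1 →
      ‖MvPolynomial.eval (ζ + w) M.h - MvPolynomial.eval ζ M.h‖ ≤ Ch * (1 + ‖ζ‖) ^ D * ‖w‖)
    {C1 : ℝ} {a l : ℕ} (hC1 : 0 ≤ C1)
    (hW : ∀ y : M.Pts, (∑ j, ‖y (w j)‖ ^ 2) * ah M y ^ l ≤ C1 * nn M y ^ a)
    (z : M.Pts) (s : M.Pts → ℂ) (hs : HolS M e (tc M e z) s)
    (h1 : sint M e (tc M e z)
      (fun y => ‖s y‖ₑ ^ 2 * ENNReal.ofReal (∑ j, ‖y (w j)‖ ^ 2) ^ (-q)) ≤ 1) :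
    ‖s z‖ ^ 2 * ah M z ^ (l * m + 2 * p) ≤
      ((Ch * (1 + ‖M.pz z‖) ^ D) ^ l + 2 ^ l * (C1 * ((2 * n + 1) * nn M z) ^ a)) ^ m *
        (4 * (Ch * (1 + ‖M.pz z‖) ^ D) ^ 2) ^ p := by
  set P : ℝ := Ch * (1 + ‖M.pz z‖) ^ D with hP
  set B : ℝ := C1 * ((2 * n + 1) * nn M z) ^ a with hB
  have hA := ah_pos M z
  have hP0 : 0 < P := by positivity
  have hB0 : 0 ≤ B := by
    have := one_le_nn M z
    positivity
  have hAP : ah M z ≤ P := hP1 (M.pz z)
  set r : ℝ := ah M z / (2 * P) with hr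
  have hr0 : 0 < r := by positivity
  have hr1 : r ≤ 1 := by
    rw [hr, div_le_one (by positivity)]
    linarith
  have hrP : P * r = ah M z / 2 := by
    rw [hr]; field_simp
  set c := tc M e z with hc
  set x₀ := xc M e z with hx₀
  have hz : M.pz z = glue e c x₀ := (glue_tc_xc M e z).symm
  have hsub : ∀ x ∈ ball x₀ r, ‖glue e c x - M.pz z‖ < r := by
    intro x hx
    rw [hz]
    refine (norm_glue_sub e c x x₀).trans_lt ?_
    rwa [← dist_eq_norm]
  have hlow : ∀ x ∈ ball x₀ r, ah M z / 2 ≤ ‖MvPolynomial.eval (glue e c x) M.h‖ := by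
    intro x hx
    have h2 := hsub x hx
    have h3 := hP2 (M.pz z) (glue e c x - M.pz z) (h2.le.trans hr1)
    rw [add_sub_cancel] at h3
    have h4 : ‖MvPolynomial.eval (glue e c x) M.h - MvPolynomial.eval (M.pz z) M.h‖ ≤
        ah M z / 2 := by
      rw [← hrP]
      exact h3.trans (mul_le_mul_of_nonneg_left h2.le hP0.le)
    have h5 := norm_sub_norm_le (MvPolynomial.eval (M.pz z) M.h)
      (MvPolynomial.eval (glue e c x) M.h)
    rw [norm_sub_rev] at h5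
    have h6 : ah M z = ‖MvPolynomial.eval (M.pz z) M.h‖ := rfl
    linarith
  obtain ⟨σ, hσc, hσ0, hσ⟩ := exists_section M x₀ hr0 (fun x => glue e c x)
    (continuous_glue e c).continuousOn
    (fun x hx h => by
      have := hlow x hx
      rw [h, norm_zero] at this
      linarith) z hz
  have hf : DifferentiableOn ℂ (fun x => s (σ x)) (ball x₀ r) :=
    HolS.differentiableOn M e hs isOpen_ball hσc hσ
  have h2 := Crest.Agent.R271.Montel868.enorm_sq_mul_le hr0 hf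
  rw [hσ0] at h2
  -- bound of `W` along the section
  set Mx : ℝ := 1 + 2 ^ l * B / ah M z ^ l with hMx
  have hMx1 : 1 ≤ Mx := by
    have : 0 ≤ 2 ^ l * B / ah M z ^ l := by positivity
    linarith
  have hWx : ∀ x ∈ ball x₀ r, ∑ j, ‖(σ x) (w j)‖ ^ 2 ≤ Mx := by
    intro x hx
    have h3 := hW (σ x)
    have h4 : ‖M.pz (σ x) - M.pz z‖ ≤ 1 := by
      rw [hσ x hx]
      exact (hsub x hx).le.trans hr1
    have h5 := nn_le_of_norm_sub_le M h4
    have h6 : C1 * nn M (σ x) ^ a ≤ B := by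
      rw [hB]
      have := one_le_nn M (σ x)
      gcongr
    have h7 : (ah M z / 2) ^ l ≤ ah M (σ x) ^ l := by
      apply pow_le_pow_left₀ (by positivity)
      have := hlow x hx
      rw [← hσ x hx] at this
      exact this
    have h8 : 0 ≤ ∑ j, ‖(σ x) (w j)‖ ^ 2 := Finset.sum_nonneg fun _ _ => by positivity
    have h9 : (∑ j, ‖(σ x) (w j)‖ ^ 2) * (ah M z / 2) ^ l ≤ B :=
      (mul_le_mul_of_nonneg_left h7 h8).trans (h3.trans h6)
    have h10 : ∑ j, ‖(σ x) (w j)‖ ^ 2 ≤ 2 ^ l * B / ah M z ^ l := by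
      rw [div_pow, mul_div_assoc', div_le_iff₀ (by positivity)] at h9
      rw [le_div_iff₀ (by positivity)]
      linarith
    linarith
  have h3 : (∫⁻ x in ball x₀ r, ‖s (σ x)‖ₑ ^ 2) * ENNReal.ofReal Mx ^ (-q) ≤ 1 := by
    rw [← lintegral_mul_const' _ _ (by
      rw [ENNReal.rpow_neg]
      apply ENNReal.inv_ne_top.mpr
      exact (ENNReal.rpow_pos (ENNReal.ofReal_pos.mpr (by linarith)) ENNReal.ofReal_ne_top).ne')]
    refine le_trans ?_ h1
    refine le_trans ?_ (lintegral_section_le M e _ measurableSet_ball hσ)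
    refine setLIntegral_mono' measurableSet_ball fun x hx => ?_
    gcongr 1
    rw [ENNReal.rpow_neg, ENNReal.rpow_neg]
    apply ENNReal.inv_le_inv.mpr
    exact ENNReal.rpow_le_rpow (ENNReal.ofReal_le_ofReal (hWx x hx)) hq
  have h4 : ‖s z‖ₑ ^ 2 * volume (ball (0 : Cn p) r) * ENNReal.ofReal Mx ^ (-q) ≤ 1 :=
    le_trans (by gcongr) h3
  rw [LqG_464.vol_ball 0 hr0, ENNReal.ofReal_rpow_of_pos (by linarith), ← ofReal_norm,
    ← ENNReal.ofReal_pow (norm_nonneg _), ← ENNReal.ofReal_mul (by positivity),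
    ← ENNReal.ofReal_mul (by positivity), ENNReal.ofReal_le_one] at h4
  have h5 : ‖s z‖ ^ 2 * (r ^ 2) ^ p ≤ Mx ^ m := by
    have h6 : (r ^ 2) ^ p ≤ (Real.pi * r ^ 2) ^ p := by
      apply pow_le_pow_left₀ (by positivity)
      have := Real.pi_gt_three
      nlinarith [sq_nonneg r]
    have h7 : Mx ^ q ≤ Mx ^ m := by
      rw [← Real.rpow_natCast]
      exact Real.rpow_le_rpow_of_exponent_le hMx1 hm
    have h8 : 0 < Mx ^ q := Real.rpow_pos_of_pos (by linarith) _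
    have h9 : ‖s z‖ ^ 2 * (Real.pi * r ^ 2) ^ p ≤ Mx ^ q := by
      rw [Real.rpow_neg (by linarith), ← div_eq_mul_inv, div_le_one h8] at h4
      exact h4
    calc ‖s z‖ ^ 2 * (r ^ 2) ^ p ≤ ‖s z‖ ^ 2 * (Real.pi * r ^ 2) ^ p := by gcongr
      _ ≤ _ := h9
      _ ≤ _ := h7
  have h6 : r ^ 2 * (4 * P ^ 2) = ah M z ^ 2 := by
    rw [hr]; field_simp; norm_num
  have h7 : Mx * ah M z ^ l ≤ P ^ l + 2 ^ l * B := by
    have h8 : Mx * ah M z ^ l = ah M z ^ l + 2 ^ l * B := by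
      rw [hMx, add_mul, one_mul, div_mul_cancel₀ _ (by positivity)]
    rw [h8]
    gcongr
  calc ‖s z‖ ^ 2 * ah M z ^ (l * m + 2 * p)
      = ‖s z‖ ^ 2 * (r ^ 2) ^ p * ((ah M z ^ l) ^ m * (4 * P ^ 2) ^ p) := by
        rw [pow_add, pow_mul, pow_mul (ah M z) 2 p, ← h6, mul_pow]
        ring
    _ ≤ Mx ^ m * ((ah M z ^ l) ^ m * (4 * P ^ 2) ^ p) := by
        gcongr
    _ = (Mx * ah M z ^ l) ^ m * (4 * P ^ 2) ^ p := by rw [mul_pow Mx]; ring
    _ ≤ _ := by
        gcongr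

/-- **polynomial growth of the unit balls of the slices** -/
theorem growth_slice {k : ℕ} (w : Fin k → M.B) {q : ℝ} (hq : 0 ≤ q) :
    ∃ (C : ℝ) (j l : ℕ), ∀ (z : M.Pts) (s : M.Pts → ℂ), HolS M e (tc M e z) s →
      sint M e (tc M e z)
        (fun y => ‖s y‖ₑ ^ 2 * ENNReal.ofReal (∑ j, ‖y (w j)‖ ^ 2) ^ (-q)) ≤ 1 →
      ‖s z‖ ^ 2 * ‖MvPolynomial.eval (M.pz z) M.h‖ ^ j ≤
        C * (1 + ∑ i, ‖M.pz z i‖ ^ 2) ^ l := by
  obtain ⟨Ch, D, hCh, hP1, hP2⟩ := LqG_464.poly_bound M.h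
  obtain ⟨C1, a, l, hC1, hW⟩ := growth_W M w
  obtain ⟨m, hm⟩ := exists_nat_ge q
  have h0 : ∀ y : M.Pts, 0 ≤ nn M y := fun y => zero_le_one.trans (one_le_nn M y)
  have hPb : PB M fun z => Ch * (1 + ‖M.pz z‖) ^ D :=
    (PB.const Ch).mul ((pb_norm M).pow (fun y => by positivity) D) (fun _ => by positivity)
      fun _ => by positivity
  have hRHS : PB M fun z =>
      ((Ch * (1 + ‖M.pz z‖) ^ D) ^ l + 2 ^ l * (C1 * ((2 * n + 1) * nn M z) ^ a)) ^ m *
        (4 * (Ch * (1 + ‖M.pz z‖) ^ D) ^ 2) ^ p := by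
    refine PB.mul (PB.pow (PB.add (hPb.pow (fun y => by positivity) l) ?_) (fun y => ?_) m)
      (PB.pow (PB.mul (PB.const 4) (hPb.pow (fun y => by positivity) 2) (fun _ => by norm_num)
        fun _ => by positivity) (fun _ => by positivity) p) (fun y => ?_) fun y => by positivity
    · exact PB.mul (PB.const _) (PB.mul (PB.const _) (PB.pow (PB.mul (PB.const _) PB.nn
        (fun _ => by positivity) h0) (fun y => by have := h0 y; positivity) a) (fun _ => hC1)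
        fun y => by have := h0 y; positivity) (fun _ => by positivity)
        fun y => by have := h0 y; positivity
    · have := h0 y; positivity
    · have := h0 y; positivity
  obtain ⟨C, k', -, hC⟩ := hRHS
  exact ⟨C, l * m + 2 * p, k', fun z s hs h1 =>
    (est M e w hq hm hCh hP1 hP2 hC1 hW z s hs h1).trans (hC z)⟩

end main

/-- **(W2-PG)** -/
theorem pg {L : Type} [Field L] [Algebra ℂ L] {ρ a : ℕ} (ML : Mdl L (ρ + a)) {e : ℕ}
    (w : Fin (e + 1) → ML.B) {e₀ : ℕ} (he : 0 < e₀) : W2Defs_748.PgStmt ML w e₀ := by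
  have hq : (0 : ℝ) ≤ ((e₀ : ℝ) - 1) / e₀ := by
    have : (1 : ℝ) ≤ e₀ := by exact_mod_cast he
    apply div_nonneg <;> linarith
  obtain ⟨C, j, k, h⟩ := growth_slice ML (eL ρ a) w hq
  exact ⟨C, j, k, fun z s hs => h z s hs.1 hs.2⟩

end Crest.Agent.R276.W2pg_443
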